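import Vale.Agent.P204.MathlibUsed2
attribute [-instance] ProperSMul.toContinuousSMul IsTopologicalTorsor.toContinuousSMul IdemSemiring.toCanonicallyOrderedAdd IdemSemiring.toMulLeftMono IdemSemiring.toMulRightMono AddQuantale.instAddLeftMono AddQuantale.instAddRightMono Quantale.instMulLeftMono Quantale.instMulRightMono FiniteDimensional.rclike_to_real IsScalarTower.complexToReal FiniteDimensional.complexToReal

set_option linter.all false

section

open scoped BigOperators

namespace Vale.Agent.P204K.F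

end Vale.Agent.P204K.F
end

section

open scoped BigOperators ContDiff
open MeasureTheory

namespace Vale.Agent.P204K.T4

/-- Vectors of `ℝ⁴` (and covectors, via coordinates). -/
abbrev V4 := Fin 4 → ℝ

/-- Linear maps `ℝ⁴ → ℝ⁴` as coordinate matrices: `(J v) i = ∑ j, J i j * v j`. -/
abbrev M4 := Fin 4 → Fin 4 → ℝ

/-- Two-forms on `ℝ⁴`, by their components `01, 02, 03, 12, 13, 23`. -/
abbrev L2 := Fin 6 → ℝ

/-- Apply a matrix to a vector. -/
def app (J : M4) (v : V4) : V4 := fun i => ∑ j, J i j * v j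

/-- Pull back a covector: `(a ∘ J) j = ∑ i, a i * J i j`. -/
def copp (a : V4) (J : M4) : V4 := fun j => ∑ i, a i * J i j

/-- Wedge of two covectors. -/
def wd (a b : V4) : L2 :=
  ![a 0 * b 1 - a 1 * b 0, a 0 * b 2 - a 2 * b 0, a 0 * b 3 - a 3 * b 0,
    a 1 * b 2 - a 2 * b 1, a 1 * b 3 - a 3 * b 1, a 2 * b 3 - a 3 * b 2]

/-- Entries `A i j` of a two-form. -/
def ent (A : L2) : M4 :=
  ![![0, A 0, A 1, A 2], ![-A 0, 0, A 3, A 4], ![-A 1, -A 3, 0, A 5], ![-A 2, -A 4, -A 5, 0]]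

/-- Evaluation `A (v, w)`. -/
def ev (A : L2) (v w : V4) : ℝ := ∑ i, ∑ j, ent A i j * v i * w j

/-- The wedge pairing `A ∧ B = Q A B • dx0∧dx1∧dx2∧dx3`. -/
def Q (A B : L2) : ℝ :=
  A 0 * B 5 - A 1 * B 4 + A 2 * B 3 + A 3 * B 2 - A 4 * B 1 + A 5 * B 0

/-- From entries back to components. -/
def ofEnt (M : M4) : L2 := ![M 0 1, M 0 2, M 0 3, M 1 2, M 1 3, M 2 3]

/-- Pullback of a two-form by a linear map: `(J^* A)(v,w) = A(Jv,Jw)`. -/
def pull (J : M4) (A : L2) : L2 :=
  ofEnt fun i j => ∑ k, ∑ l, ent A k l * J k i * J l j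

/-- `J² = -1`. -/
def IsCx (J : M4) : Prop := ∀ v, app J (app J v) = -v

/-- Invariant and anti-invariant parts. -/
noncomputable def pP (J : M4) (A : L2) : L2 := (1 / 2 : ℝ) • (A + pull J A)
noncomputable def pM (J : M4) (A : L2) : L2 := (1 / 2 : ℝ) • (A - pull J A)

/-- Closed positive cone of `J`-invariant two-forms. -/
def Cone (J : M4) (A : L2) : Prop := pull J A = A ∧ ∀ v, 0 ≤ ev A v (app J v)

/-- The basic positive invariant form `F(v,w) = (g(Jv,w))`, `g = (1 + JᵀJ)/2`;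
its matrix is `(Jᵀ - J)/2`. -/
noncomputable def Fm (J : M4) : L2 := ofEnt fun i j => (J j i - J i j) / 2

/-- `d^c`-type covector `a^c = - a ∘ J`. -/
def cc (J : M4) (a : V4) : V4 := -copp a J

/-- Orientation condition: the wedge square of `Fm J` is positive. -/
def Pos (J : M4) : Prop := 0 < Q (Fm J) (Fm J)

/-- Periodicity. -/
def Per {E : Type*} (f : V4 → E) : Prop := ∀ (x : V4) (m : Fin 4 → ℤ), f (x + fun i => (m i : ℝ)) = f x

/-- Partial derivative. -/
noncomputable def pd (i : Fin 4) (f : V4 → ℝ) (x : V4) : ℝ := fderiv ℝ f x (Pi.single i 1)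

/-- Gradient (differential) of a function. -/
noncomputable def grad (f : V4 → ℝ) (x : V4) : V4 := fun i => pd i f x

/-- Exterior derivative of a one-form. -/
noncomputable def d1 (a : V4 → V4) (x : V4) : L2 :=
  ofEnt fun i j => pd i (fun y => a y j) x - pd j (fun y => a y i) x

/-- Closedness of a (differentiable) two-form. -/
def Closed (α : V4 → L2) : Prop :=
  ∀ x i j k, pd i (fun y => ent (α y) j k) x + pd j (fun y => ent (α y) k i) x
    + pd k (fun y => ent (α y) i j) x = 0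

/-- Smooth periodic almost complex structure on the four-torus, positively oriented. -/
structure ACS (J : V4 → M4) : Prop where
  smooth : ContDiff ℝ ∞ J
  per : Per J
  cx : ∀ x, IsCx (J x)
  pos : ∀ x, Pos (J x)

/-- `om` tames `J`. -/
def Tames (J : V4 → M4) (om : V4 → L2) : Prop := ∀ x v, v ≠ 0 → 0 < ev (om x) v (app (J x) v)

/-- Smooth periodic closed form. -/
structure SPC (om : V4 → L2) : Prop where
  smooth : ContDiff ℝ ∞ om
  per : Per om
  closed : Closed om

/-- The unit cube, a fundamental domain. -/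
def cube : Set V4 := Set.pi Set.univ fun _ => Set.Ico (0 : ℝ) 1

/-- A positive (1,1)-current of order zero on the torus, given by a `ℤ⁴`-periodic locally finite
measure `μ` on `ℝ⁴` and a periodic measurable density `D` in the positive cones, normalised by
`Q D F = 1`.  It acts on periodic two-forms by `α ↦ ∫ x in cube, Q (D x) (α x) ∂μ`. -/
structure PosCur (J : V4 → M4) (μ : Measure V4) (D : V4 → L2) : Prop where
  finite : μ cube < ⊤
  perμ : ∀ m : Fin 4 → ℤ, Measure.map (fun x => x + fun i => (m i : ℝ)) μ = μ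
  meas : Measurable D
  perD : Per D
  cone : ∀ x, Cone (J x) (D x)
  norm : ∀ x, Q (D x) (Fm (J x)) = 1

end Vale.Agent.P204K.T4
end

section

open scoped BigOperators

namespace Vale.Agent.P204K.T4

theorem Q_add_left (A A' B : L2) : Q (A + A') B = Q A B + Q A' B := by
  simp only [Q, Pi.add_apply]; ring

theorem Q_add_right (A B B' : L2) : Q A (B + B') = Q A B + Q A B' := by
  simp only [Q, Pi.add_apply]; ring

theorem Q_sub_left (A A' B : L2) : Q (A - A') B = Q A B - Q A' B := by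
  simp only [Q, Pi.sub_apply]; ring

theorem Q_sub_right (A B B' : L2) : Q A (B - B') = Q A B - Q A B' := by
  simp only [Q, Pi.sub_apply]; ring

theorem Q_smul_left (c : ℝ) (A B : L2) : Q (c • A) B = c * Q A B := by
  simp only [Q, Pi.smul_apply, smul_eq_mul]; ring

theorem Q_smul_right (c : ℝ) (A B : L2) : Q A (c • B) = c * Q A B := by
  simp only [Q, Pi.smul_apply, smul_eq_mul]; ring

theorem Q_neg_right (A B : L2) : Q A (-B) = - Q A B := by
  simp only [Q, Pi.neg_apply]; ring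

@[simp] theorem Q_zero_left (B : L2) : Q 0 B = 0 := by
  simp [Q]

@[simp] theorem Q_zero_right (B : L2) : Q B 0 = 0 := by
  simp only [Q, Fin.isValue, Pi.zero_apply, mul_zero, sub_self, add_zero]

theorem Q_comm (A B : L2) : Q A B = Q B A := by
  unfold Q; ring

/-- Two by two minors. -/
def mn (P : M4) (k l i j : Fin 4) : ℝ := P k i * P l j - P l i * P k j

def pent (P : M4) (A : L2) (i j : Fin 4) : ℝ :=
  A 0 * mn P 0 1 i j + A 1 * mn P 0 2 i j + A 2 * mn P 0 3 i j
    + A 3 * mn P 1 2 i j + A 4 * mn P 1 3 i j + A 5 * mn P 2 3 i j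

theorem ent_00 (A : L2) : ent A 0 0 = 0 := rfl
theorem ent_01 (A : L2) : ent A 0 1 = A 0 := rfl
theorem ent_02 (A : L2) : ent A 0 2 = A 1 := rfl
theorem ent_03 (A : L2) : ent A 0 3 = A 2 := rfl
theorem ent_10 (A : L2) : ent A 1 0 = -A 0 := rfl
theorem ent_11 (A : L2) : ent A 1 1 = 0 := rfl
theorem ent_12 (A : L2) : ent A 1 2 = A 3 := rfl
theorem ent_13 (A : L2) : ent A 1 3 = A 4 := rfl
theorem ent_20 (A : L2) : ent A 2 0 = -A 1 := rfl
theorem ent_21 (A : L2) : ent A 2 1 = -A 3 := rfl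
theorem ent_22 (A : L2) : ent A 2 2 = 0 := rfl
theorem ent_23 (A : L2) : ent A 2 3 = A 5 := rfl
theorem ent_30 (A : L2) : ent A 3 0 = -A 2 := rfl
theorem ent_31 (A : L2) : ent A 3 1 = -A 4 := rfl
theorem ent_32 (A : L2) : ent A 3 2 = -A 5 := rfl
theorem ent_33 (A : L2) : ent A 3 3 = 0 := rfl

theorem sum_ent (A : L2) (f : Fin 4 → Fin 4 → ℝ) :
    ∑ k, ∑ l, ent A k l * f k l =
      A 0 * (f 0 1 - f 1 0) + A 1 * (f 0 2 - f 2 0) + A 2 * (f 0 3 - f 3 0)
      + A 3 * (f 1 2 - f 2 1) + A 4 * (f 1 3 - f 3 1) + A 5 * (f 2 3 - f 3 2) := by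
  simp only [Fin.sum_univ_four, ent_00, ent_01, ent_02, ent_03, ent_10, ent_11, ent_12, ent_13,
    ent_20, ent_21, ent_22, ent_23, ent_30, ent_31, ent_32, ent_33]
  ring

theorem ev_eq (A : L2) (v w : V4) : ev A v w =
      A 0 * (v 0 * w 1 - v 1 * w 0) + A 1 * (v 0 * w 2 - v 2 * w 0)
      + A 2 * (v 0 * w 3 - v 3 * w 0) + A 3 * (v 1 * w 2 - v 2 * w 1)
      + A 4 * (v 1 * w 3 - v 3 * w 1) + A 5 * (v 2 * w 3 - v 3 * w 2) := by
  have h := sum_ent A (fun k l => v k * w l)
  unfold ev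
  simp only [mul_assoc]
  rw [h]

theorem pull_eq (P : M4) (A : L2) : pull P A = ofEnt (pent P A) := by
  unfold pull
  congr 1
  funext i j
  have h := sum_ent A (fun k l => P k i * P l j)
  simp only [mul_assoc]
  rw [h]
  simp only [pent, mn]

theorem ofEnt_0 (M : M4) : ofEnt M 0 = M 0 1 := rfl
theorem ofEnt_1 (M : M4) : ofEnt M 1 = M 0 2 := rfl
theorem ofEnt_2 (M : M4) : ofEnt M 2 = M 0 3 := rfl
theorem ofEnt_3 (M : M4) : ofEnt M 3 = M 1 2 := rfl
theorem ofEnt_4 (M : M4) : ofEnt M 4 = M 1 3 := rfl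
theorem ofEnt_5 (M : M4) : ofEnt M 5 = M 2 3 := rfl

theorem wd_0 (a b : V4) : wd a b 0 = a 0 * b 1 - a 1 * b 0 := rfl
theorem wd_1 (a b : V4) : wd a b 1 = a 0 * b 2 - a 2 * b 0 := rfl
theorem wd_2 (a b : V4) : wd a b 2 = a 0 * b 3 - a 3 * b 0 := rfl
theorem wd_3 (a b : V4) : wd a b 3 = a 1 * b 2 - a 2 * b 1 := rfl
theorem wd_4 (a b : V4) : wd a b 4 = a 1 * b 3 - a 3 * b 1 := rfl
theorem wd_5 (a b : V4) : wd a b 5 = a 2 * b 3 - a 3 * b 2 := rfl

def det4 (P : M4) : ℝ :=
  mn P 0 1 0 1 * mn P 2 3 2 3 - mn P 0 1 0 2 * mn P 2 3 1 3 + mn P 0 1 0 3 * mn P 2 3 1 2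
  + mn P 0 1 1 2 * mn P 2 3 0 3 - mn P 0 1 1 3 * mn P 2 3 0 2 + mn P 0 1 2 3 * mn P 2 3 0 1

theorem Q_pull (P : M4) (A B : L2) : Q (pull P A) (pull P B) = det4 P * Q A B := by
  rw [pull_eq, pull_eq]
  simp only [Q, ofEnt_0, ofEnt_1, ofEnt_2, ofEnt_3, ofEnt_4, ofEnt_5, pent, det4, mn]
  ring

/-- Pairing of a covector and a vector. -/
def dp (a v : V4) : ℝ := ∑ i, a i * v i

theorem dp_eq (a v : V4) : dp a v = a 0 * v 0 + a 1 * v 1 + a 2 * v 2 + a 3 * v 3 := by
  simp only [dp, Fin.sum_univ_four, Fin.isValue]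

theorem app_eq (J : M4) (v : V4) (i : Fin 4) :
    app J v i = J i 0 * v 0 + J i 1 * v 1 + J i 2 * v 2 + J i 3 * v 3 := by
  simp only [app, Fin.sum_univ_four, Fin.isValue]

theorem copp_eq (a : V4) (J : M4) (j : Fin 4) :
    copp a J j = a 0 * J 0 j + a 1 * J 1 j + a 2 * J 2 j + a 3 * J 3 j := by
  simp only [copp, Fin.sum_univ_four, Fin.isValue]

theorem dp_copp (a : V4) (J : M4) (v : V4) : dp (copp a J) v = dp a (app J v) := by
  simp only [dp_eq, app_eq, copp_eq]; ring

theorem ev_wd (a b v w : V4) : ev (wd a b) v w = dp a v * dp b w - dp a w * dp b v := by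
  simp only [ev_eq, wd_0, wd_1, wd_2, wd_3, wd_4, wd_5, dp_eq]; ring

theorem ev_pull (P : M4) (A : L2) (v w : V4) : ev (pull P A) v w = ev A (app P v) (app P w) := by
  rw [pull_eq]
  simp only [ev_eq, ofEnt_0, ofEnt_1, ofEnt_2, ofEnt_3, ofEnt_4, ofEnt_5, pent, mn, app_eq]
  ring

theorem ev_antisymm (A : L2) (v w : V4) : ev A v w = - ev A w v := by
  simp only [ev_eq]; ring

theorem ev_self (A : L2) (v : V4) : ev A v v = 0 := by
  simp only [ev_eq]; ring

/-- Basis vectors. -/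
def eb (i : Fin 4) : V4 := Pi.single i 1

theorem ev_eb (A : L2) : ev A (eb 0) (eb 1) = A 0 ∧ ev A (eb 0) (eb 2) = A 1 ∧
    ev A (eb 0) (eb 3) = A 2 ∧ ev A (eb 1) (eb 2) = A 3 ∧ ev A (eb 1) (eb 3) = A 4 ∧
    ev A (eb 2) (eb 3) = A 5 := by
  simp [ev_eq, eb]

theorem ext_ev {A B : L2} (h : ∀ v w, ev A v w = ev B v w) : A = B := by
  obtain ⟨a0, a1, a2, a3, a4, a5⟩ := ev_eb A
  obtain ⟨b0, b1, b2, b3, b4, b5⟩ := ev_eb B
  funext i
  fin_cases i
  · show A 0 = B 0; rw [← a0, ← b0, h]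
  · show A 1 = B 1; rw [← a1, ← b1, h]
  · show A 2 = B 2; rw [← a2, ← b2, h]
  · show A 3 = B 3; rw [← a3, ← b3, h]
  · show A 4 = B 4; rw [← a4, ← b4, h]
  · show A 5 = B 5; rw [← a5, ← b5, h]

theorem pull_wd (P : M4) (a b : V4) : pull P (wd a b) = wd (copp a P) (copp b P) := by
  apply ext_ev
  intro v w
  rw [ev_pull, ev_wd, ev_wd, dp_copp, dp_copp, dp_copp, dp_copp]


theorem ev_add (A B : L2) (v w : V4) : ev (A + B) v w = ev A v w + ev B v w := by
  simp only [ev_eq, Pi.add_apply]; ring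

theorem ev_sub (A B : L2) (v w : V4) : ev (A - B) v w = ev A v w - ev B v w := by
  simp only [ev_eq, Pi.sub_apply]; ring

theorem ev_smul (c : ℝ) (A : L2) (v w : V4) : ev (c • A) v w = c * ev A v w := by
  simp only [ev_eq, Pi.smul_apply, smul_eq_mul]; ring

theorem ev_neg (A : L2) (v w : V4) : ev (-A) v w = - ev A v w := by
  simp only [ev_eq, Pi.neg_apply]; ring

theorem ev_add_left (A : L2) (v v' w : V4) : ev A (v + v') w = ev A v w + ev A v' w := by
  simp only [ev_eq, Pi.add_apply]; ring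

theorem ev_add_right (A : L2) (v w w' : V4) : ev A v (w + w') = ev A v w + ev A v w' := by
  simp only [ev_eq, Pi.add_apply]; ring

theorem ev_smul_left (A : L2) (c : ℝ) (v w : V4) : ev A (c • v) w = c * ev A v w := by
  simp only [ev_eq, Pi.smul_apply, smul_eq_mul]; ring

theorem ev_smul_right (A : L2) (c : ℝ) (v w : V4) : ev A v (c • w) = c * ev A v w := by
  simp only [ev_eq, Pi.smul_apply, smul_eq_mul]; ring

theorem ev_neg_left (A : L2) (v w : V4) : ev A (-v) w = - ev A v w := by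
  simp only [ev_eq, Pi.neg_apply]; ring

theorem ev_neg_right (A : L2) (v w : V4) : ev A v (-w) = - ev A v w := by
  simp only [ev_eq, Pi.neg_apply]; ring

theorem pull_add (P : M4) (A B : L2) : pull P (A + B) = pull P A + pull P B := by
  apply ext_ev; intro v w; simp only [ev_pull, ev_add]

theorem pull_sub (P : M4) (A B : L2) : pull P (A - B) = pull P A - pull P B := by
  apply ext_ev; intro v w; simp only [ev_pull, ev_sub]

theorem pull_smul (P : M4) (c : ℝ) (A : L2) : pull P (c • A) = c • pull P A := by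
  apply ext_ev; intro v w; simp only [ev_pull, ev_smul]

theorem pull_neg (P : M4) (A : L2) : pull P (-A) = - pull P A := by
  apply ext_ev; intro v w; simp only [ev_pull, ev_neg]

theorem app_add (J : M4) (v w : V4) : app J (v + w) = app J v + app J w := by
  funext i; simp only [app_eq, Pi.add_apply]; ring

theorem app_smul (J : M4) (c : ℝ) (v : V4) : app J (c • v) = c • app J v := by
  funext i; simp only [app_eq, Pi.smul_apply, smul_eq_mul]; ring

theorem app_neg (J : M4) (v : V4) : app J (-v) = - app J v := by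
  funext i; simp only [app_eq, Pi.neg_apply]; ring

theorem app_zero (J : M4) : app J 0 = 0 := by
  funext i; simp [app_eq]

theorem dp_add_left (a b v : V4) : dp (a + b) v = dp a v + dp b v := by
  simp only [dp_eq, Pi.add_apply]; ring
theorem dp_neg_left (a v : V4) : dp (-a) v = - dp a v := by
  simp only [dp_eq, Pi.neg_apply]; ring
theorem dp_neg_right (a v : V4) : dp a (-v) = - dp a v := by
  simp only [dp_eq, Pi.neg_apply]; ring
theorem dp_smul_left (c : ℝ) (a v : V4) : dp (c • a) v = c * dp a v := by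
  simp only [dp_eq, Pi.smul_apply, smul_eq_mul]; ring
theorem dp_cc (J : M4) (a v : V4) : dp (cc J a) v = - dp a (app J v) := by
  unfold cc; rw [dp_neg_left, dp_copp]

/-- pulling back twice by a complex structure is the identity. -/
theorem pull_pull_cx {J : M4} (hJ : IsCx J) (A : L2) : pull J (pull J A) = A := by
  apply ext_ev; intro v w
  rw [ev_pull, ev_pull, hJ, hJ, ev_neg_left, ev_neg_right, neg_neg]

theorem pull_pP {J : M4} (hJ : IsCx J) (A : L2) : pull J (pP J A) = pP J A := by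
  unfold pP
  rw [pull_smul, pull_add, pull_pull_cx hJ, add_comm]

theorem pull_pM {J : M4} (hJ : IsCx J) (A : L2) : pull J (pM J A) = - pM J A := by
  unfold pM
  rw [pull_smul, pull_sub, pull_pull_cx hJ, ← smul_neg, neg_sub]

theorem pP_add_pM (J : M4) (A : L2) : pP J A + pM J A = A := by
  unfold pP pM
  funext i
  simp only [Pi.add_apply, Pi.smul_apply, Pi.sub_apply, smul_eq_mul]
  ring

theorem pP_of_inv {J : M4} {A : L2} (h : pull J A = A) : pP J A = A := by
  unfold pP; rw [h]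
  funext i
  simp only [Pi.add_apply, Pi.smul_apply, smul_eq_mul]
  ring

theorem pM_of_inv {J : M4} {A : L2} (h : pull J A = A) : pM J A = 0 := by
  unfold pM; rw [h, sub_self, smul_zero]

/-- The standard complex structure. -/
def J0 : M4 := ![![0, -1, 0, 0], ![1, 0, 0, 0], ![0, 0, 0, -1], ![0, 0, 1, 0]]

theorem app_J0 (v : V4) : app J0 v = ![-v 1, v 0, -v 3, v 2] := by
  funext i
  rw [app_eq]
  fin_cases i <;> simp only [J0, Fin.zero_eta, Fin.isValue, Matrix.cons_val', Matrix.cons_val_zero, Matrix.cons_val_fin_one, zero_mul, Matrix.cons_val_one, neg_mul, one_mul, zero_add, Matrix.cons_val, add_zero, Nat.succ_eq_add_one, Nat.reduceAdd, Fin.mk_one, Fin.reduceFinMk]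

theorem isCx_J0 : IsCx J0 := by
  intro v
  rw [app_J0, app_J0]
  funext i
  fin_cases i <;> simp only [Nat.succ_eq_add_one, Nat.reduceAdd, Fin.isValue, Matrix.cons_val_one, Matrix.cons_val_zero, Matrix.cons_val, Fin.zero_eta, Pi.neg_apply, Fin.mk_one, Fin.reduceFinMk]

theorem pull_J0 (A : L2) : pull J0 A = ![A 0, A 4, -A 3, -A 2, A 1, A 5] := by
  apply ext_ev
  intro v w
  rw [ev_pull, app_J0, app_J0, ev_eq, ev_eq]
  simp only [Fin.isValue, Nat.succ_eq_add_one, Nat.reduceAdd, Matrix.cons_val_zero, Matrix.cons_val_one, neg_mul, mul_neg, sub_neg_eq_add, Matrix.cons_val, neg_neg]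
  ring

theorem inv_J0_iff (A : L2) : pull J0 A = A ↔ A 4 = A 1 ∧ A 3 = - A 2 := by
  rw [pull_J0]
  constructor
  · intro h
    have h1 := congrFun h 1
    have h2 := congrFun h 2
    simp only [Nat.succ_eq_add_one, Nat.reduceAdd, Fin.isValue, Matrix.cons_val_one, Matrix.cons_val_zero, Matrix.cons_val] at h1 h2
    exact ⟨h1, by linarith only [h2]⟩
  · rintro ⟨h1, h2⟩
    funext i
    fin_cases i
    · simp
    · simpa using h1
    · simp [h2]
    · simp [h2]
    · simp [h1]
    · simp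

theorem ev_J0 (A : L2) (hA : A 4 = A 1 ∧ A 3 = - A 2) (v : V4) :
    ev A v (app J0 v) = A 0 * ((v 0) ^ 2 + (v 1) ^ 2) + A 5 * ((v 2) ^ 2 + (v 3) ^ 2)
      + 2 * A 1 * (v 1 * v 2 - v 0 * v 3) + 2 * A 2 * (v 0 * v 2 + v 1 * v 3) := by
  rw [ev_eq, app_J0, hA.1, hA.2]
  simp only [Fin.isValue, Nat.succ_eq_add_one, Nat.reduceAdd, Matrix.cons_val_one, Matrix.cons_val_zero, mul_neg, sub_neg_eq_add, Matrix.cons_val, neg_mul]
  ring

theorem Q_self_J0 (A : L2) (hA : A 4 = A 1 ∧ A 3 = - A 2) :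
    Q A A = 2 * (A 0 * A 5 - (A 1) ^ 2 - (A 2) ^ 2) := by
  simp only [Q, hA.1, hA.2]; ring

theorem cone_J0 (A : L2) : Cone J0 A ↔
    (A 4 = A 1 ∧ A 3 = - A 2) ∧ 0 ≤ A 0 ∧ 0 ≤ A 5 ∧ (A 1) ^ 2 + (A 2) ^ 2 ≤ A 0 * A 5 := by
  constructor
  · rintro ⟨h1, h2⟩
    have hA := (inv_J0_iff A).1 h1
    refine ⟨hA, ?_, ?_, ?_⟩
    · have := h2 ![1, 0, 0, 0]
      rw [ev_J0 A hA] at this
      simpa only [Fin.isValue, ge_iff_le, Matrix.cons_val_zero, one_pow, Matrix.cons_val_one, ne_eq, OfNat.ofNat_ne_zero, not_false_eq_true, zero_pow, add_zero, mul_one, Matrix.cons_val, mul_zero, sub_self] using this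
    · have := h2 ![0, 0, 1, 0]
      rw [ev_J0 A hA] at this
      simpa only [Fin.isValue, ge_iff_le, Matrix.cons_val_zero, ne_eq, OfNat.ofNat_ne_zero, not_false_eq_true, zero_pow, Matrix.cons_val_one, add_zero, mul_zero, Matrix.cons_val, one_pow, mul_one, zero_add, sub_self] using this
    · have ha : 0 ≤ A 0 := by
        have := h2 ![1, 0, 0, 0]
        rw [ev_J0 A hA] at this
        simpa only [Fin.isValue, ge_iff_le, Matrix.cons_val_zero, one_pow, Matrix.cons_val_one, ne_eq, OfNat.ofNat_ne_zero, not_false_eq_true, zero_pow, add_zero, mul_one, Matrix.cons_val, mul_zero, sub_self] using this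
      have key : ∀ s t : ℝ, 0 ≤ A 0 * (t ^ 2 * ((A 1) ^ 2 + (A 2) ^ 2)) + A 5 * s ^ 2
          - 2 * s * t * ((A 1) ^ 2 + (A 2) ^ 2) := by
        intro s t
        have := h2 ![-t * A 2, -t * A 1, s, 0]
        rw [ev_J0 A hA] at this
        simp only [Fin.isValue, neg_mul, Matrix.cons_val_zero, even_two, Even.neg_pow, Matrix.cons_val_one, Matrix.cons_val, ne_eq, OfNat.ofNat_ne_zero, not_false_eq_true, zero_pow, add_zero, mul_zero, sub_zero, mul_neg, le_add_neg_iff_add_le, zero_add] at this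
        linarith only [this]
      by_contra hcon
      push Not at hcon
      rcases ha.eq_or_lt with h0 | h0
      · rw [← h0] at hcon
        have hpos : 0 < (A 1) ^ 2 + (A 2) ^ 2 := by linarith only [hcon]
        have := key 1 ((|A 5| + 1) / ((A 1) ^ 2 + (A 2) ^ 2))
        rw [← h0] at this
        have e : 2 * 1 * ((|A 5| + 1) / ((A 1) ^ 2 + (A 2) ^ 2)) * ((A 1) ^ 2 + (A 2) ^ 2)
            = 2 * (|A 5| + 1) := by
          field_simp
        rw [e] at this
        have := le_abs_self (A 5)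
        have := abs_nonneg (A 5)
        nlinarith
      · have := key (A 0) 1
        linarith only [mul_pos (sub_pos.2 hcon) (sub_pos.2 h0), mul_nonneg (sq_nonneg (1 : ℝ)) (sub_nonneg.2 this)]
  · rintro ⟨hA, ha, hb, hd⟩
    refine ⟨(inv_J0_iff A).2 hA, ?_⟩
    intro v
    rw [ev_J0 A hA]
    rcases ha.eq_or_lt with h0 | h0
    · rw [← h0] at hd ⊢
      have h1 : A 1 = 0 := by nlinarith only [hd]
      have h2 : A 2 = 0 := by nlinarith only [hd]
      rw [h1, h2]
      have : 0 ≤ A 5 * ((v 2) ^ 2 + (v 3) ^ 2) := by positivity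
      linarith only [this]
    · have e : A 0 * (A 0 * ((v 0) ^ 2 + (v 1) ^ 2) + A 5 * ((v 2) ^ 2 + (v 3) ^ 2)
          + 2 * A 1 * (v 1 * v 2 - v 0 * v 3) + 2 * A 2 * (v 0 * v 2 + v 1 * v 3))
          = (A 0 * v 0 + A 2 * v 2 - A 1 * v 3) ^ 2 + (A 0 * v 1 + A 1 * v 2 + A 2 * v 3) ^ 2
            + (A 0 * A 5 - (A 1) ^ 2 - (A 2) ^ 2) * ((v 2) ^ 2 + (v 3) ^ 2) := by ring
      have h3 : 0 ≤ (A 0 * A 5 - (A 1) ^ 2 - (A 2) ^ 2) * ((v 2) ^ 2 + (v 3) ^ 2) := by
        apply mul_nonneg (by linarith only [hd]) (by positivity)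
      have h4 : 0 ≤ A 0 * (A 0 * ((v 0) ^ 2 + (v 1) ^ 2) + A 5 * ((v 2) ^ 2 + (v 3) ^ 2)
          + 2 * A 1 * (v 1 * v 2 - v 0 * v 3) + 2 * A 2 * (v 0 * v 2 + v 1 * v 3)) := by
        rw [e]; positivity
      exact nonneg_of_mul_nonneg_right h4 h0


theorem ev_Fm (J : M4) (v w : V4) :
    ev (Fm J) v w = (dp (app J v) w - dp v (app J w)) / 2 := by
  simp only [ev_eq, Fm, ofEnt_0, ofEnt_1, ofEnt_2, ofEnt_3, ofEnt_4, ofEnt_5, dp_eq, app_eq]
  ring

theorem dp_comm (v w : V4) : dp v w = dp w v := by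
  simp only [dp_eq]; ring

theorem dp_self_nonneg (v : V4) : 0 ≤ dp v v := by
  rw [dp_eq]; linarith only [mul_self_nonneg (v 0), mul_self_nonneg (v 1), mul_self_nonneg (v 2), mul_self_nonneg (v 3)]

theorem dp_self_pos {v : V4} (hv : v ≠ 0) : 0 < dp v v := by
  rcases (dp_self_nonneg v).eq_or_lt with h | h
  · exfalso
    apply hv
    rw [dp_eq] at h
    have a0 := mul_self_nonneg (v 0)
    have a1 := mul_self_nonneg (v 1)
    have a2 := mul_self_nonneg (v 2)
    have a3 := mul_self_nonneg (v 3)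
    have b0 : v 0 = 0 := by nlinarith only [h]
    have b1 : v 1 = 0 := by nlinarith only [h]
    have b2 : v 2 = 0 := by nlinarith only [h]
    have b3 : v 3 = 0 := by nlinarith only [h]
    funext i
    fin_cases i
    · exact b0
    · exact b1
    · exact b2
    · exact b3
  · exact h

theorem ev_Fm_self {J : M4} (hJ : IsCx J) (v : V4) :
    ev (Fm J) v (app J v) = (dp (app J v) (app J v) + dp v v) / 2 := by
  rw [ev_Fm, hJ, dp_neg_right]; ring

theorem pull_Fm {J : M4} (hJ : IsCx J) : pull J (Fm J) = Fm J := by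
  apply ext_ev
  intro v w
  rw [ev_pull, ev_Fm, ev_Fm, hJ, hJ, dp_neg_left, dp_neg_right]
  ring

theorem cone_Fm {J : M4} (hJ : IsCx J) : Cone J (Fm J) := by
  refine ⟨pull_Fm hJ, fun v => ?_⟩
  rw [ev_Fm_self hJ]
  have := dp_self_nonneg v
  have := dp_self_nonneg (app J v)
  linarith

/-- Positive definite invariant forms. -/
def PosDef (J : M4) (A : L2) : Prop := pull J A = A ∧ ∀ v, v ≠ 0 → 0 < ev A v (app J v)

theorem posDef_Fm {J : M4} (hJ : IsCx J) : PosDef J (Fm J) := by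
  refine ⟨pull_Fm hJ, fun v hv => ?_⟩
  rw [ev_Fm_self hJ]
  have := dp_self_pos hv
  have := dp_self_nonneg (app J v)
  linarith

theorem PosDef.cone {J : M4} {A : L2} (h : PosDef J A) : Cone J A := by
  refine ⟨h.1, fun v => ?_⟩
  by_cases hv : v = 0
  · subst hv; rw [app_zero]; simp [ev_eq]
  · exact (h.2 v hv).le

theorem posDef_J0 {A : L2} (h : PosDef J0 A) :
    (A 4 = A 1 ∧ A 3 = - A 2) ∧ 0 < A 0 ∧ 0 < A 5 ∧ (A 1) ^ 2 + (A 2) ^ 2 < A 0 * A 5 := by
  have hA := (inv_J0_iff A).1 h.1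
  have h0 : 0 < A 0 := by
    have := h.2 ![1, 0, 0, 0] (by intro h; have := congrFun h 0; simp at this)
    rw [ev_J0 A hA] at this
    simpa only [Fin.isValue, gt_iff_lt, Matrix.cons_val_zero, one_pow, Matrix.cons_val_one, ne_eq, OfNat.ofNat_ne_zero, not_false_eq_true, zero_pow, add_zero, mul_one, Matrix.cons_val, mul_zero, sub_self] using this
  have h5 : 0 < A 5 := by
    have := h.2 ![0, 0, 1, 0] (by intro h; have := congrFun h 2; simp at this)
    rw [ev_J0 A hA] at this
    simpa only [Fin.isValue, gt_iff_lt, Matrix.cons_val_zero, ne_eq, OfNat.ofNat_ne_zero, not_false_eq_true, zero_pow, Matrix.cons_val_one, add_zero, mul_zero, Matrix.cons_val, one_pow, mul_one, zero_add, sub_self] using this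
  refine ⟨hA, h0, h5, ?_⟩
  have := h.2 ![- A 2, - A 1, A 0, 0] (by
    intro h; have := congrFun h 2; simp at this; linarith)
  rw [ev_J0 A hA] at this
  simp only [Fin.isValue, Matrix.cons_val_zero, even_two, Even.neg_pow, Matrix.cons_val_one, Matrix.cons_val, ne_eq, OfNat.ofNat_ne_zero, not_false_eq_true, zero_pow, add_zero, neg_mul, mul_zero, sub_zero, mul_neg, lt_add_neg_iff_add_lt, zero_add] at this
  have e : 0 < A 0 * (A 0 * A 5 - (A 1) ^ 2 - (A 2) ^ 2) := by linarith only [this]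
  have := (pos_iff_pos_of_mul_pos e).1 h0
  linarith

/-- Frame of a complex structure. -/
structure Frame (J : M4) (P P' : M4) : Prop where
  right : ∀ v, app P (app P' v) = v
  left : ∀ v, app P' (app P v) = v
  comm : ∀ v, app J (app P v) = app P (app J0 v)
  pos : 0 < det4 P

theorem pull_frame {J P P' : M4} (h : Frame J P P') (A : L2) :
    pull J0 (pull P A) = pull P (pull J A) := by
  apply ext_ev; intro v w
  rw [ev_pull, ev_pull, ev_pull, ev_pull, h.comm, h.comm]

theorem Frame.inv_iff {J P P' : M4} (h : Frame J P P') (A : L2) :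
    pull J0 (pull P A) = pull P A ↔ pull J A = A := by
  rw [pull_frame h]
  constructor
  · intro e
    apply ext_ev; intro v w
    have := congrArg (fun X => ev X (app P' v) (app P' w)) e
    simpa only [ev_pull, h.right] using this
  · intro e; rw [e]

theorem Frame.cone_iff {J P P' : M4} (h : Frame J P P') (A : L2) :
    Cone J0 (pull P A) ↔ Cone J A := by
  unfold Cone
  rw [h.inv_iff]
  constructor
  · rintro ⟨h1, h2⟩
    refine ⟨h1, fun v => ?_⟩
    have := h2 (app P' v)
    rw [ev_pull, ← h.comm, h.right] at this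
    exact this
  · rintro ⟨h1, h2⟩
    refine ⟨h1, fun v => ?_⟩
    rw [ev_pull, ← h.comm]
    exact h2 _

theorem Frame.posDef {J P P' : M4} (hl : ∀ v, app P' (app P v) = v)
    (hc : ∀ v, app J (app P v) = app P (app J0 v)) {A : L2} (hA : PosDef J A) :
    PosDef J0 (pull P A) := by
  refine ⟨?_, fun v hv => ?_⟩
  · apply ext_ev; intro v w
    rw [ev_pull, ev_pull, ev_pull, ← hc, ← hc, ← ev_pull, hA.1]
  · rw [ev_pull, ← hc]
    apply hA.2
    intro h0
    apply hv
    rw [← hl v, h0, app_zero]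

/-- Matrix with given columns. -/
def cols (a b c d : V4) : M4 := fun i => ![a i, b i, c i, d i]

theorem app_cols (a b c d v : V4) :
    app (cols a b c d) v = v 0 • a + v 1 • b + v 2 • c + v 3 • d := by
  funext i
  rw [app_eq]
  simp only [cols, Fin.isValue, Matrix.cons_val_zero, Matrix.cons_val_one, Matrix.cons_val, Pi.add_apply, Pi.smul_apply, smul_eq_mul]
  ring

/-- Matrix of a linear map. -/
noncomputable def matOf (L : V4 →ₗ[ℝ] V4) : M4 := fun i j => L (Pi.single j 1) i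

theorem app_matOf (L : V4 →ₗ[ℝ] V4) (v : V4) : app (matOf L) v = L v := by
  have h : v = ∑ j, v j • (Pi.single j 1 : V4) := by
    funext i
    simp [Finset.sum_apply, Pi.single_apply]
  conv_rhs => rw [h]
  rw [map_sum]
  funext i
  simp only [app, matOf, mul_comm, map_smul, Finset.sum_apply, Pi.smul_apply, smul_eq_mul]

/-- `app` as a linear map. -/
noncomputable def appL (J : M4) : V4 →ₗ[ℝ] V4 where
  toFun := app J
  map_add' := app_add J
  map_smul' := by intro c v; simp [app_smul]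

theorem exists_frame {J : M4} (hJ : IsCx J) (hpos : Pos J) : ∃ P P', Frame J P P' := by
  classical
  have hJ' : ∀ v, app J (app J v) = -v := hJ
  set v0 : V4 := Pi.single 0 1 with hv0
  have hv0ne : v0 ≠ 0 := by
    intro h; have := congrFun h 0; simp only [hv0, Fin.isValue, Pi.single_eq_same, Pi.zero_apply, one_ne_zero] at this
  obtain ⟨v2, hv2⟩ : ∃ v2 : V4, v2 ∉ Submodule.span ℝ ({v0, app J v0} : Set V4) := by
    by_contra hcon
    push Not at hcon
    have htop : Submodule.span ℝ ({v0, app J v0} : Set V4) = ⊤ :=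
      Submodule.eq_top_iff'.2 hcon
    have h1 := finrank_span_finset_le_card (R := ℝ) ({v0, app J v0} : Finset V4)
    rw [Finset.coe_insert, Finset.coe_singleton] at h1
    unfold Set.finrank at h1
    rw [htop, finrank_top] at h1
    have h2 : ({v0, app J v0} : Finset V4).card ≤ 2 := Finset.card_le_two
    have h3 : Module.finrank ℝ V4 = 4 := by simp
    omega
  have hinj : ∀ v : V4, app (cols v0 (app J v0) v2 (app J v2)) v = 0 → v = 0 := by
    intro v hv
    rw [app_cols] at hv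
    have hJv := congrArg (app J) hv
    simp only [app_add, app_smul, hJ', app_zero] at hJv
    -- eliminate
    have e1 : ((v 2) ^ 2 + (v 3) ^ 2) • v2 =
        (-(v 2 * v 0) - v 3 * v 1) • v0 + (-(v 2 * v 1) + v 3 * v 0) • app J v0 := by
      funext i
      have a := congrFun hv i
      have b := congrFun hJv i
      simp only [Pi.add_apply, Pi.smul_apply, smul_eq_mul, Pi.neg_apply, Pi.zero_apply] at a b ⊢
      linear_combination (v 2) * a - (v 3) * b
    have h23 : (v 2) ^ 2 + (v 3) ^ 2 = 0 := by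
      by_contra hne
      apply hv2
      have : v2 = ((v 2) ^ 2 + (v 3) ^ 2)⁻¹ • (((v 2) ^ 2 + (v 3) ^ 2) • v2) := by
        rw [smul_smul, inv_mul_cancel₀ hne, one_smul]
      rw [this, e1]
      apply Submodule.smul_mem
      apply Submodule.add_mem
      · exact Submodule.smul_mem _ _ (Submodule.subset_span (by simp))
      · exact Submodule.smul_mem _ _ (Submodule.subset_span (by simp))
    have h2 : v 2 = 0 := by nlinarith only [h23]
    have h3 : v 3 = 0 := by nlinarith only [h23]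
    rw [h2, h3] at hv hJv
    have e2 : ((v 0) ^ 2 + (v 1) ^ 2) • v0 = 0 := by
      funext i
      have a := congrFun hv i
      have b := congrFun hJv i
      simp only [Pi.add_apply, Pi.smul_apply, smul_eq_mul, Pi.neg_apply, Pi.zero_apply] at a b ⊢
      linear_combination (v 0) * a - (v 1) * b
    have h01 : (v 0) ^ 2 + (v 1) ^ 2 = 0 := by
      rcases smul_eq_zero.1 e2 with h | h
      · exact h
      · exact absurd h hv0ne
    have h0 : v 0 = 0 := by nlinarith only [h01]
    have h1 : v 1 = 0 := by nlinarith only [h01]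
    funext i
    fin_cases i
    · exact h0
    · exact h1
    · exact h2
    · exact h3
  set P : M4 := cols v0 (app J v0) v2 (app J v2) with hP
  have hinj' : Function.Injective (appL P) := by
    rw [← LinearMap.ker_eq_bot, LinearMap.ker_eq_bot']
    intro m hm
    exact hinj m hm
  set e : V4 ≃ₗ[ℝ] V4 := LinearEquiv.ofInjectiveEndo (appL P) hinj' with he
  have hright : ∀ v, app P (app (matOf e.symm.toLinearMap) v) = v := by
    intro v
    rw [app_matOf]
    have : e (e.symm v) = v := e.apply_symm_apply v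
    exact this
  have hleft : ∀ v, app (matOf e.symm.toLinearMap) (app P v) = v := by
    intro v
    rw [app_matOf]
    exact e.symm_apply_apply v
  have hcomm : ∀ v, app J (app P v) = app P (app J0 v) := by
    intro v
    rw [hP, app_cols, app_cols, app_J0]
    simp only [app_add, app_smul, hJ']
    funext i
    simp only [Fin.isValue, smul_neg, Pi.add_apply, Pi.smul_apply, smul_eq_mul, Pi.neg_apply, Nat.succ_eq_add_one, Nat.reduceAdd, Matrix.cons_val_zero, neg_smul, Matrix.cons_val_one, Matrix.cons_val]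
    ring
  refine ⟨P, matOf e.symm.toLinearMap, hright, hleft, hcomm, ?_⟩
  have hpd := posDef_J0 (Frame.posDef hleft hcomm (posDef_Fm hJ))
  have hq : 0 < Q (pull P (Fm J)) (pull P (Fm J)) := by
    rw [Q_self_J0 _ hpd.1]; linarith only [hpd.2.2.2]
  rw [Q_pull] at hq
  exact (pos_iff_pos_of_mul_pos hq).2 hpos


/-! Lorentz geometry of the invariant forms, in the standard model. -/

theorem LI_poly (a b c d f g h k x y z w : ℝ) (ha : 0 ≤ a) (hb : 0 ≤ b)
    (hA : c ^ 2 + d ^ 2 ≤ a * b) (hf : 0 ≤ f) (hg : 0 ≤ g) (hF : h ^ 2 + k ^ 2 ≤ f * g) :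
    (a * g + b * f - 2 * c * h - 2 * d * k) * (x * y - z ^ 2 - w ^ 2) ≤
      (x * g + y * f - 2 * z * h - 2 * w * k) * (a * y + b * x - 2 * c * z - 2 * d * w) := by
  rcases ha.eq_or_lt with h0 | h0
  · subst h0
    have hc : c = 0 := by nlinarith only [hA]
    have hd : d = 0 := by nlinarith only [hA]
    subst hc; subst hd
    rcases hf.eq_or_lt with h1 | h1
    · subst h1
      have hc : h = 0 := by nlinarith only [hF]
      have hd : k = 0 := by nlinarith only [hF]
      subst hc; subst hd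
      have : 0 ≤ b * g * x ^ 2 := by positivity
      linarith only [this]
    · have h2 : 0 ≤ f * (x ^ 2 * g - 2 * x * (z * h + w * k) + f * (z ^ 2 + w ^ 2)) := by
        have e : f * (x ^ 2 * g - 2 * x * (z * h + w * k) + f * (z ^ 2 + w ^ 2)) =
            (f * z - x * h) ^ 2 + (f * w - x * k) ^ 2 + x ^ 2 * (f * g - (h ^ 2 + k ^ 2)) := by ring
        rw [e]
        have : 0 ≤ x ^ 2 * (f * g - (h ^ 2 + k ^ 2)) :=
          mul_nonneg (sq_nonneg _) (by linarith only [hF])
        (clear * - hF; positivity)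
      have h3 := nonneg_of_mul_nonneg_right h2 h1
      linarith only [mul_nonneg hb h3]
  · rcases hf.eq_or_lt with h1 | h1
    · subst h1
      have hc : h = 0 := by nlinarith only [hF]
      have hd : k = 0 := by nlinarith only [hF]
      subst hc; subst hd
      have h2 : 0 ≤ a * (x ^ 2 * b - 2 * x * (z * c + w * d) + a * (z ^ 2 + w ^ 2)) := by
        have e : a * (x ^ 2 * b - 2 * x * (z * c + w * d) + a * (z ^ 2 + w ^ 2)) =
            (a * z - x * c) ^ 2 + (a * w - x * d) ^ 2 + x ^ 2 * (a * b - (c ^ 2 + d ^ 2)) := by ring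
        rw [e]
        have : 0 ≤ x ^ 2 * (a * b - (c ^ 2 + d ^ 2)) :=
          mul_nonneg (sq_nonneg _) (by linarith)
        positivity
      have h3 := nonneg_of_mul_nonneg_right h2 h0
      linarith only [mul_nonneg hg h3]
    · have hdA : 0 ≤ a * b - (c ^ 2 + d ^ 2) := by linarith
      have hdF : 0 ≤ f * g - (h ^ 2 + k ^ 2) := by linarith
      have e : (a * f) * ((x * g + y * f - 2 * z * h - 2 * w * k) *
          (a * y + b * x - 2 * c * z - 2 * d * w) -
          (a * g + b * f - 2 * c * h - 2 * d * k) * (x * y - z ^ 2 - w ^ 2)) =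
          (a * f * y + (c * h + d * k) * x - a * (h * z + k * w) - f * (c * z + d * w)) ^ 2 +
          ((c * k - d * h) * x - a * (k * z - h * w) - f * (c * w - d * z)) ^ 2 +
          (f * g - (h ^ 2 + k ^ 2)) * ((c * x - a * z) ^ 2 + (d * x - a * w) ^ 2) +
          (a * b - (c ^ 2 + d ^ 2)) * ((h * x - f * z) ^ 2 + (k * x - f * w) ^ 2) +
          (a * b - (c ^ 2 + d ^ 2)) * (f * g - (h ^ 2 + k ^ 2)) * x ^ 2 := by ring
      have h2 : 0 ≤ (a * f) * ((x * g + y * f - 2 * z * h - 2 * w * k) *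
          (a * y + b * x - 2 * c * z - 2 * d * w) -
          (a * g + b * f - 2 * c * h - 2 * d * k) * (x * y - z ^ 2 - w ^ 2)) := by
        rw [e]; (clear * - hF hA; positivity)
      have h3 := nonneg_of_mul_nonneg_right h2 (mul_pos h0 h1)
      linarith

theorem Q_poly_nonneg (a b c d f g h k : ℝ) (ha : 0 ≤ a) (hb : 0 ≤ b)
    (hA : c ^ 2 + d ^ 2 ≤ a * b) (hf : 0 ≤ f) (hg : 0 ≤ g) (hF : h ^ 2 + k ^ 2 ≤ f * g) :
    0 ≤ a * g + b * f - 2 * c * h - 2 * d * k := by
  have h1 : (c * h + d * k) ^ 2 ≤ (c ^ 2 + d ^ 2) * (h ^ 2 + k ^ 2) := by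
    linarith only [sq_nonneg (c * k - d * h)]
  have h2 : (c ^ 2 + d ^ 2) * (h ^ 2 + k ^ 2) ≤ (a * b) * (f * g) :=
    mul_le_mul hA hF (by positivity) (by positivity)
  have h3 : (2 * (c * h + d * k)) ^ 2 ≤ (a * g + b * f) ^ 2 := by
    linarith only [h1, h2, sq_nonneg (a * g - b * f)]
  have h4 : 0 ≤ a * g + b * f := by positivity
  have := abs_le_of_sq_le_sq' h3 h4
  linarith only [this.2]

theorem Q_poly_pos (a b c d f g h k : ℝ) (ha : 0 ≤ a) (hb : 0 ≤ b)
    (hA : c ^ 2 + d ^ 2 ≤ a * b) (hf : 0 < f) (hg : 0 < g) (hF : h ^ 2 + k ^ 2 < f * g)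
    (hab : 0 < a + b) : 0 < a * g + b * f - 2 * c * h - 2 * d * k := by
  have h1 := Q_poly_nonneg a b c d f ((h ^ 2 + k ^ 2) / f) h k ha hb hA hf.le (by positivity)
    (by rw [mul_div_cancel₀ _ hf.ne'])
  have h2 := Q_poly_nonneg a b c d ((h ^ 2 + k ^ 2) / g) g h k ha hb hA (by positivity) hg.le
    (by rw [div_mul_cancel₀ _ hg.ne'])
  have h3 : (h ^ 2 + k ^ 2) / f < g := by rw [div_lt_iff₀ hf]; linarith only [hF]
  have h4 : (h ^ 2 + k ^ 2) / g < f := by rw [div_lt_iff₀ hg]; linarith only [hF]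
  rcases ha.eq_or_lt with h0 | h0
  · have hb' : 0 < b := by linarith only [hab, h0]
    have := mul_lt_mul_of_pos_left h4 hb'
    linarith only [h2, this]
  · have := mul_lt_mul_of_pos_left h3 h0
    linarith only [h1, this]

theorem Q_J0 (A B : L2) (hA : A 4 = A 1 ∧ A 3 = - A 2) (hB : B 4 = B 1 ∧ B 3 = - B 2) :
    Q A B = A 0 * B 5 + A 5 * B 0 - 2 * A 1 * B 1 - 2 * A 2 * B 2 := by
  simp only [Q, hA.1, hA.2, hB.1, hB.2]; ring

/-- Two invariant positive forms pair nonnegatively. -/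
theorem Q_cone_nonneg {J : M4} (hJ : IsCx J) (hpos : Pos J) {A B : L2} (hA : Cone J A)
    (hB : Cone J B) : 0 ≤ Q A B := by
  obtain ⟨P, P', h⟩ := exists_frame hJ hpos
  have hA' := (cone_J0 _).1 ((h.cone_iff A).2 hA)
  have hB' := (cone_J0 _).1 ((h.cone_iff B).2 hB)
  have h1 := Q_J0 _ _ hA'.1 hB'.1
  have h2 := Q_poly_nonneg _ _ _ _ _ _ _ _ hA'.2.1 hA'.2.2.1 hA'.2.2.2 hB'.2.1 hB'.2.2.1 hB'.2.2.2
  rw [← h1, Q_pull] at h2
  exact nonneg_of_mul_nonneg_right h2 h.pos

/-- The Lorentz inequality. -/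
theorem Q_lorentz {J : M4} (hJ : IsCx J) (hpos : Pos J) {A F X : L2} (hA : Cone J A)
    (hF : Cone J F) (hX : pull J X = X) : Q A F * Q X X ≤ 2 * Q X F * Q A X := by
  obtain ⟨P, P', h⟩ := exists_frame hJ hpos
  have hA' := (cone_J0 _).1 ((h.cone_iff A).2 hA)
  have hF' := (cone_J0 _).1 ((h.cone_iff F).2 hF)
  have hX' := (inv_J0_iff _).1 ((h.inv_iff X).2 hX)
  have h1 := Q_J0 _ _ hA'.1 hF'.1
  have h2 := Q_J0 _ _ hX' hX'
  have h3 := Q_J0 _ _ hX' hF'.1
  have h4 := Q_J0 _ _ hA'.1 hX'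
  have key := LI_poly _ _ _ _ _ _ _ _ (pull P X 0) (pull P X 5) (pull P X 1) (pull P X 2)
    hA'.2.1 hA'.2.2.1 hA'.2.2.2 hF'.2.1 hF'.2.2.1 hF'.2.2.2
  rw [Q_pull] at h1 h2 h3 h4
  have key' : (det4 P * Q A F) * (det4 P * Q X X) ≤ 2 * (det4 P * Q X F) * (det4 P * Q A X) := by
    rw [h1, h2, h3, h4]
    linarith only [key]
  have hd : 0 < det4 P * det4 P := mul_pos h.pos h.pos
  have : (det4 P * det4 P) * (Q A F * Q X X) ≤ (det4 P * det4 P) * (2 * Q X F * Q A X) := by
    linarith only [key']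
  exact le_of_mul_le_mul_left this hd

theorem det4_of_cx {J : M4} (hJ : IsCx J) (hpos : Pos J) : det4 J = 1 := by
  have h := Q_pull J (Fm J) (Fm J)
  rw [pull_Fm hJ] at h
  have : Q (Fm J) (Fm J) ≠ 0 := hpos.ne'
  field_simp at h
  exact h.symm

theorem Q_pull_cx {J : M4} (hJ : IsCx J) (hpos : Pos J) (A B : L2) :
    Q (pull J A) (pull J B) = Q A B := by
  rw [Q_pull, det4_of_cx hJ hpos, one_mul]

theorem Q_inv_anti {J : M4} (hJ : IsCx J) (hpos : Pos J) {A B : L2} (hA : pull J A = A)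
    (hB : pull J B = -B) : Q A B = 0 := by
  have h := Q_pull_cx hJ hpos A B
  rw [hA, hB, Q_neg_right] at h
  linarith only [h]

theorem Q_inv_pM {J : M4} (hJ : IsCx J) (hpos : Pos J) {A : L2} (hA : pull J A = A) (B : L2) :
    Q A (pM J B) = 0 := Q_inv_anti hJ hpos hA (pull_pM hJ B)

theorem Q_inv_pP {J : M4} (hJ : IsCx J) (hpos : Pos J) {A : L2} (hA : pull J A = A) (B : L2) :
    Q A (pP J B) = Q A B := by
  conv_rhs => rw [← pP_add_pM J B, Q_add_right, Q_inv_pM hJ hpos hA, add_zero]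

theorem Q_pP_pM {J : M4} (hJ : IsCx J) (hpos : Pos J) (B C : L2) :
    Q (pP J B) (pM J C) = 0 := Q_inv_pM hJ hpos (pull_pP hJ B) C

theorem Q_self_split {J : M4} (hJ : IsCx J) (hpos : Pos J) (B : L2) :
    Q B B = Q (pP J B) (pP J B) + Q (pM J B) (pM J B) := by
  conv_lhs => rw [← pP_add_pM J B]
  rw [Q_add_left, Q_add_right, Q_add_right, Q_pP_pM hJ hpos, Q_comm (pM J B) (pP J B),
    Q_pP_pM hJ hpos]
  ring

/-- The wedge square is positive on nonzero anti-invariant forms. -/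
theorem Q_anti_pos {J : M4} (hJ : IsCx J) (hpos : Pos J) {A : L2} (hA : pull J A = -A)
    (hne : A ≠ 0) : 0 < Q A A := by
  obtain ⟨P, P', h⟩ := exists_frame hJ hpos
  have h1 : pull J0 (pull P A) = - pull P A := by
    rw [pull_frame h, hA, pull_neg]
  have hne' : pull P A ≠ 0 := by
    intro h0
    apply hne
    apply ext_ev; intro v w
    have := congrArg (fun X => ev X (app P' v) (app P' w)) h0
    simp only [ev_pull, h.right] at this
    rw [this]; simp only [ev_eq, Pi.zero_apply, Fin.isValue, zero_mul, add_zero]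
  set B := pull P A with hB
  rw [pull_J0] at h1
  have e0 := congrFun h1 0
  have e1 := congrFun h1 1
  have e2 := congrFun h1 2
  have e5 := congrFun h1 5
  simp only [Nat.succ_eq_add_one, Nat.reduceAdd, Fin.isValue, Matrix.cons_val_zero, Pi.neg_apply, Matrix.cons_val_one, Matrix.cons_val, neg_inj] at e0 e1 e2 e5
  have e0' : B 0 = 0 := by linarith only [e0]
  have e5' : B 5 = 0 := by linarith only [e5]
  have hq : Q B B = 2 * ((B 1) ^ 2 + (B 2) ^ 2) := by
    simp only [Q, e0', e5', e1, e2]; ring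
  have hpos' : 0 < (B 1) ^ 2 + (B 2) ^ 2 := by
    by_contra hcon
    push Not at hcon
    have h1' : B 1 = 0 := by nlinarith only [hcon]
    have h2' : B 2 = 0 := by nlinarith only [hcon]
    apply hne'
    funext i
    fin_cases i
    · exact e0'
    · exact h1'
    · exact h2'
    · show B 3 = 0; rw [e2, h2']
    · show B 4 = 0; rw [e1, h1', neg_zero]
    · exact e5'
  have : 0 < det4 P * Q A A := by rw [← Q_pull, ← hB, hq]; linarith only [hpos']
  exact (pos_iff_pos_of_mul_pos this).1 h.pos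

/-- Strict positivity against a positive definite form. -/
theorem Q_posDef_pos {J : M4} (hJ : IsCx J) (hpos : Pos J) {A F : L2} (hA : Cone J A)
    (hne : A ≠ 0) (hF : PosDef J F) : 0 < Q A F := by
  obtain ⟨P, P', h⟩ := exists_frame hJ hpos
  have hA' := (cone_J0 _).1 ((h.cone_iff A).2 hA)
  have hF' := posDef_J0 (Frame.posDef h.left h.comm hF)
  have hne' : pull P A ≠ 0 := by
    intro h0
    apply hne
    apply ext_ev; intro v w
    have := congrArg (fun X => ev X (app P' v) (app P' w)) h0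
    simp only [ev_pull, h.right] at this
    rw [this]; simp only [ev_eq, Pi.zero_apply, Fin.isValue, zero_mul, add_zero]
  have h1 := Q_J0 _ _ hA'.1 hF'.1
  set B := pull P A with hB
  set G := pull P F with hG
  obtain ⟨hBi, hB0, hB5, hBd⟩ := hA'
  obtain ⟨hGi, hG0, hG5, hGd⟩ := hF'
  have hsum : 0 < B 0 + B 5 := by
    rcases hB0.eq_or_lt with h0 | h0
    · rcases hB5.eq_or_lt with h5 | h5
      · exfalso
        rw [← h0, ← h5] at hBd
        have h1' : B 1 = 0 := by nlinarith only [hBd]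
        have h2' : B 2 = 0 := by nlinarith only [hBd]
        apply hne'
        funext i
        fin_cases i
        · exact h0.symm
        · exact h1'
        · exact h2'
        · show B 3 = 0; rw [hBi.2, h2', neg_zero]
        · show B 4 = 0; rw [hBi.1, h1']
        · exact h5.symm
      · linarith only [hB0, h5]
    · linarith only [hB5, h0]
  have hq : 0 < B 0 * G 5 + B 5 * G 0 - 2 * B 1 * G 1 - 2 * B 2 * G 2 :=
    Q_poly_pos _ _ _ _ _ _ _ _ hB0 hB5 hBd hG0 hG5 hGd hsum
  have : 0 < det4 P * Q A F := by rw [← Q_pull, ← hB, ← hG, h1]; exact hq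
  exact (pos_iff_pos_of_mul_pos this).1 h.pos

/-! Rank one forms. -/

theorem copp_cc_frame {J P P' : M4} (h : Frame J P P') (a : V4) :
    copp (cc J a) P = cc J0 (copp a P) := by
  have key : ∀ v, dp (copp (cc J a) P) v = dp (cc J0 (copp a P)) v := by
    intro v
    rw [dp_copp, dp_cc, dp_cc, dp_copp, h.comm]
  funext i
  have := key (Pi.single i 1)
  simpa only [dp, Pi.single_apply, mul_ite, mul_one, mul_zero, Finset.sum_ite_eq', Finset.mem_univ, ↓reduceIte] using this

theorem ext_dp {a b : V4} (h : ∀ v, dp a v = dp b v) : a = b := by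
  funext i
  have := h (Pi.single i 1)
  simpa only [dp, Pi.single_apply, mul_ite, mul_one, mul_zero, Finset.sum_ite_eq', Finset.mem_univ, ↓reduceIte] using this

theorem cc_cc {J : M4} (hJ : IsCx J) (a : V4) : cc J (cc J a) = -a := by
  apply ext_dp; intro v
  rw [dp_cc, dp_cc, neg_neg, hJ, dp_neg_right, dp_neg_left]

theorem pull_wd_cc {J : M4} (hJ : IsCx J) (a b : V4) :
    pull J (wd a (cc J b)) = wd b (cc J a) := by
  apply ext_ev; intro v w
  rw [ev_pull, ev_wd, ev_wd]
  simp only [dp_cc]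
  rw [hJ, hJ, dp_neg_right, dp_neg_right]
  ring

theorem cone_wd {J : M4} (hJ : IsCx J) (a : V4) : Cone J (wd a (cc J a)) := by
  refine ⟨pull_wd_cc hJ a a, fun v => ?_⟩
  rw [ev_wd, dp_cc, dp_cc, hJ, dp_neg_right]
  linarith only [mul_self_nonneg (dp a v), mul_self_nonneg (dp a (app J v))]

theorem Q_wd_nonneg {J : M4} (hJ : IsCx J) (hpos : Pos J) {A : L2} (hA : Cone J A) (a : V4) :
    0 ≤ Q A (wd a (cc J a)) := Q_cone_nonneg hJ hpos hA (cone_wd hJ a)

theorem Q_wd_symm {J : M4} (hJ : IsCx J) (hpos : Pos J) {A : L2} (hA : pull J A = A) (a b : V4) :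
    Q A (wd a (cc J b)) = Q A (wd b (cc J a)) := by
  have h := Q_pull_cx hJ hpos A (wd a (cc J b))
  rw [hA, pull_wd_cc hJ] at h
  exact h.symm

theorem wd_add_left (a a' b : V4) : wd (a + a') b = wd a b + wd a' b := by
  apply ext_ev; intro v w; simp only [ev_wd, ev_add, dp_add_left]; ring
theorem wd_add_right (a b b' : V4) : wd a (b + b') = wd a b + wd a b' := by
  apply ext_ev; intro v w; simp only [ev_wd, ev_add, dp_add_left]; ring
theorem wd_smul_left (c : ℝ) (a b : V4) : wd (c • a) b = c • wd a b := by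
  apply ext_ev; intro v w; simp only [ev_wd, ev_smul, dp_smul_left]; ring
theorem wd_smul_right (c : ℝ) (a b : V4) : wd a (c • b) = c • wd a b := by
  apply ext_ev; intro v w; simp only [ev_wd, ev_smul, dp_smul_left]; ring
theorem wd_neg_right (a b : V4) : wd a (-b) = - wd a b := by
  apply ext_ev; intro v w; simp only [ev_wd, ev_neg, dp_neg_left]; ring
theorem wd_neg_left (a b : V4) : wd (-a) b = - wd a b := by
  apply ext_ev; intro v w; simp only [ev_wd, ev_neg, dp_neg_left]; ring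
theorem wd_swap (a b : V4) : wd a b = - wd b a := by
  apply ext_ev; intro v w; simp only [ev_wd, ev_neg]; ring

theorem cc_add (J : M4) (a b : V4) : cc J (a + b) = cc J a + cc J b := by
  apply ext_dp; intro v; simp only [dp_cc, dp_add_left]; ring
theorem cc_smul (J : M4) (c : ℝ) (a : V4) : cc J (c • a) = c • cc J a := by
  apply ext_dp; intro v; simp only [dp_cc, dp_smul_left]; ring

/-- Cauchy-Schwarz for a positive invariant form. -/
theorem Q_cs {J : M4} (hJ : IsCx J) (hpos : Pos J) {A : L2} (hA : Cone J A) (a b : V4) :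
    (Q A (wd a (cc J b))) ^ 2 ≤ Q A (wd a (cc J a)) * Q A (wd b (cc J b)) := by
  have key : ∀ t : ℝ, 0 ≤ Q A (wd b (cc J b)) * (t * t) + (2 * Q A (wd a (cc J b))) * t
      + Q A (wd a (cc J a)) := by
    intro t
    have h := Q_wd_nonneg hJ hpos hA (a + t • b)
    simp only [cc_add, cc_smul, wd_add_left, wd_add_right, wd_smul_left, wd_smul_right,
      Q_add_right, Q_smul_right] at h
    rw [Q_wd_symm hJ hpos hA.1 b a] at h
    linarith
  have h := discrim_le_zero key
  unfold discrim at h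
  linarith only [h]

theorem Q_cs' {J : M4} (hJ : IsCx J) (hpos : Pos J) {A : L2} (hA : Cone J A) (a b : V4) :
    (Q A (wd a b)) ^ 2 ≤ Q A (wd a (cc J a)) * Q A (wd b (cc J b)) := by
  have h := Q_cs hJ hpos hA a (cc J b)
  rw [cc_cc hJ, wd_neg_right, Q_neg_right, neg_sq] at h
  have h2 : Q A (wd (cc J b) (-b)) = Q A (wd b (cc J b)) := by
    rw [wd_neg_right, wd_swap (cc J b) b, neg_neg]
  rw [h2] at h
  exact h

/-- Characterisation of the cone by duality. -/
theorem cone_of_Q {J : M4} (hJ : IsCx J) (hpos : Pos J) {A : L2} (hA : pull J A = A)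
    (h : ∀ a, 0 ≤ Q A (wd a (cc J a))) : Cone J A := by
  obtain ⟨P, P', hP⟩ := exists_frame hJ hpos
  rw [← hP.cone_iff]
  have hB := (inv_J0_iff _).1 ((hP.inv_iff A).2 hA)
  refine ⟨(hP.inv_iff A).2 hA, fun v => ?_⟩
  rw [ev_J0 _ hB]
  set a0 : V4 := ![- v 2, v 3, v 0, - v 1] with ha0
  have h1 := h (copp a0 P')
  have h2 : copp (copp a0 P') P = a0 := by
    apply ext_dp; intro w; rw [dp_copp, dp_copp, hP.left]
  have h3 : pull P (wd (copp a0 P') (cc J (copp a0 P'))) = wd a0 (cc J0 a0) := by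
    rw [pull_wd, copp_cc_frame hP, h2]
  have h4 : 0 ≤ det4 P * Q A (wd (copp a0 P') (cc J (copp a0 P'))) :=
    mul_nonneg hP.pos.le h1
  rw [← Q_pull, h3] at h4
  have h5 := (inv_J0_iff _).1 (cone_wd isCx_J0 a0).1
  rw [Q_J0 _ _ hB h5] at h4
  have hcc : cc J0 a0 = ![- a0 1, a0 0, - a0 3, a0 2] := by
    apply ext_dp; intro w
    rw [dp_cc, app_J0, dp_eq, dp_eq]
    simp only [Fin.isValue, Nat.succ_eq_add_one, Nat.reduceAdd, Matrix.cons_val_zero, mul_neg, Matrix.cons_val_one, Matrix.cons_val, neg_add_rev, neg_neg, neg_mul]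
    ring
  have w0 : wd a0 (cc J0 a0) 0 = (v 2) ^ 2 + (v 3) ^ 2 := by
    rw [hcc, wd_0, ha0]; simp only [Fin.isValue, Matrix.cons_val_zero, Nat.succ_eq_add_one, Nat.reduceAdd, Matrix.cons_val_one, Matrix.cons_val, neg_neg, mul_neg, neg_mul, sub_neg_eq_add]; ring
  have w5 : wd a0 (cc J0 a0) 5 = (v 0) ^ 2 + (v 1) ^ 2 := by
    rw [hcc, wd_5, ha0]; simp only [Fin.isValue, Matrix.cons_val, Nat.succ_eq_add_one, Nat.reduceAdd, Matrix.cons_val_one, Matrix.cons_val_zero, neg_neg, neg_mul, sub_neg_eq_add]; ring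
  have w1 : wd a0 (cc J0 a0) 1 = v 0 * v 3 - v 1 * v 2 := by
    rw [hcc, wd_1, ha0]; simp only [Fin.isValue, Matrix.cons_val_zero, Nat.succ_eq_add_one, Nat.reduceAdd, Matrix.cons_val_one, Matrix.cons_val, neg_neg, neg_mul, mul_neg, sub_neg_eq_add]; ring
  have w2 : wd a0 (cc J0 a0) 2 = - (v 0 * v 2 + v 1 * v 3) := by
    rw [hcc, wd_2, ha0]; simp only [Fin.isValue, Matrix.cons_val_zero, Nat.succ_eq_add_one, Nat.reduceAdd, Matrix.cons_val_one, Matrix.cons_val, neg_neg, neg_mul, mul_neg, neg_add_rev]; ring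
  rw [w0, w5, w1, w2] at h4
  linarith only [h4]

end Vale.Agent.P204K.T4
end

section

/-!
# P204: the Mathlib statement of Donaldson's tamed-to-compatible conjecture

Definitions of smooth almost complex structures, smooth two-forms, closedness, taming and
compatibility on a closed smooth four-manifold `X` (in the sense of Mathlib: `ChartedSpace`,
`IsManifold`).
-/

open scoped Manifold ContDiff Topology
open Set

namespace Vale.Agent.P204K.Mfd

/-- The model space of a smooth four-manifold. -/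
abbrev E4 := EuclideanSpace ℝ (Fin 4)

section Defs

variable {X : Type*} [TopologicalSpace X] [ChartedSpace E4 X]

/-- A (not necessarily smooth) real two-form on `X`: an alternating bilinear form on every
tangent space. -/
abbrev TwoForm (X : Type*) [TopologicalSpace X] [ChartedSpace E4 X] :=
  ∀ x : X, TangentSpace (𝓡 4) x [⋀^Fin 2]→L[ℝ] ℝ

/-- A (not necessarily smooth) field of endomorphisms of the tangent spaces of `X`. -/
abbrev EndField (X : Type*) [TopologicalSpace X] [ChartedSpace E4 X] :=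
  ∀ x : X, TangentSpace (𝓡 4) x →L[ℝ] TangentSpace (𝓡 4) x

/-- The coordinate expression of a two-form along a parametrisation `f` of (part of) `X`: the
pullback of `om` by `f`. -/
noncomputable def pullForm (f : E4 → X) (om : TwoForm X) : E4 → E4 [⋀^Fin 2]→L[ℝ] ℝ :=
  fun y => (om (f y)).compContinuousLinearMap (mfderiv (𝓡 4) (𝓡 4) f y)

/-- A two-form is smooth if its expression in every chart of the atlas is smooth. -/
def SmoothForm (om : TwoForm X) : Prop :=
  ∀ e ∈ atlas E4 X, ContDiffOn ℝ ∞ (pullForm e.symm om) e.target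

/-- A two-form is closed if the exterior derivative of its expression in every chart vanishes. -/
def ClosedForm (om : TwoForm X) : Prop :=
  ∀ e ∈ atlas E4 X, ∀ y ∈ e.target, extDeriv (pullForm e.symm om) y = 0

/-- The coordinate expression of a field of endomorphisms in a chart `e`, at the point with
coordinates `y`: the endomorphism `de ∘ J ∘ d(e⁻¹)` of `ℝ⁴`. -/
noncomputable def endRep (e : OpenPartialHomeomorph X E4) (J : EndField X) (y : E4) :
    E4 →L[ℝ] E4 :=
  (mfderiv (𝓡 4) (𝓡 4) e (e.symm y)).comp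
    ((J (e.symm y)).comp (mfderiv (𝓡 4) (𝓡 4) e.symm y))

/-- A field of endomorphisms is smooth if its expression in every chart of the atlas is
smooth. -/
def SmoothEnd (J : EndField X) : Prop :=
  ∀ e ∈ atlas E4 X, ContDiffOn ℝ ∞ (endRep e J) e.target

/-- A smooth almost complex structure on `X`. -/
structure AlmostComplex (J : EndField X) : Prop where
  smooth : SmoothEnd J
  sq : ∀ x (v : TangentSpace (𝓡 4) x), J x (J x v) = -v

/-- `om` tames `J`. -/
def Tames (om : TwoForm X) (J : EndField X) : Prop :=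
  ∀ x (v : TangentSpace (𝓡 4) x), v ≠ 0 → 0 < om x ![v, J x v]

/-- `om` is nondegenerate. -/
def Nondegenerate (om : TwoForm X) : Prop :=
  ∀ x (v : TangentSpace (𝓡 4) x), (∀ w, om x ![v, w] = 0) → v = 0

/-- A symplectic form: smooth, closed and nondegenerate. -/
structure Symplectic (om : TwoForm X) : Prop where
  smooth : SmoothForm om
  closed : ClosedForm om
  nondegenerate : Nondegenerate om

/-- `om` is compatible with `J`: it tames `J` and is `J`-invariant. -/
structure Compatible (om : TwoForm X) (J : EndField X) : Prop where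
  tames : Tames om J
  invariant : ∀ x (u v : TangentSpace (𝓡 4) x), om x ![J x u, J x v] = om x ![u, v]

end Defs

/-- Donaldson's tamed-to-compatible conjecture for all closed four-manifolds. -/
def Donaldson : Prop :=
  ∀ (X : Type) [TopologicalSpace X] [ChartedSpace E4 X] [IsManifold (𝓡 4) ∞ X]
    [CompactSpace X] [T2Space X] [ConnectedSpace X] (J : EndField X),
    AlmostComplex J →
    (∃ om : TwoForm X, Symplectic om ∧ Tames om J) →
    ∃ om : TwoForm X, Symplectic om ∧ Compatible om J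

end Vale.Agent.P204K.Mfd
end

section

open scoped BigOperators Topology

namespace Vale.Agent.P204K.T4

theorem abs_Q_le (A B : L2) : |Q A B| ≤ 6 * ‖A‖ * ‖B‖ := by
  have h : ∀ i j : Fin 6, |A i * B j| ≤ ‖A‖ * ‖B‖ := by
    intro i j
    rw [abs_mul]
    exact mul_le_mul (norm_le_pi_norm A i) (norm_le_pi_norm B j) (abs_nonneg _) (norm_nonneg _)
  unfold Q
  have h0 := abs_le.1 (h 0 5)
  have h1 := abs_le.1 (h 1 4)
  have h2 := abs_le.1 (h 2 3)
  have h3 := abs_le.1 (h 3 2)
  have h4 := abs_le.1 (h 4 1)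
  have h5 := abs_le.1 (h 5 0)
  rw [abs_le]
  constructor <;> linarith only [h0, h1, h2, h3, h4, h5]

theorem continuous_Q : Continuous (fun p : L2 × L2 => Q p.1 p.2) := by
  unfold Q; fun_prop

theorem continuous_ev : Continuous (fun p : L2 × V4 × V4 => ev p.1 p.2.1 p.2.2) := by
  have h : (fun p : L2 × V4 × V4 => ev p.1 p.2.1 p.2.2) = fun p : L2 × V4 × V4 =>
      p.1 0 * (p.2.1 0 * p.2.2 1 - p.2.1 1 * p.2.2 0)
      + p.1 1 * (p.2.1 0 * p.2.2 2 - p.2.1 2 * p.2.2 0)
      + p.1 2 * (p.2.1 0 * p.2.2 3 - p.2.1 3 * p.2.2 0)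
      + p.1 3 * (p.2.1 1 * p.2.2 2 - p.2.1 2 * p.2.2 1)
      + p.1 4 * (p.2.1 1 * p.2.2 3 - p.2.1 3 * p.2.2 1)
      + p.1 5 * (p.2.1 2 * p.2.2 3 - p.2.1 3 * p.2.2 2) := by
    funext p; exact ev_eq _ _ _
  rw [h]; fun_prop

theorem continuous_app : Continuous (fun p : M4 × V4 => app p.1 p.2) := by
  unfold app
  fun_prop

theorem continuous_pull : Continuous (fun p : M4 × L2 => pull p.1 p.2) := by
  have h : (fun p : M4 × L2 => pull p.1 p.2) = fun p => ofEnt (pent p.1 p.2) := by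
    funext p; exact pull_eq _ _
  rw [h]
  apply continuous_pi
  intro i
  fin_cases i
  · show Continuous (fun p : M4 × L2 => pent p.1 p.2 0 1)
    unfold pent mn; fun_prop
  · show Continuous (fun p : M4 × L2 => pent p.1 p.2 0 2)
    unfold pent mn; fun_prop
  · show Continuous (fun p : M4 × L2 => pent p.1 p.2 0 3)
    unfold pent mn; fun_prop
  · show Continuous (fun p : M4 × L2 => pent p.1 p.2 1 2)
    unfold pent mn; fun_prop
  · show Continuous (fun p : M4 × L2 => pent p.1 p.2 1 3)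
    unfold pent mn; fun_prop
  · show Continuous (fun p : M4 × L2 => pent p.1 p.2 2 3)
    unfold pent mn; fun_prop

theorem continuous_Fm : Continuous Fm := by
  apply continuous_pi
  intro i
  fin_cases i
  · show Continuous (fun J : M4 => (J 1 0 - J 0 1) / 2); fun_prop
  · show Continuous (fun J : M4 => (J 2 0 - J 0 2) / 2); fun_prop
  · show Continuous (fun J : M4 => (J 3 0 - J 0 3) / 2); fun_prop
  · show Continuous (fun J : M4 => (J 2 1 - J 1 2) / 2); fun_prop
  · show Continuous (fun J : M4 => (J 3 1 - J 1 3) / 2); fun_prop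
  · show Continuous (fun J : M4 => (J 3 2 - J 2 3) / 2); fun_prop

/-- Good compact sets of complex structures. -/
structure Good (K : Set M4) : Prop where
  compact : IsCompact K
  cx : ∀ J ∈ K, IsCx J
  pos : ∀ J ∈ K, Pos J

theorem isClosed_cone : IsClosed {p : M4 × L2 | Cone p.1 p.2} := by
  have h1 : IsClosed {p : M4 × L2 | pull p.1 p.2 = p.2} :=
    isClosed_eq continuous_pull continuous_snd
  have h2 : IsClosed {p : M4 × L2 | ∀ v, 0 ≤ ev p.2 v (app p.1 v)} := by
    have : {p : M4 × L2 | ∀ v, 0 ≤ ev p.2 v (app p.1 v)} =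
        ⋂ v : V4, {p : M4 × L2 | 0 ≤ ev p.2 v (app p.1 v)} := by
      ext p; simp only [Set.mem_ofPred_eq, Set.mem_iInter]
    rw [this]
    apply isClosed_iInter
    intro v
    have h4 : Continuous (fun p : M4 × L2 => ev p.2 v (app p.1 v)) := by
      simp only [ev_eq, app_eq]
      fun_prop
    exact isClosed_le continuous_const h4
  exact h1.inter h2

/-- Uniform positivity against the basic form. -/
theorem Good.exists_Q_Fm {K : Set M4} (hK : Good K) :
    ∃ c, 0 < c ∧ ∀ J ∈ K, ∀ A, Cone J A → c * ‖A‖ ≤ Q A (Fm J) := by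
  set S : Set (M4 × L2) := {p | Cone p.1 p.2} ∩ (K ×ˢ Metric.sphere (0 : L2) 1) with hS
  have hSc : IsCompact S :=
    (hK.compact.prod (isCompact_sphere _ _)).inter_left isClosed_cone
  have hcont : Continuous (fun p : M4 × L2 => Q p.2 (Fm p.1)) :=
    continuous_Q.comp (continuous_snd.prodMk (continuous_Fm.comp continuous_fst))
  have hmain : ∃ c, 0 < c ∧ ∀ p ∈ S, c ≤ Q p.2 (Fm p.1) := by
    rcases S.eq_empty_or_nonempty with h | h
    · exact ⟨1, one_pos, fun p hp => by rw [h] at hp; exact absurd hp (Set.notMem_empty _)⟩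
    · obtain ⟨p, hp, hmin⟩ := hSc.exists_isMinOn h hcont.continuousOn
      refine ⟨Q p.2 (Fm p.1), ?_, fun q hq => hmin hq⟩
      have h1 := hp.2
      have hJ := hK.cx _ h1.1
      have hP := hK.pos _ h1.1
      have hne : p.2 ≠ 0 := by
        intro h0
        have := h1.2
        rw [h0] at this
        simp only [mem_sphere_iff_norm, sub_self, norm_zero, zero_ne_one] at this
      exact Q_posDef_pos hJ hP hp.1 hne (posDef_Fm hJ)
  obtain ⟨c, hc, h⟩ := hmain
  refine ⟨c, hc, fun J hJ A hA => ?_⟩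
  by_cases h0 : A = 0
  · subst h0; simp
  · have hn : 0 < ‖A‖ := norm_pos_iff.2 h0
    have hA' : Cone J (‖A‖⁻¹ • A) := by
      refine ⟨by rw [pull_smul, hA.1], fun v => ?_⟩
      rw [ev_smul]
      exact mul_nonneg (by positivity) (hA.2 v)
    have h1 := h (J, ‖A‖⁻¹ • A) ⟨hA', hJ, by
      rw [mem_sphere_zero_iff_norm, norm_smul, norm_inv, norm_norm, inv_mul_cancel₀ hn.ne']⟩
    simp only [Q_smul_left] at h1
    rw [← div_eq_inv_mul, le_div_iff₀ hn] at h1
    exact h1

theorem Good.exists_norm_Fm {K : Set M4} (hK : Good K) :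
    ∃ C, 0 < C ∧ ∀ J ∈ K, ‖Fm J‖ ≤ C := by
  obtain ⟨C, hC⟩ := hK.compact.exists_bound_of_continuousOn continuous_Fm.continuousOn
  exact ⟨max C 1, by positivity, fun J hJ => (hC J hJ).trans (le_max_left _ _)⟩

/-- The quadratic gain. -/
theorem Good.exists_gain {K : Set M4} (hK : Good K) :
    ∃ C, 0 < C ∧ ∀ J ∈ K, ∀ A, Cone J A → ∀ B : L2, ∀ c0 : ℝ, 0 < c0 → 0 ≤ Q B B →
      c0 * ‖B‖ ≤ Q B (Fm J) → - (C / c0 * ‖A‖ * ‖pM J B‖ ^ 2) ≤ Q A B * ‖B‖ := by
  obtain ⟨CF, hCF, hF⟩ := hK.exists_norm_Fm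
  refine ⟨18 * CF, by positivity, fun J hJ A hA B c0 hc0 hBB hBF => ?_⟩
  have hcx := hK.cx J hJ
  have hpos := hK.pos J hJ
  have hFc : Cone J (Fm J) := cone_Fm hcx
  set X := pP J B with hX
  have hXi : pull J X = X := pull_pP hcx B
  have e1 : Q A B = Q A X := (Q_inv_pP hcx hpos hA.1 B).symm
  have e2 : Q X (Fm J) = Q B (Fm J) := by
    rw [Q_comm X, Q_comm B]; exact Q_inv_pP hcx hpos hFc.1 B
  have e3 : Q X X = Q B B - Q (pM J B) (pM J B) := by
    rw [Q_self_split hcx hpos B]; ring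
  have h1 : - (6 * ‖pM J B‖ ^ 2) ≤ Q X X := by
    have := abs_le.1 (abs_Q_le (pM J B) (pM J B))
    rw [e3]; linarith only [hBB, this.2]
  have h2 := Q_lorentz hcx hpos hA hFc hXi
  have h3 : 0 ≤ Q A (Fm J) := Q_cone_nonneg hcx hpos hA hFc
  have h4 : Q A (Fm J) ≤ 6 * ‖A‖ * CF := by
    have := (abs_le.1 (abs_Q_le A (Fm J))).2
    refine this.trans ?_
    exact mul_le_mul_of_nonneg_left (hF J hJ) (by positivity)
  rcases le_or_gt 0 (Q A B) with hAB | hAB
  · have h5 : 0 ≤ 18 * CF / c0 * ‖A‖ * ‖pM J B‖ ^ 2 := by (clear * - hCF hc0; positivity)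
    have h6 : 0 ≤ Q A B * ‖B‖ := mul_nonneg hAB (norm_nonneg _)
    linarith only [h5, h6]
  · rw [e1] at hAB ⊢
    have h5 : 2 * Q X (Fm J) * Q A X ≤ 2 * (c0 * ‖B‖) * Q A X := by
      rw [e2]; nlinarith only [hBF, hAB]
    have h6 : - (6 * ‖A‖ * CF * (6 * ‖pM J B‖ ^ 2)) ≤ Q A (Fm J) * Q X X := by
      have h7 : - (Q A (Fm J) * (6 * ‖pM J B‖ ^ 2)) ≤ Q A (Fm J) * Q X X := by
        linarith only [mul_le_mul_of_nonneg_left h1 h3]
      have h8 : Q A (Fm J) * (6 * ‖pM J B‖ ^ 2) ≤ 6 * ‖A‖ * CF * (6 * ‖pM J B‖ ^ 2) :=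
        mul_le_mul_of_nonneg_right h4 (by positivity)
      linarith only [h7, h8]
    have h9 : - (6 * ‖A‖ * CF * (6 * ‖pM J B‖ ^ 2)) ≤ 2 * c0 * (Q A X * ‖B‖) := by
      linarith only [h2, h5, h6]
    have h10 : 18 * CF / c0 * ‖A‖ * ‖pM J B‖ ^ 2 =
        (6 * ‖A‖ * CF * (6 * ‖pM J B‖ ^ 2)) / (2 * c0) := by
      field_simp; ring
    rw [h10, neg_le_iff_add_nonneg', ← sub_nonneg]
    have h11 : 0 ≤ (6 * ‖A‖ * CF * (6 * ‖pM J B‖ ^ 2)) / (2 * c0) + Q A X * ‖B‖ := by
      rw [div_add' _ _ _ (by positivity)]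
      apply div_nonneg _ (by positivity)
      linarith only [h2, h5, h6]
    linarith only [h11]

end Vale.Agent.P204K.T4
end

section
set_option linter.all false
/-!
Abstract smoothing system for 2-forms on a closed 4-manifold.
`H` = L^2 forms, `Om` = smooth forms, `ι` the inclusion, `st` the Hodge star (pairing `pr u v = ⟪u, st v⟫`),
`pm` = J-anti-invariant part, `Cl` closed, `Ex` exact smooth forms, `N m δ` scaled Sobolev norms of order `m`
(sum of `δ^j ‖D^j b‖_{L2}`), `M m` = C^m norm, `S δ` smoothing operators.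
-/
open scoped InnerProductSpace
open Filter Topology
namespace P204K.GX

structure SmSys (H Om : Type) [NormedAddCommGroup H] [InnerProductSpace ℝ H] [CompleteSpace H]
    [AddCommGroup Om] [Module ℝ Om] where
  ι : Om →ₗ[ℝ] H
  ι_inj : Function.Injective ι
  ι_dense : DenseRange ι
  st : H →L[ℝ] H
  st_st : ∀ u, st (st u) = u
  st_symm : ∀ u v, ⟪st u, v⟫_ℝ = ⟪u, st v⟫_ℝ
  pm : Om →ₗ[ℝ] Om
  pmH : H →L[ℝ] H
  pmH_ι : ∀ b, pmH (ι b) = ι (pm b)
  pmH_pmH : ∀ u, pmH (pmH u) = pmH u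
  pmH_symm : ∀ u v, ⟪pmH u, v⟫_ℝ = ⟪u, pmH v⟫_ℝ
  st_pmH : ∀ u, st (pmH u) = pmH u
  Cl : Submodule ℝ Om
  Ex : Submodule ℝ Om
  Ex_le : Ex ≤ Cl
  stokes : ∀ e ∈ Ex, ∀ c ∈ Cl, ⟪ι e, st (ι c)⟫_ℝ = 0
  closed_of_weak : ∀ b, (∀ e ∈ Ex, ⟪ι e, st (ι b)⟫_ℝ = 0) → b ∈ Cl
  /- norms -/
  N : ℕ → ℝ → Om → ℝ
  M : ℕ → Om → ℝ
  K : ℕ → ℝ
  δ0 : ℝ
  one_le_K : ∀ m, 1 ≤ K m
  δ0_pos : 0 < δ0
  δ0_le : δ0 ≤ 1
  N_nonneg : ∀ m δ b, 0 ≤ N m δ b
  N_add : ∀ m δ a b, N m δ (a + b) ≤ N m δ a + N m δ b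
  N_smul : ∀ m δ (r : ℝ) b, N m δ (r • b) = |r| * N m δ b
  N_mono : ∀ m δ δ' b, 0 < δ → δ ≤ δ' → N m δ b ≤ N m δ' b
  N_succ : ∀ m δ b, 0 < δ → N m δ b ≤ N (m + 1) δ b
  N_scale : ∀ m δ b, 0 < δ → δ ≤ 1 → δ ^ m * N m 1 b ≤ N m δ b
  M_nonneg : ∀ m b, 0 ≤ M m b
  M_add : ∀ m a b, M m (a + b) ≤ M m a + M m b
  M_smul : ∀ m (r : ℝ) b, M m (r • b) = |r| * M m b
  M_succ : ∀ m b, M m b ≤ M (m + 1) b
  norm_le_N : ∀ δ b, 0 < δ → ‖ι b‖ ≤ K 0 * N 0 δ b
  N_le_norm : ∀ δ b, 0 < δ → N 0 δ b ≤ K 0 * ‖ι b‖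
  N_le_M : ∀ m δ b, 0 < δ → δ ≤ 1 → N m δ b ≤ K m * M m b
  M_pm : ∀ m b, M m (pm b) ≤ K m * M m b
  N_pm : ∀ m δ b, 0 < δ → δ ≤ 1 → N m δ (pm b) ≤ K m * N m δ b
  complete : ∀ b : ℕ → Om, (∀ m, Summable fun k => M m (b k)) →
    ∃ s : Om, ∀ m, Tendsto (fun n => M m (s - ∑ k ∈ Finset.range n, b k)) atTop (𝓝 0)
  /- smoothing -/
  S : ℝ → H →ₗ[ℝ] Om
  S_norm : ∀ δ u, 0 < δ → δ ≤ δ0 → ‖ι (S δ u)‖ ≤ K 0 * ‖u‖
  S_tendsto : ∀ u, Tendsto (fun δ => ι (S δ u)) (𝓝[>] 0) (𝓝 u)
  S_weak : ∀ δ u, 0 < δ → δ ≤ δ0 → (∀ e ∈ Ex, ⟪ι e, st u⟫_ℝ = 0) → ∀ e ∈ Ex, ⟪ι e, st (ι (S δ u))⟫_ℝ = 0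
  S_Ex : ∀ δ e, 0 < δ → δ ≤ δ0 → e ∈ Ex → S δ (ι e) ∈ Ex
  SS : ∀ m δ u, 0 < δ → δ ≤ δ0 → N m δ (S δ u) ≤ K m * ‖u‖
  SSM : ∀ m δ u, 0 < δ → δ ≤ δ0 → M m (S δ u) ≤ K m * (δ ^ (2 + m))⁻¹ * ‖u‖
  O1 : ∀ m δ δ' b, 0 < δ → δ ≤ δ0 → δ ≤ δ' → δ' ≤ 1 → N m δ' (S δ (ι b)) ≤ K m * N m δ' b
  O2 : ∀ m δ δ' b, 0 < δ → δ ≤ δ0 → δ ≤ δ' → δ' ≤ 1 → N m δ' (b - S δ (ι b)) ≤ K m * (δ / δ') * N (m + 1) δ' b
  O1M : ∀ m δ b, 0 < δ → δ ≤ δ0 → M m (S δ (ι b)) ≤ K m * M m b
  O2M : ∀ m δ b, 0 < δ → δ ≤ δ0 → M m (b - S δ (ι b)) ≤ K m * δ * M (m + 1) b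
  SC : ∀ m δ u, 0 < δ → δ ≤ δ0 → N m δ (pm (S δ u) - S δ (pmH u)) ≤ K m * δ * ‖u‖

variable {H Om : Type} [NormedAddCommGroup H] [InnerProductSpace ℝ H] [CompleteSpace H]
  [AddCommGroup Om] [Module ℝ Om]

namespace SmSys
variable (Y : SmSys H Om)

/-- weakly closed L^2 forms -/
def Zw : Submodule ℝ H where
  carrier := {u | ∀ e ∈ Y.Ex, ⟪Y.ι e, Y.st u⟫_ℝ = 0}
  add_mem' := by
    intro a b ha hb e he
    rw [map_add, inner_add_right, ha e he, hb e he, add_zero]
  zero_mem' := by intro e he; simp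
  smul_mem' := by
    intro c a ha e he
    rw [map_smul, inner_smul_right, ha e he, mul_zero]

theorem mem_Zw {u : H} : u ∈ Y.Zw ↔ ∀ e ∈ Y.Ex, ⟪Y.ι e, Y.st u⟫_ℝ = 0 := Iff.rfl

/-- `w l = ∏_{i<l} (1 - S_{δ λ^{-i}}) v` -/
noncomputable def w (δ lam : ℝ) (v : Om) : ℕ → Om
  | 0 => v
  | l + 1 => w δ lam v l - Y.S (δ * lam⁻¹ ^ l) (Y.ι (w δ lam v l))

/-- bounds for `T` at scale `δ`: `NT δ` is the density bound `sup_x δ^{-2} t(B_{Cδ}(x))` -/
structure TBound (T φ : Om →ₗ[ℝ] ℝ) where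
  k : ℕ
  C : ℝ
  NT : ℝ → ℝ
  C_nonneg : 0 ≤ C
  NT_nonneg : ∀ δ, 0 ≤ NT δ
  T_bd : ∀ b, |T b| ≤ C * Y.M 0 b
  T_pm : ∀ b, T (Y.pm b) = 0
  φ_pm : ∀ b, φ (Y.pm b) = φ b
  φ_bd : ∀ b, |φ b| ≤ C * Y.M k b
  kill : ∀ c ∈ Y.Cl, T c + φ c = 0
  t1 : ∀ δ u, 0 < δ → δ ≤ Y.δ0 → δ * |T (Y.S δ u)| ≤ C * Real.sqrt (NT δ) * ‖u‖
  t2 : ∀ δ u, 0 < δ → δ ≤ Y.δ0 → |T (Y.S δ (Y.pmH u))| ≤ C * Real.sqrt (NT δ) * ‖u‖
  /-- if `w` represents `T ∘ S δ` then `pr w w ≥ - C NT δ` -/
  t3 : ∀ δ (w : H), 0 < δ → δ ≤ Y.δ0 → (∀ u, ⟪w, Y.st u⟫_ℝ = T (Y.S δ u)) → -(C * NT δ) ≤ ⟪w, Y.st w⟫_ℝ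
  /-- growth estimate with test forms -/
  D : ℕ → ℝ
  t4 : ∀ δ, 0 < δ → δ ≤ Y.δ0 → ∃ v : Om, (∀ m, Y.N m δ v ≤ D m) ∧ NT δ ≤ C * (1 + |φ v|)

end SmSys
end P204K.GX
end

section
set_option linter.all false
/-!
Concrete closed 4-manifold `X` with an almost complex structure and a taming form, read in finitely many
global-coordinate charts `ψ a : V4 → X` and a measurable unitary frame.
A two-form on `X` is a function `u : X → L2` (components in the unitary frame);
its components in chart `a` are `cf a u y = pull (m a y) (u (ψ a y))`.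
-/
open MeasureTheory Set
open scoped ContDiff

namespace Vale.Agent.P204K.GX
open Vale.Agent.P204K.T4

/-- the standard positive form `e01 + e23` -/
def F0 : L2 := ![1, 0, 0, 0, 0, 1]

/-- product of matrices as linear maps: `app (mm P R) v = app P (app R v)` -/
def mm (P R : M4) : M4 := fun i j => ∑ k, P i k * R k j

/-- matrix of the derivative -/
noncomputable def Dm (f : V4 → V4) (y : V4) : M4 := fun i j => pd j (fun z => f z i) y

/-- Concrete manifold with compatible pair `(J, F)`, `F = J`-invariant part of a closed taming form `om`. -/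
structure CM (X : Type) [MetricSpace X] where
  A : Type
  fA : Fintype A
  dA : DecidableEq A
  ψ : A → V4 → X
  ψo : ∀ a, Topology.IsOpenEmbedding (ψ a)
  cov : ∀ x, ∃ a y, ‖y‖ < 1 ∧ ψ a y = x
  /-- transition `τ a b = (ψ b)⁻¹ ∘ ψ a` on `ψ a ⁻¹' range (ψ b)` -/
  τ : A → A → V4 → V4
  τ_spec : ∀ a b y, ψ a y ∈ range (ψ b) → ψ b (τ a b y) = ψ a y
  τ_smooth : ∀ a b, ContDiffOn ℝ ∞ (τ a b) (ψ a ⁻¹' range (ψ b))
  /-- the charts are bi-Lipschitz on compact sets -/
  lip : ∀ a (r : ℝ), ∃ C : ℝ, 0 < C ∧ ∀ y z, ‖y‖ ≤ r → ‖z‖ ≤ r →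
    dist (ψ a y) (ψ a z) ≤ C * ‖y - z‖ ∧ ‖y - z‖ ≤ C * dist (ψ a y) (ψ a z)
  /-- unitary coframe: `m a y` maps chart coordinates of tangent vectors to frame coordinates; `m'` inverse -/
  m : A → V4 → M4
  m' : A → V4 → M4
  m_meas : ∀ a, Measurable (m a)
  m'_meas : ∀ a, Measurable (m' a)
  m_m' : ∀ a y v, app (m a y) (app (m' a y) v) = v
  m'_m : ∀ a y v, app (m' a y) (app (m a y) v) = v
  m_det : ∀ a y, 0 < det4 (m a y)
  m_cocycle : ∀ a b y, ψ a y ∈ range (ψ b) → m a y = mm (m b (τ a b y)) (Dm (τ a b) y)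
  J : A → V4 → M4
  J_smooth : ∀ a, ContDiff ℝ ∞ (J a)
  J_cx : ∀ a y, IsCx (J a y)
  J_pos : ∀ a y, Pos (J a y)
  m_J : ∀ a y v, app (m a y) (app (J a y) v) = app J0 (app (m a y) v)
  F_smooth : ∀ a, ContDiff ℝ ∞ (fun y => pull (m a y) F0)

attribute [instance] CM.fA CM.dA

namespace CM
variable {X : Type} [MetricSpace X] (M : CM X)

/-- components of `u` in chart `a` -/
noncomputable def cf (a : M.A) (u : X → L2) (y : V4) : L2 := pull (M.m a y) (u (M.ψ a y))

/-- smooth two-forms -/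
def Om : Submodule ℝ (X → L2) where
  carrier := {u | ∀ a, ContDiff ℝ ∞ (M.cf a u)}
  add_mem' := by
    intro u v hu hv a
    have : M.cf a (u + v) = fun y => M.cf a u y + M.cf a v y := by
      funext y; simp only [cf, Pi.add_apply, pull_add]
    rw [this]; exact (hu a).add (hv a)
  zero_mem' := by
    intro a
    have : M.cf a 0 = fun _ => 0 := by
      funext y
      have := pull_smul (M.m a y) 0 0
      simp only [cf, Pi.zero_apply]
      simpa using this
    rw [this]; exact contDiff_const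
  smul_mem' := by
    intro c u hu a
    have : M.cf a (c • u) = fun y => c • M.cf a u y := by
      funext y; simp only [cf, Pi.smul_apply, pull_smul]
    rw [this]; exact (hu a).const_smul c

/-- continuous two-forms -/
def C0 : Submodule ℝ (X → L2) where
  carrier := {u | ∀ a, Continuous (M.cf a u)}
  add_mem' := by
    intro u v hu hv a
    have : M.cf a (u + v) = fun y => M.cf a u y + M.cf a v y := by
      funext y; simp only [cf, Pi.add_apply, pull_add]
    rw [this]; exact (hu a).add (hv a)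
  zero_mem' := by
    intro a
    have : M.cf a 0 = fun _ => 0 := by
      funext y
      have := pull_smul (M.m a y) 0 0
      simp only [cf, Pi.zero_apply]
      simpa only [smul_zero, zero_smul] using this
    rw [this]; exact continuous_const
  smul_mem' := by
    intro c u hu a
    have : M.cf a (c • u) = fun y => c • M.cf a u y := by
      funext y; simp only [cf, Pi.smul_apply, pull_smul]
    rw [this]; exact (hu a).const_smul c

open Classical in
/-- extension by zero of a form given in chart `a` -/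
noncomputable def ext (a : M.A) (γ : V4 → L2) : X → L2 := fun x =>
  if h : x ∈ range (M.ψ a) then pull (M.m' a h.choose) (γ h.choose) else 0

end CM
end Vale.Agent.P204K.GX
end

section

open scoped BigOperators ContDiff Topology
open MeasureTheory Set

namespace Vale.Agent.P204K.GX
open T4

/-! ### Matrices -/

/-- Identity matrix. -/
def oneM : M4 := fun i j => if i = j then 1 else 0

theorem app_mm (P R : M4) (v : V4) : app (mm P R) v = app P (app R v) := by
  funext i
  simp only [app, mm, Finset.sum_mul, Finset.mul_sum]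
  rw [Finset.sum_comm]
  refine Finset.sum_congr rfl fun j _ => Finset.sum_congr rfl fun k _ => by ring

theorem app_one (v : V4) : app oneM v = v := by
  funext i; simp [app, oneM]

theorem m4_ext {P R : M4} (h : ∀ v, app P v = app R v) : P = R := by
  funext i j
  have := congrFun (h (Pi.single j 1)) i
  simpa only [app, Pi.single_apply, mul_ite, mul_one, mul_zero, Finset.sum_ite_eq', Finset.mem_univ, ↓reduceIte] using this

theorem mm_assoc (P R S : M4) : mm (mm P R) S = mm P (mm R S) :=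
  m4_ext fun v => by simp only [app_mm]

theorem mm_one (P : M4) : mm P oneM = P := m4_ext fun v => by simp only [app_mm, app_one]
theorem one_mm (P : M4) : mm oneM P = P := m4_ext fun v => by simp only [app_mm, app_one]

theorem pull_mm (P R : M4) (A : L2) : pull (mm P R) A = pull R (pull P A) := by
  apply ext_ev; intro v w
  simp only [ev_pull, app_mm]

theorem pull_one (A : L2) : pull oneM A = A := by
  apply ext_ev; intro v w; simp only [ev_pull, app_one]

theorem copp_mm (a : V4) (P R : M4) : copp a (mm P R) = copp (copp a P) R := by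
  apply ext_dp; intro v; simp only [dp_copp, app_mm]

theorem copp_one (a : V4) : copp a oneM = a := by
  apply ext_dp; intro v; simp only [dp_copp, app_one]

theorem copp_add (a b : V4) (P : M4) : copp (a + b) P = copp a P + copp b P := by
  apply ext_dp; intro v; simp only [dp_copp, dp_add_left]

theorem copp_smul (c : ℝ) (a : V4) (P : M4) : copp (c • a) P = c • copp a P := by
  apply ext_dp; intro v; simp only [dp_copp, dp_smul_left]

theorem copp_neg (a : V4) (P : M4) : copp (-a) P = - copp a P := by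
  apply ext_dp; intro v; simp only [dp_copp, dp_neg_left]

theorem copp_sub (a b : V4) (P : M4) : copp (a - b) P = copp a P - copp b P := by
  rw [sub_eq_add_neg, copp_add, copp_neg, ← sub_eq_add_neg]

theorem copp_zero (P : M4) : copp (0 : V4) P = 0 := by
  funext j; simp [copp]

theorem pull_zero (P : M4) : pull P (0 : L2) = 0 := by
  have := pull_smul P 0 0
  simpa only [smul_zero, zero_smul] using this

theorem Q_F0 : Q F0 F0 = 2 := by
  simp only [Q, F0, Fin.isValue, Matrix.cons_val_zero, Matrix.cons_val, mul_one, Matrix.cons_val_one, mul_zero, sub_zero, add_zero]; norm_num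

theorem det4_mm (P R : M4) : det4 (mm P R) = det4 P * det4 R := by
  have h1 := Q_pull (mm P R) F0 F0
  rw [pull_mm, Q_pull, Q_pull, Q_F0] at h1
  linarith only [h1]

theorem det4_one : det4 oneM = 1 := by
  have h1 := Q_pull oneM F0 F0
  rw [pull_one, Q_F0] at h1
  linarith

/-! ### Jacobians -/

theorem Dm_eq {f : V4 → V4} {y : V4} (hf : DifferentiableAt ℝ f y) (i j : Fin 4) :
    Dm f y i j = fderiv ℝ f y (Pi.single j 1) i := by
  unfold Dm pd
  have h1 : HasFDerivAt (fun z => f z i)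
      ((ContinuousLinearMap.proj (R := ℝ) (φ := fun _ : Fin 4 => ℝ) i).comp (fderiv ℝ f y)) y :=
    (hasFDerivAt_pi'.1 hf.hasFDerivAt) i
  rw [h1.fderiv]; rfl

theorem app_Dm {f : V4 → V4} {y : V4} (hf : DifferentiableAt ℝ f y) (v : V4) :
    app (Dm f y) v = fderiv ℝ f y v := by
  funext i
  have h : v = ∑ j, v j • (Pi.single j (1 : ℝ) : V4) := by
    funext k
    simp only [Finset.sum_apply, Pi.smul_apply, Pi.single_apply, smul_eq_mul, mul_ite, mul_one, mul_zero, Finset.sum_ite_eq, Finset.mem_univ, ↓reduceIte]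
  conv_rhs => rw [h]
  rw [map_sum]
  simp only [app, Dm_eq hf, map_smul, Finset.sum_apply, Pi.smul_apply, smul_eq_mul]
  exact Finset.sum_congr rfl fun j _ => by ring

theorem Dm_comp {f g : V4 → V4} {y : V4} (hg : DifferentiableAt ℝ g (f y))
    (hf : DifferentiableAt ℝ f y) : Dm (fun x => g (f x)) y = mm (Dm g (f y)) (Dm f y) := by
  apply m4_ext; intro v
  have hgf : DifferentiableAt ℝ (fun x => g (f x)) y := hg.comp y hf
  rw [app_mm, app_Dm hgf, app_Dm hf, app_Dm hg]
  have : fderiv ℝ (fun x => g (f x)) y = (fderiv ℝ g (f y)).comp (fderiv ℝ f y) :=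
    fderiv_comp y hg hf
  rw [this]; rfl

theorem Dm_congr {f g : V4 → V4} {y : V4} (h : f =ᶠ[𝓝 y] g) : Dm f y = Dm g y := by
  funext i j
  unfold Dm pd
  have : (fun z => f z i) =ᶠ[𝓝 y] (fun z => g z i) := h.fun_comp (fun w : V4 => w i)
  rw [this.fderiv_eq]

theorem Dm_id (y : V4) : Dm (fun x => x) y = oneM := by
  apply m4_ext; intro v
  rw [app_Dm differentiableAt_fun_id, app_one]
  simp

/-- `det4` is the determinant. -/
theorem det4_eq_det (P : M4) : det4 P = (Matrix.of P).det := by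
  unfold det4 mn
  simp only [Fin.isValue, Matrix.det_succ_row_zero, Nat.succ_eq_add_one, Nat.reduceAdd, Matrix.of_apply, Matrix.submatrix, Fin.succAbove, Fin.succ_zero_eq_one, Fin.succ_one_eq_two, Matrix.det_unique, Fin.default_eq_zero, Fin.reduceSucc, Fin.castSucc_zero, Fin.sum_univ_succ, Fin.coe_ofNat_eq_mod, Nat.zero_mod, pow_zero, one_mul, lt_self_iff_false, ↓reduceIte, Fin.castSucc_one, Finset.univ_unique, Fin.val_succ, Fin.val_eq_zero, zero_add, pow_one, Fin.castSucc_succ, neg_mul, Fin.succ_pos, Finset.sum_neg_distrib, Finset.sum_singleton, not_lt_zero, Fin.reduceCastSucc, even_two, Even.neg_pow, one_pow, Fin.reduceLT, Fin.lt_one_iff, Fin.reduceEq]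
  ring

/-! ### Smoothness of the pointwise operations -/

theorem contDiff_ofEnt : ContDiff ℝ ∞ (fun P : M4 => ofEnt P) := by
  rw [contDiff_pi]; intro i
  have h : ∀ k l : Fin 4, ContDiff ℝ ∞ (fun P : M4 => P k l) := fun k l => by fun_prop
  fin_cases i
  exacts [h 0 1, h 0 2, h 0 3, h 1 2, h 1 3, h 2 3]

theorem contDiff_ent (k l : Fin 4) : ContDiff ℝ ∞ (fun A : L2 => ent A k l) := by
  have h : ∀ i : Fin 6, ContDiff ℝ ∞ (fun A : L2 => A i) := fun i => by fun_prop
  fin_cases k <;> fin_cases l <;> first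
    | exact contDiff_const
    | exact h 0 | exact h 1 | exact h 2 | exact h 3 | exact h 4 | exact h 5
    | exact (h 0).neg | exact (h 1).neg | exact (h 2).neg | exact (h 3).neg
    | exact (h 4).neg | exact (h 5).neg

theorem contDiff_pull : ContDiff ℝ ∞ (fun p : M4 × L2 => pull p.1 p.2) := by
  have hh : ContDiff ℝ ∞ (fun p : M4 × L2 =>
      ((fun i j => ∑ k, ∑ l, ent p.2 k l * p.1 k i * p.1 l j) : M4)) := by
    rw [contDiff_pi]; intro i
    rw [contDiff_pi]; intro j
    refine ContDiff.sum fun k _ => ContDiff.sum fun l _ => ?_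
    have h1 : ContDiff ℝ ∞ (fun p : M4 × L2 => ent p.2 k l) :=
      (contDiff_ent k l).comp contDiff_snd
    have h2 : ContDiff ℝ ∞ (fun p : M4 × L2 => p.1 k i) := by fun_prop
    have h3 : ContDiff ℝ ∞ (fun p : M4 × L2 => p.1 l j) := by fun_prop
    exact (h1.mul h2).mul h3
  exact contDiff_ofEnt.comp hh

theorem contDiff_copp : ContDiff ℝ ∞ (fun p : V4 × M4 => copp p.1 p.2) := by
  unfold copp
  rw [contDiff_pi]; intro j
  refine ContDiff.sum fun i _ => ?_
  have h1 : ContDiff ℝ ∞ (fun p : V4 × M4 => p.1 i) := by fun_prop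
  have h2 : ContDiff ℝ ∞ (fun p : V4 × M4 => p.2 i j) := by fun_prop
  exact h1.mul h2

theorem contDiff_det4 : ContDiff ℝ ∞ det4 := by
  unfold det4 mn
  fun_prop

theorem contDiffAt_pd {f : V4 → ℝ} {y : V4} (hf : ContDiffAt ℝ ∞ f y) (j : Fin 4) :
    ContDiffAt ℝ ∞ (pd j f) y := by
  unfold pd
  exact (hf.fderiv_right (by simp)).clm_apply contDiffAt_const

theorem contDiff_pd {f : V4 → ℝ} (hf : ContDiff ℝ ∞ f) (j : Fin 4) : ContDiff ℝ ∞ (pd j f) :=
  contDiff_iff_contDiffAt.2 fun _ => contDiffAt_pd hf.contDiffAt j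

theorem contDiffAt_Dm {f : V4 → V4} {y : V4} (hf : ContDiffAt ℝ ∞ f y) :
    ContDiffAt ℝ ∞ (Dm f) y := by
  rw [contDiffAt_pi]; intro i
  rw [contDiffAt_pi]; intro j
  exact contDiffAt_pd ((contDiffAt_pi.1 hf) i) j

theorem contDiff_Dm {f : V4 → V4} (hf : ContDiff ℝ ∞ f) : ContDiff ℝ ∞ (Dm f) :=
  contDiff_iff_contDiffAt.2 fun _ => contDiffAt_Dm hf.contDiffAt

theorem contDiffAt_pull {f : V4 → M4} {g : V4 → L2} {y : V4} (hf : ContDiffAt ℝ ∞ f y)
    (hg : ContDiffAt ℝ ∞ g y) : ContDiffAt ℝ ∞ (fun z => pull (f z) (g z)) y :=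
  ContDiffAt.comp (g := fun p : M4 × L2 => pull p.1 p.2) (f := fun z => (f z, g z)) y
    contDiff_pull.contDiffAt (hf.prodMk hg)

theorem contDiffAt_copp {f : V4 → M4} {g : V4 → V4} {y : V4} (hf : ContDiffAt ℝ ∞ f y)
    (hg : ContDiffAt ℝ ∞ g y) : ContDiffAt ℝ ∞ (fun z => copp (g z) (f z)) y :=
  ContDiffAt.comp (g := fun p : V4 × M4 => copp p.1 p.2) (f := fun z => (g z, f z)) y
    contDiff_copp.contDiffAt (hg.prodMk hf)

theorem contDiff_d1 {a : V4 → V4} (ha : ContDiff ℝ ∞ a) : ContDiff ℝ ∞ (d1 a) := by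
  have hh : ContDiff ℝ ∞ (fun x => ((fun i j => pd i (fun y => a y j) x
      - pd j (fun y => a y i) x) : M4)) := by
    rw [contDiff_pi]; intro i
    rw [contDiff_pi]; intro j
    exact (contDiff_pd ((contDiff_pi.1 ha) j) i).sub (contDiff_pd ((contDiff_pi.1 ha) i) j)
  exact contDiff_ofEnt.comp hh

end Vale.Agent.P204K.GX
end

section

open scoped BigOperators ContDiff Topology
open MeasureTheory Set

namespace Vale.Agent.P204K.GX
open T4

namespace CM
variable {X : Type} [MetricSpace X] (M : CM X)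

/-! ### Transition maps -/

/-- Domain of the transition `τ a b`. -/
def O (a b : M.A) : Set V4 := M.ψ a ⁻¹' range (M.ψ b)

/-- Inverse of the chart (total, junk outside the range). -/
noncomputable def inv (a : M.A) : X → V4 := Function.invFun (M.ψ a)

theorem ψ_inj (a : M.A) : Function.Injective (M.ψ a) := (M.ψo a).injective

theorem inv_ψ (a : M.A) (y : V4) : M.inv a (M.ψ a y) = y :=
  Function.leftInverse_invFun (M.ψ_inj a) y

theorem ψ_inv {a : M.A} {x : X} (h : x ∈ range (M.ψ a)) : M.ψ a (M.inv a x) = x :=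
  Function.invFun_eq h

theorem mem_O {a b : M.A} {y : V4} : y ∈ M.O a b ↔ M.ψ a y ∈ range (M.ψ b) := Iff.rfl

theorem isOpen_range (a : M.A) : IsOpen (range (M.ψ a)) := (M.ψo a).isOpen_range

theorem continuous_ψ (a : M.A) : Continuous (M.ψ a) := (M.ψo a).continuous

theorem isOpen_O (a b : M.A) : IsOpen (M.O a b) :=
  (M.isOpen_range b).preimage (M.continuous_ψ a)

theorem ψ_τ {a b : M.A} {y : V4} (h : y ∈ M.O a b) : M.ψ b (M.τ a b y) = M.ψ a y :=
  M.τ_spec a b y h

theorem τ_eq_inv {a b : M.A} {y : V4} (h : y ∈ M.O a b) : M.τ a b y = M.inv b (M.ψ a y) := by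
  rw [← M.ψ_τ h, M.inv_ψ]

theorem τ_mem {a b : M.A} {y : V4} (h : y ∈ M.O a b) : M.τ a b y ∈ M.O b a := by
  rw [mem_O, M.ψ_τ h]; exact mem_range_self y

theorem mem_O_self (a : M.A) (y : V4) : y ∈ M.O a a := mem_range_self y

theorem τ_self (a : M.A) (y : V4) : M.τ a a y = y := M.ψ_inj a (M.ψ_τ (M.mem_O_self a y))

theorem τ_cocycle {a b c : M.A} {y : V4} (h : y ∈ M.O a b) (h' : y ∈ M.O a c) :
    M.τ b c (M.τ a b y) = M.τ a c y := by
  apply M.ψ_inj c
  have h1 : M.τ a b y ∈ M.O b c := by rw [mem_O, M.ψ_τ h]; exact h'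
  rw [M.ψ_τ h1, M.ψ_τ h, M.ψ_τ h']

theorem τ_τ {a b : M.A} {y : V4} (h : y ∈ M.O a b) : M.τ b a (M.τ a b y) = y := by
  rw [M.τ_cocycle h (M.mem_O_self a y), M.τ_self]

theorem contDiffAt_τ {a b : M.A} {y : V4} (h : y ∈ M.O a b) : ContDiffAt ℝ ∞ (M.τ a b) y :=
  (M.τ_smooth a b).contDiffAt ((M.isOpen_O a b).mem_nhds h)

theorem continuousAt_τ {a b : M.A} {y : V4} (h : y ∈ M.O a b) :
    ContinuousAt (M.τ a b) y := (M.contDiffAt_τ h).continuousAt

theorem differentiableAt_τ {a b : M.A} {y : V4} (h : y ∈ M.O a b) :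
    DifferentiableAt ℝ (M.τ a b) y := (M.contDiffAt_τ h).differentiableAt (by simp)

/-- Jacobian of the transition map. -/
noncomputable def Dt (a b : M.A) (y : V4) : M4 := Dm (M.τ a b) y

theorem contDiffAt_Dt {a b : M.A} {y : V4} (h : y ∈ M.O a b) :
    ContDiffAt ℝ ∞ (M.Dt a b) y := contDiffAt_Dm (M.contDiffAt_τ h)

theorem Dt_self (a : M.A) (y : V4) : M.Dt a a y = oneM := by
  unfold Dt
  have : M.τ a a = fun x => x := funext fun x => M.τ_self a x
  rw [this]; exact Dm_id y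

/-! ### Frames -/

theorem mm_m_m' (a : M.A) (y : V4) : mm (M.m a y) (M.m' a y) = oneM :=
  m4_ext fun v => by rw [app_mm, app_one, M.m_m']

theorem mm_m'_m (a : M.A) (y : V4) : mm (M.m' a y) (M.m a y) = oneM :=
  m4_ext fun v => by rw [app_mm, app_one, M.m'_m]

theorem m_coc {a b : M.A} {y : V4} (h : y ∈ M.O a b) :
    M.m a y = mm (M.m b (M.τ a b y)) (M.Dt a b y) := M.m_cocycle a b y h

theorem Dt_eq {a b : M.A} {y : V4} (h : y ∈ M.O a b) :
    M.Dt a b y = mm (M.m' b (M.τ a b y)) (M.m a y) := by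
  rw [M.m_coc h, ← mm_assoc, M.mm_m'_m, one_mm]

theorem det_Dt_pos {a b : M.A} {y : V4} (h : y ∈ M.O a b) : 0 < det4 (M.Dt a b y) := by
  have h1 := M.m_det a y
  rw [M.m_coc h, det4_mm] at h1
  exact (pos_iff_pos_of_mul_pos h1).1 (M.m_det b _)

theorem mm_m_J (a : M.A) (y : V4) : mm (M.m a y) (M.J a y) = mm J0 (M.m a y) :=
  m4_ext fun v => by rw [app_mm, app_mm, M.m_J]

theorem cf_compat (u : X → L2) {a b : M.A} {y : V4} (h : y ∈ M.O a b) :
    M.cf a u y = pull (M.Dt a b y) (M.cf b u (M.τ a b y)) := by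
  unfold cf
  rw [M.ψ_τ h, M.m_coc h, pull_mm]

/-- One-forms are functions `X → V4` (components in the unitary frame); components in chart `a`. -/
noncomputable def cf1 (a : M.A) (η : X → V4) (y : V4) : V4 := copp (η (M.ψ a y)) (M.m a y)

theorem cf1_compat (η : X → V4) {a b : M.A} {y : V4} (h : y ∈ M.O a b) :
    M.cf1 a η y = copp (M.cf1 b η (M.τ a b y)) (M.Dt a b y) := by
  unfold cf1
  rw [M.ψ_τ h, M.m_coc h, copp_mm]

/-- A chart containing `x` in its unit ball. -/
noncomputable def ch (x : X) : M.A := (M.cov x).choose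
/-- Its coordinate. -/
noncomputable def cy (x : X) : V4 := (M.cov x).choose_spec.choose

theorem norm_cy (x : X) : ‖M.cy x‖ < 1 := (M.cov x).choose_spec.choose_spec.1
theorem ψ_cy (x : X) : M.ψ (M.ch x) (M.cy x) = x := (M.cov x).choose_spec.choose_spec.2

theorem mem_O_ch (a : M.A) (y : V4) : y ∈ M.O a (M.ch (M.ψ a y)) :=
  ⟨_, M.ψ_cy _⟩

theorem τ_ch (a : M.A) (y : V4) : M.τ a (M.ch (M.ψ a y)) y = M.cy (M.ψ a y) := by
  apply M.ψ_inj (M.ch (M.ψ a y))
  rw [M.ψ_τ (M.mem_O_ch a y), M.ψ_cy]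

/-- Two-form from a compatible family. -/
noncomputable def glue (f : M.A → V4 → L2) (x : X) : L2 :=
  pull (M.m' (M.ch x) (M.cy x)) (f (M.ch x) (M.cy x))

theorem cf_glue {f : M.A → V4 → L2}
    (hf : ∀ a b y, y ∈ M.O a b → f a y = pull (M.Dt a b y) (f b (M.τ a b y))) (a : M.A) :
    M.cf a (M.glue f) = f a := by
  funext y
  unfold cf glue
  rw [← M.τ_ch, ← pull_mm, ← M.Dt_eq (M.mem_O_ch a y)]
  exact (hf a _ y (M.mem_O_ch a y)).symm

/-- Value in the unitary frame from the value in a chart. -/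
theorem eq_pull_m' (u : X → L2) (a : M.A) (y : V4) :
    u (M.ψ a y) = pull (M.m' a y) (M.cf a u y) := by
  unfold cf
  rw [← pull_mm, M.mm_m_m', pull_one]

theorem eq_copp_m' (u : X → V4) (a : M.A) (y : V4) :
    u (M.ψ a y) = copp (M.cf1 a u y) (M.m' a y) := by
  unfold cf1
  rw [← copp_mm, M.mm_m_m', copp_one]

/-- A form is determined by its components (on the unit balls). -/
theorem ext_cf {u v : X → L2} (h : ∀ a y, ‖y‖ < 1 → M.cf a u y = M.cf a v y) : u = v := by
  funext x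
  have h1 := M.eq_pull_m' u (M.ch x) (M.cy x)
  have h2 := M.eq_pull_m' v (M.ch x) (M.cy x)
  rw [M.ψ_cy] at h1 h2
  rw [h1, h2, h _ _ (M.norm_cy x)]

theorem ext_cf1 {u v : X → V4} (h : ∀ a y, ‖y‖ < 1 → M.cf1 a u y = M.cf1 a v y) : u = v := by
  funext x
  have h1 := M.eq_copp_m' u (M.ch x) (M.cy x)
  have h2 := M.eq_copp_m' v (M.ch x) (M.cy x)
  rw [M.ψ_cy] at h1 h2
  rw [h1, h2, h _ _ (M.norm_cy x)]

theorem cf_add (a : M.A) (u v : X → L2) : M.cf a (u + v) = M.cf a u + M.cf a v := by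
  funext y; exact pull_add _ _ _
theorem cf_sub (a : M.A) (u v : X → L2) : M.cf a (u - v) = M.cf a u - M.cf a v := by
  funext y; exact pull_sub _ _ _
theorem cf_smul (a : M.A) (c : ℝ) (u : X → L2) : M.cf a (c • u) = c • M.cf a u := by
  funext y; exact pull_smul _ _ _
theorem cf_zero (a : M.A) : M.cf a (0 : X → L2) = 0 := by
  funext y; exact pull_zero _
theorem cf1_add (a : M.A) (u v : X → V4) : M.cf1 a (u + v) = M.cf1 a u + M.cf1 a v := by
  funext y; exact copp_add _ _ _
theorem cf1_smul (a : M.A) (c : ℝ) (u : X → V4) : M.cf1 a (c • u) = c • M.cf1 a u := by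
  funext y; exact copp_smul _ _ _
theorem cf1_zero (a : M.A) : M.cf1 a (0 : X → V4) = 0 := by
  funext y; exact copp_zero _
theorem pull_m_J (a : M.A) (y : V4) (B : L2) :
    pull (M.J a y) (pull (M.m a y) B) = pull (M.m a y) (pull J0 B) := by
  rw [← pull_mm, ← pull_mm, M.mm_m_J]

theorem cf_pM (a : M.A) (u : X → L2) (y : V4) :
    M.cf a (fun x => pM J0 (u x)) y = pM (M.J a y) (M.cf a u y) := by
  unfold cf pM
  rw [pull_smul, pull_sub, M.pull_m_J]

theorem cf_pP (a : M.A) (u : X → L2) (y : V4) :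
    M.cf a (fun x => pP J0 (u x)) y = pP (M.J a y) (M.cf a u y) := by
  unfold cf pP
  rw [pull_smul, pull_add, M.pull_m_J]

/-! ### Gluing principle -/

/-- A function on the chart `a` which is smooth over the chart `c` and vanishes
outside a compact subset of the chart `c` is smooth. -/
theorem contDiff_of_ext {E : Type*} [NormedAddCommGroup E] [NormedSpace ℝ E]
    (a c : M.A) {K : Set V4} (hK : IsCompact K) {F : V4 → E}
    (h1 : ∀ y ∈ M.O a c, ContDiffAt ℝ ∞ F y)
    (h0 : ∀ y, M.ψ a y ∉ M.ψ c '' K → F y = 0) : ContDiff ℝ ∞ F := by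
  rw [contDiff_iff_contDiffAt]
  intro y
  by_cases hy : y ∈ M.O a c
  · exact h1 y hy
  · have hcl : IsClosed (M.ψ c '' K) := (hK.image (M.continuous_ψ c)).isClosed
    have hopen : IsOpen {z | M.ψ a z ∉ M.ψ c '' K} :=
      (hcl.isOpen_compl).preimage (M.continuous_ψ a)
    have hmem : y ∈ {z | M.ψ a z ∉ M.ψ c '' K} := by
      intro hz
      obtain ⟨w, -, hw⟩ := hz
      exact hy ⟨w, hw⟩
    have heq : F =ᶠ[𝓝 y] fun _ => 0 := by
      filter_upwards [hopen.mem_nhds hmem] with z hz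
      exact h0 z hz
    exact contDiffAt_const.congr_of_eventuallyEq heq

/-! ### Extension of functions -/

open Classical in
/-- Extension by zero of a function on the chart `c`. -/
noncomputable def ext0 (c : M.A) (g : V4 → ℝ) (x : X) : ℝ :=
  if x ∈ range (M.ψ c) then g (M.inv c x) else 0

/-- Smooth functions. -/
def Sm0 (f : X → ℝ) : Prop := ∀ a, ContDiff ℝ ∞ (fun y => f (M.ψ a y))

open Classical in
theorem ext0_ψ (c : M.A) (g : V4 → ℝ) (a : M.A) (y : V4) :
    M.ext0 c g (M.ψ a y) = if y ∈ M.O a c then g (M.τ a c y) else 0 := by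
  unfold ext0
  by_cases h : y ∈ M.O a c
  · have h' : M.ψ a y ∈ range (M.ψ c) := h
    rw [if_pos h', if_pos h, M.τ_eq_inv h]
  · have h' : M.ψ a y ∉ range (M.ψ c) := h
    rw [if_neg h', if_neg h]

theorem ext0_ψ_self (c : M.A) (g : V4 → ℝ) (y : V4) : M.ext0 c g (M.ψ c y) = g y := by
  rw [ext0_ψ, if_pos (M.mem_O_self c y), M.τ_self]

theorem ext0_nonneg (c : M.A) {g : V4 → ℝ} (hg : ∀ y, 0 ≤ g y) (x : X) : 0 ≤ M.ext0 c g x := by
  unfold ext0; split_ifs
  · exact hg _
  · exact le_refl _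

theorem ext0_eq_zero (c : M.A) {g : V4 → ℝ} {x : X} {K : Set V4} (hg : ∀ y ∉ K, g y = 0)
    (hx : x ∉ M.ψ c '' K) : M.ext0 c g x = 0 := by
  unfold ext0; split_ifs with h
  · apply hg
    intro hm
    exact hx ⟨_, hm, M.ψ_inv h⟩
  · rfl

theorem sm0_ext0 (c : M.A) {g : V4 → ℝ} (hg : ContDiff ℝ ∞ g)
    (hc : HasCompactSupport g) : M.Sm0 (M.ext0 c g) := by
  intro a
  refine M.contDiff_of_ext a c hc (K := tsupport g) ?_ ?_
  · intro y hy
    have h1 : ContDiffAt ℝ ∞ (fun z => g (M.τ a c z)) y :=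
      hg.contDiffAt.comp y (M.contDiffAt_τ hy)
    refine h1.congr_of_eventuallyEq ?_
    filter_upwards [(M.isOpen_O a c).mem_nhds hy] with z hz
    rw [ext0_ψ, if_pos hz]
  · intro y hy
    exact M.ext0_eq_zero c (fun z hz => image_eq_zero_of_notMem_tsupport hz) hy

theorem Sm0.div {f g : X → ℝ} (hf : M.Sm0 f) (hg : M.Sm0 g) (h : ∀ x, g x ≠ 0) :
    M.Sm0 (fun x => f x / g x) := fun a => (hf a).div (hg a) fun _ => h _

end CM

/-! ### Cut-off functions -/

/-- `= 1` on the closed unit ball, supported in the ball of radius 2. -/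
noncomputable def chi : ContDiffBump (0 : V4) := ⟨1, 2, one_pos, one_lt_two⟩
/-- `= 1` on the closed ball of radius 4, supported in the ball of radius 5. -/
noncomputable def theta : ContDiffBump (0 : V4) := ⟨4, 5, by norm_num, by norm_num⟩

namespace CM
variable {X : Type} [MetricSpace X] (M : CM X)

/-- Denominator of the partition of unity. -/
noncomputable def sig (x : X) : ℝ := ∑ a, M.ext0 a chi x

/-- The partition of unity. -/
noncomputable def zeta (a : M.A) (x : X) : ℝ := M.ext0 a chi x / M.sig x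

theorem sig_ge (x : X) : 1 ≤ M.sig x := by
  obtain ⟨a, y, hy, rfl⟩ := M.cov x
  have h1 : M.ext0 a chi (M.ψ a y) = 1 := by
    rw [ext0_ψ_self]
    exact chi.one_of_mem_closedBall (by rw [mem_closedBall_zero_iff]; exact hy.le)
  rw [← h1]
  exact Finset.single_le_sum (f := fun b => M.ext0 b chi (M.ψ a y))
    (fun b _ => M.ext0_nonneg b (fun _ => chi.nonneg) _) (Finset.mem_univ a)

theorem sum_zeta (x : X) : ∑ a, M.zeta a x = 1 := by
  unfold zeta
  rw [← Finset.sum_div]
  exact div_self (by have := M.sig_ge x; unfold sig at this; linarith)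

theorem zeta_nonneg (a : M.A) (x : X) : 0 ≤ M.zeta a x :=
  div_nonneg (M.ext0_nonneg a (fun _ => chi.nonneg) _) (by have := M.sig_ge x; linarith)

theorem zeta_le_one (a : M.A) (x : X) : M.zeta a x ≤ 1 := by
  rw [← M.sum_zeta x]
  exact Finset.single_le_sum (f := fun b => M.zeta b x) (fun b _ => M.zeta_nonneg b x)
    (Finset.mem_univ a)

theorem zeta_eq_zero (a : M.A) {x : X} (hx : x ∉ M.ψ a '' Metric.ball 0 2) :
    M.zeta a x = 0 := by
  unfold zeta
  rw [M.ext0_eq_zero a (K := Metric.ball 0 2) (fun y hy => ?_) hx, zero_div]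
  have h1 : y ∉ Function.support chi := by rw [chi.support_eq]; exact hy
  exact Function.notMem_support.1 h1

theorem sm0_zeta (a : M.A) : M.Sm0 (M.zeta a) := by
  unfold zeta
  refine Sm0.div M (M.sm0_ext0 a chi.contDiff chi.hasCompactSupport) ?_
    (fun x => by have := M.sig_ge x; linarith only [this])
  intro b
  unfold sig
  exact ContDiff.sum fun c _ => M.sm0_ext0 c chi.contDiff chi.hasCompactSupport b

/-- The partition function in its chart. -/
noncomputable def zl (a : M.A) (y : V4) : ℝ := M.zeta a (M.ψ a y)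

theorem contDiff_zl (a : M.A) : ContDiff ℝ ∞ (M.zl a) := M.sm0_zeta a a

theorem zl_nonneg (a : M.A) (y : V4) : 0 ≤ M.zl a y := M.zeta_nonneg _ _

theorem zl_eq_zero (a : M.A) {y : V4} (hy : y ∉ Metric.ball (0 : V4) 2) : M.zl a y = 0 := by
  refine M.zeta_eq_zero a ?_
  rintro ⟨z, hz, h⟩
  rw [M.ψ_inj a h] at hz
  exact hy hz

theorem hasCompactSupport_zl (a : M.A) : HasCompactSupport (M.zl a) :=
  HasCompactSupport.intro (isCompact_closedBall (0 : V4) 2) fun y hy =>
    M.zl_eq_zero a fun h => hy (Metric.ball_subset_closedBall h)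

/-! ### Extension of forms -/

theorem ext_ψ_self (c : M.A) (γ : V4 → L2) (y : V4) :
    M.ext c γ (M.ψ c y) = pull (M.m' c y) (γ y) := by
  unfold ext
  rw [dif_pos (mem_range_self y)]
  have h : (mem_range_self (f := M.ψ c) y).choose = y :=
    M.ψ_inj c (mem_range_self (f := M.ψ c) y).choose_spec
  rw [h]

theorem ext_of_notMem (c : M.A) (γ : V4 → L2) {x : X} (h : x ∉ range (M.ψ c)) :
    M.ext c γ x = 0 := by
  unfold ext
  rw [dif_neg h]

open Classical in
/-- Extension by zero of one-forms. -/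
noncomputable def ext1 (c : M.A) (γ : V4 → V4) (x : X) : V4 :=
  if x ∈ range (M.ψ c) then copp (γ (M.inv c x)) (M.m' c (M.inv c x)) else 0

open Classical in
theorem cf_ext (c : M.A) (γ : V4 → L2) (a : M.A) (y : V4) :
    M.cf a (M.ext c γ) y = if y ∈ M.O a c then pull (M.Dt a c y) (γ (M.τ a c y)) else 0 := by
  by_cases h : y ∈ M.O a c
  · rw [if_pos h]
    unfold cf
    rw [← M.ψ_τ h, M.ext_ψ_self, ← pull_mm, M.Dt_eq h]
  · have h' : M.ψ a y ∉ range (M.ψ c) := h
    rw [if_neg h]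
    unfold cf
    rw [M.ext_of_notMem c γ h', pull_zero]

open Classical in
theorem cf1_ext1 (c : M.A) (γ : V4 → V4) (a : M.A) (y : V4) :
    M.cf1 a (M.ext1 c γ) y = if y ∈ M.O a c then copp (γ (M.τ a c y)) (M.Dt a c y) else 0 := by
  by_cases h : y ∈ M.O a c
  · have h' : M.ψ a y ∈ range (M.ψ c) := h
    rw [if_pos h]
    unfold cf1 ext1
    rw [if_pos h', ← copp_mm, ← M.τ_eq_inv h, M.Dt_eq h]
  · have h' : M.ψ a y ∉ range (M.ψ c) := h
    rw [if_neg h]
    unfold cf1 ext1
    rw [if_neg h', copp_zero]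

theorem cf_ext_self (c : M.A) (γ : V4 → L2) : M.cf c (M.ext c γ) = γ := by
  funext y
  rw [cf_ext, if_pos (M.mem_O_self c y), M.τ_self, M.Dt_self, pull_one]

theorem cf1_ext1_self (c : M.A) (γ : V4 → V4) : M.cf1 c (M.ext1 c γ) = γ := by
  funext y
  rw [cf1_ext1, if_pos (M.mem_O_self c y), M.τ_self, M.Dt_self, copp_one]

theorem ext_mem_Om' (c : M.A) {γ : V4 → L2} (hγ : ContDiff ℝ ∞ γ)
    (hc : HasCompactSupport γ) : M.ext c γ ∈ M.Om := by
  intro a
  refine M.contDiff_of_ext a c hc (K := tsupport γ) ?_ ?_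
  · intro y hy
    have h1 : ContDiffAt ℝ ∞ (fun z => pull (M.Dt a c z) (γ (M.τ a c z))) y :=
      contDiffAt_pull (M.contDiffAt_Dt hy) (hγ.contDiffAt.comp y (M.contDiffAt_τ hy))
    refine h1.congr_of_eventuallyEq ?_
    filter_upwards [(M.isOpen_O a c).mem_nhds hy] with z hz
    rw [cf_ext, if_pos hz]
  · intro y hy
    rw [cf_ext]
    split_ifs with h
    · have : γ (M.τ a c y) = 0 := by
        apply image_eq_zero_of_notMem_tsupport
        intro hm
        exact hy ⟨_, hm, M.ψ_τ h⟩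
      rw [this, pull_zero]
    · rfl

/-- Smooth one-forms. -/
def Sm1 (u : X → V4) : Prop := ∀ a, ContDiff ℝ ∞ (M.cf1 a u)

theorem sm1_ext1 (c : M.A) {γ : V4 → V4} (hγ : ContDiff ℝ ∞ γ)
    (hc : HasCompactSupport γ) : M.Sm1 (M.ext1 c γ) := by
  intro a
  refine M.contDiff_of_ext a c hc (K := tsupport γ) ?_ ?_
  · intro y hy
    have h1 : ContDiffAt ℝ ∞ (fun z => copp (γ (M.τ a c z)) (M.Dt a c z)) y :=
      contDiffAt_copp (M.contDiffAt_Dt hy) (hγ.contDiffAt.comp y (M.contDiffAt_τ hy))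
    refine h1.congr_of_eventuallyEq ?_
    filter_upwards [(M.isOpen_O a c).mem_nhds hy] with z hz
    rw [cf1_ext1, if_pos hz]
  · intro y hy
    rw [cf1_ext1]
    split_ifs with h
    · have : γ (M.τ a c y) = 0 := by
        apply image_eq_zero_of_notMem_tsupport
        intro hm
        exact hy ⟨_, hm, M.ψ_τ h⟩
      rw [this, copp_zero]
    · rfl

/-- Localisation of a form in chart `a` by the partition of unity. -/
noncomputable def cut (u : X → L2) (a : M.A) (y : V4) : L2 := M.zl a y • M.cf a u y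
noncomputable def cut1 (u : X → V4) (a : M.A) (y : V4) : V4 := M.zl a y • M.cf1 a u y

theorem ext_cut (u : X → L2) (a : M.A) (x : X) : M.ext a (M.cut u a) x = M.zeta a x • u x := by
  by_cases h : x ∈ range (M.ψ a)
  · obtain ⟨y, rfl⟩ := h
    rw [M.ext_ψ_self, M.eq_pull_m' u a y]
    unfold cut
    rw [pull_smul]; rfl
  · rw [M.ext_of_notMem a _ h, M.zeta_eq_zero a, zero_smul]
    rintro ⟨z, -, hz⟩
    exact h ⟨z, hz⟩

theorem ext1_cut1 (u : X → V4) (a : M.A) (x : X) :
    M.ext1 a (M.cut1 u a) x = M.zeta a x • u x := by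
  unfold ext1
  split_ifs with h
  · unfold cut1
    rw [copp_smul]
    have h1 := M.eq_copp_m' u a (M.inv a x)
    rw [M.ψ_inv h] at h1
    rw [← h1]
    unfold CM.zl
    rw [M.ψ_inv h]
  · rw [M.zeta_eq_zero a, zero_smul]
    rintro ⟨z, -, hz⟩
    exact h ⟨z, hz⟩

theorem sum_ext_cut (u : X → L2) : ∑ a, M.ext a (M.cut u a) = u := by
  funext x
  rw [Finset.sum_apply]
  simp only [M.ext_cut]
  rw [← Finset.sum_smul, M.sum_zeta, one_smul]

theorem sum_ext1_cut1 (u : X → V4) : ∑ a, M.ext1 a (M.cut1 u a) = u := by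
  funext x
  rw [Finset.sum_apply]
  simp only [M.ext1_cut1]
  rw [← Finset.sum_smul, M.sum_zeta, one_smul]

theorem contDiff_cut {u : X → L2} (hu : u ∈ M.Om) (a : M.A) :
    ContDiff ℝ ∞ (M.cut u a) := (M.contDiff_zl a).smul (hu a)

theorem contDiff_cut1 {u : X → V4} (hu : M.Sm1 u) (a : M.A) :
    ContDiff ℝ ∞ (M.cut1 u a) := (M.contDiff_zl a).smul (hu a)

theorem hasCompactSupport_cut (u : X → L2) (a : M.A) : HasCompactSupport (M.cut u a) :=
  (M.hasCompactSupport_zl a).smul_right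

theorem hasCompactSupport_cut1 (u : X → V4) (a : M.A) : HasCompactSupport (M.cut1 u a) :=
  (M.hasCompactSupport_zl a).smul_right

end CM

end Vale.Agent.P204K.GX
end

section

open scoped BigOperators ContDiff Topology
open MeasureTheory Set

namespace Vale.Agent.P204K.GX
open T4

/-! ### Partial derivatives -/

theorem pd_add {f g : V4 → ℝ} {x : V4} (hf : DifferentiableAt ℝ f x) (hg : DifferentiableAt ℝ g x)
    (i : Fin 4) : pd i (fun y => f y + g y) x = pd i f x + pd i g x := by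
  unfold pd; rw [fderiv_fun_add hf hg]; rfl

theorem pd_sub {f g : V4 → ℝ} {x : V4} (hf : DifferentiableAt ℝ f x) (hg : DifferentiableAt ℝ g x)
    (i : Fin 4) : pd i (fun y => f y - g y) x = pd i f x - pd i g x := by
  unfold pd; rw [fderiv_fun_sub hf hg]; rfl

theorem pd_mul {f g : V4 → ℝ} {x : V4} (hf : DifferentiableAt ℝ f x) (hg : DifferentiableAt ℝ g x)
    (i : Fin 4) : pd i (fun y => f y * g y) x = f x * pd i g x + pd i f x * g x := by
  unfold pd; rw [fderiv_fun_mul hf hg]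
  show f x * (fderiv ℝ g x (Pi.single i 1)) + g x * (fderiv ℝ f x (Pi.single i 1)) = _
  ring

theorem pd_const_mul {f : V4 → ℝ} {x : V4} (hf : DifferentiableAt ℝ f x) (c : ℝ)
    (i : Fin 4) : pd i (fun y => c * f y) x = c * pd i f x := by
  unfold pd; rw [fderiv_const_mul hf]; rfl

theorem pd_const (c : ℝ) (x : V4) (i : Fin 4) : pd i (fun _ => c) x = 0 := by
  unfold pd; simp only [fderiv_fun_const, Pi.zero_apply, zero_apply]

theorem pd_sum {ι : Type*} {s : Finset ι} {f : ι → V4 → ℝ} {x : V4}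
    (hf : ∀ k ∈ s, DifferentiableAt ℝ (f k) x) (i : Fin 4) :
    pd i (fun y => ∑ k ∈ s, f k y) x = ∑ k ∈ s, pd i (f k) x := by
  unfold pd
  rw [fderiv_fun_sum hf]
  simp only [sum_apply]

theorem pd_congr {f g : V4 → ℝ} {x : V4} (h : f =ᶠ[𝓝 x] g) (i : Fin 4) : pd i f x = pd i g x := by
  unfold pd; rw [h.fderiv_eq]

/-- Chain rule for partial derivatives. -/
theorem pd_comp {f : V4 → ℝ} {τ : V4 → V4} {x : V4} (hf : DifferentiableAt ℝ f (τ x))
    (hτ : DifferentiableAt ℝ τ x) (i : Fin 4) :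
    pd i (fun y => f (τ y)) x = ∑ l, pd l f (τ x) * Dm τ x l i := by
  have h1 : fderiv ℝ (fun y => f (τ y)) x = (fderiv ℝ f (τ x)).comp (fderiv ℝ τ x) :=
    fderiv_comp x hf hτ
  have h2 : (fderiv ℝ τ x) (Pi.single i 1) = ∑ l, Dm τ x l i • (Pi.single l (1 : ℝ) : V4) := by
    funext k
    simp only [Dm_eq hτ, Finset.sum_apply, Pi.smul_apply, Pi.single_apply, smul_eq_mul, mul_ite, mul_one, mul_zero, Finset.sum_ite_eq, Finset.mem_univ, ↓reduceIte]
  unfold pd
  rw [h1, ContinuousLinearMap.comp_apply, h2, map_sum]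
  refine Finset.sum_congr rfl fun l _ => ?_
  rw [map_smul, smul_eq_mul, mul_comm]

theorem pd_symm {f : V4 → ℝ} {x : V4} (hf : ContDiffAt ℝ ∞ f x) (i j : Fin 4) :
    pd i (pd j f) x = pd j (pd i f) x := by
  have hd : ContDiffAt ℝ ∞ (fderiv ℝ f) x := hf.fderiv_right (by simp)
  have hdd : DifferentiableAt ℝ (fderiv ℝ f) x := hd.differentiableAt (by simp)
  have key : ∀ i j : Fin 4, pd i (pd j f) x
      = fderiv ℝ (fderiv ℝ f) x (Pi.single i 1) (Pi.single j 1) := by
    intro i j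
    unfold pd
    have h3 : HasFDerivAt (fun y => fderiv ℝ f y (Pi.single j (1 : ℝ)))
        ((ContinuousLinearMap.apply ℝ ℝ (Pi.single j (1 : ℝ))).comp (fderiv ℝ (fderiv ℝ f) x)) x :=
      (ContinuousLinearMap.apply ℝ ℝ (Pi.single j (1 : ℝ) : V4)).hasFDerivAt.comp x
        hdd.hasFDerivAt
    rw [h3.fderiv]; rfl
  rw [key, key]
  have hs : IsSymmSndFDerivAt ℝ f x := hf.isSymmSndFDerivAt (by
    simp only [minSmoothness_of_isRCLikeNormedField]
    exact WithTop.coe_le_coe.2 (show (2 : ℕ∞) ≤ ⊤ from le_top))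
  exact hs _ _

/-! ### Components -/

theorem ent_add (A B : L2) (k l : Fin 4) : ent (A + B) k l = ent A k l + ent B k l := by
  fin_cases k <;> fin_cases l <;> simp only [ent, Fin.isValue, Pi.add_apply, neg_add_rev, Fin.zero_eta, Matrix.cons_val', Matrix.cons_val_zero, Matrix.cons_val_fin_one, add_zero, Fin.mk_one, Matrix.cons_val_one, Fin.reduceFinMk, Matrix.cons_val] <;> ring

theorem ent_smul (c : ℝ) (A : L2) (k l : Fin 4) : ent (c • A) k l = c * ent A k l := by
  fin_cases k <;> fin_cases l <;> simp only [ent, Fin.isValue, Pi.smul_apply, smul_eq_mul, Fin.zero_eta, Matrix.cons_val', Matrix.cons_val_zero, Matrix.cons_val_fin_one, mul_zero, Fin.mk_one, Matrix.cons_val_one, Fin.reduceFinMk, Matrix.cons_val, mul_neg]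

theorem ent_zero (k l : Fin 4) : ent (0 : L2) k l = 0 := by
  fin_cases k <;> fin_cases l <;> simp only [ent, Pi.zero_apply, neg_zero, Fin.zero_eta, Fin.isValue, Matrix.cons_val', Matrix.cons_val_zero, Matrix.cons_val_fin_one, Fin.mk_one, Matrix.cons_val_one, Fin.reduceFinMk, Matrix.cons_val]

theorem ent_swap (A : L2) (k l : Fin 4) : ent A k l = - ent A l k := by
  fin_cases k <;> fin_cases l <;> simp only [ent, Fin.isValue, Fin.zero_eta, Matrix.cons_val', Matrix.cons_val_zero, Matrix.cons_val_fin_one, neg_zero, Fin.mk_one, Matrix.cons_val_one, neg_neg, Fin.reduceFinMk, Matrix.cons_val]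

/-- entries of the form with antisymmetric matrix. -/
theorem ent_ofEnt {P : M4} (hP : ∀ i j, P i j = - P j i) (k l : Fin 4) :
    ent (ofEnt P) k l = P k l := by
  have h0 : ∀ i, P i i = 0 := fun i => by have := hP i i; linarith only [this]
  fin_cases k <;> fin_cases l <;> simp only [ent, ofEnt, Fin.isValue, Matrix.cons_val_zero, Matrix.cons_val_one, Matrix.cons_val, Fin.zero_eta, Matrix.cons_val', Matrix.cons_val_fin_one, Fin.mk_one, Fin.reduceFinMk]
  · exact (h0 0).symm
  · rw [hP 1 0]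
  · exact (h0 1).symm
  · rw [hP 2 0]
  · rw [hP 2 1]
  · exact (h0 2).symm
  · rw [hP 3 0]
  · rw [hP 3 1]
  · rw [hP 3 2]
  · exact (h0 3).symm

theorem ofEnt_ent (A : L2) : ofEnt (ent A) = A := by
  funext i; fin_cases i <;> simp only [ofEnt, ent, Fin.isValue, Matrix.cons_val', Matrix.cons_val_one, Matrix.cons_val_zero, Matrix.cons_val_fin_one, Matrix.cons_val, Fin.zero_eta, Fin.mk_one, Fin.reduceFinMk]

theorem ofEnt_congr {P R : M4} (h : ∀ i j, P i j = R i j) : ofEnt P = ofEnt R := by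
  have : P = R := by funext i j; exact h i j
  rw [this]

theorem ent_d1 (a : V4 → V4) (x : V4) (k l : Fin 4) :
    ent (d1 a x) k l = pd k (fun y => a y l) x - pd l (fun y => a y k) x := by
  unfold d1
  rw [ent_ofEnt]
  intro i j; ring

theorem differentiableAt_ent {α : V4 → L2} {x : V4} (h : DifferentiableAt ℝ α x) (k l : Fin 4) :
    DifferentiableAt ℝ (fun y => ent (α y) k l) x :=
  ((contDiff_ent k l).differentiable (by simp)).differentiableAt.comp x h

theorem closed_zero : Closed (0 : V4 → L2) := by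
  intro x i j k
  have h : ∀ k l : Fin 4, (fun y : V4 => ent ((0 : V4 → L2) y) k l) = fun _ => 0 := fun k l => by
    funext y; exact ent_zero k l
  simp only [h, pd_const, add_zero]

theorem Closed_add {α β : V4 → L2} (ha : Closed α) (hb : Closed β) (hda : Differentiable ℝ α)
    (hdb : Differentiable ℝ β) : Closed (α + β) := by
  intro x i j k
  have h : ∀ i k l : Fin 4, pd i (fun y : V4 => ent ((α + β) y) k l) x
      = pd i (fun y => ent (α y) k l) x + pd i (fun y => ent (β y) k l) x := fun i k l => by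
    have : (fun y : V4 => ent ((α + β) y) k l) = fun y => ent (α y) k l + ent (β y) k l := by
      funext y; exact ent_add _ _ _ _
    rw [this]
    exact pd_add (differentiableAt_ent (hda x) k l) (differentiableAt_ent (hdb x) k l) i
  rw [h, h, h]
  have h1 := ha x i j k
  have h2 := hb x i j k
  linarith

theorem Closed_smul (c : ℝ) {α : V4 → L2} (ha : Closed α) (hda : Differentiable ℝ α) :
    Closed (c • α) := by
  intro x i j k
  have h : ∀ i k l : Fin 4, pd i (fun y : V4 => ent ((c • α) y) k l) x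
      = c * pd i (fun y => ent (α y) k l) x := fun i k l => by
    have : (fun y : V4 => ent ((c • α) y) k l) = fun y => c * ent (α y) k l := by
      funext y; exact ent_smul _ _ _ _
    rw [this]
    exact pd_const_mul (differentiableAt_ent (hda x) k l) c i
  rw [h, h, h]
  have h1 := ha x i j k
  linear_combination c * h1

theorem closed_d1 {a : V4 → V4} (ha : ContDiff ℝ ∞ a) : Closed (d1 a) := by
  intro x i j k
  have hs : ∀ j : Fin 4, ContDiff ℝ ∞ (fun y => a y j) := fun j => (contDiff_pi.1 ha) j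
  have h : ∀ i k l : Fin 4, pd i (fun y : V4 => ent (d1 a y) k l) x
      = pd i (pd k (fun y => a y l)) x - pd i (pd l (fun y => a y k)) x := fun i k l => by
    have : (fun y : V4 => ent (d1 a y) k l)
        = fun y => pd k (fun z => a z l) y - pd l (fun z => a z k) y := by
      funext y; exact ent_d1 a y k l
    rw [this]
    exact pd_sub ((contDiff_pd (hs l) k).differentiable (by simp) x)
      ((contDiff_pd (hs k) l).differentiable (by simp) x) i
  rw [h, h, h, pd_symm (hs k).contDiffAt i j, pd_symm (hs j).contDiffAt i k,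
    pd_symm (hs i).contDiffAt j k]
  ring

theorem d1_add {a b : V4 → V4} (ha : Differentiable ℝ a) (hb : Differentiable ℝ b) (x : V4) :
    d1 (a + b) x = d1 a x + d1 b x := by
  rw [← ofEnt_ent (d1 (a + b) x), ← ofEnt_ent (d1 a x + d1 b x)]
  apply ofEnt_congr; intro i j
  rw [ent_add, ent_d1, ent_d1, ent_d1]
  have h : ∀ i j : Fin 4, pd i (fun y => (a + b) y j) x
      = pd i (fun y => a y j) x + pd i (fun y => b y j) x := fun i j =>
    pd_add (differentiableAt_pi.1 (ha x) j) (differentiableAt_pi.1 (hb x) j) i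
  rw [h, h]; ring

theorem d1_smul (c : ℝ) {a : V4 → V4} (ha : Differentiable ℝ a) (x : V4) :
    d1 (c • a) x = c • d1 a x := by
  rw [← ofEnt_ent (d1 (c • a) x), ← ofEnt_ent (c • d1 a x)]
  apply ofEnt_congr; intro i j
  rw [ent_smul, ent_d1, ent_d1]
  have h : ∀ i j : Fin 4, pd i (fun y => (c • a) y j) x = c * pd i (fun y => a y j) x :=
    fun i j => pd_const_mul (differentiableAt_pi.1 (ha x) j) c i
  rw [h, h]; ring

theorem d1_congr {a b : V4 → V4} {x : V4} (h : a =ᶠ[𝓝 x] b) : d1 a x = d1 b x := by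
  unfold d1
  apply ofEnt_congr; intro i j
  have h' : ∀ j : Fin 4, (fun y => a y j) =ᶠ[𝓝 x] (fun y => b y j) := fun j =>
    h.fun_comp (fun w : V4 => w j)
  rw [pd_congr (h' j), pd_congr (h' i)]

theorem d1_zero (x : V4) : d1 (fun _ => 0) x = 0 := by
  rw [← ofEnt_ent (d1 (fun _ => 0) x), ← ofEnt_ent (0 : L2)]
  apply ofEnt_congr; intro i j
  rw [ent_d1, ent_zero]
  have : ∀ i j : Fin 4, pd i (fun _ : V4 => (0 : V4) j) x = 0 := fun i j => pd_const _ _ _
  rw [this, this]; ring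

theorem hasCompactSupport_d1 {a : V4 → V4} (ha : HasCompactSupport a) :
    HasCompactSupport (d1 a) := by
  refine HasCompactSupport.intro (K := tsupport a) ha fun x hx => ?_
  have h : a =ᶠ[𝓝 x] fun _ => 0 := notMem_tsupport_iff_eventuallyEq.1 hx
  rw [d1_congr h, d1_zero]

/-- Naturality of `d1` under pull back. -/
theorem d1_pull {a τ : V4 → V4} {x : V4} (ha : DifferentiableAt ℝ a (τ x))
    (hτ : ContDiffAt ℝ ∞ τ x) :
    d1 (fun y => copp (a (τ y)) (Dm τ y)) x = pull (Dm τ x) (d1 a (τ x)) := by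
  have hτd : DifferentiableAt ℝ τ x := hτ.differentiableAt (by simp)
  have hτk : ∀ k : Fin 4, ContDiffAt ℝ ∞ (fun y => τ y k) x := fun k => (contDiffAt_pi.1 hτ) k
  have hak : ∀ k : Fin 4, DifferentiableAt ℝ (fun y => a y k) (τ x) := fun k =>
    differentiableAt_pi.1 ha k
  have hp : ∀ i j : Fin 4, pd i (fun y => copp (a (τ y)) (Dm τ y) j) x
      = ∑ k, (a (τ x) k * pd i (pd j (fun y => τ y k)) x
        + (∑ l, pd l (fun y => a y k) (τ x) * Dm τ x l i) * Dm τ x k j) := by
    intro i j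
    unfold copp
    have hd1 : ∀ k : Fin 4, DifferentiableAt ℝ (fun y => a (τ y) k) x := fun k =>
      (hak k).comp x hτd
    have hd2 : ∀ k : Fin 4, DifferentiableAt ℝ (fun y => Dm τ y k j) x := fun k =>
      (contDiffAt_pd (hτk k) j).differentiableAt (by simp)
    rw [pd_sum (fun k _ => (hd1 k).fun_mul (hd2 k))]
    refine Finset.sum_congr rfl fun k _ => ?_
    rw [pd_mul (hd1 k) (hd2 k), pd_comp (f := fun y => a y k) (hak k) hτd]
    rfl
  unfold pull
  rw [← ofEnt_ent (d1 (fun y => copp (a (τ y)) (Dm τ y)) x)]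
  apply ofEnt_congr; intro i j
  rw [ent_d1, hp, hp]
  simp only [ent_d1]
  have hsy : ∀ k : Fin 4, pd i (pd j (fun y => τ y k)) x = pd j (pd i (fun y => τ y k)) x :=
    fun k => pd_symm (hτk k) i j
  simp only [hsy]
  simp only [Fin.sum_univ_four]
  ring

end Vale.Agent.P204K.GX
end

section

open MeasureTheory Set
open scoped ContDiff

namespace Vale.Agent.P204K.GX
open T4

namespace CM
variable {X : Type} [MetricSpace X] (M : CM X)

/-- smooth compactly supported one-form on a chart -/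
def TF1 (η : V4 → V4) : Prop := ContDiff ℝ ∞ η ∧ HasCompactSupport η

/-- smooth closed forms -/
def Cl : Submodule ℝ M.Om where
  carrier := {u | ∀ a, Closed (M.cf a u)}
  add_mem' := by
    intro u v hu hv a
    have h : M.cf a ((u + v : M.Om) : X → L2) = M.cf a u + M.cf a v := M.cf_add a _ _
    rw [h]
    exact Closed_add (hu a) (hv a) ((u.2 a).differentiable (by simp))
      ((v.2 a).differentiable (by simp))
  zero_mem' := by
    intro a
    have h : M.cf a ((0 : M.Om) : X → L2) = 0 := M.cf_zero a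
    rw [h]; exact closed_zero
  smul_mem' := by
    intro c u hu a
    have h : M.cf a ((c • u : M.Om) : X → L2) = c • M.cf a u := M.cf_smul a c _
    rw [h]
    exact Closed_smul c (hu a) ((u.2 a).differentiable (by simp))

theorem ext_mem_Om (a : M.A) {γ : V4 → L2} (h : ContDiff ℝ ∞ γ) (hc : HasCompactSupport γ) :
    M.ext a γ ∈ M.Om := M.ext_mem_Om' a h hc

theorem d1_smooth {η : V4 → V4} (h : TF1 η) : ContDiff ℝ ∞ (d1 η) := contDiff_d1 h.1
theorem d1_support {η : V4 → V4} (h : TF1 η) : HasCompactSupport (d1 η) := hasCompactSupport_d1 h.2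

/-- exact forms: span of the extensions of `d1 η`, `η` compactly supported in a chart -/
def Ex : Submodule ℝ M.Om := Submodule.span ℝ
  {u | ∃ (a : M.A) (η : V4 → V4) (h : TF1 η),
    u = ⟨M.ext a (d1 η), M.ext_mem_Om a (d1_smooth h) (d1_support h)⟩}

/-- Exterior derivative of smooth one-forms. -/
noncomputable def dX (η : X → V4) : X → L2 := M.glue fun a => d1 (M.cf1 a η)

theorem cf_dX {η : X → V4} (h : M.Sm1 η) (a : M.A) : M.cf a (M.dX η) = d1 (M.cf1 a η) := by
  apply M.cf_glue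
  intro a b y hy
  have hc : (fun z => M.cf1 a η z) =ᶠ[nhds y]
      fun z => copp (M.cf1 b η (M.τ a b z)) (Dm (M.τ a b) z) := by
    filter_upwards [(M.isOpen_O a b).mem_nhds hy] with z hz
    exact M.cf1_compat η hz
  rw [d1_congr hc]
  exact d1_pull ((h b).differentiable (by simp) _) (M.contDiffAt_τ hy)

theorem dX_mem_Om {η : X → V4} (h : M.Sm1 η) : M.dX η ∈ M.Om := by
  intro a; rw [M.cf_dX h]; exact contDiff_d1 (h a)

theorem dX_add {η ξ : X → V4} (h : M.Sm1 η) (h' : M.Sm1 ξ) : M.dX (η + ξ) = M.dX η + M.dX ξ := by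
  have hs : M.Sm1 (η + ξ) := fun a => by rw [M.cf1_add]; exact (h a).add (h' a)
  apply M.ext_cf; intro a y _
  rw [M.cf_add, M.cf_dX hs, M.cf_dX h, M.cf_dX h', M.cf1_add]
  exact d1_add ((h a).differentiable (by simp)) ((h' a).differentiable (by simp)) y

theorem dX_smul (c : ℝ) {η : X → V4} (h : M.Sm1 η) : M.dX (c • η) = c • M.dX η := by
  have hs : M.Sm1 (c • η) := fun a => by rw [M.cf1_smul]; exact (h a).const_smul c
  apply M.ext_cf; intro a y _
  rw [M.cf_smul, M.cf_dX hs, M.cf_dX h, M.cf1_smul]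
  exact d1_smul c ((h a).differentiable (by simp)) y

theorem dX_ext1 (c : M.A) {γ : V4 → V4} (h : ContDiff ℝ ∞ γ) (hc : HasCompactSupport γ) :
    M.dX (M.ext1 c γ) = M.ext c (d1 γ) := by
  have hs := M.sm1_ext1 c h hc
  apply M.ext_cf; intro a y _
  rw [M.cf_dX hs]
  have hcc : HasCompactSupport (d1 γ) := hasCompactSupport_d1 hc
  by_cases hy : y ∈ M.O a c
  · rw [M.cf_ext, if_pos hy]
    have hcg : (fun z => M.cf1 a (M.ext1 c γ) z) =ᶠ[nhds y]
        fun z => copp (γ (M.τ a c z)) (Dm (M.τ a c) z) := by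
      filter_upwards [(M.isOpen_O a c).mem_nhds hy] with z hz
      rw [M.cf1_ext1, if_pos hz]; rfl
    rw [d1_congr hcg]
    exact d1_pull (h.differentiable (by simp) _) (M.contDiffAt_τ hy)
  · rw [M.cf_ext, if_neg hy]
    have hcl : IsClosed (M.ψ c '' tsupport γ) := (hc.image (M.continuous_ψ c)).isClosed
    have hopen : IsOpen {z | M.ψ a z ∉ M.ψ c '' tsupport γ} :=
      (hcl.isOpen_compl).preimage (M.continuous_ψ a)
    have hmem : y ∈ {z | M.ψ a z ∉ M.ψ c '' tsupport γ} := by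
      intro hz
      obtain ⟨w, -, hw⟩ := hz
      exact hy ⟨w, hw⟩
    have heq : (fun z => M.cf1 a (M.ext1 c γ) z) =ᶠ[nhds y] fun _ => 0 := by
      filter_upwards [hopen.mem_nhds hmem] with z hz
      rw [M.cf1_ext1]
      split_ifs with h1
      · have h2 : γ (M.τ a c z) = 0 := by
          apply image_eq_zero_of_notMem_tsupport
          intro hm
          exact hz ⟨_, hm, M.ψ_τ h1⟩
        rw [h2, copp_zero]
      · rfl
    rw [d1_congr heq, d1_zero]

theorem dX_sum {ι : Type*} (s : Finset ι) {f : ι → X → V4} (h : ∀ i ∈ s, M.Sm1 (f i)) :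
    M.Sm1 (∑ i ∈ s, f i) ∧ M.dX (∑ i ∈ s, f i) = ∑ i ∈ s, M.dX (f i) := by
  classical
  induction s using Finset.induction_on with
  | empty =>
    have h0 : M.Sm1 (0 : X → V4) := fun a => by rw [M.cf1_zero]; exact contDiff_const
    refine ⟨by simpa using h0, ?_⟩
    simp only [Finset.sum_empty]
    have := M.dX_smul 0 h0
    simpa only [smul_zero, zero_smul] using this
  | insert i s hi ih =>
    have ih' := ih fun j hj => h j (Finset.mem_insert_of_mem hj)
    have hi' := h i (Finset.mem_insert_self i s)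
    rw [Finset.sum_insert hi, Finset.sum_insert hi, M.dX_add hi' ih'.1, ih'.2]
    exact ⟨fun a => by rw [M.cf1_add]; exact (hi' a).add (ih'.1 a), rfl⟩

/-- The differential of a global smooth one-form is in `Ex`. -/
theorem dX_mem_Ex {η : X → V4} (h : M.Sm1 η) : (⟨M.dX η, M.dX_mem_Om h⟩ : M.Om) ∈ M.Ex := by
  have h1 : ∀ a, M.Sm1 (M.ext1 a (M.cut1 η a)) := fun a =>
    M.sm1_ext1 a (M.contDiff_cut1 h a) (M.hasCompactSupport_cut1 η a)
  have h2 : M.dX η = ∑ a, M.ext a (d1 (M.cut1 η a)) := by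
    conv_lhs => rw [← M.sum_ext1_cut1 η]
    rw [(M.dX_sum Finset.univ fun a _ => h1 a).2]
    exact Finset.sum_congr rfl fun a _ =>
      M.dX_ext1 a (M.contDiff_cut1 h a) (M.hasCompactSupport_cut1 η a)
  have h3 : (⟨M.dX η, M.dX_mem_Om h⟩ : M.Om) = ∑ a, (⟨M.ext a (d1 (M.cut1 η a)),
      M.ext_mem_Om a (contDiff_d1 (M.contDiff_cut1 h a))
        (hasCompactSupport_d1 (M.hasCompactSupport_cut1 η a))⟩ : M.Om) := by
    apply Subtype.ext
    rw [AddSubmonoidClass.coe_finset_sum]
    exact h2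
  rw [h3]
  refine Submodule.sum_mem _ fun a _ => Submodule.subset_span ?_
  exact ⟨a, M.cut1 η a, ⟨M.contDiff_cut1 h a, M.hasCompactSupport_cut1 η a⟩, rfl⟩

/-- Every element of `Ex` is the differential of a global smooth one-form. -/
theorem exists_dX {e : M.Om} (h : e ∈ M.Ex) : ∃ η, M.Sm1 η ∧ (e : X → L2) = M.dX η := by
  induction h using Submodule.span_induction with
  | mem x hx =>
    obtain ⟨a, η, hη, rfl⟩ := hx
    exact ⟨M.ext1 a η, M.sm1_ext1 a hη.1 hη.2, (M.dX_ext1 a hη.1 hη.2).symm⟩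
  | zero =>
    have h0 : M.Sm1 (0 : X → V4) := fun a => by rw [M.cf1_zero]; exact contDiff_const
    refine ⟨0, h0, ?_⟩
    have := M.dX_smul 0 h0
    simp only [zero_smul] at this
    rw [this]; rfl
  | add x y _ _ hx hy =>
    obtain ⟨η, h1, h2⟩ := hx
    obtain ⟨ξ, h3, h4⟩ := hy
    refine ⟨η + ξ, fun a => by rw [M.cf1_add]; exact (h1 a).add (h3 a), ?_⟩
    rw [M.dX_add h1 h3, ← h2, ← h4]; rfl
  | smul c x _ hx =>
    obtain ⟨η, h1, h2⟩ := hx
    refine ⟨c • η, fun a => by rw [M.cf1_smul]; exact (h1 a).const_smul c, ?_⟩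
    rw [M.dX_smul c h1, ← h2]; rfl

theorem Ex_le_Cl : M.Ex ≤ M.Cl := by
  intro e he a
  obtain ⟨η, h1, h2⟩ := M.exists_dX he
  rw [h2, M.cf_dX h1]
  exact closed_d1 (h1 a)

end CM
end Vale.Agent.P204K.GX
end

section

open scoped BigOperators Topology ENNReal
open MeasureTheory CompactlySupported

namespace Vale.Agent.P204K.T4

section scalar

variable {Y : Type*} [MetricSpace Y] [ProperSpace Y] [MeasurableSpace Y] [BorelSpace Y]

omit [ProperSpace Y] [BorelSpace Y] in
theorem locFin_add (μ ν : Measure Y) [IsLocallyFiniteMeasure μ] [IsLocallyFiniteMeasure ν] :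
    IsLocallyFiniteMeasure (μ + ν) := by
  refine ⟨fun x => ?_⟩
  obtain ⟨s, hs, hs'⟩ := μ.finiteAt_nhds x
  obtain ⟨u, hu, hu'⟩ := ν.finiteAt_nhds x
  refine ⟨s ∩ u, Filter.inter_mem hs hu, ?_⟩
  rw [Measure.add_apply]
  exact ENNReal.add_lt_top.mpr ⟨(measure_mono Set.inter_subset_left).trans_lt hs',
    (measure_mono Set.inter_subset_right).trans_lt hu'⟩

/-- Riesz representation for positive linear functionals on compactly supported functions. -/
theorem exists_riesz (L : C_c(Y, ℝ) →ₗ[ℝ] ℝ) (hL : ∀ f : C_c(Y, ℝ), (∀ y, 0 ≤ f y) → 0 ≤ L f) :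
    ∃ μ : Measure Y, μ.Regular ∧ ∀ f : C_c(Y, ℝ), ∫ y, f y ∂μ = L f := by
  let Λ : C_c(Y, ℝ) →ₚ[ℝ] ℝ := PositiveLinearMap.mk₀ L (fun f hf => hL f (fun x => hf x))
  exact ⟨RealRMK.rieszMeasure Λ, inferInstance, fun f => RealRMK.integral_rieszMeasure Λ f⟩

theorem integrable_mul_cc (t : Measure Y) [IsLocallyFiniteMeasure t] {h : Y → ℝ}
    (hm : Measurable h) {c : Y → ℝ} (hc : Continuous c) (hb : ∀ y, |h y| ≤ c y) (f : C_c(Y, ℝ)) :
    Integrable (fun y => f y * h y) t := by
  have h1 : HasCompactSupport (fun y => f y * c y) := f.hasCompactSupport'.mul_right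
  have h2 : Continuous (fun y => f y * c y) := f.continuous.mul hc
  have h3 : Integrable (fun y => f y * c y) t := h2.integrable_of_hasCompactSupport h1
  refine h3.mono (f.continuous.measurable.mul hm).aestronglyMeasurable ?_
  refine Filter.Eventually.of_forall (fun y => ?_)
  rw [norm_mul, norm_mul]
  apply mul_le_mul_of_nonneg_left _ (norm_nonneg _)
  rw [Real.norm_eq_abs, Real.norm_eq_abs]
  exact (hb y).trans (le_abs_self _)

/-- A locally bounded density which is nonnegative against nonnegative test functions is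
nonnegative almost everywhere. -/
theorem ae_nonneg_of_test (t : Measure Y) [IsLocallyFiniteMeasure t] {h : Y → ℝ}
    (hm : Measurable h) {c : Y → ℝ} (hc : Continuous c) (hb : ∀ y, |h y| ≤ c y)
    (hT : ∀ f : C_c(Y, ℝ), (∀ y, 0 ≤ f y) → 0 ≤ ∫ y, f y * h y ∂t) :
    ∀ᵐ y ∂t, 0 ≤ h y := by
  obtain ⟨ν, hν, hνi⟩ := exists_riesz
    { toFun := fun f : C_c(Y, ℝ) => ∫ y, f y * h y ∂t
      map_add' := fun f g => by
        rw [← integral_add (integrable_mul_cc t hm hc hb f) (integrable_mul_cc t hm hc hb g)]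
        congr 1; funext y
        rw [CompactlySupportedContinuousMap.add_apply]; ring
      map_smul' := fun a f => by
        rw [RingHom.id_apply, smul_eq_mul, ← integral_const_mul]
        congr 1; funext y
        rw [CompactlySupportedContinuousMap.smul_apply]
        simp only [smul_eq_mul]; ring } hT
  simp only [LinearMap.coe_mk, AddHom.coe_mk] at hνi
  have hm' : Measurable (fun y => -h y) := hm.neg
  set mp := t.withDensity (fun y => ENNReal.ofReal (h y)) with hmp
  set mn := t.withDensity (fun y => ENNReal.ofReal (-h y)) with hmn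
  have hlc : IsLocallyFiniteMeasure (t.withDensity (fun y => ENNReal.ofReal (c y))) :=
    IsLocallyFiniteMeasure.withDensity_ofReal hc
  have hp1 : mp ≤ t.withDensity (fun y => ENNReal.ofReal (c y)) :=
    withDensity_mono (Filter.Eventually.of_forall
      (fun y => ENNReal.ofReal_le_ofReal ((le_abs_self _).trans (hb y))))
  have hn1 : mn ≤ t.withDensity (fun y => ENNReal.ofReal (c y)) :=
    withDensity_mono (Filter.Eventually.of_forall
      (fun y => ENNReal.ofReal_le_ofReal ((neg_le_abs _).trans (hb y))))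
  have i1 : IsLocallyFiniteMeasure mp := Measure.isLocallyFiniteMeasure_of_le hp1
  have i2 : IsLocallyFiniteMeasure mn := Measure.isLocallyFiniteMeasure_of_le hn1
  have ip : ∀ f : C_c(Y, ℝ), ∫ y, f y ∂mp = ∫ y, f y * max (h y) 0 ∂t := by
    intro f
    rw [hmp, integral_withDensity_eq_integral_toReal_smul₀
      hm.ennreal_ofReal.aemeasurable (Filter.Eventually.of_forall (fun _ => ENNReal.ofReal_lt_top))]
    congr 1; funext y
    rw [ENNReal.toReal_ofReal', smul_eq_mul, mul_comm]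
  have inn : ∀ f : C_c(Y, ℝ), ∫ y, f y ∂mn = ∫ y, f y * max (-h y) 0 ∂t := by
    intro f
    rw [hmn, integral_withDensity_eq_integral_toReal_smul₀
      hm'.ennreal_ofReal.aemeasurable
      (Filter.Eventually.of_forall (fun _ => ENNReal.ofReal_lt_top))]
    congr 1; funext y
    rw [ENNReal.toReal_ofReal', smul_eq_mul, mul_comm]
  have key : mp = ν + mn := by
    have i3 : IsLocallyFiniteMeasure (ν + mn) := locFin_add ν mn
    apply Measure.ext_of_integral_eq_on_compactlySupported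
    intro f
    rw [integral_add_measure f.integrable f.integrable, hνi, ip, inn, ← integral_add]
    · congr 1; funext y
      rw [← mul_add]; congr 1
      rcases le_total 0 (h y) with h0 | h0
      · rw [max_eq_left h0, max_eq_right (by linarith only [h0])]; ring
      · rw [max_eq_right h0, max_eq_left (by linarith)]; ring
    · exact integrable_mul_cc t hm hc hb f
    · refine integrable_mul_cc t (hm'.max measurable_const) hc (fun y => ?_) f
      rw [abs_of_nonneg (le_max_right _ _)]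
      exact max_le ((neg_le_abs _).trans (hb y)) ((abs_nonneg _).trans (hb y))
  set B : Set Y := {y | h y < 0} with hB
  have hBm : MeasurableSet B := measurableSet_lt hm measurable_const
  have h1 : mp B = 0 := by
    rw [hmp, withDensity_apply _ hBm, setLIntegral_eq_zero_iff hBm hm.ennreal_ofReal]
    exact Filter.Eventually.of_forall (fun y hy => ENNReal.ofReal_of_nonpos (le_of_lt hy))
  have h2 : mn B = 0 := by
    have := congrArg (fun m : Measure Y => m B) key
    simp only [Measure.add_apply, h1] at this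
    have h3 := this.symm
    rw [add_eq_zero] at h3
    exact h3.2
  rw [hmn, withDensity_apply _ hBm, setLIntegral_eq_zero_iff hBm hm'.ennreal_ofReal] at h2
  filter_upwards [h2] with y hy
  by_contra hneg
  push Not at hneg
  have h4 := hy hneg
  rw [ENNReal.ofReal_eq_zero] at h4
  linarith only [hneg, h4]

/-- Densities from domination. -/
theorem exists_density (t : Measure Y) [IsLocallyFiniteMeasure t]
    (L L' : C_c(Y, ℝ) →ₗ[ℝ] ℝ) (hL : ∀ f : C_c(Y, ℝ), (∀ y, 0 ≤ f y) → 0 ≤ L f)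
    (hL' : ∀ f : C_c(Y, ℝ), (∀ y, 0 ≤ f y) → 0 ≤ L' f)
    (hs : ∀ f : C_c(Y, ℝ), L f + L' f = 2 * ∫ y, f y ∂t) :
    ∃ ρ : Y → ℝ, Measurable ρ ∧ (∀ y, |ρ y| ≤ 1) ∧
      ∀ f : C_c(Y, ℝ), L f - ∫ y, f y ∂t = ∫ y, f y * ρ y ∂t := by
  obtain ⟨μ, hμ, hμi⟩ := exists_riesz L hL
  obtain ⟨μ', hμ', hμi'⟩ := exists_riesz L' hL'
  have h1 : μ + μ' = t + t := by
    have i3 : IsLocallyFiniteMeasure (μ + μ') := locFin_add μ μ'
    have i4 : IsLocallyFiniteMeasure (t + t) := locFin_add t t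
    apply Measure.ext_of_integral_eq_on_compactlySupported
    intro f
    rw [integral_add_measure f.integrable f.integrable,
      integral_add_measure f.integrable f.integrable, hμi, hμi', hs]
    ring
  have h2 : μ ≤ t + t := by rw [← h1]; exact Measure.le_add_right le_rfl
  have h3 : μ ≪ t := by
    refine Measure.AbsolutelyContinuous.mk (fun s _ hs => ?_)
    have := h2 s
    rw [Measure.add_apply, hs, add_zero] at this
    exact le_antisymm this bot_le
  have h4 : ∀ᵐ y ∂t, μ.rnDeriv t y ≤ 2 := by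
    have hm : Measurable (μ.rnDeriv t) := Measure.measurable_rnDeriv μ t
    apply ae_le_of_forall_setLIntegral_le_of_sigmaFinite₀ hm.aemeasurable
    intro s hs _
    calc ∫⁻ x in s, μ.rnDeriv t x ∂t ≤ μ s := Measure.setLIntegral_rnDeriv_le s
      _ ≤ (t + t) s := h2 s
      _ = ∫⁻ _x in s, 2 ∂t := by
          rw [Measure.add_apply, setLIntegral_const, two_mul]
  set ρ : Y → ℝ := fun y => max (-1) (min 1 ((μ.rnDeriv t y).toReal - 1)) with hρ
  refine ⟨ρ, ?_, ?_, ?_⟩
  · exact measurable_const.max (measurable_const.min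
      ((Measure.measurable_rnDeriv μ t).ennreal_toReal.sub measurable_const))
  · intro y
    rw [abs_le]
    exact ⟨le_max_left _ _, max_le (by norm_num) (min_le_left _ _)⟩
  · intro f
    have e1 : ∀ᵐ y ∂t, ρ y = (μ.rnDeriv t y).toReal - 1 := by
      filter_upwards [h4] with y hy
      have h5 : (μ.rnDeriv t y).toReal ≤ 2 := by
        have := ENNReal.toReal_mono (by norm_num) hy
        simpa only [ge_iff_le, ENNReal.toReal_ofNat] using this
      have h6 : 0 ≤ (μ.rnDeriv t y).toReal := ENNReal.toReal_nonneg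
      rw [hρ]
      simp only
      rw [min_eq_right (by linarith only [h5]), max_eq_right (by linarith)]
    have e2 := integral_rnDeriv_smul (f := fun y => f y) h3
    have e3 : Integrable (fun y => (μ.rnDeriv t y).toReal • f y) t :=
      (integrable_rnDeriv_smul_iff h3).mpr f.integrable
    rw [← hμi, ← e2, ← integral_sub e3 f.integrable]
    apply integral_congr_ae
    filter_upwards [e1] with y hy
    rw [hy, smul_eq_mul]; ring

end scalar

section vector

/-- The density vector built from its pairings with the coordinate forms. -/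
def dual6 (ρ : Fin 6 → ℝ) : L2 := ![ρ 5, -ρ 4, ρ 3, ρ 2, -ρ 1, ρ 0]

theorem Q_dual6 (ρ : Fin 6 → ℝ) (A : L2) : Q (dual6 ρ) A = ∑ a, ρ a * A a := by
  simp only [Q, dual6, Fin.isValue, Matrix.cons_val_zero, Matrix.cons_val_one, neg_mul, sub_neg_eq_add, Matrix.cons_val, Fin.sum_univ_succ, Fin.succ_zero_eq_one, Fin.succ_one_eq_two, Fin.reduceSucc, Finset.univ_unique, Fin.default_eq_zero, Finset.sum_singleton]
  ring

theorem two_le (v w : V4) (i j : Fin 4) (hij : i ≠ j) :
    |v i * w j - v j * w i| ≤ (dp w w + dp v v) / 2 := by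
  have h1 : v i ^ 2 + v j ^ 2 ≤ dp v v := by
    rw [dp]
    calc v i ^ 2 + v j ^ 2 = ∑ k ∈ {i, j}, v k * v k := by
          rw [Finset.sum_pair hij]; ring
      _ ≤ ∑ k, v k * v k := Finset.sum_le_sum_of_subset_of_nonneg (Finset.subset_univ _)
          (fun k _ _ => mul_self_nonneg _)
  have h2 : w i ^ 2 + w j ^ 2 ≤ dp w w := by
    rw [dp]
    calc w i ^ 2 + w j ^ 2 = ∑ k ∈ {i, j}, w k * w k := by
          rw [Finset.sum_pair hij]; ring
      _ ≤ ∑ k, w k * w k := Finset.sum_le_sum_of_subset_of_nonneg (Finset.subset_univ _)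
          (fun k _ _ => mul_self_nonneg _)
  rw [abs_le]
  constructor <;> linarith only [h1, h2, sq_nonneg (v i + w j), sq_nonneg (v j - w i), sq_nonneg (v i - w j), sq_nonneg (v j + w i)]

theorem ev_Fm_bound {J : M4} (hJ : IsCx J) (a : Fin 6) (s : ℝ) (hs : |s| ≤ 1) (v : V4) :
    0 ≤ ev (Fm J + s • (Pi.single a 1 : L2)) v (app J v) := by
  rw [ev_add, ev_smul, ev_Fm_self hJ]
  set w := app J v
  have key : |ev (Pi.single a 1 : L2) v w| ≤ (dp w w + dp v v) / 2 := by
    rw [ev_eq]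
    fin_cases a
    · simpa only [Fin.zero_eta, Fin.isValue, Pi.single_eq_same, one_mul, ne_eq, one_ne_zero, not_false_eq_true, Pi.single_eq_of_ne, zero_mul, add_zero, Fin.reduceEq] using two_le v w 0 1 (by decide)
    · simpa only [Fin.mk_one, Fin.isValue, ne_eq, zero_ne_one, not_false_eq_true, Pi.single_eq_of_ne, zero_mul, Pi.single_eq_same, one_mul, zero_add, Fin.reduceEq, add_zero] using two_le v w 0 2 (by decide)
    · simpa only [Fin.reduceFinMk, Fin.isValue, ne_eq, Fin.reduceEq, not_false_eq_true, Pi.single_eq_of_ne, zero_mul, add_zero, Pi.single_eq_same, one_mul, zero_add] using two_le v w 0 3 (by decide)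
    · simpa only [Fin.reduceFinMk, Fin.isValue, ne_eq, Fin.reduceEq, not_false_eq_true, Pi.single_eq_of_ne, zero_mul, add_zero, Pi.single_eq_same, one_mul, zero_add] using two_le v w 1 2 (by decide)
    · simpa only [Fin.reduceFinMk, Fin.isValue, ne_eq, Fin.reduceEq, not_false_eq_true, Pi.single_eq_of_ne, zero_mul, add_zero, Pi.single_eq_same, one_mul, zero_add] using two_le v w 1 3 (by decide)
    · simpa only [Fin.reduceFinMk, Fin.isValue, ne_eq, Fin.reduceEq, not_false_eq_true, Pi.single_eq_of_ne, zero_mul, add_zero, Pi.single_eq_same, one_mul, zero_add] using two_le v w 2 3 (by decide)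
  have h1 : |s * ev (Pi.single a 1 : L2) v w| ≤ (dp w w + dp v v) / 2 := by
    rw [abs_mul]
    calc |s| * |ev (Pi.single a 1 : L2) v w| ≤ 1 * |ev (Pi.single a 1 : L2) v w| :=
          mul_le_mul_of_nonneg_right hs (abs_nonneg _)
      _ ≤ _ := by rw [one_mul]; exact key
  have := (abs_le.1 h1).1
  linarith only [this]

theorem ev_pP {J : M4} (hJ : IsCx J) (A : L2) (v : V4) :
    ev (pP J A) v (app J v) = ev A v (app J v) := by
  unfold pP
  rw [ev_smul, ev_add, ev_pull, hJ, ev_neg_right, ev_antisymm A (app J v) v]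
  ring

theorem cone_pP {J : M4} (hJ : IsCx J) {A : L2} (h : ∀ v, 0 ≤ ev A v (app J v)) :
    Cone J (pP J A) :=
  ⟨pull_pP hJ A, fun v => by rw [ev_pP hJ]; exact h v⟩

/-- Elements of the cone are controlled by their pairing with the basic form. -/
theorem norm_le_of_cone {J : M4} (hJ : IsCx J) (hpos : Pos J) {D : L2} (hD : Cone J D) :
    ‖D‖ ≤ Q D (Fm J) := by
  have h : ∀ a, |Q D (Pi.single a 1)| ≤ Q D (Fm J) := by
    intro a
    have h1 : ∀ s : ℝ, |s| ≤ 1 → 0 ≤ Q D (Fm J + s • (Pi.single a 1 : L2)) := by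
      intro s hs
      rw [← Q_inv_pP hJ hpos hD.1]
      exact Q_cone_nonneg hJ hpos hD (cone_pP hJ (ev_Fm_bound hJ a s hs))
    have h2 := h1 1 (by simp)
    have h3 := h1 (-1) (by simp)
    rw [Q_add_right, Q_smul_right] at h2 h3
    rw [abs_le]
    constructor <;> linarith
  have h0 : 0 ≤ Q D (Fm J) := (abs_nonneg _).trans (h 0)
  rw [pi_norm_le_iff_of_nonneg h0]
  intro a
  rw [Real.norm_eq_abs]
  fin_cases a
  · simpa only [Fin.zero_eta, Fin.isValue, Q, Pi.single_eq_same, mul_one, ne_eq, Fin.reduceEq, not_false_eq_true, Pi.single_eq_of_ne, mul_zero, sub_zero, add_zero] using h 5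
  · simpa only [Fin.mk_one, Fin.isValue, Q, ne_eq, Fin.reduceEq, not_false_eq_true, Pi.single_eq_of_ne, mul_zero, Pi.single_eq_same, mul_one, zero_sub, add_zero, sub_zero, abs_neg] using h 4
  · simpa only [Fin.reduceFinMk, Fin.isValue, Q, ne_eq, Fin.reduceEq, not_false_eq_true, Pi.single_eq_of_ne, mul_zero, sub_self, Pi.single_eq_same, mul_one, zero_add, add_zero, sub_zero] using h 3
  · simpa only [Fin.reduceFinMk, Fin.isValue, Q, ne_eq, Fin.reduceEq, not_false_eq_true, Pi.single_eq_of_ne, mul_zero, sub_self, add_zero, Pi.single_eq_same, mul_one, zero_add, sub_zero] using h 2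
  · simpa only [Fin.reduceFinMk, Fin.isValue, Q, ne_eq, Fin.reduceEq, not_false_eq_true, Pi.single_eq_of_ne, mul_zero, sub_self, add_zero, Pi.single_eq_same, mul_one, zero_sub, zero_ne_one, abs_neg] using h 1
  · simpa only [Fin.reduceFinMk, Fin.isValue, Q, ne_eq, Fin.reduceEq, not_false_eq_true, Pi.single_eq_of_ne, mul_zero, sub_self, add_zero, one_ne_zero, Pi.single_eq_same, mul_one, zero_add] using h 0

variable {Y : Type*} [MetricSpace Y] [ProperSpace Y] [MeasurableSpace Y] [BorelSpace Y]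

omit [ProperSpace Y] [MeasurableSpace Y] [BorelSpace Y] in
/-- Multiply a compactly supported function by a continuous section. -/
def smulC (g : Y → L2) (hg : Continuous g) (f : C_c(Y, ℝ)) : C_c(Y, L2) where
  toFun y := f y • g y
  continuous_toFun := f.continuous.smul hg
  hasCompactSupport' := f.hasCompactSupport'.smul_right

omit [ProperSpace Y] [MeasurableSpace Y] [BorelSpace Y] in
theorem smulC_apply (g : Y → L2) (hg : Continuous g) (f : C_c(Y, ℝ)) (y : Y) :
    smulC g hg f y = f y • g y := rfl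

omit [ProperSpace Y] [MeasurableSpace Y] [BorelSpace Y] in
/-- The scalar functional attached to a section. -/
def scal (T : C_c(Y, L2) →ₗ[ℝ] ℝ) (g : Y → L2) (hg : Continuous g) : C_c(Y, ℝ) →ₗ[ℝ] ℝ where
  toFun f := T (smulC g hg f)
  map_add' f f' := by
    rw [← map_add]; congr 1; ext1 y
    rw [smulC_apply, CompactlySupportedContinuousMap.add_apply,
      CompactlySupportedContinuousMap.add_apply, add_smul]; rfl
  map_smul' c f := by
    rw [RingHom.id_apply, ← map_smul]; congr 1; ext1 y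
    rw [smulC_apply, CompactlySupportedContinuousMap.smul_apply,
      CompactlySupportedContinuousMap.smul_apply, smul_assoc]; rfl

omit [ProperSpace Y] [MeasurableSpace Y] [BorelSpace Y] in
theorem scal_apply (T : C_c(Y, L2) →ₗ[ℝ] ℝ) (g : Y → L2) (hg : Continuous g) (f : C_c(Y, ℝ)) :
    scal T g hg f = T (smulC g hg f) := rfl

omit [ProperSpace Y] [MeasurableSpace Y] [BorelSpace Y] in
/-- Components of a section. -/
def comp (η : C_c(Y, L2)) (a : Fin 6) : C_c(Y, ℝ) where
  toFun y := η y a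
  continuous_toFun := (continuous_apply a).comp η.continuous
  hasCompactSupport' := η.hasCompactSupport'.comp_left (g := fun z : L2 => z a) rfl

omit [ProperSpace Y] [MeasurableSpace Y] [BorelSpace Y] in
theorem comp_apply (η : C_c(Y, L2)) (a : Fin 6) (y : Y) : comp η a y = η y a := rfl

theorem Q_pM_symm {J : M4} (hJ : IsCx J) (hpos : Pos J) (A B : L2) :
    Q (pM J A) B = Q A (pM J B) := by
  have h1 : Q (pM J A) B = Q (pM J A) (pM J B) := by
    conv_lhs => rw [← pP_add_pM J B]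
    rw [Q_add_right, Q_comm, Q_inv_pM hJ hpos (pull_pP hJ B), zero_add]
  have h2 : Q A (pM J B) = Q (pM J A) (pM J B) := by
    conv_lhs => rw [← pP_add_pM J A]
    rw [Q_add_left, Q_inv_pM hJ hpos (pull_pP hJ A), zero_add]
  rw [h1, h2]

theorem eq_zero_of_Q_single {A : L2} (h : ∀ a, Q A (Pi.single a 1) = 0) : A = 0 := by
  funext a
  fin_cases a
  · simpa only [Fin.zero_eta, Fin.isValue, Pi.zero_apply, Q, Pi.single_eq_same, mul_one, ne_eq, Fin.reduceEq, not_false_eq_true, Pi.single_eq_of_ne, mul_zero, sub_zero, add_zero] using h 5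
  · simpa only [Fin.mk_one, Fin.isValue, Pi.zero_apply, Q, ne_eq, Fin.reduceEq, not_false_eq_true, Pi.single_eq_of_ne, mul_zero, Pi.single_eq_same, mul_one, zero_sub, add_zero, sub_zero, neg_eq_zero] using h 4
  · simpa only [Fin.reduceFinMk, Fin.isValue, Pi.zero_apply, Q, ne_eq, Fin.reduceEq, not_false_eq_true, Pi.single_eq_of_ne, mul_zero, sub_self, Pi.single_eq_same, mul_one, zero_add, add_zero, sub_zero] using h 3
  · simpa only [Fin.reduceFinMk, Fin.isValue, Pi.zero_apply, Q, ne_eq, Fin.reduceEq, not_false_eq_true, Pi.single_eq_of_ne, mul_zero, sub_self, add_zero, Pi.single_eq_same, mul_one, zero_add, sub_zero] using h 2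
  · simpa only [Fin.reduceFinMk, Fin.isValue, Pi.zero_apply, Q, ne_eq, Fin.reduceEq, not_false_eq_true, Pi.single_eq_of_ne, mul_zero, sub_self, add_zero, Pi.single_eq_same, mul_one, zero_sub, zero_ne_one, neg_eq_zero] using h 1
  · simpa [Q] using h 0

theorem ev_pM {J : M4} (hJ : IsCx J) (A : L2) (v : V4) : ev (pM J A) v (app J v) = 0 := by
  have h := ev_pP hJ A v
  have h2 : ev (pP J A + pM J A) v (app J v) = ev A v (app J v) := by rw [pP_add_pM]
  rw [ev_add] at h2
  linarith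

omit [ProperSpace Y] [MeasurableSpace Y] [BorelSpace Y] in
theorem continuous_pM_const {J : Y → M4} (hJc : Continuous J) (A : L2) :
    Continuous (fun y => pM (J y) A) := by
  unfold pM
  exact (continuous_const.sub (continuous_pull.comp (hJc.prodMk continuous_const))).const_smul
    (1 / 2 : ℝ)

omit [ProperSpace Y] [MeasurableSpace Y] [BorelSpace Y] in
theorem continuous_wd_cc {J : Y → M4} (hJc : Continuous J) (b : V4) :
    Continuous (fun y => wd b (cc (J y) b)) := by
  have h : Continuous (fun y => cc (J y) b) := by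
    unfold cc copp
    fun_prop
  apply continuous_pi
  intro i
  have hk : ∀ k, Continuous (fun y => cc (J y) b k) := fun k => (continuous_apply k).comp h
  have h0 := hk 0
  have h1 := hk 1
  have h2 := hk 2
  have h3 := hk 3
  fin_cases i <;> simp only [wd] <;> simp only [Fin.isValue, Fin.zero_eta, Matrix.cons_val_zero, Fin.mk_one, Matrix.cons_val_one, Fin.reduceFinMk, Matrix.cons_val] <;> fun_prop

theorem continuous_wd_cc_b (J : M4) : Continuous (fun b : V4 => wd b (cc J b)) := by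
  have hb : Continuous (fun b : V4 => cc J b) := by unfold cc copp; fun_prop
  apply continuous_pi
  intro i
  have hk : ∀ k, Continuous (fun b : V4 => cc J b k) := fun k => (continuous_apply k).comp hb
  have h0 := hk 0
  have h1 := hk 1
  have h2 := hk 2
  have h3 := hk 3
  fin_cases i <;> simp only [wd] <;> simp only [Fin.isValue, Fin.zero_eta, Matrix.cons_val_zero, Fin.mk_one, Matrix.cons_val_one, Fin.reduceFinMk, Matrix.cons_val] <;> fun_prop

/-- It suffices to test the cone condition against rational rank one forms. -/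
theorem cone_of_rat {J : M4} (hcx : IsCx J) (hpos : Pos J) {A : L2}
    (h1 : ∀ a : Fin 6, Q A (pM J (Pi.single a 1)) = 0)
    (h2 : ∀ q : Fin 4 → ℚ, 0 ≤ Q A (wd (fun i => (q i : ℝ)) (cc J (fun i => (q i : ℝ))))) :
    Cone J A := by
  have h3 : pM J A = 0 := by
    apply eq_zero_of_Q_single
    intro a
    rw [Q_pM_symm hcx hpos, h1 a]
  have h4 : pull J A = A := by
    unfold pM at h3
    rcases smul_eq_zero.mp h3 with h5 | h5
    · norm_num at h5
    · exact (sub_eq_zero.mp h5).symm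
  apply cone_of_Q hcx hpos h4
  intro b
  have hcb : Continuous (fun b : V4 => Q A (wd b (cc J b))) :=
    continuous_Q.comp (continuous_const.prodMk (continuous_wd_cc_b J))
  have hdense : DenseRange (fun (q : Fin 4 → ℚ) (i : Fin 4) => ((q i : ℚ) : ℝ)) :=
    DenseRange.piMap (fun _ => Rat.denseRange_cast)
  have hcl : IsClosed {b : V4 | 0 ≤ Q A (wd b (cc J b))} := isClosed_le continuous_const hcb
  have hsub : Set.range (fun (q : Fin 4 → ℚ) (i : Fin 4) => ((q i : ℚ) : ℝ))
      ⊆ {b : V4 | 0 ≤ Q A (wd b (cc J b))} := by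
    rintro _ ⟨q, rfl⟩
    exact h2 q
  exact hcl.closure_subset_iff.mpr hsub (hdense b)

omit [ProperSpace Y] [MeasurableSpace Y] [BorelSpace Y] in
theorem sum_cc_apply {ι : Type*} (s : Finset ι) (g : ι → C_c(Y, L2)) (y : Y) :
    (∑ i ∈ s, g i) y = ∑ i ∈ s, g i y := by
  classical
  induction s using Finset.induction_on with
  | empty => simp only [Finset.sum_empty, CompactlySupportedContinuousMap.coe_zero, Pi.zero_apply]
  | insert a s ha ih =>
    rw [Finset.sum_insert ha, Finset.sum_insert ha, CompactlySupportedContinuousMap.add_apply, ih]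

omit [ProperSpace Y] [MeasurableSpace Y] [BorelSpace Y] in
theorem sum_comp (η : C_c(Y, L2)) :
    η = ∑ a, smulC (fun _ => (Pi.single a 1 : L2)) continuous_const (comp η a) := by
  ext1 y
  rw [sum_cc_apply]
  funext b
  simp only [smulC_apply, comp_apply, Finset.sum_apply, Pi.smul_apply, Pi.single_apply, smul_eq_mul, mul_ite, mul_one, mul_zero, Finset.sum_ite_eq, Finset.mem_univ, ↓reduceIte]

section rep

variable (J : Y → M4) (T : C_c(Y, L2) →ₗ[ℝ] ℝ)

/-- Positivity of a functional. -/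
def PosT : Prop := ∀ η : C_c(Y, L2), (∀ y v, 0 ≤ ev (η y) v (app (J y) v)) → 0 ≤ T η

variable {J T}

omit [ProperSpace Y] [MeasurableSpace Y] [BorelSpace Y] in
theorem PosT.sec (hT : PosT J T) (g : Y → L2) (hg : Continuous g)
    (hgn : ∀ y v, 0 ≤ ev (g y) v (app (J y) v)) (f : C_c(Y, ℝ)) (hf : ∀ y, 0 ≤ f y) :
    0 ≤ scal T g hg f := by
  apply hT
  intro y v
  rw [smulC_apply, ev_smul]
  exact mul_nonneg (hf y) (hgn y v)

/-- Density of the functional in a coordinate direction. -/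
theorem PosT.exists_rho (hJc : Continuous J) (hcx : ∀ y, IsCx (J y)) (hT : PosT J T)
    (t : Measure Y) [t.Regular] (hti : ∀ f : C_c(Y, ℝ), ∫ y, f y ∂t
      = scal T (fun y => Fm (J y)) (continuous_Fm.comp hJc) f) (a : Fin 6) :
    ∃ ρ : Y → ℝ, Measurable ρ ∧ (∀ y, |ρ y| ≤ 1) ∧
      ∀ f : C_c(Y, ℝ), scal T (fun _ => (Pi.single a 1 : L2)) continuous_const f
        = ∫ y, f y * ρ y ∂t := by
  have hFc : Continuous (fun y => Fm (J y)) := continuous_Fm.comp hJc
  have c1 : Continuous (fun y => Fm (J y) + (1 : ℝ) • (Pi.single a 1 : L2)) :=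
    hFc.add continuous_const
  have c2 : Continuous (fun y => Fm (J y) + (-1 : ℝ) • (Pi.single a 1 : L2)) :=
    hFc.add continuous_const
  have e1 : ∀ f : C_c(Y, ℝ), scal T _ c1 f = scal T _ hFc f
      + scal T (fun _ => (Pi.single a 1 : L2)) continuous_const f := by
    intro f
    simp only [scal_apply]
    rw [← map_add]; congr 1; ext1 y
    rw [CompactlySupportedContinuousMap.add_apply]
    simp only [smulC_apply, smul_add, one_smul]
  have e2 : ∀ f : C_c(Y, ℝ), scal T _ c2 f = scal T _ hFc f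
      - scal T (fun _ => (Pi.single a 1 : L2)) continuous_const f := by
    intro f
    simp only [scal_apply]
    rw [← map_sub]; congr 1; ext1 y
    show f y • (Fm (J y) + (-1 : ℝ) • (Pi.single a 1 : L2))
      = f y • Fm (J y) - f y • (Pi.single a 1 : L2)
    module
  obtain ⟨ρ, h1, h2, h3⟩ := exists_density t (scal T _ c1) (scal T _ c2)
    (hT.sec _ c1 (fun y v => ev_Fm_bound (hcx y) a 1 (by simp) v))
    (hT.sec _ c2 (fun y v => ev_Fm_bound (hcx y) a (-1) (by simp) v))
    (fun f => by rw [e1, e2, hti]; ring)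
  refine ⟨ρ, h1, h2, fun f => ?_⟩
  rw [← h3, e1, hti]; ring

/-- First form of the representation. -/
theorem PosT.rep0 (hJc : Continuous J) (hcx : ∀ y, IsCx (J y)) (hT : PosT J T) :
    ∃ (t : Measure Y) (D : Y → L2), t.Regular ∧ Measurable D ∧ (∀ y, ‖D y‖ ≤ 1) ∧
      (∀ f : C_c(Y, ℝ), ∫ y, f y ∂t
        = scal T (fun y => Fm (J y)) (continuous_Fm.comp hJc) f) ∧
      ∀ η : C_c(Y, L2), T η = ∫ y, Q (D y) (η y) ∂t := by
  have hFc : Continuous (fun y => Fm (J y)) := continuous_Fm.comp hJc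
  obtain ⟨t, ht, hti⟩ := exists_riesz (scal T _ hFc)
    (hT.sec _ hFc (fun y v => (cone_Fm (hcx y)).2 v))
  choose ρ hρm hρb hρi using hT.exists_rho hJc hcx t hti
  refine ⟨t, fun y => dual6 (fun a => ρ a y), ht, ?_, ?_, hti, ?_⟩
  · apply measurable_pi_lambda
    intro a
    fin_cases a
    · exact hρm 5
    · exact (hρm 4).neg
    · exact hρm 3
    · exact hρm 2
    · exact (hρm 1).neg
    · exact hρm 0
  · intro y
    rw [pi_norm_le_iff_of_nonneg zero_le_one]
    intro a
    rw [Real.norm_eq_abs]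
    fin_cases a
    · exact hρb 5 y
    · simpa only [dual6, Fin.isValue, Fin.mk_one, Matrix.cons_val_one, Matrix.cons_val_zero, abs_neg] using hρb 4 y
    · exact hρb 3 y
    · exact hρb 2 y
    · simpa only [dual6, Fin.isValue, Fin.reduceFinMk, Matrix.cons_val, abs_neg] using hρb 1 y
    · exact hρb 0 y
  · intro η
    have hint : ∀ a : Fin 6, Integrable (fun y => η y a * ρ a y) t := fun a =>
      integrable_mul_cc t (hρm a) continuous_const (hρb a) (comp η a)
    have e2 : T η = ∑ a, ∫ y, η y a * ρ a y ∂t := by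
      conv_lhs => rw [sum_comp η]
      rw [map_sum]
      apply Finset.sum_congr rfl
      intro a _
      exact hρi a (comp η a)
    rw [e2, ← integral_finsetSum _ (fun a _ => hint a)]
    congr 1; funext y
    rw [Q_dual6]
    apply Finset.sum_congr rfl
    intro a _; ring

end rep

/-- Almost everywhere cone condition. -/
theorem ae_cone {J : Y → M4} {T : C_c(Y, L2) →ₗ[ℝ] ℝ} (hJc : Continuous J)
    (hcx : ∀ y, IsCx (J y)) (hpos : ∀ y, Pos (J y)) (hT : PosT J T)
    (t : Measure Y) [t.Regular] (D0 : Y → L2) (hD0m : Measurable D0) (hD0n : ∀ y, ‖D0 y‖ ≤ 1)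
    (hti : ∀ f : C_c(Y, ℝ), ∫ y, f y ∂t
        = scal T (fun y => Fm (J y)) (continuous_Fm.comp hJc) f)
    (hrep : ∀ η : C_c(Y, L2), T η = ∫ y, Q (D0 y) (η y) ∂t) :
    ∀ᵐ y ∂t, Cone (J y) (D0 y) ∧ Q (D0 y) (Fm (J y)) = 1 := by
  have hFc : Continuous (fun y => Fm (J y)) := continuous_Fm.comp hJc
  have hQm : ∀ g : Y → L2, Continuous g → Measurable (fun y => Q (D0 y) (g y)) := by
    intro g hg
    exact continuous_Q.measurable.comp (hD0m.prodMk hg.measurable)
  have hQb : ∀ (g : Y → L2) (y : Y), |Q (D0 y) (g y)| ≤ 6 * ‖g y‖ := by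
    intro g y
    refine (abs_Q_le _ _).trans ?_
    have := mul_le_mul_of_nonneg_right (hD0n y) (norm_nonneg (g y))
    linarith only [this]
  have hsec : ∀ (g : Y → L2) (hg : Continuous g) (f : C_c(Y, ℝ)),
      scal T g hg f = ∫ y, f y * Q (D0 y) (g y) ∂t := by
    intro g hg f
    rw [scal_apply, hrep]
    congr 1; funext y
    rw [smulC_apply, Q_smul_right]
  have hae : ∀ (g : Y → L2) (hg : Continuous g), (∀ y v, 0 ≤ ev (g y) v (app (J y) v)) →
      ∀ᵐ y ∂t, 0 ≤ Q (D0 y) (g y) := by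
    intro g hg hgn
    apply ae_nonneg_of_test t (hQm g hg) (continuous_const.mul hg.norm) (hQb g)
    intro f hf
    rw [← hsec g hg f]
    exact hT.sec g hg hgn f hf
  have hae0 : ∀ (g : Y → L2) (hg : Continuous g), (∀ y v, ev (g y) v (app (J y) v) = 0) →
      ∀ᵐ y ∂t, Q (D0 y) (g y) = 0 := by
    intro g hg hgn
    have h1 := hae g hg (fun y v => (hgn y v).ge)
    have h2 := hae (fun y => -g y) hg.neg (fun y v => by rw [ev_neg, hgn]; simp)
    filter_upwards [h1, h2] with y a b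
    rw [Q_neg_right] at b
    linarith only [a, b]
  have A1 : ∀ᵐ y ∂t, ∀ a : Fin 6, Q (D0 y) (pM (J y) (Pi.single a 1)) = 0 := by
    rw [ae_all_iff]
    intro a
    exact hae0 _ (continuous_pM_const hJc _) (fun y v => ev_pM (hcx y) _ v)
  have A2 : ∀ᵐ y ∂t, ∀ q : Fin 4 → ℚ,
      0 ≤ Q (D0 y) (wd (fun i => (q i : ℝ)) (cc (J y) (fun i => (q i : ℝ)))) := by
    rw [ae_all_iff]
    intro q
    exact hae _ (continuous_wd_cc hJc _) (fun y v => (cone_wd (hcx y) _).2 v)
  have A3 : ∀ᵐ y ∂t, Q (D0 y) (Fm (J y)) = 1 := by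
    have key : ∀ s : ℝ, ∀ᵐ y ∂t, 0 ≤ s * (Q (D0 y) (Fm (J y)) - 1) := by
      intro s
      have hm3 : Measurable (fun y => s * (Q (D0 y) (Fm (J y)) - 1)) :=
        ((hQm _ hFc).sub measurable_const).const_mul s
      apply ae_nonneg_of_test t hm3 (c := fun y => |s| * (6 * ‖Fm (J y)‖ + 1))
        (continuous_const.mul ((continuous_const.mul hFc.norm).add continuous_const))
      · intro y
        rw [abs_mul]
        apply mul_le_mul_of_nonneg_left _ (abs_nonneg _)
        calc |Q (D0 y) (Fm (J y)) - 1| ≤ |Q (D0 y) (Fm (J y))| + |1| := abs_sub _ _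
          _ ≤ 6 * ‖Fm (J y)‖ + 1 := by
              rw [abs_one]
              have := hQb (fun y => Fm (J y)) y
              linarith
      · intro f _
        apply ge_of_eq
        have h1 := hti f
        rw [hsec _ hFc f] at h1
        have i1 : Integrable (fun y => f y * Q (D0 y) (Fm (J y))) t :=
          integrable_mul_cc t (hQm _ hFc) (continuous_const.mul hFc.norm) (hQb _) f
        have h2 : ∫ y, f y * (s * (Q (D0 y) (Fm (J y)) - 1)) ∂t
            = s * (∫ y, f y * Q (D0 y) (Fm (J y)) ∂t - ∫ y, f y ∂t) := by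
          rw [← integral_sub i1 f.integrable, ← integral_const_mul]
          congr 1; funext y; ring
        rw [h2, h1]; ring
    filter_upwards [key 1, key (-1)] with y a b
    linarith
  filter_upwards [A1, A2, A3] with y a1 a2 a3
  exact ⟨cone_of_rat (hcx y) (hpos y) a1 a2, a3⟩

theorem measurableSet_cone : MeasurableSet {p : M4 × L2 | Cone p.1 p.2} :=
  isClosed_cone.measurableSet

omit [MetricSpace Y] [ProperSpace Y] [BorelSpace Y] in
theorem measurableSet_good {J : Y → M4} (hJ : Measurable J) {D : Y → L2} (hD : Measurable D) :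
    MeasurableSet {y | Cone (J y) (D y) ∧ Q (D y) (Fm (J y)) = 1} := by
  have h0 : Measurable (fun y => (J y, D y)) := hJ.prodMk hD
  have h1 : MeasurableSet ((fun y => (J y, D y)) ⁻¹' {p : M4 × L2 | Cone p.1 p.2}) :=
    h0 measurableSet_cone
  have h2 : Measurable (fun y => Q (D y) (Fm (J y))) :=
    continuous_Q.measurable.comp (hD.prodMk (continuous_Fm.measurable.comp hJ))
  exact h1.inter (measurableSet_eq_fun h2 measurable_const)

/-- **Measure representation of positive (1,1) functionals.** -/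
theorem meas_rep (J : Y → M4) (hJc : Continuous J) (hcx : ∀ y, IsCx (J y))
    (hpos : ∀ y, Pos (J y)) (T : C_c(Y, L2) →ₗ[ℝ] ℝ)
    (hT : ∀ η : C_c(Y, L2), (∀ y v, 0 ≤ ev (η y) v (app (J y) v)) → 0 ≤ T η) :
    ∃ (t : Measure Y) (D : Y → L2), t.Regular ∧ Measurable D ∧ (∀ y, Cone (J y) (D y)) ∧
      (∀ y, Q (D y) (Fm (J y)) = 1) ∧ ∀ η : C_c(Y, L2), T η = ∫ y, Q (D y) (η y) ∂t := by
  have hT' : PosT J T := hT
  have hFc : Continuous (fun y => Fm (J y)) := continuous_Fm.comp hJc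
  obtain ⟨t, D0, ht, hm, hn, hti, hrep⟩ := hT'.rep0 hJc hcx
  have hgood := ae_cone hJc hcx hpos hT' t D0 hm hn hti hrep
  set G : Set Y := {y | Cone (J y) (D0 y) ∧ Q (D0 y) (Fm (J y)) = 1} with hG
  have hGm : MeasurableSet G := measurableSet_good hJc.measurable hm
  classical
  refine ⟨t, G.piecewise D0 (fun y => (Q (Fm (J y)) (Fm (J y)))⁻¹ • Fm (J y)), ht, ?_, ?_, ?_, ?_⟩
  · apply Measurable.piecewise hGm hm
    have h1 : Measurable (fun y => (Q (Fm (J y)) (Fm (J y)))⁻¹) :=
      (continuous_Q.measurable.comp (hFc.measurable.prodMk hFc.measurable)).inv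
    exact h1.smul hFc.measurable
  · intro y
    by_cases hy : y ∈ G
    · rw [Set.piecewise_eq_of_mem _ _ _ hy]; exact hy.1
    · rw [Set.piecewise_eq_of_notMem _ _ _ hy]
      have h1 := cone_Fm (hcx y)
      have h2 : 0 < Q (Fm (J y)) (Fm (J y)) := hpos y
      refine ⟨by rw [pull_smul, h1.1], fun v => ?_⟩
      rw [ev_smul]
      exact mul_nonneg (inv_pos.mpr h2).le (h1.2 v)
  · intro y
    by_cases hy : y ∈ G
    · rw [Set.piecewise_eq_of_mem _ _ _ hy]; exact hy.2
    · rw [Set.piecewise_eq_of_notMem _ _ _ hy]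
      have h2 : 0 < Q (Fm (J y)) (Fm (J y)) := hpos y
      rw [Q_smul_left, inv_mul_cancel₀ h2.ne']
  · intro η
    rw [hrep]
    apply integral_congr_ae
    filter_upwards [hgood] with y hy
    have hy' : y ∈ G := hy
    rw [Set.piecewise_eq_of_mem _ _ _ hy']

end vector

end Vale.Agent.P204K.T4
end

section

open scoped BigOperators ContDiff Topology ENNReal
open MeasureTheory Set

namespace Vale.Agent.P204K.GX
open T4

theorem det_fderiv_eq {f : V4 → V4} {y : V4} (hf : DifferentiableAt ℝ f y) :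
    (fderiv ℝ f y).det = det4 (Dm f y) := by
  rw [det4_eq_det]
  have h : (fderiv ℝ f y : V4 →ₗ[ℝ] V4) = Matrix.toLin' (Matrix.of (Dm f y)) := by
    apply LinearMap.ext; intro v
    rw [Matrix.toLin'_apply]
    have h1 := app_Dm hf v
    funext i
    have h2 := congrFun h1 i
    simp only [app] at h2
    simp only [Matrix.mulVec, dotProduct, Matrix.of_apply]
    exact h2.symm
  rw [ContinuousLinearMap.det, h, LinearMap.det_toLin']

theorem measurable_det4 : Measurable det4 := contDiff_det4.continuous.measurable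

namespace CM
variable {X : Type} [MetricSpace X] (M : CM X)

theorem measurable_zl (a : M.A) : Measurable (M.zl a) := (M.contDiff_zl a).continuous.measurable

theorem det_m_coc {a b : M.A} {y : V4} (h : y ∈ M.O a b) :
    det4 (M.m a y) = det4 (M.m b (M.τ a b y)) * det4 (M.Dt a b y) := by
  rw [M.m_coc h, det4_mm]

variable [MeasurableSpace X] [BorelSpace X]

/-- The volume measure of the unitary frame. -/
noncomputable def mu : Measure X :=
  ∑ a, Measure.map (M.ψ a) (volume.withDensity fun y => ENNReal.ofReal (M.zl a y * det4 (M.m a y)))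

theorem measurable_ψ (a : M.A) : Measurable (M.ψ a) := (M.continuous_ψ a).measurable

theorem measurableEmbedding_ψ (a : M.A) : MeasurableEmbedding (M.ψ a) :=
  (M.ψo a).measurableEmbedding

theorem measurable_dens' (a : M.A) : Measurable fun y => ENNReal.ofReal (det4 (M.m a y)) :=
  (measurable_det4.comp (M.m_meas a)).ennreal_ofReal

/-- Change of variables for one chart. -/
theorem lintegral_chart (a c : M.A) {D : Set V4} (hD : MeasurableSet D) :
    ∫⁻ y in M.ψ a ⁻¹' (M.ψ c '' D), ENNReal.ofReal (M.zl a y * det4 (M.m a y))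
      = ∫⁻ w in D, ENNReal.ofReal (M.zeta a (M.ψ c w) * det4 (M.m c w)) := by
  have himg : M.ψ a ⁻¹' (M.ψ c '' D) = M.τ c a '' (M.O c a ∩ D) := by
    ext y
    constructor
    · rintro ⟨w, hw, hwy⟩
      have hO : w ∈ M.O c a := by rw [mem_O, hwy]; exact mem_range_self y
      refine ⟨w, ⟨hO, hw⟩, ?_⟩
      apply M.ψ_inj a
      rw [M.ψ_τ hO, hwy]
    · rintro ⟨w, ⟨hO, hw⟩, rfl⟩
      exact ⟨w, hw, (M.ψ_τ hO).symm⟩
  have hinj : InjOn (M.τ c a) (M.O c a ∩ D) := by
    intro w hw w' hw' h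
    have h1 := M.τ_τ hw.1
    have h2 := M.τ_τ hw'.1
    rw [h] at h1
    rw [← h1, h2]
  have hmeas : MeasurableSet (M.O c a ∩ D) := (M.isOpen_O c a).measurableSet.inter hD
  rw [himg, lintegral_image_eq_lintegral_abs_det_fderiv_mul volume hmeas
    (fun w hw => (M.differentiableAt_τ hw.1).hasFDerivAt.hasFDerivWithinAt) hinj]
  have h0 : ∫⁻ w in D, ENNReal.ofReal (M.zeta a (M.ψ c w) * det4 (M.m c w))
      = ∫⁻ w in M.O c a ∩ D, ENNReal.ofReal (M.zeta a (M.ψ c w) * det4 (M.m c w)) := by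
    rw [← lintegral_indicator hD, ← lintegral_indicator hmeas]
    refine lintegral_congr fun w => ?_
    by_cases hw : w ∈ D
    · by_cases hO : w ∈ M.O c a
      · have hmem : w ∈ M.O c a ∩ D := ⟨hO, hw⟩
        rw [indicator_of_mem hw, indicator_of_mem hmem]
      · rw [indicator_of_mem hw, indicator_of_notMem (fun h => hO h.1), M.zeta_eq_zero a,
          zero_mul, ENNReal.ofReal_zero]
        rintro ⟨z, -, hz⟩
        exact hO ⟨z, hz⟩
    · rw [indicator_of_notMem hw, indicator_of_notMem (fun h => hw h.2)]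
  rw [h0]
  refine setLIntegral_congr_fun hmeas fun w hw => ?_
  have hO := hw.1
  rw [det_fderiv_eq (M.differentiableAt_τ hO)]
  have h3 : det4 (Dm (M.τ c a) w) = det4 (M.Dt c a w) := rfl
  have hpos := M.det_Dt_pos hO
  have hz : M.zl a (M.τ c a w) = M.zeta a (M.ψ c w) := by
    unfold zl; rw [M.ψ_τ hO]
  rw [h3, abs_of_pos hpos, ← ENNReal.ofReal_mul hpos.le, M.det_m_coc hO, hz]
  congr 1; ring

theorem mu_restrict (c : M.A) : M.mu.restrict (range (M.ψ c))
    = Measure.map (M.ψ c) (volume.withDensity fun y => ENNReal.ofReal (det4 (M.m c y))) := by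
  have hr : MeasurableSet (range (M.ψ c)) := (M.isOpen_range c).measurableSet
  ext E hE
  rw [Measure.restrict_apply hE, Measure.map_apply (M.measurable_ψ c) hE,
    withDensity_apply _ (hE.preimage (M.measurable_ψ c))]
  set D := M.ψ c ⁻¹' E with hD
  have hDm : MeasurableSet D := hE.preimage (M.measurable_ψ c)
  have hE' : E ∩ range (M.ψ c) = M.ψ c '' D := by
    rw [hD, image_preimage_eq_inter_range]
  unfold mu
  rw [hE', Measure.finsetSum_apply]
  have hm : MeasurableSet (M.ψ c '' D) := (M.measurableEmbedding_ψ c).measurableSet_image.2 hDm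
  have h1 : ∀ a ∈ (Finset.univ : Finset M.A), Measure.map (M.ψ a)
      (volume.withDensity fun y => ENNReal.ofReal (M.zl a y * det4 (M.m a y))) (M.ψ c '' D)
      = ∫⁻ w in D, ENNReal.ofReal (M.zeta a (M.ψ c w) * det4 (M.m c w)) := by
    intro a _
    rw [Measure.map_apply (M.measurable_ψ a) hm,
      withDensity_apply _ (hm.preimage (M.measurable_ψ a))]
    exact M.lintegral_chart a c hDm
  rw [Finset.sum_congr rfl h1, ← lintegral_finsetSum]
  · refine setLIntegral_congr_fun hDm fun w _ => ?_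
    rw [← ENNReal.ofReal_sum_of_nonneg, ← Finset.sum_mul, M.sum_zeta, one_mul]
    intro a _
    exact mul_nonneg (M.zeta_nonneg _ _) (M.m_det c w).le
  · intro a _
    have hz : Measurable fun w => M.zeta a (M.ψ c w) :=
      (M.sm0_zeta a c).continuous.measurable
    exact (hz.mul (measurable_det4.comp (M.m_meas c))).ennreal_ofReal

/-- Integral of a function supported in one chart. -/
theorem integral_chart (c : M.A) {f : X → ℝ} (hf : ∀ x ∉ range (M.ψ c), f x = 0) :
    ∫ x, f x ∂M.mu = ∫ y, f (M.ψ c y) * det4 (M.m c y) := by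
  have hr : MeasurableSet (range (M.ψ c)) := (M.isOpen_range c).measurableSet
  rw [← setIntegral_eq_integral_of_forall_compl_eq_zero (s := range (M.ψ c)) (fun x hx => hf x hx),
    M.mu_restrict c, (M.measurableEmbedding_ψ c).integral_map,
    integral_withDensity_eq_integral_toReal_smul (M.measurable_dens' c)
      (Filter.Eventually.of_forall fun y => ENNReal.ofReal_lt_top)]
  refine integral_congr_ae (Filter.Eventually.of_forall fun y => ?_)
  show (ENNReal.ofReal (det4 (M.m c y))).toReal • f (M.ψ c y) = _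
  rw [ENNReal.toReal_ofReal (M.m_det c y).le, smul_eq_mul, mul_comm]

/-- Pairing with an extended form. -/
theorem integral_ext (c : M.A) (γ : V4 → L2) (b : X → L2) :
    ∫ x, Q (M.ext c γ x) (b x) ∂M.mu = ∫ y, Q (γ y) (M.cf c b y) := by
  rw [M.integral_chart c]
  · refine integral_congr_ae (Filter.Eventually.of_forall fun y => ?_)
    show Q (M.ext c γ (M.ψ c y)) (b (M.ψ c y)) * det4 (M.m c y) = Q (γ y) (M.cf c b y)
    have h1 : Q (γ y) (M.cf c b y) = det4 (M.m c y) * Q (pull (M.m' c y) (γ y)) (b (M.ψ c y)) := by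
      rw [← Q_pull, ← pull_mm, M.mm_m'_m, pull_one]; rfl
    rw [M.ext_ψ_self, h1, mul_comm]
  · intro x hx
    rw [M.ext_of_notMem c γ hx]
    simp [Q]

/-! ### Bounds for the frames on compact sets -/

omit [MeasurableSpace X] [BorelSpace X] in
theorem det_m_eq (a : M.A) (y : V4) :
    det4 (M.m a y) = (1 / 2) * Q (pull (M.m a y) F0) (pull (M.m a y) F0) := by
  rw [Q_pull, Q_F0]; ring

omit [MeasurableSpace X] [BorelSpace X] in
theorem continuous_det_m (a : M.A) : Continuous fun y => det4 (M.m a y) := by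
  have h : (fun y => det4 (M.m a y))
      = fun y => (1 / 2) * Q (pull (M.m a y) F0) (pull (M.m a y) F0) := by
    funext y; exact M.det_m_eq a y
  rw [h]
  have hF := (M.F_smooth a).continuous
  exact continuous_const.mul (continuous_Q.comp (hF.prodMk hF))

theorem ev_F0 (v : V4) : ev F0 v (app J0 v) = ∑ i, v i ^ 2 := by
  rw [ev_eq, app_J0, Fin.sum_univ_four]
  simp only [F0, Fin.isValue, Matrix.cons_val_zero, Nat.succ_eq_add_one, Nat.reduceAdd, Matrix.cons_val_one, mul_neg, sub_neg_eq_add, one_mul, Matrix.cons_val, zero_mul, add_zero]; ring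

omit [MeasurableSpace X] [BorelSpace X] in
/-- The metric in a chart. -/
theorem ev_F_chart (a : M.A) (y v : V4) :
    ev (pull (M.m a y) F0) v (app (M.J a y) v) = ∑ i, (app (M.m a y) v i) ^ 2 := by
  rw [ev_pull, M.m_J, ev_F0]

omit [MeasurableSpace X] [BorelSpace X] in
theorem continuous_met (a : M.A) : Continuous fun p : V4 × V4 =>
    ∑ i, (app (M.m a p.1) p.2 i) ^ 2 := by
  have h : (fun p : V4 × V4 => ∑ i, (app (M.m a p.1) p.2 i) ^ 2) = fun p : V4 × V4 =>
      ev (pull (M.m a p.1) F0) p.2 (app (M.J a p.1) p.2) := by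
    funext p; exact (M.ev_F_chart a p.1 p.2).symm
  rw [h]
  have h1 : Continuous fun p : V4 × V4 => pull (M.m a p.1) F0 :=
    (M.F_smooth a).continuous.comp continuous_fst
  have h3 : Continuous fun p : V4 × V4 => (M.J a p.1, p.2) :=
    ((M.J_smooth a).continuous.comp continuous_fst).prodMk continuous_snd
  have h2 : Continuous fun p : V4 × V4 => app (M.J a p.1) p.2 :=
    Continuous.comp (g := fun q : M4 × V4 => app q.1 q.2) continuous_app h3
  exact Continuous.comp (g := fun q : L2 × V4 × V4 => ev q.1 q.2.1 q.2.2)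
    (f := fun p : V4 × V4 => (pull (M.m a p.1) F0, p.2, app (M.J a p.1) p.2))
    continuous_ev (h1.prodMk (continuous_snd.prodMk h2))

theorem sum_sq_le (w : V4) : ∑ i, w i ^ 2 ≤ 4 * ‖w‖ ^ 2 := by
  have : ∀ i ∈ (Finset.univ : Finset (Fin 4)), w i ^ 2 ≤ ‖w‖ ^ 2 := fun i _ => by
    have := norm_le_pi_norm w i
    rw [Real.norm_eq_abs] at this
    rw [← sq_abs]; gcongr
  calc _ ≤ ∑ _i : Fin 4, ‖w‖ ^ 2 := Finset.sum_le_sum this
    _ = 4 * ‖w‖ ^ 2 := by simp only [Finset.sum_const, Finset.card_univ, Fintype.card_fin, nsmul_eq_mul, Nat.cast_ofNat]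

theorem le_sum_sq (w : V4) : ‖w‖ ^ 2 ≤ ∑ i, w i ^ 2 := by
  have h0 : 0 ≤ ∑ i, w i ^ 2 := Finset.sum_nonneg fun i _ => sq_nonneg _
  have h : ‖w‖ ≤ Real.sqrt (∑ i, w i ^ 2) := by
    rw [pi_norm_le_iff_of_nonneg (Real.sqrt_nonneg _)]
    intro i
    rw [Real.norm_eq_abs]
    apply Real.abs_le_sqrt
    exact Finset.single_le_sum (f := fun i => w i ^ 2) (fun i _ => sq_nonneg _) (Finset.mem_univ i)
  calc ‖w‖ ^ 2 ≤ (Real.sqrt (∑ i, w i ^ 2)) ^ 2 := by gcongr
    _ = _ := Real.sq_sqrt h0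

omit [MeasurableSpace X] [BorelSpace X] in
/-- The frame matrices are bounded with bounded inverses over compact sets. -/
theorem exists_frame_bound (a : M.A) (r : ℝ) : ∃ C, 1 ≤ C ∧ ∀ y, ‖y‖ ≤ r → ∀ v,
    ‖app (M.m a y) v‖ ≤ C * ‖v‖ ∧ ‖v‖ ≤ C * ‖app (M.m a y) v‖ := by
  set S : Set (V4 × V4) := Metric.closedBall 0 r ×ˢ Metric.sphere 0 1 with hS
  have hSc : IsCompact S := (isCompact_closedBall _ _).prod (isCompact_sphere _ _)
  have hcont := (M.continuous_met a).continuousOn (s := S)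
  obtain ⟨C1, hC1⟩ := hSc.exists_bound_of_continuousOn hcont
  have hpos : ∀ p ∈ S, 0 < ∑ i, (app (M.m a p.1) p.2 i) ^ 2 := by
    intro p hp
    have hne : p.2 ≠ 0 := by
      intro h0; have := hp.2; rw [h0] at this; simp only [mem_sphere_iff_norm, sub_self, norm_zero, zero_ne_one] at this
    have hne' : app (M.m a p.1) p.2 ≠ 0 := by
      intro h0
      apply hne
      rw [← M.m'_m a p.1 p.2, h0, app_zero]
    exact lt_of_lt_of_le (by positivity) (le_sum_sq _)
  obtain ⟨c, hc, hcle⟩ : ∃ c, 0 < c ∧ ∀ p ∈ S, c ≤ ∑ i, (app (M.m a p.1) p.2 i) ^ 2 := by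
    rcases S.eq_empty_or_nonempty with h | h
    · exact ⟨1, one_pos, fun p hp => by rw [h] at hp; exact absurd hp (notMem_empty _)⟩
    · obtain ⟨p, hp, hmin⟩ := hSc.exists_isMinOn h hcont
      exact ⟨_, hpos p hp, fun q hq => hmin hq⟩
  refine ⟨max 1 (max (Real.sqrt (max C1 0)) (2 / Real.sqrt c)), le_max_left _ _,
    fun y hy v => ?_⟩
  by_cases hv : v = 0
  · subst hv; rw [app_zero]; simp only [norm_zero, mul_zero, Std.le_refl, and_self]
  have hn : 0 < ‖v‖ := norm_pos_iff.2 hv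
  have hp : ((y, ‖v‖⁻¹ • v) : V4 × V4) ∈ S := by
    refine ⟨by rw [mem_closedBall_zero_iff]; exact hy, ?_⟩
    rw [mem_sphere_zero_iff_norm, norm_smul, norm_inv, norm_norm, inv_mul_cancel₀ hn.ne']
  have hs : v = ‖v‖ • (‖v‖⁻¹ • v) := by rw [smul_smul, mul_inv_cancel₀ hn.ne', one_smul]
  set w := ‖v‖⁻¹ • v with hw
  have happ : app (M.m a y) v = ‖v‖ • app (M.m a y) w := by
    conv_lhs => rw [hs, app_smul]
  have hnorm : ‖app (M.m a y) v‖ = ‖v‖ * ‖app (M.m a y) w‖ := by
    rw [happ, norm_smul, norm_norm]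
  have h1 : ‖app (M.m a y) w‖ ≤ Real.sqrt (max C1 0) := by
    apply Real.le_sqrt_of_sq_le
    have h2 := hC1 _ hp
    rw [Real.norm_eq_abs] at h2
    exact (le_sum_sq _).trans ((le_abs_self _).trans (h2.trans (le_max_left _ _)))
  have h3 : Real.sqrt c / 2 ≤ ‖app (M.m a y) w‖ := by
    have h4 := (hcle _ hp).trans (sum_sq_le _)
    have h5 : Real.sqrt c ≤ 2 * ‖app (M.m a y) w‖ := by
      rw [show 2 * ‖app (M.m a y) w‖ = Real.sqrt ((2 * ‖app (M.m a y) w‖) ^ 2) from
        (Real.sqrt_sq (by positivity)).symm]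
      apply Real.sqrt_le_sqrt
      simp only at h4
      linarith only [h4]
    linarith only [h5]
  have hsc : 0 < Real.sqrt c := Real.sqrt_pos.2 hc
  constructor
  · rw [hnorm, mul_comm]
    gcongr
    exact h1.trans ((le_max_left _ _).trans (le_max_right _ _))
  · rw [hnorm]
    have h6 : 2 / Real.sqrt c ≤ max 1 (max (Real.sqrt (max C1 0)) (2 / Real.sqrt c)) :=
      (le_max_right _ _).trans (le_max_right _ _)
    have h7 : 1 ≤ 2 / Real.sqrt c * ‖app (M.m a y) w‖ := by
      rw [div_mul_eq_mul_div, le_div_iff₀ hsc]; linarith only [h3]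
    calc ‖v‖ = ‖v‖ * 1 := (mul_one _).symm
      _ ≤ ‖v‖ * (2 / Real.sqrt c * ‖app (M.m a y) w‖) := by gcongr
      _ = 2 / Real.sqrt c * (‖v‖ * ‖app (M.m a y) w‖) := by ring
      _ ≤ _ := by gcongr

/-- Bound of `pull` by the operator size. -/
theorem norm_pull_le {P : M4} {C : ℝ} (hC : 0 ≤ C) (hP : ∀ v, ‖app P v‖ ≤ C * ‖v‖) (A : L2) :
    ‖pull P A‖ ≤ 12 * C ^ 2 * ‖A‖ := by
  have hent : ∀ i j, |P i j| ≤ C := by
    intro i j
    have h1 := hP (Pi.single j 1)
    have h2 : app P (Pi.single j 1) i = P i j := by simp only [app, Pi.single_apply, mul_ite, mul_one, mul_zero, Finset.sum_ite_eq', Finset.mem_univ, ↓reduceIte]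
    have h3 : ‖(Pi.single j (1 : ℝ) : V4)‖ = 1 := by
      rw [Pi.norm_single]; simp
    rw [h3, mul_one] at h1
    have h4 := (norm_le_pi_norm (app P (Pi.single j 1)) i).trans h1
    rw [h2] at h4; exact h4
  have hA : ∀ k l, |ent A k l| ≤ ‖A‖ := by
    intro k l
    have h1 : ∀ i : Fin 6, |A i| ≤ ‖A‖ := fun i => norm_le_pi_norm A i
    have h0 := norm_nonneg A
    fin_cases k <;> fin_cases l <;> simp only [ent, Fin.isValue, Fin.zero_eta, Matrix.cons_val', Matrix.cons_val_zero, Matrix.cons_val_fin_one, abs_zero, norm_nonneg, Fin.mk_one, Matrix.cons_val_one, ge_iff_le, Fin.reduceFinMk, Matrix.cons_val, abs_neg] <;> first | exact h0 | exact h1 _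
  have hsum : ∀ i j, |∑ k, ∑ l, ent A k l * P k i * P l j| ≤ 12 * C ^ 2 * ‖A‖ := by
    intro i j
    have h1 : ∀ k l, |ent A k l * P k i * P l j| ≤ if k = l then 0 else C ^ 2 * ‖A‖ := by
      intro k l
      split_ifs with h
      · subst h
        have : ent A k k = 0 := by have := ent_swap A k k; linarith only [this]
        rw [this]; simp
      · rw [abs_mul, abs_mul]
        calc |ent A k l| * |P k i| * |P l j| ≤ ‖A‖ * C * C := by
              gcongr
              · exact hA k l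
              · exact hent k i
              · exact hent l j
          _ = C ^ 2 * ‖A‖ := by ring
    calc |∑ k, ∑ l, ent A k l * P k i * P l j|
        ≤ ∑ k, |∑ l, ent A k l * P k i * P l j| := Finset.abs_sum_le_sum_abs _ _
      _ ≤ ∑ k, ∑ l, |ent A k l * P k i * P l j| :=
          Finset.sum_le_sum fun k _ => Finset.abs_sum_le_sum_abs _ _
      _ ≤ ∑ k : Fin 4, ∑ l : Fin 4, if k = l then 0 else C ^ 2 * ‖A‖ :=
          Finset.sum_le_sum fun k _ => Finset.sum_le_sum fun l _ => h1 k l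
      _ = 12 * C ^ 2 * ‖A‖ := by
          simp only [Fin.sum_univ_four, Fin.isValue, ↓reduceIte, zero_ne_one, zero_add, Fin.reduceEq, one_ne_zero, add_zero]; ring
  rw [pi_norm_le_iff_of_nonneg (by positivity)]
  intro i
  rw [Real.norm_eq_abs]
  fin_cases i <;> exact hsum _ _

omit [MeasurableSpace X] [BorelSpace X] in
/-- Components in a chart over a compact set are comparable with the values in the unitary frame. -/
theorem exists_cf_bound (a : M.A) (r : ℝ) : ∃ C, 1 ≤ C ∧ ∀ y, ‖y‖ ≤ r → ∀ u : X → L2,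
    ‖M.cf a u y‖ ≤ C * ‖u (M.ψ a y)‖ ∧ ‖u (M.ψ a y)‖ ≤ C * ‖M.cf a u y‖ := by
  obtain ⟨C, hC1, hC⟩ := M.exists_frame_bound a r
  refine ⟨12 * C ^ 2, by nlinarith, fun y hy u => ⟨?_, ?_⟩⟩
  · exact norm_pull_le (by linarith) (fun v => (hC y hy v).1) _
  · rw [M.eq_pull_m' u a y]
    refine norm_pull_le (by linarith) (fun v => ?_) _
    have := (hC y hy (app (M.m' a y) v)).2
    rwa [M.m_m'] at this

/-! ### Finiteness -/

instance : IsFiniteMeasure M.mu := by
  constructor
  unfold mu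
  rw [Measure.finsetSum_apply]
  refine ENNReal.sum_lt_top.2 fun a _ => ?_
  rw [Measure.map_apply (M.measurable_ψ a) MeasurableSet.univ, preimage_univ,
    withDensity_apply _ MeasurableSet.univ, Measure.restrict_univ]
  have hc : Continuous fun y => M.zl a y * det4 (M.m a y) :=
    (M.contDiff_zl a).continuous.mul (M.continuous_det_m a)
  have hs : HasCompactSupport fun y => M.zl a y * det4 (M.m a y) :=
    (M.hasCompactSupport_zl a).mul_right
  exact (hc.integrable_of_hasCompactSupport hs).lintegral_lt_top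

end CM
end Vale.Agent.P204K.GX
end

section
set_option linter.all false
/-!
El Mir step on `V4`, skeleton.  `R = D r` positive closed current of bidimension (1,1) on `V4`.
-/
open MeasureTheory Set Filter Topology
open scoped ContDiff

namespace Vale.Agent.P204K.T4

/-- smooth compactly supported one-form -/
def TF (η : V4 → V4) : Prop := ContDiff ℝ ∞ η ∧ HasCompactSupport η

/-- positive closed current of order zero on `V4` -/
structure LCur (J : V4 → M4) (r : Measure V4) (D : V4 → L2) : Prop where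
  fin : IsLocallyFiniteMeasure r
  meas : Measurable D
  cone : ∀ y, Cone (J y) (D y)
  norm : ∀ y, Q (D y) (Fm (J y)) = 1
  closed : ∀ η, TF η → ∫ y, Q (D y) (d1 η y) ∂r = 0

/-- potential with kernel `|x-y|^{-2}`, infinite at atoms -/
noncomputable def pot (r : Measure V4) (x : V4) : ENNReal :=
  ∫⁻ y in Metric.ball x 1, (ENNReal.ofReal (‖y - x‖ ^ 2))⁻¹ ∂r

/-- output of the local potential theory (helper576), input of the cutoff argument (helper134) -/
structure EMData (J : V4 → M4) (r : Measure V4) where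
  V : ℝ → V4 → ℝ
  b : ℝ → V4 → V4
  ρ : V4 → ℝ
  τ : V4 → V4
  V_smooth : ∀ s, 0 < s → ContDiff ℝ ∞ (V s)
  b_smooth : ∀ s, 0 < s → ContDiff ℝ ∞ (b s)
  ρ_cont : Continuous ρ
  ρ_pos : ∀ x, 0 < ρ x
  τ_cont : Continuous τ
  V_nonneg : ∀ s x, 0 < s → 0 ≤ V s x
  V_mono : ∀ s s' x, 0 < s → s ≤ s' → V s' x ≤ V s x
  /-- finite potential iff bounded `V s x` -/
  V_lim : ∀ x, pot r x < ⊤ ↔ ∃ C : ℝ, ∀ s, 0 < s → V s x ≤ C
  /-- `b = - ρ cc J dV + O(1+V)` -/
  P1 : ∀ K : Set V4, IsCompact K → ∃ C : ℝ, ∀ s, 0 < s → s ≤ 1 → ∀ x ∈ K,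
    ‖b s x + ρ x • cc (J x) (grad (V s) x)‖ ≤ C * (1 + V s x)
  P2 : ∀ K : Set V4, IsCompact K → ∃ C : ℝ, ∀ s, 0 < s → s ≤ 1 → ∀ x ∈ K, ∀ A, Cone (J x) A →
    Q A (wd (τ x) (b s x)) - C * (1 + V s x) * ‖A‖ ≤ Q A (d1 (b s) x)

end Vale.Agent.P204K.T4
end

section

/-!
Chart translations `hz v y = y + θ(y) v` on `V4` and the modification operator
`Mo c f u` (pull back by the diffeomorphism of `X` which is `f` in chart `c`).
-/

open scoped BigOperators ContDiff Topology
open MeasureTheory Set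

namespace Vale.Agent.P204K.GX
open T4

/-- chart translation -/
noncomputable def hz (v y : V4) : V4 := y + theta y • v

theorem contDiff_hz2 : ContDiff ℝ ∞ (fun p : V4 × V4 => hz p.1 p.2) := by
  unfold hz
  exact contDiff_snd.add ((theta.contDiff.comp contDiff_snd).smul contDiff_fst)

theorem contDiff_hz (v : V4) : ContDiff ℝ ∞ (hz v) :=
  contDiff_hz2.comp (contDiff_const.prodMk contDiff_id)

theorem hz_zero (y : V4) : hz 0 y = y := by simp [hz]

theorem hz_of_le {y : V4} (hy : ‖y‖ ≤ 4) (v : V4) : hz v y = y + v := by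
  unfold hz
  rw [theta.one_of_mem_closedBall (by rw [mem_closedBall_zero_iff]; exact hy), one_smul]

theorem hz_of_ge {y : V4} (hy : 5 ≤ ‖y‖) (v : V4) : hz v y = y := by
  unfold hz
  have h : y ∉ Function.support theta := by
    rw [theta.support_eq]; simp only [Metric.mem_ball, dist_zero_right, not_lt]; exact hy
  rw [Function.notMem_support.1 h, zero_smul, add_zero]

theorem exists_lip_theta : ∃ L : NNReal, LipschitzWith L (theta : V4 → ℝ) :=
  theta.contDiff.lipschitzWith_of_hasCompactSupport theta.hasCompactSupport (n := 1) (by simp)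

/-- smooth diffeomorphism of `V4`, identity off the ball of radius 5 -/
structure Dfo (f g : V4 → V4) : Prop where
  sf : ContDiff ℝ ∞ f
  sg : ContDiff ℝ ∞ g
  gf : ∀ y, g (f y) = y
  fg : ∀ y, f (g y) = y
  idf : ∀ y, 5 ≤ ‖y‖ → f y = y
  idg : ∀ y, 5 ≤ ‖y‖ → g y = y

theorem Dfo.symm {f g : V4 → V4} (h : Dfo f g) : Dfo g f :=
  ⟨h.sg, h.sf, h.fg, h.gf, h.idg, h.idf⟩

theorem exists_dfo_hz : ∃ v0 : ℝ, 0 < v0 ∧ ∀ v : V4, ‖v‖ < v0 → (∃ g, Dfo (hz v) g) ∧
    ∀ y w, ‖w‖ ≤ 2 * ‖fderiv ℝ (hz v) y w‖ := by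
  obtain ⟨L, hL⟩ := exists_lip_theta
  refine ⟨1 / (2 * ((L : ℝ) + 1)), by positivity, fun v hv => ?_⟩
  have hv' : (L : ℝ) * ‖v‖ ≤ 1 / 2 := by
    have h1 : (L : ℝ) * ‖v‖ ≤ (L : ℝ) * (1 / (2 * ((L : ℝ) + 1))) := by gcongr
    have h2 : (L : ℝ) * (1 / (2 * ((L : ℝ) + 1))) ≤ 1 / 2 := by
      rw [mul_one_div, div_le_div_iff₀ (by positivity) (by norm_num)]
      have := L.2
      linarith only []
    linarith only [h1, h2]
  -- the perturbation
  have hpert : ∀ y y' : V4, ‖theta y • v - theta y' • v‖ ≤ 1 / 2 * ‖y - y'‖ := by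
    intro y y'
    rw [← sub_smul, norm_smul]
    have h1 : ‖(theta y : ℝ) - theta y'‖ ≤ L * ‖y - y'‖ := by
      have := hL.dist_le_mul y y'
      rwa [dist_eq_norm, dist_eq_norm] at this
    calc ‖(theta y : ℝ) - theta y'‖ * ‖v‖ ≤ (L * ‖y - y'‖) * ‖v‖ := by gcongr
      _ = (L * ‖v‖) * ‖y - y'‖ := by ring
      _ ≤ 1 / 2 * ‖y - y'‖ := by gcongr
  have hexp : ∀ y y' : V4, ‖y - y'‖ ≤ 2 * ‖hz v y - hz v y'‖ := by
    intro y y'
    have h1 : y - y' = (hz v y - hz v y') - (theta y • v - theta y' • v) := by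
      unfold hz; abel
    have h2 : ‖y - y'‖ ≤ ‖hz v y - hz v y'‖ + ‖theta y • v - theta y' • v‖ := by
      conv_lhs => rw [h1]
      exact norm_sub_le _ _
    have := hpert y y'
    linarith only [h2, this]
  have hinj : Function.Injective (hz v) := by
    intro y y' h
    have := hexp y y'
    rw [h, sub_self, norm_zero, mul_zero] at this
    exact sub_eq_zero.1 (norm_le_zero_iff.1 this)
  have hsurj : Function.Surjective (hz v) := by
    intro w
    have hc : ContractingWith (1 / 2 : NNReal) (fun y : V4 => w - theta y • v) := by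
      refine ⟨by norm_num, LipschitzWith.of_dist_le_mul fun y y' => ?_⟩
      rw [dist_eq_norm, dist_eq_norm]
      have h1 : (w - theta y • v) - (w - theta y' • v) = - (theta y • v - theta y' • v) := by abel
      rw [h1, norm_neg]
      have := hpert y y'
      simpa only [one_div, NNReal.coe_inv, NNReal.coe_ofNat, ge_iff_le] using this
    refine ⟨ContractingWith.fixedPoint _ hc, ?_⟩
    have hfix : ContractingWith.fixedPoint _ hc
        = w - theta (ContractingWith.fixedPoint _ hc) • v :=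
      (ContractingWith.fixedPoint_isFixedPt hc).symm
    exact eq_sub_iff_add_eq.1 hfix
  set e : V4 ≃ V4 := Equiv.ofBijective (hz v) ⟨hinj, hsurj⟩ with he
  have hecont : Continuous e := (contDiff_hz v).continuous
  have hesymm : Continuous e.symm := by
    have : LipschitzWith 2 e.symm := by
      refine LipschitzWith.of_dist_le_mul fun y y' => ?_
      rw [dist_eq_norm, dist_eq_norm]
      have h1 := hexp (e.symm y) (e.symm y')
      have h2 : ∀ y, hz v (e.symm y) = y := fun y => e.apply_symm_apply y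
      rw [h2, h2] at h1
      simpa only [NNReal.coe_ofNat, ge_iff_le] using h1
    exact this.continuous
  set eh : V4 ≃ₜ V4 := ⟨e, hecont, hesymm⟩ with heh
  have hlow : ∀ y w, ‖w‖ ≤ 2 * ‖fderiv ℝ (hz v) y w‖ := by
    intro y w
    have hd : DifferentiableAt ℝ (theta : V4 → ℝ) y := theta.contDiff.differentiable (n := ∞)
      (by simp) y
    have h1 : HasFDerivAt (hz v) (ContinuousLinearMap.id ℝ V4
        + (fderiv ℝ (theta : V4 → ℝ) y).smulRight v) y := by
      unfold hz
      exact (hasFDerivAt_id y).add (hd.hasFDerivAt.smul_const v)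
    rw [h1.fderiv]
    set D := (ContinuousLinearMap.id ℝ V4
        + (fderiv ℝ (theta : V4 → ℝ) y).smulRight v) w with hDdef
    have hDw : D = w + (fderiv ℝ (theta : V4 → ℝ) y w) • v := rfl
    have h2 : w = D - (fderiv ℝ (theta : V4 → ℝ) y w) • v := by rw [hDw]; abel
    have h4 : ‖fderiv ℝ (theta : V4 → ℝ) y‖ ≤ L := norm_fderiv_le_of_lipschitz ℝ hL
    have h5 : ‖(fderiv ℝ (theta : V4 → ℝ) y w) • v‖ ≤ 1 / 2 * ‖w‖ := by
      rw [norm_smul]
      calc ‖fderiv ℝ (theta : V4 → ℝ) y w‖ * ‖v‖ ≤ (L * ‖w‖) * ‖v‖ := by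
            gcongr
            exact ((fderiv ℝ (theta : V4 → ℝ) y).le_opNorm w).trans (by gcongr)
        _ = (L * ‖v‖) * ‖w‖ := by ring
        _ ≤ 1 / 2 * ‖w‖ := by gcongr
    have h6 : ‖w‖ ≤ ‖D‖ + ‖(fderiv ℝ (theta : V4 → ℝ) y w) • v‖ := by
      conv_lhs => rw [h2]
      exact norm_sub_le _ _
    linarith only [h5, h6]
  have hder : ∀ y, Function.Injective (fderiv ℝ (hz v) y) := by
    intro y
    rw [injective_iff_map_eq_zero]
    intro w hw
    have := hlow y w
    rw [hw, norm_zero, mul_zero] at this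
    exact norm_le_zero_iff.1 this
  set D : V4 → (V4 ≃L[ℝ] V4) := fun y =>
    (LinearEquiv.ofInjectiveEndo (fderiv ℝ (hz v) y : V4 →ₗ[ℝ] V4) (hder y)).toContinuousLinearEquiv
    with hD
  have hD' : ∀ y, HasFDerivAt eh (D y : V4 →L[ℝ] V4) y := by
    intro y
    have h1 : (D y : V4 →L[ℝ] V4) = fderiv ℝ (hz v) y := by
      ext w; rfl
    rw [h1]
    exact ((contDiff_hz v).differentiable (by simp) y).hasFDerivAt
  refine ⟨⟨eh.symm, contDiff_hz v, eh.contDiff_symm hD' (contDiff_hz v), fun y => ?_, fun y => ?_,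
    fun y hy => hz_of_ge hy v, fun y hy => ?_⟩, hlow⟩
  · exact e.symm_apply_apply y
  · exact e.apply_symm_apply y
  · apply hinj
    rw [hz_of_ge hy v]
    exact e.apply_symm_apply y

/-- pull back of a form on `V4` -/
noncomputable def pf (f : V4 → V4) (γ : V4 → L2) (y : V4) : L2 := pull (Dm f y) (γ (f y))
noncomputable def pf1 (f : V4 → V4) (γ : V4 → V4) (y : V4) : V4 := copp (γ (f y)) (Dm f y)

theorem pf1_comp {f g : V4 → V4} (hf : ContDiff ℝ ∞ f) (hg : ContDiff ℝ ∞ g) (γ : V4 → V4) :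
    pf1 f (pf1 g γ) = pf1 (fun y => g (f y)) γ := by
  funext y
  unfold pf1
  rw [Dm_comp (hg.differentiable (by simp) _) (hf.differentiable (by simp) _), copp_mm]

theorem pf1_id (γ : V4 → V4) : pf1 (fun y => y) γ = γ := by
  funext y; unfold pf1; rw [Dm_id, copp_one]

theorem contDiff_pf {f : V4 → V4} (hf : ContDiff ℝ ∞ f) {γ : V4 → L2} (hγ : ContDiff ℝ ∞ γ) :
    ContDiff ℝ ∞ (pf f γ) := contDiff_iff_contDiffAt.2 fun _ =>
  contDiffAt_pull (contDiff_Dm hf).contDiffAt (hγ.comp hf).contDiffAt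

theorem contDiff_pf1 {f : V4 → V4} (hf : ContDiff ℝ ∞ f) {γ : V4 → V4} (hγ : ContDiff ℝ ∞ γ) :
    ContDiff ℝ ∞ (pf1 f γ) := contDiff_iff_contDiffAt.2 fun _ =>
  contDiffAt_copp (contDiff_Dm hf).contDiffAt (hγ.comp hf).contDiffAt

theorem Dm_id_far {f : V4 → V4} (hf : ∀ y, 5 ≤ ‖y‖ → f y = y) {y : V4} (hy : 5 < ‖y‖) :
    Dm f y = oneM := by
  rw [← Dm_id y]
  apply Dm_congr
  have : {z : V4 | 5 < ‖z‖} ∈ 𝓝 y := (isOpen_lt continuous_const continuous_norm).mem_nhds hy
  filter_upwards [this] with z hz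
  exact hf z hz.le

theorem hasCompactSupport_pf_sub {f : V4 → V4} (hf : ∀ y, 5 ≤ ‖y‖ → f y = y) (γ : V4 → L2) :
    HasCompactSupport (pf f γ - γ) := by
  refine HasCompactSupport.intro (isCompact_closedBall (0 : V4) 5) fun y hy => ?_
  rw [mem_closedBall_zero_iff, not_le] at hy
  show pf f γ y - γ y = 0
  unfold pf
  rw [Dm_id_far hf hy, hf y hy.le, pull_one, sub_self]

theorem hasCompactSupport_pf1_sub {f : V4 → V4} (hf : ∀ y, 5 ≤ ‖y‖ → f y = y) (γ : V4 → V4) :
    HasCompactSupport (pf1 f γ - γ) := by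
  refine HasCompactSupport.intro (isCompact_closedBall (0 : V4) 5) fun y hy => ?_
  rw [mem_closedBall_zero_iff, not_le] at hy
  show pf1 f γ y - γ y = 0
  unfold pf1
  rw [Dm_id_far hf hy, hf y hy.le, copp_one, sub_self]

namespace CM
variable {X : Type} [MetricSpace X] (M : CM X)

theorem ext_add (c : M.A) (γ γ' : V4 → L2) : M.ext c (γ + γ') = M.ext c γ + M.ext c γ' := by
  apply M.ext_cf; intro a y _
  rw [M.cf_add, Pi.add_apply, M.cf_ext, M.cf_ext, M.cf_ext]
  split_ifs
  · exact pull_add _ _ _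
  · simp

theorem ext_smul (c : M.A) (r : ℝ) (γ : V4 → L2) : M.ext c (r • γ) = r • M.ext c γ := by
  apply M.ext_cf; intro a y _
  rw [M.cf_smul, Pi.smul_apply, M.cf_ext, M.cf_ext]
  split_ifs
  · exact pull_smul _ _ _
  · simp

/-- Modification: pull back by the diffeomorphism of `X` given by `f` in the chart `c`. -/
noncomputable def Mo (c : M.A) (f : V4 → V4) (u : X → L2) : X → L2 :=
  u + M.ext c (pf f (M.cf c u) - M.cf c u)

noncomputable def Mo1 (c : M.A) (f : V4 → V4) (u : X → V4) : X → V4 :=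
  u + M.ext1 c (pf1 f (M.cf1 c u) - M.cf1 c u)

theorem cf_Mo_self (c : M.A) (f : V4 → V4) (u : X → L2) : M.cf c (M.Mo c f u) = pf f (M.cf c u) := by
  unfold Mo
  rw [M.cf_add, M.cf_ext_self]; abel

theorem cf1_Mo1_self (c : M.A) (f : V4 → V4) (u : X → V4) :
    M.cf1 c (M.Mo1 c f u) = pf1 f (M.cf1 c u) := by
  unfold Mo1
  rw [M.cf1_add, M.cf1_ext1_self]; abel

theorem Mo_add (c : M.A) (f : V4 → V4) (u w : X → L2) :
    M.Mo c f (u + w) = M.Mo c f u + M.Mo c f w := by
  unfold Mo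
  have h : pf f (M.cf c (u + w)) = pf f (M.cf c u) + pf f (M.cf c w) := by
    funext y; unfold pf; rw [M.cf_add]; exact pull_add _ _ _
  rw [h, M.cf_add]
  have h2 : pf f (M.cf c u) + pf f (M.cf c w) - (M.cf c u + M.cf c w)
      = (pf f (M.cf c u) - M.cf c u) + (pf f (M.cf c w) - M.cf c w) := by abel
  rw [h2, M.ext_add]; abel

theorem Mo_smul (c : M.A) (f : V4 → V4) (r : ℝ) (u : X → L2) :
    M.Mo c f (r • u) = r • M.Mo c f u := by
  unfold Mo
  have h : pf f (M.cf c (r • u)) = r • pf f (M.cf c u) := by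
    funext y; unfold pf; rw [M.cf_smul]; exact pull_smul _ _ _
  rw [h, M.cf_smul, ← smul_sub, M.ext_smul, smul_add]

theorem Mo_mem_Om (c : M.A) {f : V4 → V4} (hf : ContDiff ℝ ∞ f) (hid : ∀ y, 5 ≤ ‖y‖ → f y = y)
    {u : X → L2} (hu : u ∈ M.Om) : M.Mo c f u ∈ M.Om :=
  M.Om.add_mem hu (M.ext_mem_Om c ((contDiff_pf hf (hu c)).sub (hu c))
    (hasCompactSupport_pf_sub hid _))

theorem Sm1.add {η ξ : X → V4} (h : M.Sm1 η) (h' : M.Sm1 ξ) : M.Sm1 (η + ξ) :=
  fun a => by rw [M.cf1_add]; exact (h a).add (h' a)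

theorem Mo1_sm1 (c : M.A) {f : V4 → V4} (hf : ContDiff ℝ ∞ f) (hid : ∀ y, 5 ≤ ‖y‖ → f y = y)
    {u : X → V4} (hu : M.Sm1 u) : M.Sm1 (M.Mo1 c f u) :=
  Sm1.add M hu (M.sm1_ext1 c ((contDiff_pf1 hf (hu c)).sub (hu c))
    (hasCompactSupport_pf1_sub hid _))

theorem d1_pf1 {f : V4 → V4} (hf : ContDiff ℝ ∞ f) {γ : V4 → V4} (hγ : ContDiff ℝ ∞ γ) :
    d1 (pf1 f γ) = pf f (d1 γ) := by
  funext y
  exact d1_pull (hγ.differentiable (by simp only [ne_eq, WithTop.coe_eq_zero, ENat.top_ne_zero, not_false_eq_true]) _) hf.contDiffAt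

/-- The modification commutes with `d`. -/
theorem Mo_dX (c : M.A) {f : V4 → V4} (hf : ContDiff ℝ ∞ f) (hid : ∀ y, 5 ≤ ‖y‖ → f y = y)
    {η : X → V4} (hη : M.Sm1 η) : M.Mo c f (M.dX η) = M.dX (M.Mo1 c f η) := by
  have hs : ContDiff ℝ ∞ (pf1 f (M.cf1 c η) - M.cf1 c η) := (contDiff_pf1 hf (hη c)).sub (hη c)
  have hc := hasCompactSupport_pf1_sub hid (M.cf1 c η)
  unfold Mo1 Mo
  rw [M.dX_add hη (M.sm1_ext1 c hs hc), M.dX_ext1 c hs hc, M.cf_dX hη, ← d1_pf1 hf (hη c)]
  congr 2
  funext y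
  have h1 : pf1 f (M.cf1 c η) - M.cf1 c η = pf1 f (M.cf1 c η) + (-1 : ℝ) • M.cf1 c η := by
    rw [neg_one_smul, sub_eq_add_neg]
  have hd : Differentiable ℝ (M.cf1 c η) := (hη c).differentiable (by simp)
  rw [h1, d1_add ((contDiff_pf1 hf (hη c)).differentiable (by simp)) (hd.const_smul _),
    d1_smul _ hd, neg_one_smul, ← sub_eq_add_neg]
  rfl

end CM
end Vale.Agent.P204K.GX
end

section

/-!
Local representation of the chart translations in the other charts.
-/

open scoped BigOperators ContDiff Topology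
open MeasureTheory Set

namespace Vale.Agent.P204K.GX
open T4

namespace CM
variable {X : Type} [MetricSpace X] (M : CM X)

open Classical in
/-- the chart translation `hz v` of the chart `c`, read in the chart `a` -/
noncomputable def Tl (a c : M.A) (v y : V4) : V4 :=
  if y ∈ M.O a c then M.τ c a (hz v (M.τ a c y)) else y

/-- domain of validity -/
def W (a c : M.A) : Set (V4 × V4) := {p | p.2 ∈ M.O a c → hz p.1 (M.τ a c p.2) ∈ M.O c a}

theorem zero_mem_W (a c : M.A) (y : V4) : ((0 : V4), y) ∈ M.W a c := by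
  intro h
  rw [hz_zero]; exact M.τ_mem h

/-- near a point of `W` the set `W` is a neighbourhood and `Tl` is smooth. -/
theorem W_local (a c : M.A) {p : V4 × V4} (hp : p ∈ M.W a c) :
    M.W a c ∈ 𝓝 p ∧ ContDiffAt ℝ ∞ (fun q : V4 × V4 => M.Tl a c q.1 q.2) p := by
  by_cases h : p.2 ∈ M.O a c
  · have hO : ∀ᶠ q : V4 × V4 in 𝓝 p, q.2 ∈ M.O a c :=
      continuous_snd.continuousAt.eventually_mem ((M.isOpen_O a c).mem_nhds h)
    have hτ : ContDiffAt ℝ ∞ (fun q : V4 × V4 => M.τ a c q.2) p :=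
      (M.contDiffAt_τ h).comp p contDiffAt_snd
    have hh : ContDiffAt ℝ ∞ (fun q : V4 × V4 => hz q.1 (M.τ a c q.2)) p :=
      ContDiffAt.comp (g := fun q : V4 × V4 => hz q.1 q.2)
        (f := fun q : V4 × V4 => (q.1, M.τ a c q.2)) p contDiff_hz2.contDiffAt
        (contDiffAt_fst.prodMk hτ)
    have hmem := hp h
    have hW : ∀ᶠ q : V4 × V4 in 𝓝 p, hz q.1 (M.τ a c q.2) ∈ M.O c a :=
      hh.continuousAt.eventually_mem ((M.isOpen_O c a).mem_nhds hmem)
    refine ⟨?_, ?_⟩
    · filter_upwards [hW] with q hq _ using hq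
    · have h1 : ContDiffAt ℝ ∞ (fun q : V4 × V4 => M.τ c a (hz q.1 (M.τ a c q.2))) p :=
        ContDiffAt.comp (g := M.τ c a) p (M.contDiffAt_τ hmem) hh
      refine h1.congr_of_eventuallyEq ?_
      filter_upwards [hO] with q hq
      unfold Tl; rw [if_pos hq]
  · have hcl : IsClosed (M.ψ c '' Metric.closedBall 0 5) :=
      ((isCompact_closedBall (0 : V4) 5).image (M.continuous_ψ c)).isClosed
    have hopen : IsOpen {q : V4 × V4 | M.ψ a q.2 ∉ M.ψ c '' Metric.closedBall 0 5} :=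
      (hcl.isOpen_compl).preimage ((M.continuous_ψ a).comp continuous_snd)
    have hmem : p ∈ {q : V4 × V4 | M.ψ a q.2 ∉ M.ψ c '' Metric.closedBall 0 5} := by
      intro hz
      obtain ⟨w, -, hw⟩ := hz
      exact h ⟨w, hw⟩
    have key : ∀ q ∈ {q : V4 × V4 | M.ψ a q.2 ∉ M.ψ c '' Metric.closedBall 0 5},
        q.2 ∈ M.O a c → hz q.1 (M.τ a c q.2) = M.τ a c q.2 := by
      intro q hq hO
      apply hz_of_ge
      by_contra hlt
      push Not at hlt
      exact hq ⟨M.τ a c q.2, by rw [mem_closedBall_zero_iff]; exact hlt.le, M.ψ_τ hO⟩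
    refine ⟨?_, ?_⟩
    · filter_upwards [hopen.mem_nhds hmem] with q hq hO
      rw [key q hq hO]; exact M.τ_mem hO
    · have h1 : ContDiffAt ℝ ∞ (fun q : V4 × V4 => q.2) p := contDiffAt_snd
      refine h1.congr_of_eventuallyEq ?_
      filter_upwards [hopen.mem_nhds hmem] with q hq
      unfold Tl
      split_ifs with hO
      · rw [key q hq hO, M.τ_τ hO]
      · rfl

theorem isOpen_W (a c : M.A) : IsOpen (M.W a c) :=
  isOpen_iff_mem_nhds.2 fun _ hp => (M.W_local a c hp).1

theorem Tl_zero (a c : M.A) (y : V4) : M.Tl a c 0 y = y := by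
  unfold Tl
  split_ifs with h
  · rw [hz_zero, M.τ_τ h]
  · rfl

theorem Tl_self (a : M.A) (v y : V4) : M.Tl a a v y = hz v y := by
  unfold Tl
  rw [if_pos (M.mem_O_self a y), M.τ_self, M.τ_self]

/-- Local formula for the modification. -/
theorem cf_Mo_local (a c : M.A) {v y : V4} (h : (v, y) ∈ M.W a c) (u : X → L2) :
    M.cf a (M.Mo c (hz v) u) y = pull (Dm (M.Tl a c v) y) (M.cf a u (M.Tl a c v y)) := by
  unfold Mo
  rw [M.cf_add, Pi.add_apply, M.cf_ext]
  by_cases hO : y ∈ M.O a c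
  · rw [if_pos hO]
    have hmem : hz v (M.τ a c y) ∈ M.O c a := h hO
    have hT : M.Tl a c v y = M.τ c a (hz v (M.τ a c y)) := by unfold Tl; rw [if_pos hO]
    have hD : Dm (M.Tl a c v) y = mm (M.Dt c a (hz v (M.τ a c y)))
        (mm (Dm (hz v) (M.τ a c y)) (M.Dt a c y)) := by
      have h1 : M.Tl a c v =ᶠ[𝓝 y] fun z => M.τ c a ((fun w => hz v (M.τ a c w)) z) := by
        filter_upwards [(M.isOpen_O a c).mem_nhds hO] with z hz
        unfold Tl; rw [if_pos hz]
      have hd1 : DifferentiableAt ℝ (hz v) (M.τ a c y) :=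
        (contDiff_hz v).differentiable (by simp) _
      have hd2 := M.differentiableAt_τ hO
      have hd3 : DifferentiableAt ℝ (fun w => hz v (M.τ a c w)) y := hd1.comp y hd2
      rw [Dm_congr h1, Dm_comp (f := fun w => hz v (M.τ a c w)) (M.differentiableAt_τ hmem) hd3,
        Dm_comp (f := M.τ a c) hd1 hd2]
      rfl
    have h2 : M.cf a u y = pull (M.Dt a c y) (M.cf c u (M.τ a c y)) := M.cf_compat u hO
    have h3 : (pf (hz v) (M.cf c u) - M.cf c u) (M.τ a c y)
        = pf (hz v) (M.cf c u) (M.τ a c y) - M.cf c u (M.τ a c y) := rfl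
    rw [h2, h3, pull_sub, hD, hT]
    unfold pf
    rw [M.cf_compat u hmem, ← pull_mm, ← pull_mm]
    abel_nf
  · rw [if_neg hO, add_zero]
    have hcl : IsClosed (M.ψ c '' Metric.closedBall 0 5) :=
      ((isCompact_closedBall (0 : V4) 5).image (M.continuous_ψ c)).isClosed
    have hopen : IsOpen {z : V4 | M.ψ a z ∉ M.ψ c '' Metric.closedBall 0 5} :=
      (hcl.isOpen_compl).preimage (M.continuous_ψ a)
    have hmem : y ∈ {z : V4 | M.ψ a z ∉ M.ψ c '' Metric.closedBall 0 5} := by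
      intro hz
      obtain ⟨w, -, hw⟩ := hz
      exact hO ⟨w, hw⟩
    have h1 : M.Tl a c v =ᶠ[𝓝 y] fun z => z := by
      filter_upwards [hopen.mem_nhds hmem] with z hz
      unfold Tl
      split_ifs with hOz
      · have h5 : 5 ≤ ‖M.τ a c z‖ := by
          by_contra hlt
          push Not at hlt
          exact hz ⟨M.τ a c z, by rw [mem_closedBall_zero_iff]; exact hlt.le, M.ψ_τ hOz⟩
        rw [hz_of_ge h5, M.τ_τ hOz]
      · rfl
    rw [Dm_congr h1, Dm_id, pull_one, h1.self_of_nhds]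

theorem cf1_Mo1_local (a c : M.A) {v y : V4} (h : (v, y) ∈ M.W a c) (u : X → V4) :
    M.cf1 a (M.Mo1 c (hz v) u) y = copp (M.cf1 a u (M.Tl a c v y)) (Dm (M.Tl a c v) y) := by
  unfold Mo1
  rw [M.cf1_add, Pi.add_apply, M.cf1_ext1]
  by_cases hO : y ∈ M.O a c
  · rw [if_pos hO]
    have hmem : hz v (M.τ a c y) ∈ M.O c a := h hO
    have hT : M.Tl a c v y = M.τ c a (hz v (M.τ a c y)) := by unfold Tl; rw [if_pos hO]
    have hD : Dm (M.Tl a c v) y = mm (M.Dt c a (hz v (M.τ a c y)))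
        (mm (Dm (hz v) (M.τ a c y)) (M.Dt a c y)) := by
      have h1 : M.Tl a c v =ᶠ[𝓝 y] fun z => M.τ c a ((fun w => hz v (M.τ a c w)) z) := by
        filter_upwards [(M.isOpen_O a c).mem_nhds hO] with z hz
        unfold Tl; rw [if_pos hz]
      have hd1 : DifferentiableAt ℝ (hz v) (M.τ a c y) :=
        (contDiff_hz v).differentiable (by simp) _
      have hd2 := M.differentiableAt_τ hO
      have hd3 : DifferentiableAt ℝ (fun w => hz v (M.τ a c w)) y := hd1.comp y hd2
      rw [Dm_congr h1, Dm_comp (f := fun w => hz v (M.τ a c w)) (M.differentiableAt_τ hmem) hd3,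
        Dm_comp (f := M.τ a c) hd1 hd2]
      rfl
    have h2 : M.cf1 a u y = copp (M.cf1 c u (M.τ a c y)) (M.Dt a c y) := M.cf1_compat u hO
    have h3 : (pf1 (hz v) (M.cf1 c u) - M.cf1 c u) (M.τ a c y)
        = pf1 (hz v) (M.cf1 c u) (M.τ a c y) - M.cf1 c u (M.τ a c y) := rfl
    rw [h2, h3, copp_sub, hD, hT]
    unfold pf1
    rw [M.cf1_compat u hmem, ← copp_mm, ← copp_mm]
    abel_nf
  · rw [if_neg hO, add_zero]
    have hcl : IsClosed (M.ψ c '' Metric.closedBall 0 5) :=
      ((isCompact_closedBall (0 : V4) 5).image (M.continuous_ψ c)).isClosed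
    have hopen : IsOpen {z : V4 | M.ψ a z ∉ M.ψ c '' Metric.closedBall 0 5} :=
      (hcl.isOpen_compl).preimage (M.continuous_ψ a)
    have hmem : y ∈ {z : V4 | M.ψ a z ∉ M.ψ c '' Metric.closedBall 0 5} := by
      intro hz
      obtain ⟨w, -, hw⟩ := hz
      exact hO ⟨w, hw⟩
    have h1 : M.Tl a c v =ᶠ[𝓝 y] fun z => z := by
      filter_upwards [hopen.mem_nhds hmem] with z hz
      unfold Tl
      split_ifs with hOz
      · have h5 : 5 ≤ ‖M.τ a c z‖ := by
          by_contra hlt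
          push Not at hlt
          exact hz ⟨M.τ a c z, by rw [mem_closedBall_zero_iff]; exact hlt.le, M.ψ_τ hOz⟩
        rw [hz_of_ge h5, M.τ_τ hOz]
      · rfl
    rw [Dm_congr h1, Dm_id, copp_one, h1.self_of_nhds]

/-- The parameter box on which all local maps are valid over the ball of radius 8. -/
theorem exists_box : ∃ v1 : ℝ, 0 < v1 ∧ ∀ a c : M.A, ∀ v y : V4, ‖v‖ ≤ v1 → ‖y‖ ≤ 8 →
    (v, y) ∈ M.W a c := by
  have h1 : ∀ a c : M.A, ∃ v1 : ℝ, 0 < v1 ∧ ∀ v y : V4, ‖v‖ ≤ v1 → ‖y‖ ≤ 8 →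
      (v, y) ∈ M.W a c := by
    intro a c
    have hsub : ({(0 : V4)} : Set V4) ×ˢ Metric.closedBall (0 : V4) 8 ⊆ M.W a c := by
      rintro ⟨v, y⟩ ⟨hv, -⟩
      rw [mem_singleton_iff] at hv
      simp only at hv
      subst hv
      exact M.zero_mem_W a c y
    obtain ⟨u, w, hu, -, h0, hw, hsub'⟩ := generalized_tube_lemma isCompact_singleton
      (isCompact_closedBall (0 : V4) 8) (M.isOpen_W a c) hsub
    obtain ⟨ε, hε, hball⟩ := Metric.isOpen_iff.1 hu 0 (h0 rfl)
    refine ⟨ε / 2, by positivity, fun v y hv hy => hsub' ⟨hball ?_, hw ?_⟩⟩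
    · rw [Metric.mem_ball, dist_zero_right]; linarith
    · rw [mem_closedBall_zero_iff]; exact hy
  choose f hf hf' using h1
  have hA : ∀ s : Finset (M.A × M.A), ∃ v1 : ℝ, 0 < v1 ∧ ∀ p ∈ s, v1 ≤ f p.1 p.2 := by
    intro s
    induction s using Finset.induction_on with
    | empty => exact ⟨1, one_pos, fun p hp => absurd hp (Finset.notMem_empty _)⟩
    | insert p s _ ih =>
      obtain ⟨v1, h1, h2⟩ := ih
      refine ⟨min v1 (f p.1 p.2), lt_min h1 (hf _ _), fun q hq => ?_⟩
      rcases Finset.mem_insert.1 hq with rfl | hq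
      · exact min_le_right _ _
      · exact (min_le_left _ _).trans (h2 q hq)
  obtain ⟨v1, h1, h2⟩ := hA Finset.univ
  exact ⟨v1, h1, fun a c v y hv hy => hf' a c v y
    (hv.trans (h2 (a, c) (Finset.mem_univ _))) hy⟩

/-- size of the parameter box -/
noncomputable def v1 : ℝ := M.exists_box.choose
theorem v1_pos : 0 < M.v1 := M.exists_box.choose_spec.1
theorem mem_W (a c : M.A) {v y : V4} (hv : ‖v‖ ≤ M.v1) (hy : ‖y‖ ≤ 8) : (v, y) ∈ M.W a c :=
  M.exists_box.choose_spec.2 a c v y hv hy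

/-- cut-off in the parameter -/
noncomputable def chv : ContDiffBump (0 : V4) :=
  ⟨M.v1 / 2, M.v1, by have := M.v1_pos; linarith, by have := M.v1_pos; linarith⟩

/-- cut-off in the variable -/
noncomputable def chy : ContDiffBump (0 : V4) := ⟨7, 8, by norm_num, by norm_num⟩

/-- The local map, cut off to be globally defined and smooth. -/
noncomputable def Hl (a c : M.A) (v y : V4) : V4 :=
  y + (M.chv v * chy y) • (M.Tl a c v y - y)

theorem contDiff_Hl (a c : M.A) : ContDiff ℝ ∞ (fun p : V4 × V4 => M.Hl a c p.1 p.2) := by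
  unfold Hl
  refine contDiff_snd.add ?_
  rw [contDiff_iff_contDiffAt]
  intro p
  by_cases hp : ‖p.1‖ ≤ M.v1 ∧ ‖p.2‖ ≤ 8
  · have h1 := (M.W_local a c (M.mem_W a c hp.1 hp.2)).2
    have hc1 : ContDiffAt ℝ ∞ (fun q : V4 × V4 => M.chv q.1) p :=
      (M.chv.contDiff.comp contDiff_fst).contDiffAt
    have hc2 : ContDiffAt ℝ ∞ (fun q : V4 × V4 => chy q.2) p :=
      (chy.contDiff.comp contDiff_snd).contDiffAt
    exact (hc1.mul hc2).smul (h1.sub contDiffAt_snd)
  · have h0 : (fun q : V4 × V4 => (M.chv q.1 * chy q.2) • (M.Tl a c q.1 q.2 - q.2))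
        =ᶠ[𝓝 p] fun _ => 0 := by
      rw [not_and_or, not_le, not_le] at hp
      rcases hp with hp | hp
      · have : {q : V4 × V4 | M.v1 < ‖q.1‖} ∈ 𝓝 p :=
          (isOpen_lt continuous_const (continuous_norm.comp continuous_fst)).mem_nhds hp
        filter_upwards [this] with q hq
        have h : q.1 ∉ Function.support M.chv := by
          rw [M.chv.support_eq]
          simp only [Metric.mem_ball, dist_zero_right, not_lt]
          exact (show M.v1 < ‖q.1‖ from hq).le
        rw [Function.notMem_support.1 h, zero_mul, zero_smul]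
      · have : {q : V4 × V4 | 8 < ‖q.2‖} ∈ 𝓝 p :=
          (isOpen_lt continuous_const (continuous_norm.comp continuous_snd)).mem_nhds hp
        filter_upwards [this] with q hq
        have h : q.2 ∉ Function.support chy := by
          rw [chy.support_eq]
          simp only [Metric.mem_ball, dist_zero_right, not_lt]
          exact (show 8 < ‖q.2‖ from hq).le
        rw [Function.notMem_support.1 h, mul_zero, zero_smul]
    exact contDiffAt_const.congr_of_eventuallyEq h0

theorem Hl_eq (a c : M.A) {v y : V4} (hv : ‖v‖ ≤ M.v1 / 2) (hy : ‖y‖ ≤ 7) :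
    M.Hl a c v y = M.Tl a c v y := by
  unfold Hl
  rw [M.chv.one_of_mem_closedBall (by rw [mem_closedBall_zero_iff]; exact hv),
    chy.one_of_mem_closedBall (by rw [mem_closedBall_zero_iff]; exact hy), one_mul, one_smul]
  abel

theorem Hl_zero (a c : M.A) (y : V4) : M.Hl a c 0 y = y := by
  unfold Hl; rw [M.Tl_zero, sub_self, smul_zero, add_zero]

theorem contDiff_Hl' (a c : M.A) (v : V4) : ContDiff ℝ ∞ (M.Hl a c v) :=
  (M.contDiff_Hl a c).comp (contDiff_const.prodMk contDiff_id)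

theorem cf_Mo_Hl (a c : M.A) {v y : V4} (hv : ‖v‖ ≤ M.v1 / 2) (hy : ‖y‖ < 7) (u : X → L2) :
    M.cf a (M.Mo c (hz v) u) y = pull (Dm (M.Hl a c v) y) (M.cf a u (M.Hl a c v y)) := by
  have hv1 := M.v1_pos
  rw [M.cf_Mo_local a c (M.mem_W a c (by linarith only [hv, hv1]) (by linarith only [hy])) u, M.Hl_eq a c hv hy.le]
  congr 1
  apply Dm_congr
  have : {z : V4 | ‖z‖ < 7} ∈ 𝓝 y := (isOpen_lt continuous_norm continuous_const).mem_nhds hy
  filter_upwards [this] with z hz
  exact (M.Hl_eq a c hv (le_of_lt hz)).symm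

theorem cf1_Mo1_Hl (a c : M.A) {v y : V4} (hv : ‖v‖ ≤ M.v1 / 2) (hy : ‖y‖ < 7) (u : X → V4) :
    M.cf1 a (M.Mo1 c (hz v) u) y = copp (M.cf1 a u (M.Hl a c v y)) (Dm (M.Hl a c v) y) := by
  have hv1 := M.v1_pos
  rw [M.cf1_Mo1_local a c (M.mem_W a c (by linarith only [hv, hv1]) (by linarith only [hy])) u, M.Hl_eq a c hv hy.le]
  congr 1
  apply Dm_congr
  have : {z : V4 | ‖z‖ < 7} ∈ 𝓝 y := (isOpen_lt continuous_norm continuous_const).mem_nhds hy
  filter_upwards [this] with z hz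
  exact (M.Hl_eq a c hv (le_of_lt hz)).symm

theorem Hl_self (a : M.A) {v y : V4} (hv : ‖v‖ ≤ M.v1 / 2) (hy : ‖y‖ ≤ 4) :
    M.Hl a a v y = y + v := by
  rw [M.Hl_eq a a hv (by linarith only [hy]), M.Tl_self, hz_of_le hy]

end CM
end Vale.Agent.P204K.GX
end

section

/-!
Products of the chart translations over all charts.
Parameter space `Z = M.A → V4`.
`M.U z : (X → L2) → (X → L2)` pull back, `M.HH a z : V4 → V4` its reading in the chart `a`.
-/

open scoped BigOperators ContDiff Topology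
open MeasureTheory Set

namespace Vale.Agent.P204K.GX
open T4

namespace CM
variable {X : Type} [MetricSpace X] (M : CM X)

/-- product of the local maps in chart `a` over a list of charts -/
noncomputable def HL (a : M.A) : List M.A → (M.A → V4) → V4 → V4
  | [], _, y => y
  | c :: L, z, y => HL a L z (M.Hl a c (z c) y)

/-- product of the modifications over a list of charts -/
noncomputable def UL : List M.A → (M.A → V4) → (X → L2) → X → L2
  | [], _, u => u
  | c :: L, z, u => M.Mo c (hz (z c)) (UL L z u)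

noncomputable def UL1 : List M.A → (M.A → V4) → (X → V4) → X → V4
  | [], _, u => u
  | c :: L, z, u => M.Mo1 c (hz (z c)) (UL1 L z u)

theorem contDiff_HL (a : M.A) (L : List M.A) :
    ContDiff ℝ ∞ (fun p : (M.A → V4) × V4 => M.HL a L p.1 p.2) := by
  induction L with
  | nil => exact contDiff_snd
  | cons c L ih =>
    have h1 : ContDiff ℝ ∞ (fun p : (M.A → V4) × V4 => p.1 c) :=
      (contDiff_apply ℝ V4 c).comp contDiff_fst
    have h2 : ContDiff ℝ ∞ (fun p : (M.A → V4) × V4 => M.Hl a c (p.1 c) p.2) :=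
      ContDiff.comp (g := fun q : V4 × V4 => M.Hl a c q.1 q.2)
        (f := fun p : (M.A → V4) × V4 => (p.1 c, p.2)) (M.contDiff_Hl a c)
        (h1.prodMk contDiff_snd)
    exact ContDiff.comp (g := fun q : (M.A → V4) × V4 => M.HL a L q.1 q.2)
      (f := fun p : (M.A → V4) × V4 => (p.1, M.Hl a c (p.1 c) p.2)) ih (contDiff_fst.prodMk h2)

theorem HL_zero (a : M.A) (L : List M.A) (y : V4) : M.HL a L 0 y = y := by
  induction L generalizing y with
  | nil => rfl
  | cons c L ih =>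
    show M.HL a L 0 (M.Hl a c ((0 : M.A → V4) c) y) = y
    rw [Pi.zero_apply, M.Hl_zero]; exact ih y

/-- Uniform smallness of the displacement. -/
theorem exists_displ (ε : ℝ) (hε : 0 < ε) : ∃ z1 : ℝ, 0 < z1 ∧ z1 ≤ M.v1 / 2 ∧
    ∀ a c : M.A, ∀ v y : V4, ‖v‖ ≤ z1 → ‖y‖ ≤ 8 → ‖M.Hl a c v y - y‖ ≤ ε := by
  have h1 : ∀ a c : M.A, ∃ z1 : ℝ, 0 < z1 ∧ ∀ v y : V4, ‖v‖ ≤ z1 → ‖y‖ ≤ 8 →
      ‖M.Hl a c v y - y‖ ≤ ε := by
    intro a c
    have hopen : IsOpen {p : V4 × V4 | ‖M.Hl a c p.1 p.2 - p.2‖ < ε} :=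
      isOpen_lt (((M.contDiff_Hl a c).continuous.sub continuous_snd).norm) continuous_const
    have hsub : ({(0 : V4)} : Set V4) ×ˢ Metric.closedBall (0 : V4) 8
        ⊆ {p : V4 × V4 | ‖M.Hl a c p.1 p.2 - p.2‖ < ε} := by
      rintro ⟨v, y⟩ ⟨hv, -⟩
      rw [mem_singleton_iff] at hv
      simp only at hv
      subst hv
      simp only [mem_ofPred_eq, M.Hl_zero, sub_self, norm_zero]
      exact hε
    obtain ⟨u, w, hu, -, h0, hw, hsub'⟩ := generalized_tube_lemma isCompact_singleton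
      (isCompact_closedBall (0 : V4) 8) hopen hsub
    obtain ⟨δ, hδ, hball⟩ := Metric.isOpen_iff.1 hu 0 (h0 rfl)
    refine ⟨δ / 2, by positivity, fun v y hv hy => ?_⟩
    have hmem : (v, y) ∈ {p : V4 × V4 | ‖M.Hl a c p.1 p.2 - p.2‖ < ε} := by
      refine hsub' ⟨hball ?_, hw ?_⟩
      · rw [Metric.mem_ball, dist_zero_right]; linarith only [hδ, hv]
      · rw [mem_closedBall_zero_iff]; exact hy
    exact le_of_lt hmem
  choose f hf hf' using h1
  have hA : ∀ s : Finset (M.A × M.A), ∃ v1 : ℝ, 0 < v1 ∧ ∀ p ∈ s, v1 ≤ f p.1 p.2 := by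
    intro s
    induction s using Finset.induction_on with
    | empty => exact ⟨1, one_pos, fun p hp => absurd hp (Finset.notMem_empty _)⟩
    | insert p s _ ih =>
      obtain ⟨v1, h1, h2⟩ := ih
      refine ⟨min v1 (f p.1 p.2), lt_min h1 (hf _ _), fun q hq => ?_⟩
      rcases Finset.mem_insert.1 hq with rfl | hq
      · exact min_le_right _ _
      · exact (min_le_left _ _).trans (h2 q hq)
  obtain ⟨v1, h1, h2⟩ := hA Finset.univ
  have hv1 := M.v1_pos
  exact ⟨min v1 (M.v1 / 2), lt_min h1 (by linarith), min_le_right _ _, fun a c v y hv hy =>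
    hf' a c v y ((hv.trans (min_le_left _ _)).trans (h2 (a, c) (Finset.mem_univ _))) hy⟩

/-- the list of all charts -/
noncomputable def AL : List M.A := (Finset.univ : Finset M.A).toList

theorem nodup_AL : M.AL.Nodup := Finset.nodup_toList _
theorem mem_AL (a : M.A) : a ∈ M.AL := Finset.mem_toList.2 (Finset.mem_univ a)

/-- step size -/
noncomputable def eps : ℝ := 1 / (2 * ((M.AL.length : ℝ) + 1))
theorem eps_pos : 0 < M.eps := by unfold eps; positivity
theorem length_eps_le : (M.AL.length : ℝ) * M.eps ≤ 1 / 2 := by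
  unfold eps
  rw [mul_one_div, div_le_div_iff₀ (by positivity) (by norm_num)]
  linarith only []

/-- radius of the parameter ball -/
noncomputable def z1 : ℝ := (M.exists_displ M.eps M.eps_pos).choose
theorem z1_pos : 0 < M.z1 := (M.exists_displ M.eps M.eps_pos).choose_spec.1
theorem z1_le : M.z1 ≤ M.v1 / 2 := (M.exists_displ M.eps M.eps_pos).choose_spec.2.1
theorem displ (a c : M.A) {v y : V4} (hv : ‖v‖ ≤ M.z1) (hy : ‖y‖ ≤ 8) :
    ‖M.Hl a c v y - y‖ ≤ M.eps := (M.exists_displ M.eps M.eps_pos).choose_spec.2.2 a c v y hv hy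

theorem norm_HL_sub_le (a : M.A) (L : List M.A) {z : M.A → V4} (hz : ‖z‖ ≤ M.z1) :
    ∀ y : V4, ‖y‖ + L.length * M.eps ≤ 8 → ‖M.HL a L z y - y‖ ≤ L.length * M.eps := by
  induction L with
  | nil => intro y _; simp only [HL, sub_self, norm_zero, List.length_nil, CharP.cast_eq_zero, zero_mul, Std.le_refl]
  | cons c L ih =>
    intro y hy
    have he := M.eps_pos
    have hc : ‖z c‖ ≤ M.z1 := (norm_le_pi_norm z c).trans hz
    rw [List.length_cons] at hy ⊢
    push_cast at hy ⊢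
    have hLe : 0 ≤ (L.length : ℝ) * M.eps := by positivity
    have h1 := M.displ a c hc (y := y) (by linarith only [he, hy, hLe])
    have h2 : ‖M.Hl a c (z c) y‖ ≤ ‖y‖ + M.eps := by
      have : M.Hl a c (z c) y = y + (M.Hl a c (z c) y - y) := by abel
      rw [this]; exact (norm_add_le _ _).trans (by linarith only [h1])
    have h3 := ih (M.Hl a c (z c) y) (by linarith only [hy, h2])
    show ‖M.HL a L z (M.Hl a c (z c) y) - y‖ ≤ _
    have h4 : M.HL a L z (M.Hl a c (z c) y) - y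
        = (M.HL a L z (M.Hl a c (z c) y) - M.Hl a c (z c) y) + (M.Hl a c (z c) y - y) := by abel
    rw [h4]
    refine (norm_add_le _ _).trans ?_
    linarith only [h1, h3]

theorem cf_UL (a : M.A) (L : List M.A) {z : M.A → V4} (hzz : ‖z‖ ≤ M.z1) (u : X → L2) :
    ∀ y : V4, ‖y‖ + L.length * M.eps < 7 →
      M.cf a (M.UL L z u) y = pull (Dm (M.HL a L z) y) (M.cf a u (M.HL a L z y)) := by
  induction L with
  | nil =>
    intro y _
    have : M.HL a [] z = fun y => y := rfl
    rw [this, Dm_id, pull_one]; rfl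
  | cons c L ih =>
    intro y hy
    have he := M.eps_pos
    have hc : ‖z c‖ ≤ M.z1 := (norm_le_pi_norm z c).trans hzz
    rw [List.length_cons] at hy
    push_cast at hy
    have hLe : 0 ≤ (L.length : ℝ) * M.eps := by positivity
    have h1 := M.displ a c hc (y := y) (by linarith)
    have h2 : ‖M.Hl a c (z c) y‖ ≤ ‖y‖ + M.eps := by
      have : M.Hl a c (z c) y = y + (M.Hl a c (z c) y - y) := by abel
      rw [this]; exact (norm_add_le _ _).trans (by linarith only [h1])
    have h3 := ih (M.Hl a c (z c) y) (by linarith only [hy, h2])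
    show M.cf a (M.Mo c (hz (z c)) (M.UL L z u)) y = _
    rw [M.cf_Mo_Hl a c (hc.trans M.z1_le) (by linarith), h3, ← pull_mm]
    have hs : ContDiff ℝ ∞ (M.HL a L z) :=
      (M.contDiff_HL a L).comp (contDiff_const.prodMk contDiff_id)
    have h5 : Dm (M.HL a (c :: L) z) y
        = mm (Dm (M.HL a L z) (M.Hl a c (z c) y)) (Dm (M.Hl a c (z c)) y) :=
      Dm_comp (hs.differentiable (by simp) _)
        ((M.contDiff_Hl' a c (z c)).differentiable (by simp) _)
    rw [h5]; rfl

theorem cf1_UL1 (a : M.A) (L : List M.A) {z : M.A → V4} (hzz : ‖z‖ ≤ M.z1) (u : X → V4) :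
    ∀ y : V4, ‖y‖ + L.length * M.eps < 7 →
      M.cf1 a (M.UL1 L z u) y = copp (M.cf1 a u (M.HL a L z y)) (Dm (M.HL a L z) y) := by
  induction L with
  | nil =>
    intro y _
    have : M.HL a [] z = fun y => y := rfl
    rw [this, Dm_id, copp_one]; rfl
  | cons c L ih =>
    intro y hy
    have he := M.eps_pos
    have hc : ‖z c‖ ≤ M.z1 := (norm_le_pi_norm z c).trans hzz
    rw [List.length_cons] at hy
    push_cast at hy
    have hLe : 0 ≤ (L.length : ℝ) * M.eps := by positivity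
    have h1 := M.displ a c hc (y := y) (by linarith only [he, hy, hLe])
    have h2 : ‖M.Hl a c (z c) y‖ ≤ ‖y‖ + M.eps := by
      have : M.Hl a c (z c) y = y + (M.Hl a c (z c) y - y) := by abel
      rw [this]; exact (norm_add_le _ _).trans (by linarith only [h1])
    have h3 := ih (M.Hl a c (z c) y) (by linarith only [hy, h2])
    show M.cf1 a (M.Mo1 c (hz (z c)) (M.UL1 L z u)) y = _
    rw [M.cf1_Mo1_Hl a c (hc.trans M.z1_le) (by linarith), h3, ← copp_mm]
    have hs : ContDiff ℝ ∞ (M.HL a L z) :=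
      (M.contDiff_HL a L).comp (contDiff_const.prodMk contDiff_id)
    have h5 : Dm (M.HL a (c :: L) z) y
        = mm (Dm (M.HL a L z) (M.Hl a c (z c) y)) (Dm (M.Hl a c (z c)) y) :=
      Dm_comp (hs.differentiable (by simp) _)
        ((M.contDiff_Hl' a c (z c)).differentiable (by simp) _)
    rw [h5]; rfl

theorem HL_single (a : M.A) {w : V4} (hw : ‖w‖ ≤ M.v1 / 2) (L : List M.A) (hL : L.Nodup) :
    ∀ y : V4, ‖y‖ ≤ 4 → (a ∈ L → M.HL a L (Pi.single a w) y = y + w) ∧
      (a ∉ L → ∀ y : V4, M.HL a L (Pi.single a w) y = y) := by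
  induction L with
  | nil => intro y _; exact ⟨fun h => absurd h List.not_mem_nil, fun _ y => rfl⟩
  | cons c L ih =>
    rw [List.nodup_cons] at hL
    have ih' := ih hL.2
    intro y hy
    have hne : c ≠ a → ∀ y, M.HL a (c :: L) (Pi.single a w) y = M.HL a L (Pi.single a w) y := by
      intro h y
      show M.HL a L (Pi.single a w) (M.Hl a c ((Pi.single a w : M.A → V4) c) y) = _
      rw [Pi.single_eq_of_ne h, M.Hl_zero]
    constructor
    · intro hmem
      by_cases hca : c = a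
      · subst hca
        show M.HL c L (Pi.single c w) (M.Hl c c ((Pi.single c w : M.A → V4) c) y) = _
        rw [Pi.single_eq_same, M.Hl_self c hw hy]
        exact (ih' y hy).2 hL.1 _
      · rw [hne hca]
        rcases List.mem_cons.1 hmem with h | h
        · exact absurd h.symm hca
        · exact (ih' y hy).1 h
    · intro hmem y'
      rw [List.mem_cons, not_or] at hmem
      rw [hne (Ne.symm hmem.1)]
      exact (ih' y hy).2 hmem.2 y'

/-- The family of diffeomorphisms read in the chart `a`. -/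
noncomputable def HH (a : M.A) (z : M.A → V4) (y : V4) : V4 := M.HL a M.AL z y

/-- The pull back by the family of diffeomorphisms of `X`. -/
noncomputable def U (z : M.A → V4) (u : X → L2) : X → L2 := M.UL M.AL z u
noncomputable def U1 (z : M.A → V4) (u : X → V4) : X → V4 := M.UL1 M.AL z u

theorem contDiff_HH (a : M.A) : ContDiff ℝ ∞ (Function.uncurry (M.HH a)) := M.contDiff_HL a M.AL

theorem HH_zero (a : M.A) (y : V4) : M.HH a 0 y = y := M.HL_zero a M.AL y

theorem norm_HH_sub_le (a : M.A) {z : M.A → V4} (hz : ‖z‖ ≤ M.z1) {y : V4} (hy : ‖y‖ ≤ 6) :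
    ‖M.HH a z y - y‖ ≤ 1 / 2 :=
  (M.norm_HL_sub_le a M.AL hz y (by have := M.length_eps_le; linarith)).trans M.length_eps_le

/-- Local formula for `U z` in every chart. -/
theorem cf_U (a : M.A) {z : M.A → V4} (hz : ‖z‖ ≤ M.z1) (u : X → L2) {y : V4} (hy : ‖y‖ ≤ 6) :
    M.cf a (M.U z u) y = pull (Dm (M.HH a z) y) (M.cf a u (M.HH a z y)) :=
  M.cf_UL a M.AL hz u y (by have := M.length_eps_le; linarith only [hy, this])

theorem cf1_U1 (a : M.A) {z : M.A → V4} (hz : ‖z‖ ≤ M.z1) (u : X → V4) {y : V4} (hy : ‖y‖ ≤ 6) :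
    M.cf1 a (M.U1 z u) y = copp (M.cf1 a u (M.HH a z y)) (Dm (M.HH a z) y) :=
  M.cf1_UL1 a M.AL hz u y (by have := M.length_eps_le; linarith only [hy, this])

/-- In its own chart the family contains the translations. -/
theorem HH_single (a : M.A) {w y : V4} (hw : ‖w‖ ≤ M.v1 / 2) (hy : ‖y‖ ≤ 4) :
    M.HH a (Pi.single a w) y = y + w :=
  (M.HL_single a hw M.AL M.nodup_AL y hy).1 (M.mem_AL a)

theorem HH_single_eventually (a : M.A) {y : V4} (hy : ‖y‖ ≤ 4) :
    ∀ᶠ w in 𝓝 (0 : V4), M.HH a (Pi.single a w) y = y + w := by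
  have hv1 := M.v1_pos
  have : {w : V4 | ‖w‖ < M.v1 / 2} ∈ 𝓝 (0 : V4) :=
    (isOpen_lt continuous_norm continuous_const).mem_nhds (by simpa only [mem_ofPred_eq, norm_zero, Nat.ofNat_pos, div_pos_iff_of_pos_right] using hv1)
  filter_upwards [this] with w hw
  exact M.HH_single a (le_of_lt hw) hy

/-! ### `U z` preserves smooth and exact forms, invertibility -/

theorem UL_mem_Om (L : List M.A) (z : M.A → V4) {u : X → L2} (hu : u ∈ M.Om) :
    M.UL L z u ∈ M.Om := by
  induction L with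
  | nil => exact hu
  | cons c L ih => exact M.Mo_mem_Om c (contDiff_hz _) (fun y hy => hz_of_ge hy _) ih

theorem UL1_sm1 (L : List M.A) (z : M.A → V4) {u : X → V4} (hu : M.Sm1 u) :
    M.Sm1 (M.UL1 L z u) := by
  induction L with
  | nil => exact hu
  | cons c L ih => exact M.Mo1_sm1 c (contDiff_hz _) (fun y hy => hz_of_ge hy _) ih

theorem UL_dX (L : List M.A) (z : M.A → V4) {η : X → V4} (hη : M.Sm1 η) :
    M.UL L z (M.dX η) = M.dX (M.UL1 L z η) := by
  induction L with
  | nil => rfl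
  | cons c L ih =>
    show M.Mo c (hz (z c)) (M.UL L z (M.dX η)) = M.dX (M.Mo1 c (hz (z c)) (M.UL1 L z η))
    rw [ih, M.Mo_dX c (contDiff_hz _) (fun y hy => hz_of_ge hy _) (M.UL1_sm1 L z hη)]

theorem U_mem_Om (z : M.A → V4) {u : X → L2} (hu : u ∈ M.Om) : M.U z u ∈ M.Om :=
  M.UL_mem_Om M.AL z hu
theorem U1_sm1 (z : M.A → V4) {u : X → V4} (hu : M.Sm1 u) : M.Sm1 (M.U1 z u) :=
  M.UL1_sm1 M.AL z hu
theorem U_dX (z : M.A → V4) {η : X → V4} (hη : M.Sm1 η) : M.U z (M.dX η) = M.dX (M.U1 z η) :=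
  M.UL_dX M.AL z hη

theorem UL_add (L : List M.A) (z : M.A → V4) (u w : X → L2) :
    M.UL L z (u + w) = M.UL L z u + M.UL L z w := by
  induction L with
  | nil => rfl
  | cons c L ih =>
    show M.Mo c (hz (z c)) (M.UL L z (u + w)) = _
    rw [ih, M.Mo_add]; rfl

theorem UL_smul (L : List M.A) (z : M.A → V4) (r : ℝ) (u : X → L2) :
    M.UL L z (r • u) = r • M.UL L z u := by
  induction L with
  | nil => rfl
  | cons c L ih =>
    show M.Mo c (hz (z c)) (M.UL L z (r • u)) = _
    rw [ih, M.Mo_smul]; rfl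

theorem U_add (z : M.A → V4) (u w : X → L2) : M.U z (u + w) = M.U z u + M.U z w :=
  M.UL_add M.AL z u w
theorem U_smul (z : M.A → V4) (r : ℝ) (u : X → L2) : M.U z (r • u) = r • M.U z u :=
  M.UL_smul M.AL z r u

theorem Mo1_Mo1 (c : M.A) {f g : V4 → V4} (hf : ContDiff ℝ ∞ f) (hg : ContDiff ℝ ∞ g)
    (u : X → V4) : M.Mo1 c f (M.Mo1 c g u) = M.Mo1 c (fun y => g (f y)) u := by
  apply M.ext_cf1; intro a y _
  have e1 : M.Mo1 c f (M.Mo1 c g u) = M.Mo1 c g u
      + M.ext1 c (pf1 f (M.cf1 c (M.Mo1 c g u)) - M.cf1 c (M.Mo1 c g u)) := rfl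
  rw [e1, M.cf1_Mo1_self, pf1_comp hf hg]
  unfold Mo1
  simp only [M.cf1_add, Pi.add_apply, M.cf1_ext1]
  split_ifs with h
  · simp only [Pi.sub_apply, copp_sub]; abel
  · simp

theorem Mo1_id (c : M.A) (u : X → V4) : M.Mo1 c (fun y => y) u = u := by
  apply M.ext_cf1; intro a y _
  unfold Mo1
  rw [pf1_id, sub_self, M.cf1_add, Pi.add_apply, M.cf1_ext1]
  split_ifs with h
  · simp [copp_zero]
  · simp

/-- radius for invertibility -/
noncomputable def vinv : ℝ := exists_dfo_hz.choose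
theorem vinv_pos : 0 < vinv := exists_dfo_hz.choose_spec.1
theorem exists_inv {v : V4} (hv : ‖v‖ < vinv) : ∃ g, Dfo (hz v) g :=
  (exists_dfo_hz.choose_spec.2 v hv).1
theorem hz_expand {v : V4} (hv : ‖v‖ < vinv) (y w : V4) : ‖w‖ ≤ 2 * ‖fderiv ℝ (hz v) y w‖ :=
  (exists_dfo_hz.choose_spec.2 v hv).2 y w

/-- Every smooth exact form is the pull back of a smooth exact form. -/
theorem exists_UL1 (L : List M.A) {z : M.A → V4} (hz' : ‖z‖ < vinv) :
    ∀ {η : X → V4}, M.Sm1 η → ∃ η', M.Sm1 η' ∧ M.UL1 L z η' = η := by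
  induction L with
  | nil => intro η hη; exact ⟨η, hη, rfl⟩
  | cons c L ih =>
    intro η hη
    obtain ⟨g, hg⟩ := exists_inv (v := z c) ((norm_le_pi_norm z c).trans_lt hz')
    obtain ⟨η', h1, h2⟩ := ih (M.Mo1_sm1 c hg.sg hg.idg hη)
    refine ⟨η', h1, ?_⟩
    show M.Mo1 c (hz (z c)) (M.UL1 L z η') = η
    rw [h2, M.Mo1_Mo1 c hg.sf hg.sg]
    have : (fun y => g (hz (z c) y)) = fun y => y := funext hg.gf
    rw [this, M.Mo1_id]

theorem exists_U1 {z : M.A → V4} (hz' : ‖z‖ < vinv) {η : X → V4} (hη : M.Sm1 η) :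
    ∃ η', M.Sm1 η' ∧ M.U1 z η' = η := M.exists_UL1 M.AL hz' hη

end CM
end Vale.Agent.P204K.GX
end
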