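import Vale.Agent.P204.KC.K9

/-!
# P204: comparison of Lebesgue measure in charts and in parametrisations
-/

set_option linter.all false

open scoped Manifold ContDiff Topology ENNReal NNReal
open Set MeasureTheory

namespace Vale.Agent.P204K.Mfd

open Vale.Agent.P204K.T4

theorem mp_toE : MeasurePreserving (fun z : V4 => (toE z : E4)) volume volume :=
  PiLp.volume_preserving_toLp (Fin 4)

theorem emb_toE : MeasurableEmbedding (fun z : V4 => (toE z : E4)) :=
  toE.toHomeomorph.measurableEmbedding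

/-- change of variables for maps `V4 → E4` -/
theorem lint_image {f : V4 → E4} {f' : V4 → V4 →L[ℝ] E4} {D : Set V4} (hD : MeasurableSet D)
    (hf : ∀ z ∈ D, HasFDerivAt f (f' z) z) (hinj : InjOn f D) (g : E4 → ℝ≥0∞) :
    ∫⁻ y in f '' D, g y =
      ∫⁻ z in D, ENNReal.ofReal |((toE.symm : E4 →L[ℝ] V4).comp (f' z)).det| * g (f z) := by
  have h1 : f '' D = (fun z : V4 => (toE z : E4)) '' ((fun z => toE.symm (f z)) '' D) := by
    rw [image_image]
    simp
  rw [h1, ← mp_toE.setLIntegral_comp_emb emb_toE]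
  have h2 := lintegral_image_eq_lintegral_abs_det_fderiv_mul (volume : Measure V4)
    (s := D) (f := fun z => toE.symm (f z)) (f' := fun z => (toE.symm : E4 →L[ℝ] V4).comp (f' z)) hD
    (fun z hz => ((toE.symm : E4 →L[ℝ] V4).hasFDerivAt.comp z (hf z hz)).hasFDerivWithinAt)
    (fun z hz w hw h => hinj hz hw (toE.symm.injective h)) (fun z => g (toE z))
  rw [h2]
  simp

variable {X : Type*} [TopologicalSpace X] [ChartedSpace E4 X] [IsManifold (𝓡 4) ∞ X]

theorem fderiv_g_det (p : Par X) (z : V4) :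
    ((toE.symm : E4 →L[ℝ] V4).comp (fderiv ℝ p.g z)).det ≠ 0 := by
  have hg : HasFDerivAt p.g (fderiv ℝ p.g z) z :=
    ((p.g_smooth.differentiable (by simp)) z).hasFDerivAt
  have hgi : HasFDerivAt p.gi (fderiv ℝ p.gi (p.g z)) (p.g z) :=
    (((p.gi_smooth _ (mem_range_self z)).contDiffAt
      (p.emb.isOpen_range.mem_nhds (mem_range_self z))).differentiableAt (by simp)).hasFDerivAt
  have h1 : HasFDerivAt (fun z => p.gi (p.g z)) ((fderiv ℝ p.gi (p.g z)).comp (fderiv ℝ p.g z)) z :=
    hgi.comp z hg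
  have h2 : (fun z => p.gi (p.g z)) = id := by funext z; exact p.left_inv z
  rw [h2] at h1
  have h3 := h1.unique (hasFDerivAt_id z)
  set A : V4 →L[ℝ] V4 := (toE.symm : E4 →L[ℝ] V4).comp (fderiv ℝ p.g z) with hA
  set B : V4 →L[ℝ] V4 := (fderiv ℝ p.gi (p.g z)).comp (toE : V4 →L[ℝ] E4) with hB
  have h4 : B.comp A = ContinuousLinearMap.id ℝ V4 := by
    ext v i
    have := DFunLike.congr_fun h3 v
    simp [hA, hB] at this ⊢
    rw [this]
  have h5 : B.det * A.det = 1 := by
    have h6 : (B.comp A).det = 1 := by rw [h4]; simp [ContinuousLinearMap.det]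
    rw [← h6]
    simp only [ContinuousLinearMap.det]
    rw [← LinearMap.det_comp]
    rfl
  intro h
  rw [h, mul_zero] at h5
  exact zero_ne_one h5

/-- Lebesgue measure in the parametrisation is bounded by Lebesgue measure in its chart. -/
theorem lint_par_le (p : Par X) : ∃ C : ℝ≥0, ∀ h : X → ℝ≥0∞,
    ∫⁻ z in Metric.ball 0 1, h (p.psi z) ≤
      C * ∫⁻ y in p.g '' Metric.closedBall 0 1, h (p.e.symm y) := by
  have hcont : Continuous fun z => |((toE.symm : E4 →L[ℝ] V4).comp (fderiv ℝ p.g z)).det| := by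
    have h1 : Continuous (fderiv ℝ p.g) := p.g_smooth.continuous_fderiv (by simp)
    exact (ContinuousLinearMap.continuous_det.comp (continuous_const.clm_comp h1)).abs
  obtain ⟨z0, hz0, hmin⟩ := (isCompact_closedBall (0 : V4) 1).exists_isMinOn
    ⟨0, by simp⟩ hcont.continuousOn
  set c : ℝ := |((toE.symm : E4 →L[ℝ] V4).comp (fderiv ℝ p.g z0)).det| with hc
  have hc0 : 0 < c := abs_pos.2 (fderiv_g_det p z0)
  refine ⟨(Real.toNNReal c)⁻¹, fun h => ?_⟩
  have hne : (Real.toNNReal c : ℝ≥0∞) ≠ 0 := by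
    simpa using hc0
  have e1 := lint_image (f := p.g) (f' := fun z => fderiv ℝ p.g z)
    (D := Metric.ball (0 : V4) 1) measurableSet_ball
    (fun z _ => ((p.g_smooth.differentiable (by simp)) z).hasFDerivAt)
    (p.emb.injective.injOn) (fun y => h (p.e.symm y))
  calc ∫⁻ z in Metric.ball 0 1, h (p.psi z)
      ≤ ∫⁻ z in Metric.ball 0 1, ((Real.toNNReal c)⁻¹ : ℝ≥0) *
        (ENNReal.ofReal |((toE.symm : E4 →L[ℝ] V4).comp (fderiv ℝ p.g z)).det| *
          h (p.e.symm (p.g z))) := by
        refine setLIntegral_mono' measurableSet_ball fun z hz => ?_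
        have h1 : c ≤ |((toE.symm : E4 →L[ℝ] V4).comp (fderiv ℝ p.g z)).det| :=
          hmin (Metric.ball_subset_closedBall hz)
        rw [← mul_assoc]
        have h2 : (1 : ℝ≥0∞) ≤ ((Real.toNNReal c)⁻¹ : ℝ≥0) *
            ENNReal.ofReal |((toE.symm : E4 →L[ℝ] V4).comp (fderiv ℝ p.g z)).det| := by
          have h3 : (1 : ℝ≥0∞) = ((Real.toNNReal c)⁻¹ : ℝ≥0) * ENNReal.ofReal c := by
            rw [ENNReal.ofReal, ← ENNReal.coe_mul, inv_mul_cancel₀]
            · rfl
            · simpa using hc0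
          rw [h3]
          gcongr
        calc h (p.psi z) = 1 * h (p.e.symm (p.g z)) := by rw [one_mul]; rfl
          _ ≤ _ := by gcongr
    _ = ((Real.toNNReal c)⁻¹ : ℝ≥0) * ∫⁻ y in p.g '' Metric.ball 0 1, h (p.e.symm y) := by
        rw [e1, lintegral_const_mul' _ _ ENNReal.coe_ne_top]
    _ ≤ _ := by
        gcongr
        exact Metric.ball_subset_closedBall

/-- Lebesgue measure in a chart is bounded on compact sets by Lebesgue measure in a
parametrisation. -/
theorem lint_chart_le [T2Space X] (p : Par X) {e : OpenPartialHomeomorph X E4}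
    (he : e ∈ atlas E4 X) {K : Set E4} (hK : IsCompact K) (hKe : K ⊆ e.target) :
    ∃ C : ℝ≥0, ∀ h : X → ℝ≥0∞,
      ∫⁻ y in K ∩ e.symm ⁻¹' (p.psi '' Metric.ball 0 1), h (e.symm y) ≤
        C * ∫⁻ z in Metric.ball 0 1, h (p.psi z) := by
  set f : V4 → E4 := fun z => e (p.psi z) with hf
  set O : Set V4 := p.psi ⁻¹' e.source with hO
  have hOo : IsOpen O := e.open_source.preimage p.isOpenEmbedding.continuous
  have hfs : ContDiffOn ℝ ∞ f O := by
    rw [← contMDiffOn_iff_contDiffOn]
    have h1 : ContMDiffOn (𝓡 4) (𝓡 4) ∞ e e.source :=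
      contMDiffOn_of_mem_maximalAtlas (IsManifold.subset_maximalAtlas he)
    exact h1.comp p.contMDiff_psi.contMDiffOn (fun z hz => hz)
  have hfd : ∀ z ∈ O, HasFDerivAt f (fderiv ℝ f z) z := fun z hz =>
    (((hfs _ hz).contDiffAt (hOo.mem_nhds hz)).differentiableAt (by simp)).hasFDerivAt
  have hKX : IsCompact (e.symm '' K) := hK.image_of_continuousOn (e.continuousOn_symm.mono hKe)
  have hKs : e.symm '' K ⊆ e.source := by
    rintro _ ⟨y, hy, rfl⟩
    exact e.map_target (hKe hy)
  set L : Set V4 := Metric.closedBall 0 1 ∩ p.psi ⁻¹' (e.symm '' K) with hL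
  have hLc : IsCompact L := (isCompact_closedBall _ _).inter_right
    (hKX.isClosed.preimage p.isOpenEmbedding.continuous)
  have hLO : L ⊆ O := fun z hz => hKs hz.2
  have hcont : ContinuousOn
      (fun z => |((toE.symm : E4 →L[ℝ] V4).comp (fderiv ℝ f z)).det|) L := by
    have h1 : ContinuousOn (fderiv ℝ f) O :=
      hfs.continuousOn_fderiv_of_isOpen hOo (by simp)
    exact ((ContinuousLinearMap.continuous_det.comp_continuousOn
      (continuousOn_const.clm_comp (h1.mono hLO)))).abs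
  obtain ⟨B, hB⟩ := hLc.exists_bound_of_continuousOn hcont
  set D : Set V4 := Metric.ball 0 1 ∩ p.psi ⁻¹' (e.symm '' K) with hDd
  have hDm : MeasurableSet D := measurableSet_ball.inter
    (hKX.isClosed.preimage p.isOpenEmbedding.continuous).measurableSet
  have hDL : D ⊆ L := fun z hz => ⟨Metric.ball_subset_closedBall hz.1, hz.2⟩
  have himg : K ∩ e.symm ⁻¹' (p.psi '' Metric.ball 0 1) = f '' D := by
    ext y
    constructor
    · rintro ⟨hy, z, hz, hzy⟩
      refine ⟨z, ⟨hz, ⟨y, hy, hzy.symm⟩⟩, ?_⟩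
      rw [hf]
      simp only
      rw [hzy]
      exact e.right_inv (hKe hy)
    · rintro ⟨z, ⟨hz, ⟨y', hy', hy''⟩⟩, rfl⟩
      have h1 : f z = y' := by
        rw [hf]; simp only
        rw [← hy'']
        exact e.right_inv (hKe hy')
      refine ⟨by rw [h1]; exact hy', ?_⟩
      rw [mem_preimage, h1, hy'']
      exact ⟨z, hz, rfl⟩
  have hinj : InjOn f D := by
    intro z hz w hw h
    have h1 : p.psi z = p.psi w := e.injOn (hLO (hDL hz)) (hLO (hDL hw)) h
    exact p.isOpenEmbedding.injective h1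
  refine ⟨Real.toNNReal B, fun h => ?_⟩
  rw [himg, lint_image hDm (fun z hz => hfd z (hLO (hDL hz))) hinj]
  calc ∫⁻ z in D, ENNReal.ofReal |((toE.symm : E4 →L[ℝ] V4).comp (fderiv ℝ f z)).det| *
        h (e.symm (f z))
      ≤ ∫⁻ z in D, (Real.toNNReal B : ℝ≥0∞) * h (p.psi z) := by
        refine setLIntegral_mono' hDm fun z hz => ?_
        have h1 := hB z (hDL hz)
        rw [Real.norm_eq_abs, abs_abs] at h1
        have h2 : e.symm (f z) = p.psi z := e.left_inv (hLO (hDL hz))
        rw [h2]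
        gcongr
        exact ENNReal.ofReal_le_ofReal h1
    _ = (Real.toNNReal B : ℝ≥0∞) * ∫⁻ z in D, h (p.psi z) :=
        lintegral_const_mul' _ _ ENNReal.coe_ne_top
    _ ≤ _ := by
        gcongr
        exact inter_subset_left

end Vale.Agent.P204K.Mfd
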