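import Vale.Agent.P204.KC.K7

/-!
# P204: a smooth (not closed) two-form which tames a given almost complex structure
-/

set_option linter.all false

open scoped Manifold ContDiff Topology ENNReal NNReal
open Set MeasureTheory

namespace Vale.Agent.P204K.Mfd

open Vale.Agent.P204K.T4

variable {X : Type*} [TopologicalSpace X] [ChartedSpace E4 X] [IsManifold (𝓡 4) ∞ X]

open Classical in
/-- Extension by zero of a two-form given in a parametrisation. -/
noncomputable def extFE (p : Par X) (h : V4 → L2) (x : X) : E4 [⋀^Fin 2]→L[ℝ] ℝ :=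
  if x ∈ range p.psi then (toAlt (h (p.inv x))).compContinuousLinearMap (p.dinv x) else 0

/-- Extension by zero of a two-form given in a parametrisation. -/
noncomputable def extF (p : Par X) (h : V4 → L2) : TwoForm X := fun x => extFE p h x

theorem extFE_psi (p : Par X) (h : V4 → L2) (y : V4) (u v : E4) :
    extFE p h (p.psi y) ![u, v] =
      ev (h y) (p.dinv (p.psi y) u) (p.dinv (p.psi y) v) := by
  unfold extFE
  rw [if_pos (mem_range_self y), Par.inv_psi, comp_apply2, toAlt_apply]

theorem extFE_mem (p : Par X) (h : V4 → L2) {x : X} (hx : x ∈ range p.psi) (u v : E4) :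
    extFE p h x ![u, v] = ev (h (p.inv x)) (p.dinv x u) (p.dinv x v) := by
  unfold extFE
  rw [if_pos hx, comp_apply2, toAlt_apply]

theorem extFE_off (p : Par X) (h : V4 → L2) {x : X} (hx : x ∉ range p.psi) :
    extFE p h x = 0 := by
  unfold extFE
  rw [if_neg hx]

theorem dinv_dpsi_tau {p q : Par X} {y : V4} (hy : y ∈ Par.dom q p) (v : V4) :
    p.dinv (q.psi y) (q.dpsi y v) = fderiv ℝ (Par.tau q p) y v := by
  have h1 : q.dpsi y v = p.dpsi (Par.tau q p y) (fderiv ℝ (Par.tau q p) y v) := by
    rw [Par.dpsi_tau hy]; rfl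
  rw [h1, ← Par.psi_tau hy, Par.dinv_dpsi]

theorem compL_form_extF_mem (p q : Par X) (h : V4 → L2) {y : V4} (hy : y ∈ Par.dom q p) :
    compL (q.form (extF p h) y) =
      pull (matL (fderiv ℝ (Par.tau q p) y)) (h (Par.tau q p y)) := by
  apply ext_ev
  intro v w
  rw [ev_compL, Par.form_apply, ev_pull, app_matL, app_matL]
  have h2 : extFE p h (q.psi y) ![q.dpsi y v, q.dpsi y w] =
      ev (h (p.inv (q.psi y))) (p.dinv (q.psi y) (q.dpsi y v)) (p.dinv (q.psi y) (q.dpsi y w)) :=
    extFE_mem p h (x := q.psi y) hy _ _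
  rw [dinv_dpsi_tau hy, dinv_dpsi_tau hy] at h2
  exact h2

theorem compL_form_extF_off (p q : Par X) (h : V4 → L2) {y : V4}
    (hy : q.psi y ∉ p.psi '' tsupport h) : compL (q.form (extF p h) y) = 0 := by
  by_cases hr : y ∈ Par.dom q p
  · rw [compL_form_extF_mem p q h hr]
    have : h (Par.tau q p y) = 0 := by
      by_contra hne
      exact hy ⟨_, subset_tsupport _ hne, Par.psi_tau hr⟩
    rw [this, GX.pull_zero]
  · apply ext_ev
    intro v w
    rw [ev_compL, Par.form_apply]
    have h2 : extFE p h (q.psi y) ![q.dpsi y v, q.dpsi y w] = 0 := by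
      rw [extFE_off p h (x := q.psi y) hr]; rfl
    show extFE p h (q.psi y) ![q.dpsi y v, q.dpsi y w] = ev 0 v w
    rw [ev_eq]
    simpa using h2

theorem compL_form_extF_smooth [T2Space X] (p q : Par X) {h : V4 → L2} (hs : ContDiff ℝ ∞ h)
    (hc : HasCompactSupport h) : ContDiff ℝ ∞ fun y => compL (q.form (extF p h) y) := by
  rw [contDiff_iff_contDiffAt]
  intro y
  by_cases hy : y ∈ Par.dom q p
  · have h1 : (fun y => compL (q.form (extF p h) y)) =ᶠ[𝓝 y] fun y =>
        pull (matL (fderiv ℝ (Par.tau q p) y)) (h (Par.tau q p y)) := by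
      filter_upwards [(Par.isOpen_dom q p).mem_nhds hy] with z hz
      exact compL_form_extF_mem p q h hz
    refine ContDiffAt.congr_of_eventuallyEq ?_ h1
    have ht : ContDiffAt ℝ ∞ (Par.tau q p) y :=
      (Par.tau_smooth q p _ hy).contDiffAt ((Par.isOpen_dom q p).mem_nhds hy)
    apply contDiffAt_pull
    · exact matL.contDiff.contDiffAt.comp y (ht.fderiv_right (m := ∞) (by simp))
    · exact hs.contDiffAt.comp y ht
  · have hcl : IsClosed (p.psi '' tsupport h) :=
      (hc.isCompact.image p.isOpenEmbedding.continuous).isClosed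
    have hop : IsOpen (q.psi ⁻¹' (p.psi '' tsupport h)ᶜ) :=
      hcl.isOpen_compl.preimage q.isOpenEmbedding.continuous
    have hmem : y ∈ q.psi ⁻¹' (p.psi '' tsupport h)ᶜ := by
      intro hh
      obtain ⟨w, _, hw⟩ := hh
      exact hy ⟨w, hw⟩
    have h1 : (fun y => compL (q.form (extF p h) y)) =ᶠ[𝓝 y] fun _ => 0 := by
      filter_upwards [hop.mem_nhds hmem] with z hz
      exact compL_form_extF_off p q h hz
    exact contDiffAt_const.congr_of_eventuallyEq h1

theorem contDiff_Fm : ContDiff ℝ ∞ Fm := by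
  unfold Fm
  rw [contDiff_pi]
  intro i
  fin_cases i <;> simp only [ofEnt, Fin.zero_eta, Fin.isValue, Matrix.cons_val_zero, Fin.mk_one, Matrix.cons_val_one, Fin.reduceFinMk, Matrix.cons_val] <;> fun_prop

variable {J : EndField X} [CompactSpace X] [T2Space X]

namespace FinAtlas

variable (A : FinAtlas X J)

/-- the local pieces -/
noncomputable def locF (a : Fin A.n) (y : V4) : L2 := bmp y • Fm (A.Jm a y)

theorem locF_smooth (hJ : AlmostComplex J) (a : Fin A.n) : ContDiff ℝ ∞ (A.locF a) :=
  bmp.contDiff.smul (contDiff_Fm.comp (A.Jm_smooth hJ a))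

theorem locF_support (a : Fin A.n) : HasCompactSupport (A.locF a) :=
  bmp.hasCompactSupport.smul_right

/-- The smooth taming form. -/
noncomputable def betaE (x : X) : E4 [⋀^Fin 2]→L[ℝ] ℝ := ∑ a, extFE (A.P a) (A.locF a) x

/-- The smooth taming form. -/
noncomputable def beta : TwoForm X := fun x => A.betaE x

theorem beta_apply (x : X) (u v : E4) :
    A.betaE x ![u, v] = ∑ a, extFE (A.P a) (A.locF a) x ![u, v] := by
  unfold betaE
  exact ContinuousAlternatingMap.sum_apply _ _

theorem compL_form_beta (q : Par X) (y : V4) :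
    compL (q.form A.beta y) = ∑ a, compL (q.form (extF (A.P a) (A.locF a)) y) := by
  have hsum : ∀ (s : Finset (Fin A.n)) (f : Fin A.n → L2) (v w : V4),
      ev (∑ a ∈ s, f a) v w = ∑ a ∈ s, ev (f a) v w := by
    classical
    intro s f v w
    induction s using Finset.induction_on with
    | empty => rw [Finset.sum_empty, Finset.sum_empty, ev_eq]; simp
    | insert i s hi ih => rw [Finset.sum_insert hi, Finset.sum_insert hi, ev_add, ih]
  apply ext_ev
  intro v w
  rw [hsum, ev_compL, Par.form_apply]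
  refine (A.beta_apply _ _ _).trans (Finset.sum_congr rfl fun a _ => ?_)
  rw [ev_compL, Par.form_apply]
  rfl

theorem beta_smooth (hJ : AlmostComplex J) : SmoothForm A.beta := by
  refine smoothForm_of_pars A.P (fun x => by
    obtain ⟨a, y, _, h⟩ := A.cov x
    exact ⟨a, y, h⟩) fun i => ?_
  have h1 : ContDiff ℝ ∞ fun y => cV ((A.P i).form A.beta y) := by
    have : (fun y => cV ((A.P i).form A.beta y)) =
        fun y => ∑ a, compL ((A.P i).form (extF (A.P a) (A.locF a)) y) := by
      funext y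
      rw [cV_apply, A.compL_form_beta]
    rw [this]
    exact ContDiff.sum fun a _ => compL_form_extF_smooth (A.P a) (A.P i) (A.locF_smooth hJ a)
      (A.locF_support a)
  exact (cV.comp_contDiff_iff (f := (A.P i).form A.beta)).1 h1

theorem extF_locF_nonneg (hJ : AlmostComplex J) (a : Fin A.n) (x : X) (v : E4) :
    0 ≤ extFE (A.P a) (A.locF a) x ![v, Jat J x v] := by
  by_cases hr : x ∈ range (A.P a).psi
  · obtain ⟨y, rfl⟩ := hr
    rw [extFE_psi, A.dinv_Jat, locF, ev_smul]
    refine mul_nonneg bmp.nonneg ?_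
    have h3 := posDef_Fm (A.isCx_Jm hJ a y)
    rcases eq_or_ne ((A.P a).dinv ((A.P a).psi y) v) 0 with h | h
    · rw [h, ev_eq]; simp
    · exact (h3.2 _ h).le
  · rw [extFE_off _ _ hr]
    exact le_refl (0 : ℝ)

theorem betaE_pos (hJ : AlmostComplex J) (x : X) (v : E4) (hv : v ≠ 0) :
    0 < A.betaE x ![v, Jat J x v] := by
  rw [A.beta_apply]
  obtain ⟨a, y, hy, rfl⟩ := A.cov x
  refine Finset.sum_pos' (fun b _ => A.extF_locF_nonneg hJ b _ v) ⟨a, Finset.mem_univ a, ?_⟩
  rw [extFE_psi, A.dinv_Jat, locF, ev_smul]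
  have hb : bmp y = 1 := bmp.one_of_mem_closedBall (by
    rw [mem_closedBall_zero_iff]; exact hy.le)
  rw [hb, one_mul]
  refine (posDef_Fm (A.isCx_Jm hJ a y)).2 _ ?_
  intro h
  apply hv
  have h3 := (A.P a).dpsi_dinv y v
  rw [h, map_zero] at h3
  exact h3.symm

theorem beta_tames (hJ : AlmostComplex J) : Tames A.beta J :=
  fun x v hv => A.betaE_pos hJ x v hv

end FinAtlas

end Vale.Agent.P204K.Mfd
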