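import Vale.Agent.P204.KC.K7

/-!
# P204: one-forms on a four-manifold: coordinates, parametrisations and exterior derivatives
-/

set_option linter.all false

open scoped Manifold ContDiff Topology ENNReal NNReal
open Set MeasureTheory

namespace Vale.Agent.P204K.Mfd

open Vale.Agent.P204K.T4

/-! ### linear algebra of one-forms -/

abbrev Alt1 := V4 [⋀^Fin 1]→L[ℝ] ℝ

section
variable {E : Type*} [NormedAddCommGroup E] [NormedSpace ℝ E]

theorem one_upd {α : Type*} (a c : α) : Function.update ![a] 0 c = ![c] := by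
  funext i; fin_cases i; rfl

theorem one_add (A : E [⋀^Fin 1]→L[ℝ] ℝ) (v v' : E) : A ![v + v'] = A ![v] + A ![v'] := by
  have := A.map_update_add ![v] 0 v v'
  simpa only [one_upd] using this

theorem one_smul' (A : E [⋀^Fin 1]→L[ℝ] ℝ) (c : ℝ) (v : E) : A ![c • v] = c * A ![v] := by
  have := A.map_update_smul ![v] 0 c v
  simpa only [one_upd, smul_eq_mul] using this

theorem one_ext {A B : E [⋀^Fin 1]→L[ℝ] ℝ} (h : ∀ v, A ![v] = B ![v]) : A = B := by
  ext m
  have : m = ![m 0] := by funext i; fin_cases i; rfl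
  rw [this]; exact h _

theorem comp_apply1 {F : Type*} [NormedAddCommGroup F] [NormedSpace ℝ F]
    (A : F [⋀^Fin 1]→L[ℝ] ℝ) (L : E →L[ℝ] F) (v : E) :
    A.compContinuousLinearMap L ![v] = A ![L v] := by
  show A (L ∘ ![v]) = _
  congr 1
  funext i; fin_cases i; rfl
end

/-- components of a one-form -/
noncomputable def comp1 : Alt1 →L[ℝ] V4 :=
  ContinuousLinearMap.pi fun k : Fin 4 => ContinuousAlternatingMap.apply ℝ V4 ℝ ![eb k]

theorem comp1_apply (A : Alt1) (k : Fin 4) : comp1 A k = A ![eb k] := rfl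

/-- pairing of covectors and vectors -/
noncomputable def pr (b v : V4) : ℝ := b 0 * v 0 + b 1 * v 1 + b 2 * v 2 + b 3 * v 3

theorem pr_comp1 (A : Alt1) (v : V4) : pr (comp1 A) v = A ![v] := by
  conv_rhs => rw [vec_eq v]
  simp only [one_add, one_smul', pr, comp1_apply]
  ring

theorem pr_eb (b : V4) (k : Fin 4) : pr b (eb k) = b k := by
  fin_cases k <;> simp [pr, eb]

theorem ext_pr {b c : V4} (h : ∀ v, pr b v = pr c v) : b = c := by
  funext k
  rw [← pr_eb b k, ← pr_eb c k, h]

theorem pr_copp (b : V4) (P : M4) (v : V4) : pr (copp b P) v = pr b (app P v) := by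
  simp only [pr, copp, app_eq, Fin.sum_univ_four]
  ring

/-- the one-form with given components -/
noncomputable def toAlt1 (b : V4) : Alt1 where
  toFun v := pr b (v 0)
  map_update_add' := by
    intro _ m i x y
    fin_cases i
    simp [pr]; ring
  map_update_smul' := by
    intro _ m i c x
    fin_cases i
    simp [pr]; ring
  cont := by
    simp only [pr]
    fun_prop
  map_eq_zero_of_eq' := by
    intro v i j h hij
    exact absurd (Subsingleton.elim i j) hij

theorem toAlt1_apply (b v : V4) : toAlt1 b ![v] = pr b v := rfl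

theorem comp1_toAlt1 (b : V4) : comp1 (toAlt1 b) = b := by
  apply ext_pr
  intro v
  rw [pr_comp1, toAlt1_apply]

theorem toAlt1_comp1 (A : Alt1) : toAlt1 (comp1 A) = A := by
  apply one_ext
  intro v
  rw [toAlt1_apply, pr_comp1]

noncomputable def toAlt1L : V4 →L[ℝ] Alt1 :=
  LinearMap.toContinuousLinearMap
    { toFun := toAlt1
      map_add' := fun A B => one_ext fun v => by
        show pr (A + B) v = pr A v + pr B v
        simp [pr]; ring
      map_smul' := fun c A => one_ext fun v => by
        show pr (c • A) v = c * pr A v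
        simp [pr]; ring }

theorem toAlt1L_apply (b : V4) : toAlt1L b = toAlt1 b := rfl

/-- components as an equivalence -/
noncomputable def c1V : Alt1 ≃L[ℝ] V4 :=
  ContinuousLinearEquiv.equivOfInverse comp1 toAlt1L toAlt1_comp1 comp1_toAlt1

noncomputable def c1E : (E4 [⋀^Fin 1]→L[ℝ] ℝ) ≃L[ℝ] V4 :=
  ContinuousLinearEquiv.equivOfInverse
    (comp1.comp (ContinuousAlternatingMap.compContinuousLinearMapCLM (toE : V4 →L[ℝ] E4)))
    ((ContinuousAlternatingMap.compContinuousLinearMapCLM (toE.symm : E4 →L[ℝ] V4)).comp toAlt1L)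
    (fun A => by
      apply one_ext
      intro v
      simp only [ContinuousLinearMap.comp_apply, toAlt1L_apply,
        ContinuousAlternatingMap.compContinuousLinearMapCLM_apply]
      rw [toAlt1_comp1, comp_apply1, comp_apply1]
      simp)
    (fun B => by
      simp only [ContinuousLinearMap.comp_apply, toAlt1L_apply,
        ContinuousAlternatingMap.compContinuousLinearMapCLM_apply]
      apply ext_pr
      intro v
      rw [pr_comp1, comp_apply1, comp_apply1, toAlt1_apply]
      simp)

theorem c1V_apply (A : Alt1) : c1V A = comp1 A := rfl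

theorem c1E_apply (A : E4 [⋀^Fin 1]→L[ℝ] ℝ) :
    c1E A = comp1 (A.compContinuousLinearMap (toE : V4 →L[ℝ] E4)) := rfl

theorem c1V_comp_E (A : E4 [⋀^Fin 1]→L[ℝ] ℝ) (L : V4 →L[ℝ] E4) :
    c1V (A.compContinuousLinearMap L) = copp (c1E A) (matL ((toE.symm : E4 →L[ℝ] V4).comp L)) := by
  apply ext_pr
  intro v
  rw [c1V_apply, pr_comp1, pr_copp, c1E_apply, pr_comp1, comp_apply1, comp_apply1, app_matL]
  simp

theorem c1E_comp_V (B : Alt1) (L : E4 →L[ℝ] V4) :
    c1E (B.compContinuousLinearMap L) = copp (c1V B) (matL (L.comp (toE : V4 →L[ℝ] E4))) := by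
  apply ext_pr
  intro v
  rw [c1E_apply, pr_comp1, pr_copp, c1V_apply, pr_comp1, comp_apply1, comp_apply1, app_matL]
  simp

theorem contDiffAt_copp' {Y : Type*} [NormedAddCommGroup Y] [NormedSpace ℝ Y] {n : ℕ∞ω}
    {f : Y → M4} {b : Y → V4} {y : Y} (hf : ContDiffAt ℝ n f y) (hb : ContDiffAt ℝ n b y) :
    ContDiffAt ℝ n (fun y => copp (b y) (f y)) y := by
  have hf' : ∀ i j, ContDiffAt ℝ n (fun y => f y i j) y := fun i j =>
    contDiffAt_pi.1 (contDiffAt_pi.1 hf i) j
  have hb' : ∀ i, ContDiffAt ℝ n (fun y => b y i) y := fun i => contDiffAt_pi.1 hb i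
  rw [contDiffAt_pi]
  intro j
  unfold copp
  exact ContDiffAt.sum fun i _ => (hb' i).mul (hf' i j)

/-- The exterior derivative of a one-form in components. -/
theorem compL_extDeriv {al : V4 → Alt1} {x : V4} (h : DifferentiableAt ℝ al x) :
    compL (extDeriv al x) = d1 (fun y => comp1 (al y)) x := by
  rw [← GX.ofEnt_ent (compL (extDeriv al x)), ← GX.ofEnt_ent (d1 _ x)]
  apply GX.ofEnt_congr
  intro i j
  rw [GX.ent_d1, ent_compL, extDeriv_apply h, Fin.sum_univ_two]
  have e0 : (0 : Fin 2).removeNth ![eb i, eb j] = ![eb j] := by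
    funext l; fin_cases l; rfl
  have e1 : (1 : Fin 2).removeNth ![eb i, eb j] = ![eb i] := by
    funext l; fin_cases l; rfl
  rw [e0, e1]
  simp only [comp1_apply, pd]
  simp [eb]
  ring

variable {X : Type*} [TopologicalSpace X] [ChartedSpace E4 X] [IsManifold (𝓡 4) ∞ X]

/-- one-forms -/
abbrev OneForm (X : Type*) [TopologicalSpace X] [ChartedSpace E4 X] :=
  ∀ x : X, TangentSpace (𝓡 4) x [⋀^Fin 1]→L[ℝ] ℝ

noncomputable def pullOne (f : E4 → X) (al : OneForm X) : E4 → E4 [⋀^Fin 1]→L[ℝ] ℝ :=
  fun y => (al (f y)).compContinuousLinearMap (mfderiv (𝓡 4) (𝓡 4) f y)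

/-- value of a one-form on a vector of the model space -/
noncomputable def alv (al : OneForm X) (x : X) (u : E4) : ℝ := (al x) ![u]

theorem alv_congr (al : OneForm X) {x x' : X} (h : x = x') (a : E4) :
    alv al x a = alv al x' a := by
  subst h; rfl

/-- `th` is the exterior derivative of a smooth one-form. -/
def IsExact (th : TwoForm X) : Prop :=
  ∃ al : OneForm X, (∀ e ∈ atlas E4 X, ContDiffOn ℝ ∞ (pullOne e.symm al) e.target) ∧
    ∀ e ∈ atlas E4 X, ∀ y ∈ e.target, pullForm e.symm th y = extDeriv (pullOne e.symm al) y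

theorem pullOne_apply (e : OpenPartialHomeomorph X E4) (al : OneForm X) (z v : E4) :
    pullOne e.symm al z ![v] = alv al (e.symm z) (dsym e z v) :=
  comp_apply1 (E := E4) (F := E4) (al (e.symm z)) (dsym e z) v

namespace Par

/-- The expression of a one-form in a parametrisation. -/
noncomputable def form1 (p : Par X) (al : OneForm X) (y : V4) : Alt1 :=
  (al (p.psi y)).compContinuousLinearMap (p.dpsi y)

theorem form1_apply (p : Par X) (al : OneForm X) (y v : V4) :
    p.form1 al y ![v] = alv al (p.psi y) (p.dpsi y v) :=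
  comp_apply1 (E := V4) (F := E4) (al (p.psi y)) (p.dpsi y) v

theorem form1_eq (p : Par X) (al : OneForm X) (y : V4) :
    p.form1 al y = (pullOne p.e.symm al (p.g y)).compContinuousLinearMap (fderiv ℝ p.g y) := by
  apply one_ext
  intro v
  rw [form1_apply, comp_apply1, pullOne_apply, dpsi_eq]
  rfl

theorem pullOne_eq (p : Par X) (al : OneForm X) {e : OpenPartialHomeomorph X E4}
    (he : e ∈ atlas E4 X) {z : E4} (hz : z ∈ p.cdom e) :
    pullOne e.symm al z =
      (p.form1 al (p.cc e z)).compContinuousLinearMap (fderiv ℝ (p.cc e) z) := by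
  apply one_ext
  intro v
  rw [comp_apply1, form1_apply, pullOne_apply, dsym_eq p he hz]
  exact alv_congr al (p.psi_cc e hz).symm _

theorem form1_smooth (p : Par X) {al : OneForm X}
    (h : ∀ e ∈ atlas E4 X, ContDiffOn ℝ ∞ (pullOne e.symm al) e.target) :
    ContDiff ℝ ∞ (p.form1 al) := by
  rw [contDiff_iff_contDiffAt]
  intro y
  have h1 : (p.form1 al) = fun y =>
      (pullOne p.e.symm al (p.g y)).compContinuousLinearMap (fderiv ℝ p.g y) := by
    funext y; exact p.form1_eq al y
  rw [h1, ← c1V.comp_contDiffAt_iff]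
  have h2 : (c1V ∘ fun y => (pullOne p.e.symm al (p.g y)).compContinuousLinearMap (fderiv ℝ p.g y))
      = fun y => copp (c1E (pullOne p.e.symm al (p.g y)))
        (matL ((toE.symm : E4 →L[ℝ] V4).comp (fderiv ℝ p.g y))) := by
    funext y
    exact c1V_comp_E _ _
  rw [h2]
  apply contDiffAt_copp'
  · have h3 : ContDiffAt ℝ ∞ (fderiv ℝ p.g) y :=
      p.g_smooth.contDiffAt.fderiv_right (m := ∞) (by simp)
    exact matL.contDiff.contDiffAt.comp y
      ((contDiffAt_const (c := (toE.symm : E4 →L[ℝ] V4))).clm_comp h3)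
  · exact c1E.contDiff.contDiffAt.comp y (((h p.e p.he _ (p.g_mem y)).contDiffAt
      (p.e.open_target.mem_nhds (p.g_mem y))).comp y p.g_smooth.contDiffAt)

/-- exterior derivative in a parametrisation -/
theorem form_exact (p : Par X) {al : OneForm X} {th : TwoForm X}
    (h : ∀ e ∈ atlas E4 X, ContDiffOn ℝ ∞ (pullOne e.symm al) e.target)
    (hd : ∀ e ∈ atlas E4 X, ∀ y ∈ e.target,
      pullForm e.symm th y = extDeriv (pullOne e.symm al) y) (y : V4) :
    p.form th y = extDeriv (p.form1 al) y := by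
  have h1 : (p.form1 al) = fun y =>
      (pullOne p.e.symm al (p.g y)).compContinuousLinearMap (fderiv ℝ p.g y) := by
    funext y; exact p.form1_eq al y
  rw [h1, extDeriv_pullback (r := ∞) _ p.g_smooth.contDiffAt minS, p.form_eq,
    hd p.e p.he _ (p.g_mem y)]
  exact ((h p.e p.he _ (p.g_mem y)).contDiffAt
      (p.e.open_target.mem_nhds (p.g_mem y))).differentiableAt (by simp)

end Par

/-- exactness from the parametrisations -/
theorem isExact_of_pars {ι : Type*} (P : ι → Par X) (hcov : ∀ x, ∃ i, x ∈ range (P i).psi)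
    {al : OneForm X} {th : TwoForm X} (h : ∀ i, ContDiff ℝ ∞ ((P i).form1 al))
    (hd : ∀ i y, (P i).form th y = extDeriv ((P i).form1 al) y) : IsExact th := by
  have key : ∀ e ∈ atlas E4 X, ∀ z ∈ e.target, ∃ i, z ∈ (P i).cdom e ∧
      pullOne e.symm al =ᶠ[𝓝 z] fun z =>
        ((P i).form1 al ((P i).cc e z)).compContinuousLinearMap (fderiv ℝ ((P i).cc e) z) := by
    intro e he z hz
    obtain ⟨i, hi⟩ := hcov (e.symm z)
    have hzc : z ∈ (P i).cdom e := ⟨hz, hi⟩
    refine ⟨i, hzc, ?_⟩
    filter_upwards [((P i).isOpen_cdom e).mem_nhds hzc] with w hw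
    exact (P i).pullOne_eq al he hw
  refine ⟨al, ?_, ?_⟩
  · intro e he z hz
    obtain ⟨i, hzc, h1⟩ := key e he z hz
    refine ContDiffAt.contDiffWithinAt ?_
    refine ContDiffAt.congr_of_eventuallyEq ?_ h1
    rw [← c1E.comp_contDiffAt_iff]
    have h2 : (c1E ∘ fun z =>
        ((P i).form1 al ((P i).cc e z)).compContinuousLinearMap (fderiv ℝ ((P i).cc e) z))
        = fun z => copp (c1V ((P i).form1 al ((P i).cc e z)))
          (matL ((fderiv ℝ ((P i).cc e) z).comp (toE : V4 →L[ℝ] E4))) := by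
      funext y
      exact c1E_comp_V _ _
    rw [h2]
    have hc := (P i).cc_smoothAt he hzc
    apply contDiffAt_copp'
    · have h3 : ContDiffAt ℝ ∞ (fderiv ℝ ((P i).cc e)) z := hc.fderiv_right (m := ∞) (by simp)
      exact matL.contDiff.contDiffAt.comp z
        (h3.clm_comp (contDiffAt_const (c := (toE : V4 →L[ℝ] E4))))
    · exact c1V.contDiff.contDiffAt.comp z ((h i).contDiffAt.comp z hc)
  · intro e he z hz
    obtain ⟨i, hzc, h1⟩ := key e he z hz
    rw [h1.extDeriv_eq, extDeriv_pullback (r := ∞) ((h i).differentiable (by simp) _)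
      ((P i).cc_smoothAt he hzc) minS, ← hd i]
    exact (P i).pullForm_eq th he hzc

end Vale.Agent.P204K.Mfd
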