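import Vale.Agent.P204.KC.K12

/-!
# P204: two-forms on the manifold and in the unitary frame; exact forms
-/

set_option linter.all false

open scoped Manifold ContDiff Topology ENNReal NNReal
open Set MeasureTheory

namespace Vale.Agent.P204K.Mfd

open Vale.Agent.P204K.T4

variable {X : Type} [TopologicalSpace X] [ChartedSpace E4 X] [IsManifold (𝓡 4) ∞ X]
  {J : EndField X} [CompactSpace X] [T2Space X]

theorem twoForm_ext {a b : TwoForm X} (h : ∀ x u v, omv a x u v = omv b x u v) : a = b := by
  funext x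
  have hE : ∀ {A B : E4 [⋀^Fin 2]→L[ℝ] ℝ}, (∀ v w, A ![v, w] = B ![v, w]) → A = B := by
    intro A B h
    ext m
    have : m = ![m 0, m 1] := by funext i; fin_cases i <;> rfl
    rw [this]; exact h _ _
  exact hE (A := a x) (B := b x) (fun v w => h x v w)

namespace FinAtlas

variable (A : FinAtlas X J) (om : TwoForm X)

/-- the components of a two-form in the unitary frame -/
noncomputable def cmp (et : TwoForm X) (x : X) : L2 :=
  compL ((et x).compContinuousLinearMap (A.FrI om x))

theorem ev_cmp (et : TwoForm X) (x : X) (v w : V4) :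
    ev (A.cmp om et x) v w = omv et x (A.FrI om x v) (A.FrI om x w) := by
  unfold cmp omv
  rw [ev_compL]
  exact comp_apply2 (E := V4) (F := E4) (et x) (A.FrI om x) v w

theorem cmp_add (et et' : TwoForm X) : A.cmp om (et + et') = A.cmp om et + A.cmp om et' := by
  funext x
  apply ext_ev
  intro v w
  rw [Pi.add_apply, ev_add, ev_cmp, ev_cmp, ev_cmp]
  rfl

theorem cmp_smul (c : ℝ) (et : TwoForm X) : A.cmp om (c • et) = c • A.cmp om et := by
  funext x
  apply ext_ev
  intro v w
  rw [Pi.smul_apply, ev_smul, ev_cmp, ev_cmp]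
  rfl

theorem back_add (w w' : X → L2) : A.back om (w + w') = A.back om w + A.back om w' := by
  apply twoForm_ext
  intro x u v
  have e : omv (A.back om w + A.back om w') x u v =
      omv (A.back om w) x u v + omv (A.back om w') x u v := rfl
  rw [e, omv_back, omv_back, omv_back, Pi.add_apply, ev_add]

theorem back_smul (c : ℝ) (w : X → L2) : A.back om (c • w) = c • A.back om w := by
  apply twoForm_ext
  intro x u v
  have e : omv (c • A.back om w) x u v = c * omv (A.back om w) x u v := rfl
  rw [e, omv_back, omv_back, Pi.smul_apply, ev_smul]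

/-- a one-form with values in the model space -/
def alE (al : OneForm X) (x : X) : E4 [⋀^Fin 1]→L[ℝ] ℝ := al x

/-- components of a one-form in the unitary frame -/
noncomputable def cmp1 (al : OneForm X) (x : X) : V4 :=
  comp1 ((alE al x).compContinuousLinearMap (A.FrI om x))

theorem pr_cmp1 (al : OneForm X) (x : X) (v : V4) :
    pr (A.cmp1 om al x) v = alv al x (A.FrI om x v) := by
  unfold cmp1
  rw [pr_comp1, comp_apply1]
  rfl

/-- the one-form with given components in the unitary frame -/
noncomputable def back1 (η : X → V4) : OneForm X := fun x =>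
  ((toAlt1 (η x)).compContinuousLinearMap (A.Fr om x) : E4 [⋀^Fin 1]→L[ℝ] ℝ)

theorem alv_back1 (η : X → V4) (x : X) (v : E4) :
    alv (A.back1 om η) x v = pr (η x) (A.Fr om x v) := by
  refine (comp_apply1 (E := E4) (F := V4) (toAlt1 (η x)) (A.Fr om x) v).trans ?_
  rw [toAlt1_apply]

theorem form1_back1 (η : X → V4) (a : Fin A.n) (y : V4) :
    (A.P a).form1 (A.back1 om η) y = toAlt1 (copp (η ((A.P a).psi y)) (A.mc om a y)) := by
  apply one_ext
  intro v
  rw [Par.form1_apply, alv_back1, toAlt1_apply, pr_copp, app_mc]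

variable (hJ : AlmostComplex J) (hT : Tames om J)

include hJ hT

theorem copp_cmp1 (al : OneForm X) (a : Fin A.n) (y : V4) :
    copp (A.cmp1 om al ((A.P a).psi y)) (A.mc om a y) = comp1 ((A.P a).form1 al y) := by
  apply ext_pr
  intro v
  rw [pr_comp1, Par.form1_apply, pr_copp, pr_cmp1, app_mc, FrI_Fr A om hJ hT]

theorem pull_mc_cmp (et : TwoForm X) (a : Fin A.n) (y : V4) :
    pull (A.mc om a y) (A.cmp om et ((A.P a).psi y)) = compL ((A.P a).form et y) := by
  apply ext_ev
  intro v w
  rw [ev_pull, app_mc, app_mc, ev_cmp, FrI_Fr A om hJ hT, FrI_Fr A om hJ hT, ev_compL,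
    Par.form_apply]
  rfl

theorem back_cmp (et : TwoForm X) : A.back om (A.cmp om et) = et := by
  apply twoForm_ext
  intro x u v
  rw [omv_back, ev_cmp, FrI_Fr A om hJ hT, FrI_Fr A om hJ hT]

theorem cmp_back (w : X → L2) : A.cmp om (A.back om w) = w := by
  funext x
  apply ext_ev
  intro u v
  rw [ev_cmp, omv_back, Fr_FrI A om hJ hT, Fr_FrI A om hJ hT]

/-- nonnegativity in the frame -/
theorem cmp_nonneg_iff (et : TwoForm X) (x : X) :
    (∀ v, 0 ≤ ev (A.cmp om et x) v (app J0 v)) ↔ ∀ u, 0 ≤ omv et x u (Jat J x u) := by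
  constructor
  · intro h u
    have h1 := h (A.Fr om x u)
    rw [ev_cmp, ← Fr_J A om hJ hT, FrI_Fr A om hJ hT, FrI_Fr A om hJ hT] at h1
    exact h1
  · intro h v
    rw [ev_cmp, FrI_J A om hJ hT]
    exact h _

variable (hS : SmoothForm om)
include hS

theorem smooth_iff (et : TwoForm X) : SmoothForm et ↔
    A.cmp om et ∈ @GX.CM.Om X A.metric (A.toCM om hJ hS hT) := by
  have key : ∀ a y, @GX.CM.cf X A.metric (A.toCM om hJ hS hT) a (A.cmp om et) y =
      cV ((A.P a).form et y) := fun a y => A.pull_mc_cmp om hJ hT et a y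
  constructor
  · intro h a
    have e : @GX.CM.cf X A.metric (A.toCM om hJ hS hT) a (A.cmp om et) =
      fun y => cV ((A.P a).form et y) := by funext y; exact key a y
    rw [e]
    exact cV.contDiff.comp ((A.P a).form_smooth h)
  · intro h
    refine smoothForm_of_pars A.P (fun x => by
      obtain ⟨a, y, _, h⟩ := A.cov x
      exact ⟨a, y, h⟩) fun a => ?_
    have e : @GX.CM.cf X A.metric (A.toCM om hJ hS hT) a (A.cmp om et) =
      fun y => cV ((A.P a).form et y) := by funext y; exact key a y
    have h1 := h a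
    rw [e] at h1
    exact (cV.comp_contDiff_iff (f := (A.P a).form et)).1 h1

theorem smooth_back {w : X → L2} (hw : w ∈ @GX.CM.Om X A.metric (A.toCM om hJ hS hT)) :
    SmoothForm (A.back om w) := by
  rw [A.smooth_iff om hJ hT hS, A.cmp_back om hJ hT]
  exact hw

/-- exact forms have exact components -/
theorem cmp_mem_Ex {th : TwoForm X} (h : IsExact th) (hs : SmoothForm th) :
    (⟨A.cmp om th, (A.smooth_iff om hJ hT hS th).1 hs⟩ :
      @GX.CM.Om X A.metric (A.toCM om hJ hS hT)) ∈ @GX.CM.Ex X A.metric (A.toCM om hJ hS hT) := by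
  letI := A.metric
  obtain ⟨al, h1, h2⟩ := h
  set M := A.toCM om hJ hS hT with hM
  have hcf : ∀ a : Fin A.n, M.cf1 a (A.cmp1 om al) = fun y => comp1 ((A.P a).form1 al y) := by
    intro a
    funext y
    exact A.copp_cmp1 om hJ hT al a y
  have hsm : M.Sm1 (A.cmp1 om al) := by
    intro a
    have h3 := hcf a
    rw [h3]
    exact comp1.contDiff.comp ((A.P a).form1_smooth h1)
  have hd : M.dX (A.cmp1 om al) = A.cmp om th := by
    apply M.ext_cf
    intro a y _
    have h3 := hcf a
    have h4 : compL ((A.P a).form th y) = d1 (fun y => comp1 ((A.P a).form1 al y)) y := by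
      rw [(A.P a).form_exact h1 h2, compL_extDeriv
        (((A.P a).form1_smooth h1).differentiable (by simp) y)]
    rw [M.cf_dX hsm, h3]
    exact h4.symm.trans (A.pull_mc_cmp om hJ hT th a y).symm
  have h3 := M.dX_mem_Ex hsm
  convert h3 using 2
  exact hd.symm

/-- exact components come from exact forms -/
theorem isExact_back (w : X → L2) (hw : w ∈ @GX.CM.Om X A.metric (A.toCM om hJ hS hT))
    (hu : (⟨w, hw⟩ : @GX.CM.Om X A.metric (A.toCM om hJ hS hT)) ∈
      @GX.CM.Ex X A.metric (A.toCM om hJ hS hT)) :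
    IsExact (A.back om w) := by
  letI := A.metric
  obtain ⟨η, h1, h2⟩ := (A.toCM om hJ hS hT).exists_dX hu
  have h2' : w = (A.toCM om hJ hS hT).dX η := h2
  have hsm : ∀ a : Fin A.n, ContDiff ℝ ∞ ((A.P a).form1 (A.back1 om η)) := by
    intro a
    have h3 : (A.P a).form1 (A.back1 om η) =
        fun y => toAlt1L ((A.toCM om hJ hS hT).cf1 a η y) := by
      funext y; exact A.form1_back1 om η a y
    rw [h3]
    exact toAlt1L.contDiff.comp (h1 a)
  refine isExact_of_pars A.P (fun x => by
      obtain ⟨a, y, _, h⟩ := A.cov x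
      exact ⟨a, y, h⟩) hsm (al := A.back1 om η) ?_
  intro a y
  apply cV.injective
  rw [cV_apply, cV_apply, A.compL_back, compL_extDeriv ((hsm a).differentiable (by simp) y)]
  have e1 : pull (A.mc om a y) (w ((A.P a).psi y)) = (A.toCM om hJ hS hT).cf a w y := rfl
  have e2 : (fun y => comp1 ((A.P a).form1 (A.back1 om η) y)) =
      (A.toCM om hJ hS hT).cf1 a η := by
    funext y
    rw [A.form1_back1, comp1_toAlt1]
    rfl
  rw [e1, e2, h2']
  exact congrFun ((A.toCM om hJ hS hT).cf_dX h1 a) y

end FinAtlas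

end Vale.Agent.P204K.Mfd
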