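import Vale.Agent.P204.KC.K13

/-!
# P204: traces in charts and in the unitary frame
-/

set_option linter.all false

open scoped Manifold ContDiff Topology ENNReal NNReal
open Set MeasureTheory

namespace Vale.Agent.P204K.Mfd

open Vale.Agent.P204K.T4

/-! ### linear algebra -/

/-- square of the Euclidean norm -/
noncomputable def n2 (w : V4) : ℝ := w 0 ^ 2 + w 1 ^ 2 + w 2 ^ 2 + w 3 ^ 2

theorem n2_nonneg (w : V4) : 0 ≤ n2 w := by unfold n2; positivity

/-- the trace of a form in a basis -/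
noncomputable def trB (B : L2) (I : M4) : ℝ := ∑ i, ev B (eb i) (app I (eb i))

section
variable {B : L2} {I : M4}

theorem q_smul (B : L2) (I : M4) (c : ℝ) (a : V4) :
    ev B (c • a) (app I (c • a)) = c ^ 2 * ev B a (app I a) := by
  rw [app_smul, ev_smul_left, ev_smul_right]; ring

theorem q_add (h : ∀ v, 0 ≤ ev B v (app I v)) (a b : V4) :
    ev B (a + b) (app I (a + b)) ≤ 2 * ev B a (app I a) + 2 * ev B b (app I b) := by
  have h1 := h (a + (-1 : ℝ) • b)
  simp only [app_add, app_smul, ev_add_left, ev_add_right, ev_smul_left, ev_smul_right] at h1 ⊢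
  linarith

theorem q_le (h : ∀ v, 0 ≤ ev B v (app I v)) (w : V4) :
    ev B w (app I w) ≤ 8 * n2 w * trB B I := by
  have e : w = w 0 • eb 0 + w 1 • eb 1 + w 2 • eb 2 + w 3 • eb 3 := vec_eq w
  have h1 := q_add h (w 0 • eb 0 + w 1 • eb 1 + w 2 • eb 2) (w 3 • eb 3)
  have h2 := q_add h (w 0 • eb 0 + w 1 • eb 1) (w 2 • eb 2)
  have h3 := q_add h (w 0 • eb 0) (w 1 • eb 1)
  rw [← e] at h1
  rw [q_smul] at h1 h2
  rw [q_smul, q_smul] at h3
  have g0 := h (eb 0)
  have g1 := h (eb 1)
  have g2 := h (eb 2)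
  have g3 := h (eb 3)
  unfold trB n2
  rw [Fin.sum_univ_four]
  set q0 := ev B (eb 0) (app I (eb 0))
  set q1 := ev B (eb 1) (app I (eb 1))
  set q2 := ev B (eb 2) (app I (eb 2))
  set q3 := ev B (eb 3) (app I (eb 3))
  have s0 := sq_nonneg (w 0)
  have s1 := sq_nonneg (w 1)
  have s2 := sq_nonneg (w 2)
  have s3 := sq_nonneg (w 3)
  have t : ev B w (app I w) ≤ 8 * (w 0 ^ 2 * q0 + w 1 ^ 2 * q1 + w 2 ^ 2 * q2 + w 3 ^ 2 * q3) := by
    nlinarith [mul_nonneg s2 g2, mul_nonneg s3 g3, mul_nonneg s0 g0, mul_nonneg s1 g1]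
  refine t.trans ?_
  have p01 := mul_nonneg s0 g1
  have p02 := mul_nonneg s0 g2
  have p03 := mul_nonneg s0 g3
  have p10 := mul_nonneg s1 g0
  have p12 := mul_nonneg s1 g2
  have p13 := mul_nonneg s1 g3
  have p20 := mul_nonneg s2 g0
  have p21 := mul_nonneg s2 g1
  have p23 := mul_nonneg s2 g3
  have p30 := mul_nonneg s3 g0
  have p31 := mul_nonneg s3 g1
  have p32 := mul_nonneg s3 g2
  linarith

theorem trB_nonneg (h : ∀ v, 0 ≤ ev B v (app I v)) : 0 ≤ trB B I :=
  Finset.sum_nonneg fun i _ => h _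

end

theorem trB_J0 (u : L2) : trB u J0 = 2 * Q GX.F0 u := by
  unfold trB
  rw [Fin.sum_univ_four]
  simp only [app_J0, ev_eq, Q, GX.F0, eb]
  simp
  ring

theorem ev_F0_self (w : V4) : ev GX.F0 w (app J0 w) = n2 w := by
  unfold n2
  simp only [app_J0, ev_eq, GX.F0]
  simp
  ring

theorem n2_eb (k : Fin 4) : n2 (eb k) = 1 := by
  fin_cases k <;> simp [n2, eb]

/-! ### charts -/

section Charts

variable {X : Type*} [TopologicalSpace X] [ChartedSpace E4 X] [IsManifold (𝓡 4) ∞ X]

theorem dsym_dch {e : OpenPartialHomeomorph X E4} (he : e ∈ atlas E4 X) {y : E4}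
    (hy : y ∈ e.target) (v : E4) : dsym e y (dch e (e.symm y) v) = v := by
  have h1 := mfderiv_comp_of_eq (I := 𝓡 4) (I' := 𝓡 4) (I'' := 𝓡 4) (x := e.symm y) (y := y)
    (g := e.symm) (f := e) (mdiff_symm he hy) (mdiff_chart he (e.map_target hy)) (e.right_inv hy)
  have h2 : e.symm ∘ e =ᶠ[𝓝 (e.symm y)] id := by
    filter_upwards [e.open_source.mem_nhds (e.map_target hy)] with z hz
    exact e.left_inv hz
  rw [h2.mfderiv_eq, mfderiv_id] at h1
  have h3 : dsym e (e (e.symm y)) = dsym e y := by rw [e.right_inv hy]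
  have h4 : (dsym e (e (e.symm y))).comp (dch e (e.symm y)) =
    ContinuousLinearMap.id ℝ E4 := h1.symm
  rw [← h3]
  exact DFunLike.congr_fun h4 v

theorem dsym_endRep {e : OpenPartialHomeomorph X E4} (he : e ∈ atlas E4 X) {y : E4}
    (hy : y ∈ e.target) (J : EndField X) (v : E4) :
    dsym e y (endRep e J y v) = Jat J (e.symm y) (dsym e y v) :=
  dsym_dch he hy _

/-- two-forms in an atlas chart -/
noncomputable def fE (e : OpenPartialHomeomorph X E4) (et : TwoForm X) (y : E4) : L2 :=
  cE (pullForm e.symm et y)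

/-- the almost complex structure in an atlas chart -/
noncomputable def JE (e : OpenPartialHomeomorph X E4) (J : EndField X) (y : E4) : M4 :=
  matL ((toE.symm : E4 →L[ℝ] V4).comp ((endRep e J y).comp (toE : V4 →L[ℝ] E4)))

theorem ev_fE (e : OpenPartialHomeomorph X E4) (et : TwoForm X) (y : E4) (v w : V4) :
    ev (fE e et y) v w = omv et (e.symm y) (dsym e y (toE v)) (dsym e y (toE w)) := by
  unfold fE
  rw [cE_apply, ev_compL, comp_apply2]
  exact comp_apply2 (E := E4) (F := E4) (et (e.symm y)) (dsym e y) _ _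

theorem dsym_JE {e : OpenPartialHomeomorph X E4} (he : e ∈ atlas E4 X) {y : E4}
    (hy : y ∈ e.target) (J : EndField X) (v : V4) :
    dsym e y (toE (app (JE e J y) v)) = Jat J (e.symm y) (dsym e y (toE v)) := by
  unfold JE
  rw [app_matL, ← dsym_endRep he hy]
  simp

theorem q_fE {e : OpenPartialHomeomorph X E4} (he : e ∈ atlas E4 X) {y : E4}
    (hy : y ∈ e.target) (J : EndField X) (et : TwoForm X) (v : V4) :
    ev (fE e et y) v (app (JE e J y) v) =
      omv et (e.symm y) (dsym e y (toE v)) (Jat J (e.symm y) (dsym e y (toE v))) := by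
  rw [ev_fE, dsym_JE he hy]

/-- a quadratic function of a form in an atlas chart -/
theorem q_pull {e : OpenPartialHomeomorph X E4} (J : EndField X) (et : TwoForm X) (y v : E4) :
    pullForm e.symm et y ![v, endRep e J y v] =
      ev (fE e et y) (toE.symm v) (app (JE e J y) (toE.symm v)) := by
  unfold fE JE
  rw [cE_apply, ev_compL, comp_apply2, app_matL]
  simp

/-- the trace of a form in an atlas chart -/
noncomputable def trE (e : OpenPartialHomeomorph X E4) (J : EndField X) (et : TwoForm X)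
    (y : E4) : ℝ :=
  ∑ i : Fin 4, omv et (e.symm y) (dsym e y (EuclideanSpace.single i 1))
    (Jat J (e.symm y) (dsym e y (EuclideanSpace.single i 1)))

theorem toE_eb (i : Fin 4) : (toE (eb i) : E4) = EuclideanSpace.single i 1 := by
  ext j
  simp [toE, eb, EuclideanSpace.equiv]

theorem trE_eq {e : OpenPartialHomeomorph X E4} (he : e ∈ atlas E4 X) {y : E4}
    (hy : y ∈ e.target) (J : EndField X) (et : TwoForm X) :
    trE e J et y = trB (fE e et y) (JE e J y) := by
  unfold trE trB
  refine Finset.sum_congr rfl fun i _ => ?_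
  rw [q_fE he hy, toE_eb]

theorem fE_contOn {e : OpenPartialHomeomorph X E4} (he : e ∈ atlas E4 X) {et : TwoForm X}
    (h : SmoothForm et) : ContinuousOn (fE e et) e.target :=
  cE.continuous.comp_continuousOn (h e he).continuousOn

theorem JE_contOn {e : OpenPartialHomeomorph X E4} (he : e ∈ atlas E4 X) {J : EndField X}
    (h : AlmostComplex J) : ContinuousOn (JE e J) e.target :=
  matL.continuous.comp_continuousOn
    (continuousOn_const.clm_comp (((h.smooth e he).continuousOn).clm_comp continuousOn_const))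

theorem contOn_q {α : Type*} [TopologicalSpace α] {s : Set α} {B : α → L2} {I : α → M4}
    {v : α → V4} (hB : ContinuousOn B s) (hI : ContinuousOn I s) (hv : ContinuousOn v s) :
    ContinuousOn (fun x => ev (B x) (v x) (app (I x) (v x))) s := by
  have hB' : ∀ i, ContinuousOn (fun x => B x i) s := fun i =>
    (continuous_apply i).comp_continuousOn hB
  have hI' : ∀ i j, ContinuousOn (fun x => I x i j) s := fun i j =>
    (continuous_apply j).comp_continuousOn ((continuous_apply i).comp_continuousOn hI)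
  have hv' : ∀ i, ContinuousOn (fun x => v x i) s := fun i =>
    (continuous_apply i).comp_continuousOn hv
  simp only [ev_eq, app_eq]
  fun_prop

theorem trE_contOn {e : OpenPartialHomeomorph X E4} (he : e ∈ atlas E4 X) {J : EndField X}
    (hJ : AlmostComplex J) {et : TwoForm X} (h : SmoothForm et) :
    ContinuousOn (trE e J et) e.target := by
  have h1 : ContinuousOn (fun y => trB (fE e et y) (JE e J y)) e.target := by
    unfold trB
    refine continuousOn_finset_sum _ fun i _ => ?_
    exact contOn_q (fE_contOn he h) (JE_contOn he hJ) continuousOn_const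
  exact h1.congr fun y hy => trE_eq he hy J et

theorem q_contOn {e : OpenPartialHomeomorph X E4} (he : e ∈ atlas E4 X) {J : EndField X}
    (hJ : AlmostComplex J) {et : TwoForm X} (h : SmoothForm et) (v : E4) :
    ContinuousOn (fun y => pullForm e.symm et y ![v, endRep e J y v]) e.target := by
  simp only [q_pull]
  exact contOn_q (fE_contOn he h) (JE_contOn he hJ) continuousOn_const

theorem n2_toE (v : E4) : n2 (toE.symm v) = ‖v‖ ^ 2 := by
  rw [EuclideanSpace.norm_sq_eq, Fin.sum_univ_four]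
  simp only [Real.norm_eq_abs, sq_abs]
  rfl

theorem trE_sum {e : OpenPartialHomeomorph X E4} (he : e ∈ atlas E4 X) {y : E4}
    (hy : y ∈ e.target) (J : EndField X) (et : TwoForm X) :
    trE e J et y = ∑ i : Fin 4, pullForm e.symm et y
      ![EuclideanSpace.single i 1, endRep e J y (EuclideanSpace.single i 1)] := by
  rw [trE_eq he hy]
  unfold trB
  refine Finset.sum_congr rfl fun i _ => ?_
  rw [q_pull, ← toE_eb, ContinuousLinearEquiv.symm_apply_apply]

theorem q_le_tr {e : OpenPartialHomeomorph X E4} (he : e ∈ atlas E4 X) {y : E4}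
    (hy : y ∈ e.target) {J : EndField X} {et : TwoForm X}
    (hn : ∀ x u, 0 ≤ omv et x u (Jat J x u)) {v : E4} (hv : ‖v‖ ≤ 1) :
    pullForm e.symm et y ![v, endRep e J y v] ≤ 8 * trE e J et y := by
  rw [q_pull, trE_eq he hy]
  have h := q_le (B := fE e et y) (I := JE e J y) (fun v => by
    rw [q_fE he hy]; exact hn _ _) (toE.symm v)
  refine h.trans ?_
  have h2 : 0 ≤ trB (fE e et y) (JE e J y) := trB_nonneg (fun v => by
    rw [q_fE he hy]; exact hn _ _)
  rw [n2_toE]
  have h3 : ‖v‖ ^ 2 ≤ 1 := pow_le_one₀ (norm_nonneg _) hv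
  nlinarith

/-- lower bound for a taming form on a compact subset of a chart -/
theorem exists_lower {e : OpenPartialHomeomorph X E4} (he : e ∈ atlas E4 X) {J : EndField X}
    (hJ : AlmostComplex J) {om : TwoForm X} (hS : SmoothForm om) (hT : Tames om J)
    {K : Set E4} (hK : IsCompact K) (hKe : K ⊆ e.target) :
    ∃ c : ℝ, 0 < c ∧ ∀ y ∈ K, ∀ a : V4, c * n2 a ≤ ev (fE e om y) a (app (JE e J y) a) := by
  have hcont : ContinuousOn (fun p : E4 × V4 => ev (fE e om p.1) p.2 (app (JE e J p.1) p.2))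
      (K ×ˢ Metric.sphere (0 : V4) 1) := by
    refine contOn_q ?_ ?_ continuousOn_snd
    · exact ((fE_contOn he hS).mono hKe).comp continuousOn_fst (fun p hp => hp.1)
    · exact ((JE_contOn he hJ).mono hKe).comp continuousOn_fst (fun p hp => hp.1)
  have hc : IsCompact (K ×ˢ Metric.sphere (0 : V4) 1) := hK.prod (isCompact_sphere _ _)
  have hpos : ∀ p ∈ K ×ˢ Metric.sphere (0 : V4) 1,
      0 < ev (fE e om p.1) p.2 (app (JE e J p.1) p.2) := by
    rintro ⟨y, a⟩ ⟨hy, ha⟩
    simp only at hy ha ⊢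
    rw [q_fE he (hKe hy)]
    refine hT (e.symm y) _ ?_
    intro h0
    have h0' : dsym e y (toE a) = 0 := h0
    have h1 : a = 0 := by
      have h2 : ∀ v, dch e (e.symm y) (dsym e y v) = v := by
        have hs : Function.Surjective (dsym e y) := fun v => ⟨_, dsym_dch he (hKe hy) v⟩
        have hi : Function.Injective (dsym e y) :=
          (LinearMap.injective_iff_surjective (f := (dsym e y : E4 →ₗ[ℝ] E4))).2 hs
        intro v
        exact hi (dsym_dch he (hKe hy) _)
      have h3 := h2 (toE a)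
      rw [h0', map_zero] at h3
      have h4 : toE a = 0 := h3.symm
      simpa using h4
    rw [h1] at ha
    simp at ha
  obtain ⟨c, hc0, hcb⟩ : ∃ c : ℝ, 0 < c ∧ ∀ p ∈ K ×ˢ Metric.sphere (0 : V4) 1,
      c ≤ ev (fE e om p.1) p.2 (app (JE e J p.1) p.2) := by
    by_cases hne : (K ×ˢ Metric.sphere (0 : V4) 1).Nonempty
    · obtain ⟨p0, hp0, hmin⟩ := hc.exists_isMinOn hne hcont
      exact ⟨_, hpos p0 hp0, fun p hp => hmin hp⟩
    · exact ⟨1, one_pos, fun p hp => absurd ⟨p, hp⟩ hne⟩
  refine ⟨c / 4, by positivity, fun y hy a => ?_⟩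
  by_cases ha : a = 0
  · subst ha
    have e1 : n2 (0 : V4) = 0 := by simp [n2]
    have e2 : ev (fE e om y) 0 (app (JE e J y) 0) = 0 := by
      have := q_smul (fE e om y) (JE e J y) 0 0
      simpa using this
    rw [e1, e2]; simp
  · have hn : 0 < ‖a‖ := norm_pos_iff.2 ha
    have h1 := hcb (y, ‖a‖⁻¹ • a) ⟨hy, by
      rw [mem_sphere_zero_iff_norm, norm_smul, norm_inv, norm_norm, inv_mul_cancel₀ hn.ne']⟩
    simp only at h1
    rw [q_smul] at h1
    have h2 : n2 a ≤ 4 * ‖a‖ ^ 2 := by
      have hb : ∀ i, a i ^ 2 ≤ ‖a‖ ^ 2 := fun i => by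
        have h3 := norm_le_pi_norm a i
        rw [Real.norm_eq_abs] at h3
        calc a i ^ 2 = |a i| ^ 2 := (sq_abs _).symm
          _ ≤ _ := pow_le_pow_left₀ (abs_nonneg _) h3 2
      unfold n2
      linarith [hb 0, hb 1, hb 2, hb 3]
    have h3 : c * ‖a‖ ^ 2 ≤ ev (fE e om y) a (app (JE e J y) a) := by
      have h4 := mul_le_mul_of_nonneg_right h1 (sq_nonneg ‖a‖)
      have h5 : ‖a‖⁻¹ ^ 2 * ev (fE e om y) a (app (JE e J y) a) * ‖a‖ ^ 2 =
          ev (fE e om y) a (app (JE e J y) a) := by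
        field_simp
      rw [h5] at h4
      exact h4
    calc c / 4 * n2 a ≤ c / 4 * (4 * ‖a‖ ^ 2) := by gcongr
      _ = c * ‖a‖ ^ 2 := by ring
      _ ≤ _ := h3

end Charts

variable {X : Type} [TopologicalSpace X] [ChartedSpace E4 X] [IsManifold (𝓡 4) ∞ X]

namespace FinAtlas

variable {J : EndField X} [CompactSpace X] [T2Space X] (A : FinAtlas X J) (om : TwoForm X)
variable (hJ : AlmostComplex J) (hT : Tames om J)

include hJ in
theorem Fx_self (x : X) (u : E4) : Fx J om x u (Jat J x u) = omv om x u (Jat J x u) := by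
  unfold Fx
  rw [Jat_Jat hJ]
  have h2 : omv om x (Jat J x u) (-u) = omv om x u (Jat J x u) := by
    have h3 : -u = (-1 : ℝ) • u := by simp
    rw [h3]
    have e1 := alt_smul_right (E := E4) (om x) (-1) (Jat J x u) u
    have e2 := alt_swap (E := E4) (om x) (Jat J x u) u
    unfold omv
    refine e1.trans ?_
    rw [e2, neg_mul, one_mul, neg_neg]
    rfl
  rw [h2]
  ring

include hJ hT

theorem q_cmp (et : TwoForm X) (x : X) (u : E4) :
    ev (A.cmp om et x) (A.Fr om x u) (app J0 (A.Fr om x u)) = omv et x u (Jat J x u) := by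
  rw [ev_cmp, ← Fr_J A om hJ hT, FrI_Fr A om hJ hT, FrI_Fr A om hJ hT]

theorem n2_Fr (x : X) (u : E4) : n2 (A.Fr om x u) = omv om x u (Jat J x u) := by
  rw [← ev_F0_self, ← Fr_J A om hJ hT, ev_F0_Fr A om hJ hT, Fx_self om hJ]

theorem trace_compare (hS : SmoothForm om) {e : OpenPartialHomeomorph X E4} (he : e ∈ atlas E4 X)
    {K : Set E4} (hK : IsCompact K) (hKe : K ⊆ e.target) :
    ∃ C : ℝ, 0 < C ∧ ∀ y ∈ K, ∀ et : TwoForm X, (∀ x u, 0 ≤ omv et x u (Jat J x u)) →
      trE e J et y ≤ C * Q GX.F0 (A.cmp om et (e.symm y)) ∧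
      Q GX.F0 (A.cmp om et (e.symm y)) ≤ C * trE e J et y := by
  obtain ⟨c, hc, hlow⟩ := exists_lower he hJ hS hT hK hKe
  obtain ⟨D, hD⟩ := hK.exists_bound_of_continuousOn ((trE_contOn he hJ hS).mono hKe)
  refine ⟨16 * |D| + 16 / c, by positivity, fun y hy et hpos => ?_⟩
  set x := e.symm y with hx
  set u := A.cmp om et x with hu
  have hu0 : ∀ v, 0 ≤ ev u v (app J0 v) := (A.cmp_nonneg_iff om hJ hT et x).2 (hpos x)
  have hQ0 : 0 ≤ Q GX.F0 u := by
    have := trB_nonneg (I := J0) hu0
    rw [trB_J0] at this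
    linarith
  have hq : ∀ v, 0 ≤ ev (fE e et y) v (app (JE e J y) v) := fun v => by
    rw [q_fE he (hKe hy)]
    exact hpos _ _
  have htr0 : 0 ≤ trE e J et y := by
    rw [trE_eq he (hKe hy)]
    exact trB_nonneg hq
  constructor
  · have h1 : trE e J et y ≤ 16 * trE e J om y * Q GX.F0 u := by
      unfold trE
      rw [Finset.mul_sum, Finset.sum_mul]
      refine Finset.sum_le_sum fun i _ => ?_
      rw [← hx, ← A.q_cmp om hJ hT et x, ← A.n2_Fr om hJ hT x]
      have h2 := q_le (I := J0) hu0 (A.Fr om x (dsym e y (EuclideanSpace.single i 1)))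
      rw [trB_J0] at h2
      refine h2.trans (le_of_eq ?_)
      ring
    have h3 : trE e J om y ≤ |D| := by
      have := hD y hy
      rw [Real.norm_eq_abs] at this
      exact (le_abs_self _).trans (this.trans (le_abs_self _))
    calc trE e J et y ≤ 16 * trE e J om y * Q GX.F0 u := h1
      _ ≤ 16 * |D| * Q GX.F0 u := by gcongr
      _ ≤ _ := by
        have : 0 ≤ 16 / c := by positivity
        nlinarith
  · set a : Fin 4 → V4 := fun k => toE.symm (dch e x (A.FrI om x (eb k))) with ha
    have had : ∀ k, dsym e y (toE (a k)) = A.FrI om x (eb k) := fun k => by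
      rw [ha]
      simp only [ContinuousLinearEquiv.apply_symm_apply]
      exact dsym_dch he (hKe hy) _
    have hn : ∀ k, n2 (a k) ≤ 1 / c := by
      intro k
      have h1 := hlow y hy (a k)
      rw [q_fE he (hKe hy), had, ← hx, ← Fx_self om hJ, ← FrI_J A om hJ hT,
        Fx_FrI A om hJ hT, ev_F0_self, n2_eb] at h1
      rw [le_div_iff₀ hc]
      linarith
    have h1 : ∀ k, ev u (eb k) (app J0 (eb k)) ≤ 8 * (1 / c) * trE e J et y := by
      intro k
      have h2 := q_le hq (a k)
      rw [q_fE he (hKe hy), had, ← hx, ← trE_eq he (hKe hy)] at h2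
      rw [hu, ev_cmp, FrI_J A om hJ hT]
      refine h2.trans ?_
      gcongr
      exact hn k
    have h2 : trB u J0 ≤ 4 * (8 * (1 / c) * trE e J et y) := by
      unfold trB
      rw [Fin.sum_univ_four]
      linarith [h1 0, h1 1, h1 2, h1 3]
    rw [trB_J0] at h2
    have h3 : Q GX.F0 u ≤ 16 / c * trE e J et y := by
      have e1 : 4 * (8 * (1 / c) * trE e J et y) = 2 * (16 / c * trE e J et y) := by ring
      linarith
    calc Q GX.F0 u ≤ 16 / c * trE e J et y := h3
      _ ≤ _ := by
        have : 0 ≤ 16 * |D| := by positivity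
        nlinarith

end FinAtlas

end Vale.Agent.P204K.Mfd
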