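import Vale.Agent.P204.KC.K14
import Vale.Agent.P204.KC.K10

/-!
# P204: integrals of traces in charts and in the unitary frame
-/

set_option linter.all false

open scoped Manifold ContDiff Topology ENNReal NNReal
open Set MeasureTheory Metric

namespace Vale.Agent.P204K.GX
open Vale.Agent.P204K.T4

namespace CM
variable {X : Type} [MetricSpace X] (M : CM X) [MeasurableSpace X] [BorelSpace X]

theorem lint_ball_le (a : M.A) : ∃ C : ℝ≥0, ∀ h : X → ℝ≥0∞, Measurable h →
    ∫⁻ z in ball 0 1, h (M.ψ a z) ≤ C * ∫⁻ x, h x ∂M.mu := by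
  obtain ⟨c, D, hc, hD, hcD⟩ := M.exists_det_bound a 1
  refine ⟨(Real.toNNReal c)⁻¹, fun h hh => ?_⟩
  have hc' : Real.toNNReal c ≠ 0 := by simpa using hc
  calc ∫⁻ z in ball 0 1, h (M.ψ a z)
      ≤ ∫⁻ z in ball 0 1, ((Real.toNNReal c)⁻¹ : ℝ≥0) *
        (ENNReal.ofReal (det4 (M.m a z)) * h (M.ψ a z)) := by
        refine setLIntegral_mono' measurableSet_ball fun z hz => ?_
        have h1 : c ≤ det4 (M.m a z) := (hcD z (by
          rw [mem_ball_zero_iff] at hz; exact hz.le)).1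
        rw [← mul_assoc]
        have h2 : (1 : ℝ≥0∞) ≤ ((Real.toNNReal c)⁻¹ : ℝ≥0) * ENNReal.ofReal (det4 (M.m a z)) := by
          have h3 : (1 : ℝ≥0∞) = ((Real.toNNReal c)⁻¹ : ℝ≥0) * ENNReal.ofReal c := by
            rw [ENNReal.ofReal, ← ENNReal.coe_mul, inv_mul_cancel₀ hc']
            rfl
          rw [h3]
          gcongr
        calc h (M.ψ a z) = 1 * h (M.ψ a z) := by rw [one_mul]
          _ ≤ _ := by gcongr
    _ = ((Real.toNNReal c)⁻¹ : ℝ≥0) * ∫⁻ x in M.ψ a '' ball 0 1, h x ∂M.mu := by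
        rw [M.lintegral_image a measurableSet_ball hh, lintegral_const_mul' _ _ ENNReal.coe_ne_top]
    _ ≤ _ := by
        gcongr
        exact Measure.restrict_le_self

theorem lint_le_balls : ∃ C : ℝ≥0, ∀ h : X → ℝ≥0∞, Measurable h →
    ∫⁻ x, h x ∂M.mu ≤ C * ∑ a, ∫⁻ z in ball 0 1, h (M.ψ a z) := by
  choose c D hc hD hcD using fun a => M.exists_det_bound a 1
  refine ⟨∑ a, Real.toNNReal (D a), fun h hh => ?_⟩
  refine (M.lintegral_le_sum hh).trans ?_
  rw [Finset.mul_sum]
  refine Finset.sum_le_sum fun a _ => ?_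
  calc ∫⁻ z in ball 0 1, ENNReal.ofReal (det4 (M.m a z)) * h (M.ψ a z)
      ≤ ∫⁻ z in ball 0 1, ((∑ a, Real.toNNReal (D a) : ℝ≥0) : ℝ≥0∞) * h (M.ψ a z) := by
        refine setLIntegral_mono' measurableSet_ball fun z hz => ?_
        have h1 : det4 (M.m a z) ≤ D a := (hcD a z (by
          rw [mem_ball_zero_iff] at hz; exact hz.le)).2
        gcongr
        rw [ENNReal.ofReal]
        refine ENNReal.coe_le_coe.2 ((Real.toNNReal_le_toNNReal h1).trans ?_)
        exact Finset.single_le_sum (f := fun a => Real.toNNReal (D a)) (fun b _ => zero_le)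
          (Finset.mem_univ a)
    _ = _ := lintegral_const_mul' _ _ ENNReal.coe_ne_top

end CM

end Vale.Agent.P204K.GX

namespace Vale.Agent.P204K.Mfd

open Vale.Agent.P204K.T4

variable {X : Type} [TopologicalSpace X] [ChartedSpace E4 X] [IsManifold (𝓡 4) ∞ X]
variable {J : EndField X} [CompactSpace X] [T2Space X]

/-- nonnegativity on complex lines -/
def NonnegF (J : EndField X) (et : TwoForm X) : Prop := ∀ x u, 0 ≤ omv et x u (Jat J x u)

theorem lint_tr {e : OpenPartialHomeomorph X E4} (he : e ∈ atlas E4 X) (hJ : AlmostComplex J)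
    {K : Set E4} (hK : IsCompact K) (hKe : K ⊆ e.target) {et : TwoForm X} (hs : SmoothForm et)
    (hn : NonnegF J et) :
    ∫⁻ y in K, ENNReal.ofReal (trE e J et y) = ENNReal.ofReal (∫ y in K, trE e J et y) := by
  refine (ofReal_integral_eq_lintegral_ofReal ?_ ?_).symm
  · exact (((trE_contOn he hJ hs).mono hKe).integrableOn_compact hK)
  · refine ae_restrict_of_forall_mem hK.measurableSet fun y hy => ?_
    exact Finset.sum_nonneg fun i _ => hn _ _

theorem int_tr_nonneg {e : OpenPartialHomeomorph X E4} {K : Set E4} {et : TwoForm X}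
    (hn : NonnegF J et) : 0 ≤ ∫ y in K, trE e J et y :=
  integral_nonneg fun y => Finset.sum_nonneg fun i _ => hn _ _

namespace FinAtlas

variable (A : FinAtlas X J) (om : TwoForm X)
variable (hJ : AlmostComplex J) (hS : SmoothForm om) (hT : Tames om J)

/-- the trace of a form in the unitary frame -/
noncomputable def trF (et : TwoForm X) (x : X) : ℝ := Q GX.F0 (A.cmp om et x)

include hJ hT in
theorem trF_nonneg {et : TwoForm X} (hn : NonnegF J et) (x : X) : 0 ≤ A.trF om et x := by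
  have := trB_nonneg (I := J0) ((A.cmp_nonneg_iff om hJ hT et x).2 (hn x))
  rw [trB_J0] at this
  unfold trF
  linarith

variable [MeasurableSpace X] [BorelSpace X]

theorem integrable_trF {et : TwoForm X} (hs : SmoothForm et) :
    letI := A.metric
    Integrable (A.trF om et) (A.toCM om hJ hS hT).mu := by
  letI := A.metric
  exact (A.toCM om hJ hS hT).integrable_Q7
    ((A.toCM om hJ hS hT).Om_le_C07 (A.toCM om hJ hS hT).F0_mem_Om)
    ((A.toCM om hJ hS hT).Om_le_C07 ((A.smooth_iff om hJ hT hS et).1 hs))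

include hJ hS hT in
theorem measurable_trF {et : TwoForm X} (hs : SmoothForm et) : Measurable (A.trF om et) := by
  letI := A.metric
  exact GX.G7.meas_Q ((A.toCM om hJ hS hT).measurable_C07
      ((A.toCM om hJ hS hT).Om_le_C07 (A.toCM om hJ hS hT).F0_mem_Om))
    ((A.toCM om hJ hS hT).measurable_C07
      ((A.toCM om hJ hS hT).Om_le_C07 ((A.smooth_iff om hJ hT hS et).1 hs)))

theorem lint_trF {et : TwoForm X} (hs : SmoothForm et) (hn : NonnegF J et) :
    letI := A.metric
    ∫⁻ x, ENNReal.ofReal (A.trF om et x) ∂(A.toCM om hJ hS hT).mu =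
      ENNReal.ofReal (∫ x, A.trF om et x ∂(A.toCM om hJ hS hT).mu) := by
  letI := A.metric
  exact (ofReal_integral_eq_lintegral_ofReal (A.integrable_trF om hJ hS hT hs)
    (Filter.Eventually.of_forall fun x => A.trF_nonneg om hJ hT hn x)).symm

/-- traces in charts are bounded by the trace in the frame -/
theorem exists_M1 {e : OpenPartialHomeomorph X E4} (he : e ∈ atlas E4 X)
    {K : Set E4} (hK : IsCompact K) (hKe : K ⊆ e.target) :
    letI := A.metric
    ∃ C : ℝ, 0 ≤ C ∧ ∀ et : TwoForm X, SmoothForm et → NonnegF J et →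
      ∫ y in K, trE e J et y ≤ C * ∫ x, A.trF om et x ∂(A.toCM om hJ hS hT).mu := by
  letI := A.metric
  obtain ⟨C1, hC1, h1⟩ := A.trace_compare om hJ hT hS he hK hKe
  choose C2 h2 using fun a : Fin A.n => lint_chart_le (A.P a) he hK hKe
  choose C3 h3 using fun a : Fin A.n => (A.toCM om hJ hS hT).lint_ball_le a
  refine ⟨C1 * ((∑ a, C2 a * C3 a : ℝ≥0) : ℝ), by positivity, fun et hs hn => ?_⟩
  have hm : Measurable fun x => ENNReal.ofReal (A.trF om et x) :=
    (A.measurable_trF om hJ hS hT hs).ennreal_ofReal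
  set h : X → ℝ≥0∞ := fun x => ENNReal.ofReal (A.trF om et x) with hh
  set I : ℝ≥0∞ := ∫⁻ x, h x ∂(A.toCM om hJ hS hT).mu with hI
  have g1 : ∫⁻ y in K, ENNReal.ofReal (trE e J et y) ≤
      ENNReal.ofReal C1 * ∫⁻ y in K, h (e.symm y) := by
    rw [← lintegral_const_mul' _ _ ENNReal.ofReal_ne_top]
    refine setLIntegral_mono' hK.measurableSet fun y hy => ?_
    rw [hh]
    simp only
    rw [← ENNReal.ofReal_mul hC1.le]
    exact ENNReal.ofReal_le_ofReal (h1 y hy et hn).1
  have g2 : ∫⁻ y in K, h (e.symm y) ≤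
      ∑ a, ∫⁻ y in K ∩ e.symm ⁻¹' ((A.P a).psi '' ball 0 1), h (e.symm y) := by
    have hK' : K = ⋃ a, K ∩ e.symm ⁻¹' ((A.P a).psi '' ball 0 1) := by
      ext y
      simp only [mem_iUnion, mem_inter_iff, mem_preimage]
      constructor
      · intro hy
        obtain ⟨a, z, hz, hzy⟩ := A.cov (e.symm y)
        exact ⟨a, hy, z, by simpa using hz, hzy⟩
      · rintro ⟨a, hy, -⟩
        exact hy
    calc ∫⁻ y in K, h (e.symm y)
        = ∫⁻ y in ⋃ a, K ∩ e.symm ⁻¹' ((A.P a).psi '' ball 0 1), h (e.symm y) := by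
          rw [← hK']
      _ ≤ ∑' a, ∫⁻ y in K ∩ e.symm ⁻¹' ((A.P a).psi '' ball 0 1), h (e.symm y) :=
          lintegral_iUnion_le _ _
      _ = _ := tsum_fintype _
  have g3 : ∀ a, ∫⁻ y in K ∩ e.symm ⁻¹' ((A.P a).psi '' ball 0 1), h (e.symm y) ≤
      (C2 a * C3 a : ℝ≥0) * I := by
    intro a
    refine (h2 a h).trans ?_
    rw [ENNReal.coe_mul, mul_assoc]
    have := h3 a h hm
    exact mul_le_mul_right this _
  have g4 : ∫⁻ y in K, ENNReal.ofReal (trE e J et y) ≤
      ENNReal.ofReal C1 * ((∑ a, C2 a * C3 a : ℝ≥0) * I) := by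
    refine g1.trans (mul_le_mul_right (g2.trans ?_) _)
    rw [ENNReal.coe_finset_sum, Finset.sum_mul]
    exact Finset.sum_le_sum fun a _ => g3 a
  have e1 : I = ENNReal.ofReal (∫ x, A.trF om et x ∂(A.toCM om hJ hS hT).mu) :=
    A.lint_trF om hJ hS hT hs hn
  have hint : 0 ≤ ∫ x, A.trF om et x ∂(A.toCM om hJ hS hT).mu :=
    integral_nonneg fun x => A.trF_nonneg om hJ hT hn x
  rw [lint_tr he hJ hK hKe hs hn, e1, ← ENNReal.ofReal_coe_nnreal, ← ENNReal.ofReal_mul (by positivity),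
    ← ENNReal.ofReal_mul hC1.le, ENNReal.ofReal_le_ofReal_iff (by positivity)] at g4
  rw [mul_assoc]
  exact g4

/-- the compact set of a parametrisation -/
def KP (a : Fin A.n) : Set E4 := (A.P a).g '' closedBall 0 1

theorem KP_compact (a : Fin A.n) : IsCompact (A.KP a) :=
  (isCompact_closedBall _ _).image (A.P a).g_smooth.continuous

theorem KP_subset (a : Fin A.n) : A.KP a ⊆ (A.P a).e.target := by
  rintro _ ⟨y, -, rfl⟩
  exact (A.P a).g_mem y

/-- the trace in the frame is bounded by traces in charts -/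
theorem exists_M2 :
    letI := A.metric
    ∃ C : Fin A.n → ℝ, (∀ a, 0 ≤ C a) ∧ ∀ et : TwoForm X, SmoothForm et → NonnegF J et →
      ∫ x, A.trF om et x ∂(A.toCM om hJ hS hT).mu ≤
        ∑ a, C a * ∫ y in A.KP a, trE (A.P a).e J et y := by
  letI := A.metric
  choose C1 hC1 h1 using fun a : Fin A.n =>
    A.trace_compare om hJ hT hS (A.P a).he (A.KP_compact a) (A.KP_subset a)
  choose C2 h2 using fun a : Fin A.n => lint_par_le (A.P a)
  obtain ⟨C3, h3⟩ := (A.toCM om hJ hS hT).lint_le_balls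
  refine ⟨fun a => (C3 : ℝ) * ((C2 a : ℝ) * C1 a), fun a => by have := (hC1 a).le; positivity,
    fun et hs hn => ?_⟩
  have hm : Measurable fun x => ENNReal.ofReal (A.trF om et x) :=
    (A.measurable_trF om hJ hS hT hs).ennreal_ofReal
  set h : X → ℝ≥0∞ := fun x => ENNReal.ofReal (A.trF om et x) with hh
  have g1 : ∀ a, ∫⁻ y in A.KP a, h ((A.P a).e.symm y) ≤
      ENNReal.ofReal (C1 a) * ∫⁻ y in A.KP a, ENNReal.ofReal (trE (A.P a).e J et y) := by
    intro a
    rw [← lintegral_const_mul' _ _ ENNReal.ofReal_ne_top]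
    refine setLIntegral_mono' (A.KP_compact a).measurableSet fun y hy => ?_
    rw [hh]
    simp only
    rw [← ENNReal.ofReal_mul (hC1 a).le]
    exact ENNReal.ofReal_le_ofReal (h1 a y hy et hn).2
  have g2 : ∫⁻ x, h x ∂(A.toCM om hJ hS hT).mu ≤
      C3 * ∑ a : Fin A.n, ∫⁻ z in ball 0 1, h ((A.P a).psi z) := h3 h hm
  have g3 : ∀ a : Fin A.n, ∫⁻ z in ball 0 1, h ((A.P a).psi z) ≤
      ENNReal.ofReal (((C2 a : ℝ) * C1 a) * ∫ y in A.KP a, trE (A.P a).e J et y) := by
    intro a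
    have e1 := g1 a
    rw [lint_tr (A.P a).he hJ (A.KP_compact a) (A.KP_subset a) hs hn,
      ← ENNReal.ofReal_mul (hC1 a).le] at e1
    refine (h2 a h).trans ?_
    rw [mul_assoc, ENNReal.ofReal_mul (NNReal.coe_nonneg (C2 a)), ENNReal.ofReal_coe_nnreal]
    exact mul_le_mul_right e1 _
  have hnn : ∀ a : Fin A.n, 0 ≤ ((C2 a : ℝ) * C1 a) * ∫ y in A.KP a, trE (A.P a).e J et y :=
    fun a => by
      have := (hC1 a).le
      have := int_tr_nonneg (e := (A.P a).e) (K := A.KP a) hn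
      positivity
  have g4 : ∫⁻ x, h x ∂(A.toCM om hJ hS hT).mu ≤ ENNReal.ofReal
      (∑ a : Fin A.n, (C3 : ℝ) * ((C2 a : ℝ) * C1 a) * ∫ y in A.KP a, trE (A.P a).e J et y) := by
    refine g2.trans ?_
    have e2 : (∑ a : Fin A.n, (C3 : ℝ) * ((C2 a : ℝ) * C1 a) *
        ∫ y in A.KP a, trE (A.P a).e J et y) =
        (C3 : ℝ) * ∑ a : Fin A.n, ((C2 a : ℝ) * C1 a) *
          ∫ y in A.KP a, trE (A.P a).e J et y := by
      rw [Finset.mul_sum]
      exact Finset.sum_congr rfl fun a _ => by ring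
    rw [e2, ENNReal.ofReal_mul (NNReal.coe_nonneg C3), ENNReal.ofReal_coe_nnreal,
      ENNReal.ofReal_sum_of_nonneg fun a _ => hnn a]
    exact mul_le_mul_right (Finset.sum_le_sum fun a _ => g3 a) _
  rw [hh, A.lint_trF om hJ hS hT hs hn, ENNReal.ofReal_le_ofReal_iff
    (Finset.sum_nonneg fun a _ => by
      have := hnn a
      have e3 : (C3 : ℝ) * ((C2 a : ℝ) * C1 a) * ∫ y in A.KP a, trE (A.P a).e J et y =
        (C3 : ℝ) * (((C2 a : ℝ) * C1 a) * ∫ y in A.KP a, trE (A.P a).e J et y) := by ring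
      rw [e3]
      exact mul_nonneg (NNReal.coe_nonneg C3) this)] at g4
  exact g4

end FinAtlas

end Vale.Agent.P204K.Mfd
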