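import Vale.Agent.P204.KC.K15
import Vale.Agent.P204.KC.K11

/-!
# P204: a Kähler current gives a compatible symplectic form
-/

set_option linter.all false

open scoped Manifold ContDiff Topology ENNReal NNReal
open Set MeasureTheory Metric

namespace Vale.Agent.P204K.GX
open Vale.Agent.P204K.T4

namespace CM
variable {X : Type} [MetricSpace X] (M : CM X) [MeasurableSpace X] [BorelSpace X]

theorem toC0_injective : Function.Injective M.toC0 := Submodule.inclusion_injective _

/-- A nonnegative functional on the smooth forms is given by a positive current of order zero. -/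
theorem extend [CompactSpace X] (P0 : M.Om →ₗ[ℝ] ℝ)
    (h : ∀ u : M.Om, (∀ x v, 0 ≤ ev ((u : X → L2) x) v (app J0 v)) → 0 ≤ P0 u) :
    ∃ (t : Measure X) (D : X → L2), FnSys.Cur t D ∧
      ∀ u : M.Om, P0 u = FnSys.fn t D (u : X → L2) := by
  let eq := LinearEquiv.ofInjective M.toC0 M.toC0_injective
  let f : M.C0 →ₗ.[ℝ] ℝ := ⟨LinearMap.range M.toC0, P0 ∘ₗ (eq.symm : _ →ₗ[ℝ] M.Om)⟩
  have hf : ∀ u : M.Om, f ⟨M.toC0 u, LinearMap.mem_range_self _ _⟩ = P0 u := by
    intro u
    show P0 (eq.symm ⟨M.toC0 u, _⟩) = P0 u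
    congr 1
    rw [LinearEquiv.symm_apply_eq]
    rfl
  obtain ⟨g, hg1, hg2⟩ := riesz_extension M.posC f (by
    rintro ⟨x, u, rfl⟩ hx
    rw [hf]
    exact h u hx) (by
    intro y
    obtain ⟨t, ht⟩ := M.unitC y
    refine ⟨⟨M.toC0 (t • M.FOm), LinearMap.mem_range_self _ _⟩, ?_⟩
    show M.toC0 (t • M.FOm) + y ∈ M.posC
    rw [map_smul]
    exact ht)
  obtain ⟨t, D, hC, hr⟩ := M.rep g (fun u hu => hg2 u hu)
  refine ⟨t, D, hC, fun u => ?_⟩
  rw [← hf u, ← hg1 ⟨M.toC0 u, LinearMap.mem_range_self _ _⟩]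
  exact hr (M.toC0 u)

end CM

end Vale.Agent.P204K.GX

namespace Vale.Agent.P204K.Mfd

open Vale.Agent.P204K.T4

variable {X : Type} [TopologicalSpace X] [ChartedSpace E4 X] [IsManifold (𝓡 4) ∞ X]
variable {J : EndField X} [CompactSpace X] [T2Space X]

namespace FinAtlas

variable (A : FinAtlas X J) (om : TwoForm X)
variable (hJ : AlmostComplex J) (hS : SmoothForm om) (hT : Tames om J)

/-- `back` on smooth forms, as a linear map -/
noncomputable def backL (S : Submodule ℝ (TwoForm X)) (hSm : ∀ et, et ∈ S ↔ SmoothForm et) :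
    letI := A.metric
    (A.toCM om hJ hS hT).Om →ₗ[ℝ] S :=
  letI := A.metric
  { toFun := fun u => ⟨A.back om (u : X → L2), (hSm _).2 (A.smooth_back om hJ hT hS u.2)⟩
    map_add' := fun u v => Subtype.ext (A.back_add om _ _)
    map_smul' := fun c u => Subtype.ext (A.back_smul om c _) }

variable [MeasurableSpace X] [BorelSpace X]

/-- the integral of the trace, as a linear map -/
noncomputable def intQ :
    letI := A.metric
    (A.toCM om hJ hS hT).Om →ₗ[ℝ] ℝ :=
  letI := A.metric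
  { toFun := fun u => ∫ x, Q GX.F0 ((u : X → L2) x) ∂(A.toCM om hJ hS hT).mu
    map_add' := fun u v => by
      have h : ∀ w : (A.toCM om hJ hS hT).Om,
          Integrable (fun x => Q GX.F0 ((w : X → L2) x)) (A.toCM om hJ hS hT).mu := fun w =>
        (A.toCM om hJ hS hT).integrable_Q7
          ((A.toCM om hJ hS hT).Om_le_C07 (A.toCM om hJ hS hT).F0_mem_Om)
          ((A.toCM om hJ hS hT).Om_le_C07 w.2)
      rw [← integral_add (h u) (h v)]
      refine integral_congr_ae (Filter.Eventually.of_forall fun x => ?_)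
      show Q GX.F0 ((u : X → L2) x + (v : X → L2) x) = _
      simp only [Q, Pi.add_apply]
      ring
    map_smul' := fun c u => by
      simp only [RingHom.id_apply, smul_eq_mul]
      rw [← integral_const_mul]
      refine integral_congr_ae (Filter.Eventually.of_forall fun x => ?_)
      show Q GX.F0 (c • (u : X → L2) x) = _
      simp only [Q, Pi.smul_apply, smul_eq_mul]
      ring }

end FinAtlas

/-- **A Kähler current gives a compatible symplectic form.** -/
theorem compatible_of_current [Nonempty X] (hJ : AlmostComplex J) (S : Submodule ℝ (TwoForm X))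
    (hSm : ∀ et, et ∈ S ↔ SmoothForm et) (R : S →ₗ[ℝ] ℝ)
    (hcl : ∀ th : S, IsExact (th : TwoForm X) → R th = 0)
    (hpos : ∀ e ∈ atlas E4 X, ∀ K ⊆ e.target, IsCompact K → ∃ ε : ℝ, 0 < ε ∧
      ∀ et : S, NonnegF J (et : TwoForm X) → ε * ∫ y in K, trE e J (et : TwoForm X) y ≤ R et) :
    ∃ om : TwoForm X, Symplectic om ∧ Compatible om J := by
  obtain ⟨A⟩ := exists_finAtlas hJ
  letI := A.metric
  letI : MeasurableSpace X := borel X
  haveI : BorelSpace X := ⟨rfl⟩
  have hS : SmoothForm A.beta := A.beta_smooth hJ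
  have hT : Tames A.beta J := A.beta_tames hJ
  obtain ⟨k, hk0, hk⟩ := A.exists_M2 A.beta hJ hS hT
  choose ε hε hR using fun a : Fin A.n =>
    hpos (A.P a).e (A.P a).he (A.KP a) (A.KP_subset a) (A.KP_compact a)
  obtain ⟨a0, -⟩ := A.cov (Classical.arbitrary X)
  have hRn : ∀ et : S, NonnegF J (et : TwoForm X) → 0 ≤ R et := fun et hn =>
    (mul_nonneg (hε a0).le (int_tr_nonneg hn)).trans (hR a0 et hn)
  set C : ℝ := ∑ a, k a / ε a with hC
  have hC0 : 0 ≤ C := Finset.sum_nonneg fun a _ => div_nonneg (hk0 a) (hε a).le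
  have hmain : ∀ et : S, NonnegF J (et : TwoForm X) →
      ∫ x, A.trF A.beta (et : TwoForm X) x ∂(A.toCM A.beta hJ hS hT).mu ≤ C * R et := by
    intro et hn
    refine (hk et ((hSm _).1 et.2) hn).trans ?_
    rw [hC, Finset.sum_mul]
    refine Finset.sum_le_sum fun a _ => ?_
    rw [div_mul_eq_mul_div, le_div_iff₀ (hε a)]
    have h1 := mul_le_mul_of_nonneg_left (hR a et hn) (hk0 a)
    calc k a * (∫ y in A.KP a, trE (A.P a).e J (et : TwoForm X) y) * ε a =
          k a * (ε a * ∫ y in A.KP a, trE (A.P a).e J (et : TwoForm X) y) := by ring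
      _ ≤ _ := h1
  set P0 : (A.toCM A.beta hJ hS hT).Om →ₗ[ℝ] ℝ :=
    C • (R ∘ₗ A.backL A.beta hJ hS hT S hSm) - A.intQ A.beta hJ hS hT with hP0
  have hP0n : ∀ u : (A.toCM A.beta hJ hS hT).Om,
      (∀ x v, 0 ≤ ev ((u : X → L2) x) v (app J0 v)) → 0 ≤ P0 u := by
    intro u hu
    have e1 : A.cmp A.beta (A.back A.beta (u : X → L2)) = (u : X → L2) :=
      A.cmp_back A.beta hJ hT _
    have hn : NonnegF J (A.back A.beta (u : X → L2)) := fun x => by
      refine (A.cmp_nonneg_iff A.beta hJ hT _ x).1 ?_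
      rw [e1]
      exact hu x
    have h1 := hmain (A.backL A.beta hJ hS hT S hSm u) hn
    have e2 : ∀ x, A.trF A.beta (A.back A.beta (u : X → L2)) x = Q GX.F0 ((u : X → L2) x) := by
      intro x
      unfold FinAtlas.trF
      rw [e1]
    have h2 : ∫ x, Q GX.F0 ((u : X → L2) x) ∂(A.toCM A.beta hJ hS hT).mu ≤
        C * R (A.backL A.beta hJ hS hT S hSm u) := by
      refine le_trans (le_of_eq ?_) h1
      refine integral_congr_ae (Filter.Eventually.of_forall fun x => ?_)
      exact (e2 x).symm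
    show 0 ≤ C * R (A.backL A.beta hJ hS hT S hSm u) -
      ∫ x, Q GX.F0 ((u : X → L2) x) ∂(A.toCM A.beta hJ hS hT).mu
    linarith
  obtain ⟨p, E, hCur, hfn⟩ := (A.toCM A.beta hJ hS hT).extend P0 hP0n
  obtain ⟨w, hw, hwc, hwp⟩ := GX.kc_core (A.toCM A.beta hJ hS hT) ⟨p, E, hCur, fun e he => by
    have h1 : R (A.backL A.beta hJ hS hT S hSm e) = 0 :=
      hcl _ (A.isExact_back A.beta hJ hT hS (e : X → L2) e.2 he)
    have h2 : P0 e = C * R (A.backL A.beta hJ hS hT S hSm e) -
      ∫ x, Q GX.F0 ((e : X → L2) x) ∂(A.toCM A.beta hJ hS hT).mu := rfl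
    rw [← hfn e, h2, h1]
    ring⟩
  exact ⟨A.back A.beta w, A.back_compatible A.beta hJ hT (fun a => hw a) (fun a => hwc a) hwp⟩

end Vale.Agent.P204K.Mfd
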