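import Vale.Agent.P204.KC.K16

/-!
# P204: a taming symplectic form gives a Kähler current
-/

set_option linter.all false

open scoped Manifold ContDiff Topology ENNReal NNReal
open Set MeasureTheory Metric

namespace Vale.Agent.P204K.Mfd

open Vale.Agent.P204K.T4

variable {X : Type} [TopologicalSpace X] [ChartedSpace E4 X] [IsManifold (𝓡 4) ∞ X]
variable {J : EndField X} [CompactSpace X] [T2Space X]

namespace FinAtlas

variable (A : FinAtlas X J) (om : TwoForm X)
variable (hJ : AlmostComplex J) (hS : SmoothForm om) (hT : Tames om J)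

/-- `cmp` on smooth forms, as a linear map -/
noncomputable def cmpL (S : Submodule ℝ (TwoForm X)) (hSm : ∀ et, et ∈ S ↔ SmoothForm et) :
    letI := A.metric
    S →ₗ[ℝ] (A.toCM om hJ hS hT).Om :=
  letI := A.metric
  { toFun := fun et => ⟨A.cmp om (et : TwoForm X), (A.smooth_iff om hJ hT hS _).1 ((hSm _).1 et.2)⟩
    map_add' := fun u v => Subtype.ext (A.cmp_add om _ _)
    map_smul' := fun c u => Subtype.ext (A.cmp_smul om c _) }

variable [MeasurableSpace X] [BorelSpace X]

/-- a current of order zero, as a linear map -/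
noncomputable def fnL {p : Measure X} {E : X → L2}
    (h : letI := A.metric; GX.FnSys.Cur p E) :
    letI := A.metric
    (A.toCM om hJ hS hT).Om →ₗ[ℝ] ℝ :=
  letI := A.metric
  { toFun := fun u => GX.FnSys.fn p E (u : X → L2)
    map_add' := fun u v => by
      show ∫ x, _ ∂p = ∫ x, _ ∂p + ∫ x, _ ∂p
      rw [← integral_add (GX.Gr.integrable_pair (A.toCM om hJ hS hT) h u.2)
        (GX.Gr.integrable_pair (A.toCM om hJ hS hT) h v.2)]
      refine integral_congr_ae (Filter.Eventually.of_forall fun x => ?_)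
      show Q (E x) ((u : X → L2) x + (v : X → L2) x) = _
      simp only [Q, Pi.add_apply]
      ring
    map_smul' := fun c u => by
      simp only [RingHom.id_apply, smul_eq_mul]
      show ∫ x, _ ∂p = c * ∫ x, _ ∂p
      rw [← integral_const_mul]
      refine integral_congr_ae (Filter.Eventually.of_forall fun x => ?_)
      show Q (E x) (c • (u : X → L2) x) = _
      simp only [Q, Pi.smul_apply, smul_eq_mul]
      ring }

end FinAtlas

/-- **A taming symplectic form gives a Kähler current.** -/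
theorem current_of_tames (hJ : AlmostComplex J) (S : Submodule ℝ (TwoForm X))
    (hSm : ∀ et, et ∈ S ↔ SmoothForm et) {om : TwoForm X} (hom : Symplectic om)
    (hT : Tames om J) :
    ∃ R : S →ₗ[ℝ] ℝ, (∀ th : S, IsExact (th : TwoForm X) → R th = 0) ∧
      ∀ e ∈ atlas E4 X, ∀ K ⊆ e.target, IsCompact K → ∃ ε : ℝ, 0 < ε ∧
        ∀ et : S, NonnegF J (et : TwoForm X) →
          ε * ∫ y in K, trE e J (et : TwoForm X) y ≤ R et := by
  obtain ⟨A⟩ := exists_finAtlas hJ
  letI := A.metric
  letI : MeasurableSpace X := borel X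
  haveI : BorelSpace X := ⟨rfl⟩
  have hS : SmoothForm om := hom.smooth
  have hmem := (A.smooth_iff om hJ hT hS om).1 hS
  have hcl : (⟨A.cmp om om, hmem⟩ : (A.toCM om hJ hS hT).Om) ∈ (A.toCM om hJ hS hT).Cl := by
    intro a
    have h1 : Closed (fun y => compL ((A.P a).form om y)) :=
      (closed_iff (((A.P a).form_smooth hS).differentiable (by simp))).2
        ((A.P a).form_closed hS hom.closed)
    have h2 : (fun y => compL ((A.P a).form om y)) = (A.toCM om hJ hS hT).cf a (A.cmp om om) := by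
      funext y
      exact (A.pull_mc_cmp om hJ hT om a y).symm
    rw [h2] at h1
    exact h1
  obtain ⟨p, E, hC, hE⟩ := (A.toCM om hJ hS hT).exists_R ⟨A.cmp om om, hmem⟩ hcl
    (fun x => A.pP_omX om hJ hT x)
  refine ⟨(A.intQ om hJ hS hT + A.fnL om hJ hS hT hC) ∘ₗ A.cmpL om hJ hS hT S hSm,
    fun th hth => ?_, fun e he K hKe hK => ?_⟩
  · exact hE _ (A.cmp_mem_Ex om hJ hT hS hth ((hSm _).1 th.2))
  · obtain ⟨C, hC0, hM⟩ := A.exists_M1 om hJ hS hT he hK hKe
    refine ⟨(C + 1)⁻¹, by positivity, fun et hn => ?_⟩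
    have h1 := hM (et : TwoForm X) ((hSm _).1 et.2) hn
    have h2 : 0 ≤ ∫ x, A.trF om (et : TwoForm X) x ∂(A.toCM om hJ hS hT).mu :=
      integral_nonneg fun x => A.trF_nonneg om hJ hT hn x
    have h3 : 0 ≤ GX.FnSys.fn p E (A.cmp om (et : TwoForm X)) := by
      refine integral_nonneg fun x => ?_
      have h4 : Cone J0 (pP J0 (A.cmp om (et : TwoForm X) x)) :=
        cone_pP isCx_J0 ((A.cmp_nonneg_iff om hJ hT _ x).2 (hn x))
      have h5 := Q_cone_nonneg isCx_J0 GX.G9.pos_J0 (hC.cone x) h4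
      rw [Q_inv_pP isCx_J0 GX.G9.pos_J0 (hC.cone x).1] at h5
      exact h5
    have h4 : ((A.intQ om hJ hS hT + A.fnL om hJ hS hT hC) ∘ₗ A.cmpL om hJ hS hT S hSm) et =
        ∫ x, A.trF om (et : TwoForm X) x ∂(A.toCM om hJ hS hT).mu +
          GX.FnSys.fn p E (A.cmp om (et : TwoForm X)) := rfl
    rw [h4, inv_mul_le_iff₀ (by positivity)]
    nlinarith

end Vale.Agent.P204K.Mfd
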