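import Vale.Agent.P204.MathlibUsed
attribute [-instance] ProperSMul.toContinuousSMul IsTopologicalTorsor.toContinuousSMul IdemSemiring.toCanonicallyOrderedAdd IdemSemiring.toMulLeftMono IdemSemiring.toMulRightMono AddQuantale.instAddLeftMono AddQuantale.instAddRightMono Quantale.instMulLeftMono Quantale.instMulRightMono FiniteDimensional.rclike_to_real IsScalarTower.complexToReal FiniteDimensional.complexToReal

set_option linter.all false

section

open scoped BigOperators Topology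
open Filter Finset

namespace P204K.GX

/-- The rapidly decreasing sequence of scales. -/
noncomputable def dk (δ₀ : ℝ) (k : ℕ) : ℝ := δ₀ * (1 / 2) ^ (k ^ 2)

section
variable {δ₀ : ℝ} (h0 : 0 < δ₀) (h1 : δ₀ ≤ 1)
include h0

theorem dk_pos (k : ℕ) : 0 < dk δ₀ k := by unfold dk; positivity

theorem dk_anti {k l : ℕ} (h : k ≤ l) : dk δ₀ l ≤ dk δ₀ k := by
  unfold dk
  apply mul_le_mul_of_nonneg_left _ h0.le
  apply pow_le_pow_of_le_one (by norm_num) (by norm_num)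
  exact Nat.pow_le_pow_left h 2

theorem dk_le (k : ℕ) : dk δ₀ k ≤ δ₀ := by
  have := dk_anti h0 (Nat.zero_le k)
  simpa only [dk, one_div, inv_pow, ge_iff_le, ne_eq, OfNat.ofNat_ne_zero, not_false_eq_true, zero_pow, pow_zero, mul_one] using this

include h1 in
theorem dk_le_one (k : ℕ) : dk δ₀ k ≤ 1 := (dk_le h0 k).trans h1

omit h0 in
/-- the product of the `n` scales before `k` -/
noncomputable def Gk (δ₀ : ℝ) (n k : ℕ) : ℝ := ∏ l ∈ range n, dk δ₀ (k - 1 - l)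

theorem Gk_pos (n k : ℕ) : 0 < Gk δ₀ n k := prod_pos fun _ _ => dk_pos h0 _

omit h0 in
theorem Gk_zero (k : ℕ) : Gk δ₀ 0 k = 1 := by simp only [Gk, range_zero, prod_empty]

omit h0 in
theorem Gk_succ (n k : ℕ) : Gk δ₀ (n + 1) (k + 1) = dk δ₀ k * Gk δ₀ n k := by
  unfold Gk
  rw [prod_range_succ', mul_comm]
  congr 1
  apply prod_congr rfl
  intro l _
  congr 1
  omega

include h1 in
theorem Gk_anti {n n' : ℕ} (h : n ≤ n') (k : ℕ) : Gk δ₀ n' k ≤ Gk δ₀ n k := by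
  obtain ⟨i, rfl⟩ := Nat.exists_eq_add_of_le h
  unfold Gk
  rw [prod_range_add]
  apply mul_le_of_le_one_right (prod_nonneg fun _ _ => (dk_pos h0 _).le)
  exact prod_le_one (fun _ _ => (dk_pos h0 _).le) (fun _ _ => dk_le_one h0 h1 _)

/-- the product of `n' = n + i` scales is at most the product of the first `n` times a power -/
theorem Gk_add_le {n i P k : ℕ} (hP : n + i ≤ P) :
    Gk δ₀ (n + i) k ≤ Gk δ₀ n k * dk δ₀ (k - P) ^ i := by
  unfold Gk
  rw [prod_range_add]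
  apply mul_le_mul_of_nonneg_left _ (prod_nonneg fun _ _ => (dk_pos h0 _).le)
  calc ∏ x ∈ range i, dk δ₀ (k - 1 - (n + x)) ≤ ∏ _x ∈ range i, dk δ₀ (k - P) := by
        apply prod_le_prod (fun _ _ => (dk_pos h0 _).le)
        intro x hx
        rw [mem_range] at hx
        exact dk_anti h0 (by omega)
    _ = dk δ₀ (k - P) ^ i := by simp only [prod_const, card_range]

include h1 in
/-- superexponential decay beats the loss from `k - P` to `k` -/
theorem dk_shift {P k i : ℕ} (hi : i ≤ P) (hk : 3 * P ^ 2 + 2 * P + 1 ≤ k) :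
    dk δ₀ (k - P) ^ (i + 1) ≤ dk δ₀ k ^ i := by
  obtain ⟨n, rfl⟩ : ∃ n, k = P + n := ⟨k - P, by omega⟩
  have hn : 3 * P ^ 2 + P + 1 ≤ n := by omega
  rw [Nat.add_sub_cancel_left]
  unfold dk
  rw [mul_pow, mul_pow, ← pow_mul, ← pow_mul]
  have e1 : δ₀ ^ (i + 1) ≤ δ₀ ^ i := pow_le_pow_of_le_one h0.le h1 (Nat.le_succ i)
  have e2 : ((1:ℝ) / 2) ^ (n ^ 2 * (i + 1)) ≤ (1 / 2) ^ ((P + n) ^ 2 * i) := by
    apply pow_le_pow_of_le_one (by norm_num) (by norm_num)
    have : i * (P ^ 2 + 2 * P * n) ≤ n ^ 2 := by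
      calc i * (P ^ 2 + 2 * P * n) ≤ P * (P ^ 2 + 2 * P * n) := Nat.mul_le_mul_right _ hi
        _ = P ^ 2 * P + 2 * P ^ 2 * n := by ring
        _ ≤ P ^ 2 * n + 2 * P ^ 2 * n := by
            apply Nat.add_le_add_right
            apply Nat.mul_le_mul_left
            omega
        _ = (3 * P ^ 2) * n := by ring
        _ ≤ n * n := Nat.mul_le_mul_right _ (by omega)
        _ = n ^ 2 := by ring
    linarith only [this]
  exact mul_le_mul e1 e2 (by positivity) (by positivity)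

end

/-- superexponential beats exponential -/
theorem superexp (B : ℝ) (hB : 1 ≤ B) : ∃ A : ℝ, 0 ≤ A ∧ ∀ k : ℕ, B ^ k * (1 / 2 : ℝ) ^ (k ^ 2) ≤ A := by
  obtain ⟨n, hn⟩ := pow_unbounded_of_one_lt B (by norm_num : (1:ℝ) < 2)
  refine ⟨2 ^ (n ^ 2), by positivity, fun k => ?_⟩
  have h1 : B ^ k ≤ (2 ^ n) ^ k := pow_le_pow_left₀ (by linarith) hn.le k
  have h2 : B ^ k * (1 / 2 : ℝ) ^ (k ^ 2) ≤ (2 ^ n) ^ k * (1 / 2 : ℝ) ^ (k ^ 2) :=
    mul_le_mul_of_nonneg_right h1 (by positivity)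
  refine h2.trans ?_
  rw [one_div, inv_pow, ← div_eq_mul_inv, div_le_iff₀ (by positivity), ← pow_mul, ← pow_add]
  apply pow_le_pow_right₀ (by norm_num)
  rcases le_total k n with h | h
  · nlinarith only []
  · nlinarith only [Nat.mul_le_mul_right k h]

/-- growth constants -/
noncomputable def Ak (δ₀ C : ℝ) (P : ℕ) : ℕ → ℝ
  | 0 => 1
  | k + 1 => C * (1 + dk δ₀ k * (dk δ₀ k ^ P)⁻¹) * Ak δ₀ C P k

/-- The numerical heart of the smoothing series. -/
theorem super_decay {δ₀ : ℝ} (h0 : 0 < δ₀) (h1 : δ₀ ≤ 1) (q : ℕ) (C : ℝ) (hC : 1 ≤ C) :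
    ∃ A : ℝ, 0 ≤ A ∧ ∀ X : ℕ → ℕ → ℝ, (∀ j k, 0 ≤ X j k) →
      (∀ j k, j ≤ q + 1 → X j k ≤ X (q + 1) k) →
      (∀ j k, j < q + 1 → X j (k + 1) ≤
        C * (dk δ₀ k * X (j + 1) k + dk δ₀ k * (dk δ₀ k ^ j)⁻¹ * X 0 k)) →
      (∀ k, X (q + 1) (k + 1) ≤
        C * (X (q + 1) k + dk δ₀ k * (dk δ₀ k ^ (q + 1))⁻¹ * X 0 k)) →
      ∀ k, X 0 k ≤ A * dk δ₀ k ^ q * (1 / 2) ^ k * X (q + 1) 0 := by
  set P := q + 1 with hP
  set k₀ := 3 * P ^ 2 + 2 * P + 1 with hk₀
  set B := 2 * C with hB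
  have hB1 : 1 ≤ B := by linarith only [hC]
  clear_value B
  have hAk : ∀ k, 0 ≤ Ak δ₀ C P k := by
    intro k
    induction k with
    | zero => simp only [Ak, zero_le_one]
    | succ k ih =>
      simp only [Ak]
      have := dk_pos h0 k
      positivity
  obtain ⟨A', hA'0, hA'⟩ := superexp (B * 2 * 2 ^ (2 * (q + 1) * P)) (by
    have : (1:ℝ) ≤ 2 ^ (2 * (q + 1) * P) := one_le_pow₀ (by norm_num)
    linarith only [mul_eq_zero_of_left (sub_eq_zero.2 hB) (2 ^ (2 * (q + 1) * P) - (1)), mul_nonneg (sub_nonneg.2 hC) (sub_nonneg.2 this), this, hB, hC])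
  set A₁ := Ak δ₀ C P k₀ * (Gk δ₀ P k₀)⁻¹ with hA₁
  have hG := Gk_pos h0 P k₀
  have hA₁0 : 0 ≤ A₁ := mul_nonneg (hAk _) (by positivity)
  set A₂ := ∑ k ∈ range k₀, Ak δ₀ C P k * (dk δ₀ k ^ q * (1 / 2) ^ k)⁻¹ with hA₂
  have hterm : ∀ k, 0 ≤ Ak δ₀ C P k * (dk δ₀ k ^ q * (1 / 2) ^ k)⁻¹ := fun k => by
    have := dk_pos h0 k
    have := hAk k
    positivity
  have hA₂0 : 0 ≤ A₂ := sum_nonneg fun k _ => hterm k
  refine ⟨A₂ + A₁ * A', by (clear * - hA₂0 hA₁0 hA'0; positivity), ?_⟩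
  intro X hX0 hXm hr1 hr2 k
  -- plain growth
  have hplain : ∀ k, X P k ≤ Ak δ₀ C P k * X P 0 := by
    intro k
    induction k with
    | zero => simp [Ak]
    | succ k ih =>
      have hd := dk_pos h0 k
      have h := hr2 k
      have h2 : X 0 k ≤ X P k := hXm 0 k (Nat.zero_le _)
      simp only [Ak]
      have h3 : 0 ≤ dk δ₀ k * (dk δ₀ k ^ P)⁻¹ := by (clear * - hd; positivity)
      calc X P (k + 1) ≤ C * (X P k + dk δ₀ k * (dk δ₀ k ^ P)⁻¹ * X 0 k) := h
        _ ≤ C * (X P k + dk δ₀ k * (dk δ₀ k ^ P)⁻¹ * X P k) := by gcongr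
        _ = C * (1 + dk δ₀ k * (dk δ₀ k ^ P)⁻¹) * X P k := by ring
        _ ≤ C * (1 + dk δ₀ k * (dk δ₀ k ^ P)⁻¹) * (Ak δ₀ C P k * X P 0) := by gcongr
        _ = _ := by ring
  have hXP0 : 0 ≤ X P 0 := hX0 _ _
  -- main induction
  have hmain : ∀ k, k₀ ≤ k → ∀ j, j ≤ P → X j k ≤ A₁ * B ^ k * Gk δ₀ (P - j) k * X P 0 := by
    intro k hk
    induction k, hk using Nat.le_induction with
    | base =>
      intro j hj
      have h2 : X j k₀ ≤ Ak δ₀ C P k₀ * X P 0 := (hXm j k₀ hj).trans (hplain k₀)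
      refine h2.trans ?_
      apply mul_le_mul_of_nonneg_right _ hXP0
      have h3 : Gk δ₀ P k₀ ≤ Gk δ₀ (P - j) k₀ := Gk_anti h0 h1 (Nat.sub_le _ _) _
      have h4 : 1 ≤ B ^ k₀ := one_le_pow₀ hB1
      calc Ak δ₀ C P k₀ = A₁ * 1 * Gk δ₀ P k₀ := by rw [hA₁]; field_simp
        _ ≤ A₁ * B ^ k₀ * Gk δ₀ (P - j) k₀ := by gcongr
    | succ k hk ih =>
      intro j hj
      have hd := dk_pos h0 k
      have ih0 := ih 0 (Nat.zero_le _)
      rw [Nat.sub_zero] at ih0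
      rcases Nat.lt_or_ge j P with hjP | hjP
      · have hj1 := ih (j + 1) hjP
        have h := hr1 j k hjP
        obtain ⟨n, hn⟩ : ∃ n, P - j = n + 1 := ⟨P - j - 1, by omega⟩
        have hn' : P - (j + 1) = n := by omega
        have hPn : P = n + (j + 1) := by omega
        rw [hn'] at hj1
        rw [hn, Gk_succ]
        -- G P k ≤ d_k^j G n k
        have hG1 : Gk δ₀ P k ≤ Gk δ₀ n k * dk δ₀ k ^ j := by
          have e1 := Gk_add_le (k := k) h0 (le_of_eq hPn.symm)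
          rw [← hPn] at e1
          refine e1.trans ?_
          apply mul_le_mul_of_nonneg_left _ (Gk_pos h0 _ _).le
          exact dk_shift h0 h1 hj hk
        have hGn := Gk_pos h0 n k
        have hBk : 0 < B ^ k := by positivity
        have t1 : dk δ₀ k * (dk δ₀ k ^ j)⁻¹ * X 0 k ≤
            A₁ * B ^ k * (dk δ₀ k * Gk δ₀ n k) * X P 0 := by
          calc dk δ₀ k * (dk δ₀ k ^ j)⁻¹ * X 0 k
              ≤ dk δ₀ k * (dk δ₀ k ^ j)⁻¹ * (A₁ * B ^ k * Gk δ₀ P k * X P 0) := by gcongr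
            _ ≤ dk δ₀ k * (dk δ₀ k ^ j)⁻¹ * (A₁ * B ^ k * (Gk δ₀ n k * dk δ₀ k ^ j) * X P 0) := by
                gcongr
            _ = _ := by field_simp
        have t2 : dk δ₀ k * X (j + 1) k ≤ A₁ * B ^ k * (dk δ₀ k * Gk δ₀ n k) * X P 0 := by
          calc dk δ₀ k * X (j + 1) k ≤ dk δ₀ k * (A₁ * B ^ k * Gk δ₀ n k * X P 0) := by gcongr
            _ = _ := by ring
        calc X j (k + 1) ≤ C * (dk δ₀ k * X (j + 1) k + dk δ₀ k * (dk δ₀ k ^ j)⁻¹ * X 0 k) := h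
          _ ≤ C * (A₁ * B ^ k * (dk δ₀ k * Gk δ₀ n k) * X P 0 +
              A₁ * B ^ k * (dk δ₀ k * Gk δ₀ n k) * X P 0) := by gcongr
          _ = A₁ * B ^ (k + 1) * (dk δ₀ k * Gk δ₀ n k) * X P 0 := by rw [hB]; ring
      · have hjP' : j = P := le_antisymm hj hjP
        subst hjP'
        have h := hr2 k
        have hPP := ih P le_rfl
        rw [Nat.sub_self, Gk_zero] at hPP ⊢
        have hG1 : Gk δ₀ P k ≤ dk δ₀ k ^ q := by
          have e1 := Gk_add_le (n := 0) (i := P) (P := P) (k := k) h0 (by omega)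
          rw [Nat.zero_add, Gk_zero, one_mul] at e1
          exact e1.trans (dk_shift h0 h1 (by omega) hk)
        have hBk : 0 < B ^ k := by positivity
        have t1 : dk δ₀ k * (dk δ₀ k ^ P)⁻¹ * X 0 k ≤ A₁ * B ^ k * 1 * X P 0 := by
          calc dk δ₀ k * (dk δ₀ k ^ P)⁻¹ * X 0 k
              ≤ dk δ₀ k * (dk δ₀ k ^ P)⁻¹ * (A₁ * B ^ k * Gk δ₀ P k * X P 0) := by gcongr
            _ ≤ dk δ₀ k * (dk δ₀ k ^ P)⁻¹ * (A₁ * B ^ k * (dk δ₀ k ^ q) * X P 0) := by
                gcongr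
            _ = _ := by rw [hP, pow_succ]; field_simp
        calc X P (k + 1) ≤ C * (X P k + dk δ₀ k * (dk δ₀ k ^ P)⁻¹ * X 0 k) := h
          _ ≤ C * (A₁ * B ^ k * 1 * X P 0 + A₁ * B ^ k * 1 * X P 0) := by gcongr
          _ = A₁ * B ^ (k + 1) * 1 * X P 0 := by rw [hB]; ring
  have hd := dk_pos h0 k
  rcases Nat.lt_or_ge k k₀ with hk | hk
  · have h2 : X 0 k ≤ Ak δ₀ C P k * X P 0 := (hXm 0 k (Nat.zero_le _)).trans (hplain k)
    have h3 : Ak δ₀ C P k * (dk δ₀ k ^ q * (1 / 2) ^ k)⁻¹ ≤ A₂ :=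
      single_le_sum (f := fun k => Ak δ₀ C P k * (dk δ₀ k ^ q * (1 / 2) ^ k)⁻¹)
        (fun i _ => hterm i) (mem_range.2 hk)
    have h4 : Ak δ₀ C P k ≤ A₂ * (dk δ₀ k ^ q * (1 / 2) ^ k) := by
      have hpos : 0 < dk δ₀ k ^ q * (1 / 2 : ℝ) ^ k := by positivity
      calc Ak δ₀ C P k = Ak δ₀ C P k * (dk δ₀ k ^ q * (1 / 2) ^ k)⁻¹ * (dk δ₀ k ^ q * (1 / 2) ^ k) := by
            field_simp
        _ ≤ _ := mul_le_mul_of_nonneg_right h3 hpos.le
    have h5 : A₂ * (dk δ₀ k ^ q * (1 / 2) ^ k) ≤ (A₂ + A₁ * A') * dk δ₀ k ^ q * (1 / 2) ^ k := by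
      rw [mul_assoc (A₂ + A₁ * A')]
      apply mul_le_mul_of_nonneg_right _ (by positivity)
      have : 0 ≤ A₁ * A' := by (clear * - hA₁0 hA'0; positivity)
      linarith only [this]
    exact h2.trans (mul_le_mul_of_nonneg_right (h4.trans h5) hXP0)
  · have h2 := hmain k hk 0 (Nat.zero_le _)
    rw [Nat.sub_zero] at h2
    have hG1 : Gk δ₀ P k ≤ dk δ₀ (k - P) ^ (q + 1) := by
      have e1 := Gk_add_le (n := 0) (i := P) (P := P) (k := k) h0 (by omega)
      rwa [Nat.zero_add, Gk_zero, one_mul] at e1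
    have hshift : B ^ k * 2 ^ k * dk δ₀ (k - P) ^ (q + 1) ≤ A' * dk δ₀ k ^ q := by
      obtain ⟨n, hn⟩ : ∃ n, k = P + n := ⟨k - P, by omega⟩
      have hkey := hA' k
      have e1 : dk δ₀ (k - P) ^ (q + 1) ≤
          dk δ₀ k ^ q * ((1 / 2) ^ (k ^ 2) * 2 ^ (2 * (q + 1) * P * k)) := by
        have hkP : k - P = n := by omega
        rw [hkP]
        unfold dk
        rw [mul_pow, mul_pow, ← pow_mul, ← pow_mul]
        have e2 : δ₀ ^ (q + 1) ≤ δ₀ ^ q := pow_le_pow_of_le_one h0.le h1 (Nat.le_succ q)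
        have e3 : ((1:ℝ) / 2) ^ (n ^ 2 * (q + 1)) ≤
            (1 / 2) ^ (k ^ 2 * q) * ((1 / 2) ^ (k ^ 2) * 2 ^ (2 * (q + 1) * P * k)) := by
          rw [← mul_assoc, ← pow_add]
          have e4 : (2:ℝ) ^ (2 * (q + 1) * P * k) = ((1/2) ^ (2 * (q + 1) * P * k))⁻¹ := by
            rw [one_div, inv_pow, inv_inv]
          rw [e4, ← div_eq_mul_inv, le_div_iff₀ (by positivity), ← pow_add]
          apply pow_le_pow_of_le_one (by norm_num) (by norm_num)
          have hkn : k ^ 2 ≤ n ^ 2 + 2 * P * k := by rw [hn]; nlinarith only []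
          calc k ^ 2 * q + k ^ 2 = (q + 1) * k ^ 2 := by ring
            _ ≤ (q + 1) * (n ^ 2 + 2 * P * k) := Nat.mul_le_mul_left _ hkn
            _ = n ^ 2 * (q + 1) + 2 * (q + 1) * P * k := by ring
        calc δ₀ ^ (q + 1) * (1 / 2) ^ (n ^ 2 * (q + 1)) ≤
            δ₀ ^ q * ((1 / 2) ^ (k ^ 2 * q) * ((1 / 2) ^ (k ^ 2) * 2 ^ (2 * (q + 1) * P * k))) :=
              mul_le_mul e2 e3 (by positivity) (by positivity)
          _ = _ := by ring
      calc B ^ k * 2 ^ k * dk δ₀ (k - P) ^ (q + 1)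
          ≤ B ^ k * 2 ^ k * (dk δ₀ k ^ q * ((1 / 2) ^ (k ^ 2) * 2 ^ (2 * (q + 1) * P * k))) := by
            gcongr
        _ = ((B * 2 * 2 ^ (2 * (q + 1) * P)) ^ k * (1 / 2) ^ (k ^ 2)) * dk δ₀ k ^ q := by
            rw [mul_pow, mul_pow, ← pow_mul]; ring
        _ ≤ A' * dk δ₀ k ^ q := by gcongr
    have h3 : B ^ k * Gk δ₀ P k ≤ A' * dk δ₀ k ^ q * (1 / 2) ^ k := by
      have e1 : B ^ k * Gk δ₀ P k ≤ B ^ k * dk δ₀ (k - P) ^ (q + 1) := by gcongr
      have e2 : B ^ k * dk δ₀ (k - P) ^ (q + 1) =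
          (B ^ k * 2 ^ k * dk δ₀ (k - P) ^ (q + 1)) * (1 / 2) ^ k := by
        have : (2:ℝ) ^ k * (1 / 2) ^ k = 1 := by rw [← mul_pow]; norm_num
        calc B ^ k * dk δ₀ (k - P) ^ (q + 1) = B ^ k * dk δ₀ (k - P) ^ (q + 1) * 1 := by ring
          _ = B ^ k * dk δ₀ (k - P) ^ (q + 1) * ((2:ℝ) ^ k * (1 / 2) ^ k) := by rw [this]
          _ = _ := by ring
      rw [e2] at e1
      exact e1.trans (mul_le_mul_of_nonneg_right hshift (by positivity))
    calc X 0 k ≤ A₁ * B ^ k * Gk δ₀ P k * X P 0 := h2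
      _ = A₁ * (B ^ k * Gk δ₀ P k) * X P 0 := by ring
      _ ≤ A₁ * (A' * dk δ₀ k ^ q * (1 / 2) ^ k) * X P 0 := by gcongr
      _ = (A₁ * A') * (dk δ₀ k ^ q * (1 / 2) ^ k) * X P 0 := by ring
      _ ≤ (A₂ + A₁ * A') * (dk δ₀ k ^ q * (1 / 2) ^ k) * X P 0 := by
          gcongr
          linarith only [hA₂0]
      _ = _ := by ring

end P204K.GX
end

section

open scoped BigOperators Topology
open Filter

namespace Vale.Agent.P204K.GX

/-- The multi-scale bootstrap for sequences. -/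
theorem seq_bound {x K C : ℝ} (hx0 : 0 < x) (hx : x ≤ 1 / 2) (κ : ℕ)
    (a A : ℕ → ℝ) (ha : ∀ j, 0 ≤ a j) (hgrow : ∀ j, x ^ (κ * j) * a j ≤ K)
    (hA : ∀ j, HasSum (fun l => x ^ ((κ + 1) * l) * a (j + l)) (A j))
    (h : ∀ j, a j ^ 2 ≤ A j ^ 2 / 8 + C) :
    a 0 ^ 2 ≤ 2 * C ∧ A 0 ^ 2 ≤ 8 * C := by
  set b : ℕ → ℝ := fun j => x ^ (κ * j) * a j with hb
  have hb0 : ∀ j, 0 ≤ b j := fun j => mul_nonneg (by positivity) (ha j)
  have hbdd : BddAbove (Set.range b) := ⟨K, by rintro _ ⟨j, rfl⟩; exact hgrow j⟩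
  set S := ⨆ j, b j with hS
  have hbS : ∀ j, b j ≤ S := fun j => le_ciSup hbdd j
  have hS0 : 0 ≤ S := (hb0 0).trans (hbS 0)
  have hgeo : HasSum (fun l : ℕ => x ^ l * S) ((1 - x)⁻¹ * S) :=
    (hasSum_geometric_of_lt_one hx0.le (by linarith)).mul_right S
  have hA0 : ∀ j, 0 ≤ A j := fun j =>
    (hA j).nonneg (fun l => mul_nonneg (by positivity) (ha _))
  have hB : ∀ j, x ^ (κ * j) * A j ≤ 2 * S := by
    intro j
    have h1 : HasSum (fun l => x ^ (κ * j) * (x ^ ((κ + 1) * l) * a (j + l)))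
        (x ^ (κ * j) * A j) := (hA j).mul_left _
    have h2 : ∀ l, x ^ (κ * j) * (x ^ ((κ + 1) * l) * a (j + l)) ≤ x ^ l * S := by
      intro l
      have h3 : x ^ (κ * j) * (x ^ ((κ + 1) * l) * a (j + l)) = x ^ l * b (j + l) := by
        simp only [hb]
        rw [mul_add, pow_add, add_mul, one_mul, pow_add]; ring
      rw [h3]
      exact mul_le_mul_of_nonneg_left (hbS _) (by positivity)
    have h4 := hasSum_le h2 h1 hgeo
    refine h4.trans ?_
    have h5 : (1 - x)⁻¹ ≤ 2 := by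
      rw [inv_le_comm₀ (by linarith only [hx]) (by norm_num)]; linarith only [hx]
    exact mul_le_mul_of_nonneg_right h5 hS0
  have hC : ∀ j, b j ^ 2 ≤ S ^ 2 / 2 + C := by
    intro j
    have hp : 0 < x ^ (κ * j) := by positivity
    have hp1 : x ^ (κ * j) ≤ 1 := pow_le_one₀ hx0.le (by linarith)
    have h1 : b j ^ 2 = (x ^ (κ * j)) ^ 2 * a j ^ 2 := by simp only [hb]; ring
    have h2 : (x ^ (κ * j) * A j) ^ 2 ≤ (2 * S) ^ 2 :=
      pow_le_pow_left₀ (mul_nonneg hp.le (hA0 j)) (hB j) 2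
    have h3 : (x ^ (κ * j)) ^ 2 ≤ 1 := pow_le_one₀ hp.le hp1
    have hCn : 0 ≤ C ∨ C < 0 := le_or_gt 0 C
    have h4 : (x ^ (κ * j)) ^ 2 * a j ^ 2 ≤ (x ^ (κ * j)) ^ 2 * (A j ^ 2 / 8 + C) :=
      mul_le_mul_of_nonneg_left (h j) (by positivity)
    have hCnn : 0 ≤ C := by
      by_contra hneg
      push Not at hneg
      -- then `a i ^ 2 < A i ^ 2 / 8` for all `i`, impossible by the same computation
      have hSS : S ^ 2 ≤ S ^ 2 / 2 := by
        have h6 : ∀ i, b i ≤ Real.sqrt (S ^ 2 / 2) := by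
          intro i
          apply Real.le_sqrt_of_sq_le
          have e1 : b i ^ 2 = (x ^ (κ * i)) ^ 2 * a i ^ 2 := by simp only [hb]; ring
          have e2 : (x ^ (κ * i) * A i) ^ 2 ≤ (2 * S) ^ 2 :=
            pow_le_pow_left₀ (mul_nonneg (by positivity) (hA0 i)) (hB i) 2
          have e4 : (x ^ (κ * i)) ^ 2 * a i ^ 2 ≤ (x ^ (κ * i)) ^ 2 * (A i ^ 2 / 8 + C) :=
            mul_le_mul_of_nonneg_left (h i) (by positivity)
          have e5 : (x ^ (κ * i)) ^ 2 * C ≤ 0 :=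
            mul_nonpos_of_nonneg_of_nonpos (by positivity) hneg.le
          rw [e1]
          linarith only [e2, e4, e5]
        have h7 : S ≤ Real.sqrt (S ^ 2 / 2) := ciSup_le h6
        have h8 := pow_le_pow_left₀ hS0 h7 2
        rwa [Real.sq_sqrt (by positivity)] at h8
      have hS00 : S = 0 := by nlinarith only [hSS]
      have hb00 : b 0 = 0 := le_antisymm (hS00 ▸ hbS 0) (hb0 0)
      have hB00 : A 0 ≤ 0 := by
        have := hB 0
        rw [hS00] at this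
        simpa only [ge_iff_le, mul_zero, pow_zero, one_mul] using this
      have hA00 : A 0 = 0 := le_antisymm hB00 (hA0 0)
      have := h 0
      rw [hA00] at this
      have h9 := sq_nonneg (a 0)
      linarith only [hneg, this, h9]
    rw [h1]
    linarith only [mul_nonneg (sub_nonneg.2 h3) (sub_nonneg.2 hCnn), mul_nonneg (sub_nonneg.2 h4) (sub_nonneg.2 h3), mul_nonneg (sub_nonneg.2 h2) (sub_nonneg.2 h3), mul_nonneg (sq_nonneg (1 * x ^ (κ * j) : ℝ)) (sub_nonneg.2 h4), mul_nonneg (sq_nonneg (1 * x ^ (κ * j) : ℝ)) (sub_nonneg.2 h2)]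
  have hSS : S ^ 2 ≤ S ^ 2 / 2 + C := by
    have hnn : 0 ≤ S ^ 2 / 2 + C := (sq_nonneg _).trans (hC 0)
    have h6 : ∀ i, b i ≤ Real.sqrt (S ^ 2 / 2 + C) := fun i => Real.le_sqrt_of_sq_le (hC i)
    have h7 : S ≤ Real.sqrt (S ^ 2 / 2 + C) := ciSup_le h6
    have h8 := pow_le_pow_left₀ hS0 h7 2
    rwa [Real.sq_sqrt hnn] at h8
  have hfin : S ^ 2 ≤ 2 * C := by linarith only [hSS]
  constructor
  · have h1 : a 0 ≤ S := by
      have := hbS 0
      simpa only [ge_iff_le, hb, mul_zero, pow_zero, one_mul] using this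
    exact (pow_le_pow_left₀ (ha 0) h1 2).trans hfin
  · have h1 : A 0 ≤ 2 * S := by simpa only [mul_zero, pow_zero, one_mul] using hB 0
    have h2 := pow_le_pow_left₀ (hA0 0) h1 2
    linarith only [hSS, h2]

/-- The energy bootstrap: growth and energy inequalities at all scales give uniform bounds at
the first scale. -/
theorem seq_energy {C : ℝ} (hC : 0 ≤ C) : ∃ C' ε₀ : ℝ, 0 < ε₀ ∧ 0 ≤ C' ∧
    ∀ (x K ε : ℝ) (κ : ℕ) (a A n : ℕ → ℝ), 0 < x → x ≤ 1 / 2 → 0 < ε → ε ≤ ε₀ →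
    (∀ j, 0 ≤ a j) → (∀ j, 0 ≤ n j) → (∀ j, x ^ (κ * j) * a j ≤ K) →
    (∀ j, HasSum (fun l => x ^ ((κ + 1) * l) * a (j + l)) (A j)) →
    (∀ j, n j ≤ C * (1 + A j)) →
    (∀ j, a j ^ 2 ≤ C * n j + C * Real.sqrt (n j) * (a j + A j) + C * ε ^ 2 * A j ^ 2) →
    a 0 ≤ C' ∧ A 0 ≤ C' ∧ n 0 ≤ C' := by
  -- a² ≤ (1/8) A² + C₂
  set D : ℝ := 1 + C with hD
  set C₂ : ℝ := 4000 * D ^ 8 with hC₂
  refine ⟨C * (1 + Real.sqrt (8 * C₂)) + Real.sqrt (8 * C₂) + Real.sqrt (2 * C₂),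
    1 / (8 * D), by positivity, by positivity, ?_⟩
  intro x K ε κ a A n hx0 hx hε0 hε ha hn hgrow hA hgr hen
  have hA0 : ∀ j, 0 ≤ A j := fun j =>
    (hA j).nonneg (fun l => mul_nonneg (by positivity) (ha _))
  have hD1 : 1 ≤ D := by linarith only [hC]
  have hkey : ∀ j, a j ^ 2 ≤ A j ^ 2 / 8 + C₂ := by
    intro j
    have h1 := hgr j
    have h2 := hen j
    set s := Real.sqrt (n j) with hs
    have hs0 : 0 ≤ s := Real.sqrt_nonneg _
    have hss : s ^ 2 = n j := Real.sq_sqrt (hn j)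
    have hCD : C ≤ D := by linarith only [hx0, hx]
    have hs2 : s ^ 2 ≤ D * (1 + A j) := by
      rw [hss]
      exact h1.trans (mul_le_mul_of_nonneg_right hCD (by linarith only [hx0, hx, hA0 j]))
    have hε2 : C * ε ^ 2 ≤ 1 / 64 := by
      have : ε ^ 2 ≤ (1 / (8 * D)) ^ 2 := pow_le_pow_left₀ hε0.le hε 2
      have h3 : C * ε ^ 2 ≤ D * (1 / (8 * D)) ^ 2 := by
        apply mul_le_mul hCD this (by positivity) (by positivity)
      refine h3.trans ?_
      rw [show D * (1 / (8 * D)) ^ 2 = 1 / (64 * D) by field_simp; ring]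
      apply one_div_le_one_div_of_le (by norm_num)
      linarith only [hC]
    -- Young
    have y1 : C * s * a j ≤ a j ^ 2 / 4 + D ^ 2 * s ^ 2 := by
      have : C * s * a j ≤ D * s * a j := by
        apply mul_le_mul_of_nonneg_right _ (ha j)
        exact mul_le_mul_of_nonneg_right hCD hs0
      linarith only [sq_nonneg (a j / 2 - D * s), this]
    have y2 : C * s * A j ≤ A j ^ 2 / 64 + 16 * D ^ 2 * s ^ 2 := by
      have : C * s * A j ≤ D * s * A j := by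
        apply mul_le_mul_of_nonneg_right _ (hA0 j)
        exact mul_le_mul_of_nonneg_right hCD hs0
      linarith only [sq_nonneg (A j / 8 - 4 * D * s), this]
    have y3 : C * n j ≤ D ^ 2 * s ^ 2 := by
      rw [hss]
      apply mul_le_mul_of_nonneg_right _ (hn j)
      nlinarith only []
    have y4 : a j ^ 2 ≤ a j ^ 2 / 4 + A j ^ 2 / 64 + 18 * D ^ 2 * s ^ 2 + A j ^ 2 / 64 := by
      have : C * ε ^ 2 * A j ^ 2 ≤ 1 / 64 * A j ^ 2 :=
        mul_le_mul_of_nonneg_right hε2 (sq_nonneg _)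
      linarith only [h2, y1, y2, y3, this]
    have y5 : 18 * D ^ 2 * s ^ 2 ≤ 18 * D ^ 3 * (1 + A j) := by
      have : 18 * D ^ 2 * s ^ 2 ≤ 18 * D ^ 2 * (D * (1 + A j)) :=
        mul_le_mul_of_nonneg_left hs2 (by positivity)
      linarith only [this]
    have y6 : 18 * D ^ 3 * (1 + A j) ≤ A j ^ 2 / 32 + (18 * D ^ 3 + 8 * 324 * D ^ 6 ) := by
      linarith only [sq_nonneg (A j - 16 * 18 * D ^ 3)]
    have y7 : 18 * D ^ 3 + 8 * 324 * D ^ 6 ≤ 3 / 4 * C₂ := by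
      have e1 : D ^ 3 ≤ D ^ 8 := pow_le_pow_right₀ hD1 (by norm_num)
      have e2 : D ^ 6 ≤ D ^ 8 := pow_le_pow_right₀ hD1 (by norm_num)
      rw [hC₂]
      nlinarith only [e1, e2, hC]
    nlinarith only [y4, y5, y6, y7]
  obtain ⟨h1, h2⟩ := seq_bound hx0 hx κ a A ha hgrow hA hkey
  have h3 : a 0 ≤ Real.sqrt (2 * C₂) := Real.le_sqrt_of_sq_le h1
  have h4 : A 0 ≤ Real.sqrt (8 * C₂) := Real.le_sqrt_of_sq_le h2
  have h5 := hgr 0
  have h6 : C * (1 + A 0) ≤ C * (1 + Real.sqrt (8 * C₂)) := by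
    apply mul_le_mul_of_nonneg_left _ hC; linarith only [h4]
  have p1 : 0 ≤ C * (1 + Real.sqrt (8 * C₂)) := by positivity
  have p2 := Real.sqrt_nonneg (8 * C₂)
  have p3 := Real.sqrt_nonneg (2 * C₂)
  refine ⟨by linarith only [h3, p1, p2], by linarith only [h4, p1, p3], by linarith only [h5, h6, p2, p3]⟩

end Vale.Agent.P204K.GX
end

section

open scoped BigOperators Topology

namespace Vale.Agent.P204K.GX

variable {V : Type*} [AddCommGroup V] [Module ℝ V]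

/-- Positive functional vanishing on a subspace which contains no strictly positive element. -/
theorem exists_T (C : PointedCone ℝ V) (F : V) (hunit : ∀ η : V, ∃ t : ℝ, t • F + η ∈ C)
    (K : Submodule ℝ V) (hK : ∀ κ ∈ K, ∀ c : ℝ, 0 < c → κ - c • F ∉ C) :
    ∃ T : V →ₗ[ℝ] ℝ, (∀ κ ∈ K, T κ = 0) ∧ (∀ η ∈ C, 0 ≤ T η) ∧ T F = 1 := by
  have hF : F ∉ K := by
    intro h
    apply hK F h 1 one_pos
    rw [one_smul, sub_self]
    exact C.zero_mem
  set f0 : V →ₗ.[ℝ] ℝ := ⟨K, 0⟩ with hf0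
  set f : V →ₗ.[ℝ] ℝ := f0.supSpanSingleton F 1 hF with hf
  obtain ⟨g, hg1, hg2⟩ := riesz_extension C f (by
    rintro ⟨x, hx⟩ hxC
    have hx' : x ∈ K ⊔ Submodule.span ℝ {F} := hx
    obtain ⟨κ, hκ, z, hz, rfl⟩ := Submodule.mem_sup.mp hx'
    obtain ⟨c, rfl⟩ := Submodule.mem_span_singleton.mp hz
    have h1 := LinearPMap.supSpanSingleton_apply_mk f0 F 1 hF κ hκ c
    have h3 : f ⟨κ + c • F, hx⟩ = c * 1 := by
      have : f ⟨κ + c • F, hx⟩ = 0 + c * 1 := h1
      rw [this, zero_add]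
    rw [h3, mul_one]
    by_contra hneg
    push Not at hneg
    apply hK κ hκ (-c) (by linarith only [hneg])
    have : κ - (-c) • F = κ + c • F := by module
    rw [this]; exact hxC) (by
    intro y
    obtain ⟨t, ht⟩ := hunit y
    exact ⟨⟨t • F, Submodule.mem_sup_right
      (Submodule.smul_mem _ _ (Submodule.mem_span_singleton_self _))⟩, ht⟩)
  refine ⟨g, fun κ hκ => ?_, hg2, ?_⟩
  · have h1 := hg1 ⟨κ, Submodule.mem_sup_left hκ⟩
    have h2 := LinearPMap.supSpanSingleton_apply_mk_of_mem f0 1 hF (x' := κ) hκ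
    exact h1.trans h2
  · have h1 := hg1 ⟨F, Submodule.mem_sup_right (Submodule.mem_span_singleton_self _)⟩
    exact h1.trans (LinearPMap.supSpanSingleton_apply_self f0 1 hF)

/-- Extension with prescribed values on a subspace. -/
theorem exists_P (C : PointedCone ℝ V) (F : V) (hunit : ∀ η : V, ∃ t : ℝ, t • F + η ∈ C)
    (Ex : Submodule ℝ V) (l : V →ₗ[ℝ] ℝ) (M : ℝ)
    (hM : ∀ Θ ∈ Ex, ∀ c : ℝ, Θ + c • F ∈ C → l Θ ≤ M * c) (hF : F ∉ Ex) :
    ∃ P : V →ₗ[ℝ] ℝ, (∀ Θ ∈ Ex, P Θ = - l Θ) ∧ (∀ η ∈ C, 0 ≤ P η) ∧ P F = M := by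
  set f0 : V →ₗ.[ℝ] ℝ := ⟨Ex, -(l.comp Ex.subtype)⟩ with hf0
  set f : V →ₗ.[ℝ] ℝ := f0.supSpanSingleton F M hF with hf
  obtain ⟨g, hg1, hg2⟩ := riesz_extension C f (by
    rintro ⟨x, hx⟩ hxC
    have hx' : x ∈ Ex ⊔ Submodule.span ℝ {F} := hx
    obtain ⟨Θ, hΘ, z, hz, rfl⟩ := Submodule.mem_sup.mp hx'
    obtain ⟨c, rfl⟩ := Submodule.mem_span_singleton.mp hz
    have h1 := LinearPMap.supSpanSingleton_apply_mk f0 F M hF Θ hΘ c
    have h3 : f ⟨Θ + c • F, hx⟩ = - l Θ + c * M := h1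
    rw [h3]
    have h2 := hM Θ hΘ c hxC
    linarith only [h2]) (by
    intro y
    obtain ⟨t, ht⟩ := hunit y
    exact ⟨⟨t • F, Submodule.mem_sup_right
      (Submodule.smul_mem _ _ (Submodule.mem_span_singleton_self _))⟩, ht⟩)
  refine ⟨g, fun Θ hΘ => ?_, hg2, ?_⟩
  · have h1 := hg1 ⟨Θ, Submodule.mem_sup_left hΘ⟩
    have h2 := LinearPMap.supSpanSingleton_apply_mk_of_mem f0 M hF (x' := Θ) hΘ
    exact h1.trans h2
  · have h1 := hg1 ⟨F, Submodule.mem_sup_right (Submodule.mem_span_singleton_self _)⟩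
    exact h1.trans (LinearPMap.supSpanSingleton_apply_self f0 M hF)

/-- The data needed for the Kähler current. -/
structure PairData (V : Type*) [AddCommGroup V] [Module ℝ V] where
  /-- integrated wedge pairing -/
  I : V →ₗ[ℝ] V →ₗ[ℝ] ℝ
  symm : ∀ a b, I a b = I b a
  /-- invariant part -/
  pp : V →ₗ[ℝ] V
  pp_pp : ∀ a, pp (pp a) = pp a
  orth : ∀ a b, I (pp a) (b - pp b) = 0
  anti : ∀ a, 0 ≤ I (a - pp a) (a - pp a)
  /-- nonnegative forms -/
  C : PointedCone ℝ V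
  /-- taming closed form -/
  om : V
  cone_self : ∀ a ∈ C, 0 ≤ I (pp a) (pp a)
  cone_om : ∀ a ∈ C, 0 ≤ I (pp a) (pp om)
  C_pp : ∀ a, pp a ∈ C ↔ a ∈ C
  om_mem : om ∈ C
  pos : 0 < I (pp om) (pp om)
  unit : ∀ η : V, ∃ t : ℝ, t • pp om + η ∈ C
  /-- exact forms -/
  Ex : Submodule ℝ V
  exact_self : ∀ Θ ∈ Ex, I Θ Θ = 0
  exact_om : ∀ Θ ∈ Ex, I Θ om = 0

namespace PairData

variable (D : PairData V)

theorem split (a b : V) : D.I a b = D.I (D.pp a) (D.pp b)
    + D.I (a - D.pp a) (b - D.pp b) := by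
  have h1 := D.orth a b
  have h2 := D.orth b a
  rw [D.symm] at h2
  simp only [map_sub, LinearMap.sub_apply] at h1 h2 ⊢
  linarith only [h1, h2]

/-- Cauchy–Schwarz on anti-invariant parts. -/
theorem cs (a b : V) : (D.I (a - D.pp a) (b - D.pp b)) ^ 2 ≤
    D.I (a - D.pp a) (a - D.pp a) * D.I (b - D.pp b) (b - D.pp b) := by
  have key : ∀ t : ℝ, 0 ≤ D.I (b - D.pp b) (b - D.pp b) * (t * t)
      + (2 * D.I (a - D.pp a) (b - D.pp b)) * t + D.I (a - D.pp a) (a - D.pp a) := by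
    intro t
    have h := D.anti (a + t • b)
    have e : (a + t • b) - D.pp (a + t • b) = (a - D.pp a) + t • (b - D.pp b) := by
      rw [map_add, map_smul, smul_sub]; abel
    rw [e] at h
    simp only [map_add, map_smul, LinearMap.add_apply, LinearMap.smul_apply, smul_eq_mul] at h
    rw [D.symm (b - D.pp b) (a - D.pp a)] at h
    linarith
  have h := discrim_le_zero key
  unfold discrim at h
  linarith only [h]

/-- The basic estimate. -/
theorem estimate : ∃ M : ℝ, 0 ≤ M ∧ ∀ Θ ∈ D.Ex, ∀ c : ℝ, Θ + c • D.pp D.om ∈ D.C →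
    D.I (D.pp D.om) Θ + c * D.I (D.pp D.om) (D.pp D.om) ≤ M * c ∧ 0 ≤ c := by
  set F := D.pp D.om with hF
  set G := D.I F F with hG
  have hG0 : 0 < G := D.pos
  set K := D.I (D.om - D.pp D.om) (D.om - D.pp D.om) with hK
  have hK0 : 0 ≤ K := D.anti _
  refine ⟨2 * K + 2 * G, by positivity, fun Θ hΘ c hc => ?_⟩
  set N := D.I (Θ - D.pp Θ) (Θ - D.pp Θ) with hN
  have hN0 : 0 ≤ N := D.anti _
  set S := D.I F Θ with hS
  set m := S + c * G with hm
  have hFF : D.pp F = F := D.pp_pp _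
  have hS' : D.I F (D.pp Θ) = S := by
    have h1 := D.split F Θ
    rw [hFF, sub_self, map_zero, LinearMap.zero_apply, add_zero] at h1
    exact h1.symm
  have hA : D.pp (Θ + c • F) = D.pp Θ + c • F := by
    rw [map_add, map_smul, hFF]
  have h1 : 0 ≤ m := by
    have h2 := D.cone_om _ hc
    rw [hA, map_add, LinearMap.add_apply, map_smul, LinearMap.smul_apply, smul_eq_mul,
      D.symm (D.pp Θ), hS'] at h2
    exact h2
  have h2 : 0 ≤ D.I (D.pp Θ) (D.pp Θ) + 2 * c * S + c ^ 2 * G := by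
    have h3 := D.cone_self _ hc
    rw [hA] at h3
    simp only [map_add, map_smul, LinearMap.add_apply, LinearMap.smul_apply, smul_eq_mul] at h3
    rw [D.symm (D.pp Θ) F, hS'] at h3
    linarith only [h3]
  have h3 : D.I (D.pp Θ) (D.pp Θ) + N = 0 := by
    rw [hN, ← D.split]; exact D.exact_self Θ hΘ
  have h5 : S + D.I (Θ - D.pp Θ) (D.om - D.pp D.om) = 0 := by
    have := D.exact_om Θ hΘ
    rw [D.split, D.symm (D.pp Θ), hS'] at this
    exact this
  have h6 := D.cs Θ D.om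
  rw [← hN, ← hK] at h6
  set p := D.I (Θ - D.pp Θ) (D.om - D.pp D.om) with hp
  have h7 : N + c ^ 2 * G ≤ 2 * c * m := by
    rw [hm]; linarith only [h2, h3]
  have hc0 : 0 ≤ c := by
    by_contra hneg
    push Not at hneg
    have : 0 < c ^ 2 * G := mul_pos (sq_pos_of_ne_zero hneg.ne) hG0
    linarith only [hN0, h2, h3, this, mul_nonneg (neg_pos.mpr hneg).le h1]
  refine ⟨?_, hc0⟩
  rcases h1.lt_or_eq with hm0 | hm0
  · have h8 : (m - c * G) ^ 2 ≤ (2 * c * m) * K := by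
      have e1 : m - c * G = -p := by rw [hm]; linarith only [h5]
      rw [e1, neg_sq]
      refine h6.trans ?_
      apply mul_le_mul_of_nonneg_right _ hK0
      have : 0 ≤ c ^ 2 * G := by (clear * - hG0; positivity)
      linarith only [h2, h3, this]
    have h10 : m * m ≤ ((2 * K + 2 * G) * c) * m := by
      linarith only [h8, sq_nonneg (c * G)]
    exact le_of_mul_le_mul_right h10 hm0
  · have h8 : 0 ≤ (2 * K + 2 * G) * c := by (clear * - hK0 hG0 hc0; positivity)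
    linarith only [hm0, h8]

theorem F_notMem : D.pp D.om ∉ D.Ex := by
  intro h
  obtain ⟨M, _, hM⟩ := D.estimate
  have h1 := (hM _ h 0 (by
    rw [zero_smul, add_zero]; exact (D.C_pp _).mpr D.om_mem)).1
  have := D.pos
  linarith

/-- **The Kähler current**, abstract form. -/
theorem exists_R : ∃ P : V →ₗ[ℝ] ℝ, (∀ η ∈ D.C, 0 ≤ P η) ∧
    ∀ Θ ∈ D.Ex, D.I (D.pp D.om) Θ + P Θ = 0 := by
  obtain ⟨M, hM0, hM⟩ := D.estimate
  obtain ⟨P, h1, h2, _⟩ := exists_P D.C (D.pp D.om) D.unit D.Ex (D.I (D.pp D.om)) M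
    (fun Θ hΘ c hc => by
      have h := hM Θ hΘ c hc
      have := mul_nonneg h.2 D.pos.le
      linarith [h.1]) D.F_notMem
  exact ⟨P, h2, fun Θ hΘ => by rw [h1 Θ hΘ]; ring⟩

end PairData

end Vale.Agent.P204K.GX
end

section
/-! Smooth parameter integrals over a compact parameter set. -/
open MeasureTheory Set Metric Filter
open scoped ContDiff Topology

namespace Vale.Agent.P204K.GX

section
variable {S F : Type} [NormedAddCommGroup S] [NormedSpace ℝ S] [MeasurableSpace S] [BorelSpace S]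
  [SecondCountableTopology S]
  [NormedAddCommGroup F] [NormedSpace ℝ F] [FiniteDimensional ℝ F]

omit [MeasurableSpace S] [BorelSpace S] [SecondCountableTopology S] [FiniteDimensional ℝ F] in
/-- The derivative in the second variable of a jointly smooth function is jointly smooth. -/
theorem contDiff_fderiv_snd {E : Type} [NormedAddCommGroup E] [NormedSpace ℝ E]
    {f : S → F → E} (hf : ContDiff ℝ ∞ (Function.uncurry f)) :
    ContDiff ℝ ∞ (Function.uncurry fun s y => fderiv ℝ (f s) y) := by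
  have h : ContDiff ℝ ∞ fun p : S × F => fderiv ℝ (f p.1) p.2 := by
    refine ContDiff.fderiv (f := fun (p : S × F) (y : F) => f p.1 y) (g := fun p : S × F => p.2)
      (n := ∞) (m := ∞) ?_ contDiff_snd (by norm_num)
    exact hf.comp ((contDiff_fst.comp contDiff_fst).prodMk contDiff_snd)
  exact h

variable (ν : Measure S) [IsFiniteMeasure ν] {K : Set S}

theorem hasFDerivAt_integral_param {E : Type} [NormedAddCommGroup E] [NormedSpace ℝ E]
    (hK : IsCompact K) (hν : ν Kᶜ = 0)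
    {f : S → F → E} (hf : ContDiff ℝ ∞ (Function.uncurry f)) (y0 : F) :
    HasFDerivAt (fun y => ∫ s, f s y ∂ν) (∫ s, fderiv ℝ (f s) y0 ∂ν) y0 := by
  have hf' := contDiff_fderiv_snd hf
  have hcs : ∀ y, Continuous fun s => f s y := fun y =>
    hf.continuous.comp (continuous_id.prodMk continuous_const)
  have hcs' : ∀ y, Continuous fun s => fderiv ℝ (f s) y := fun y =>
    hf'.continuous.comp (continuous_id.prodMk continuous_const)
  have hae : ∀ᵐ s ∂ν, s ∈ K := by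
    rw [ae_iff]; exact hν
  obtain ⟨C, hC⟩ := (hK.prod (isCompact_closedBall y0 1)).exists_bound_of_continuousOn
    (f := Function.uncurry fun s y => fderiv ℝ (f s) y) hf'.continuous.continuousOn
  have hint : ∀ y, Integrable (fun s => f s y) ν := by
    intro y
    obtain ⟨C1, hC1⟩ := hK.exists_bound_of_continuousOn (f := fun s => f s y) (hcs y).continuousOn
    refine Integrable.of_bound (hcs y).aestronglyMeasurable C1 ?_
    filter_upwards [hae] with s hs using hC1 s hs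
  refine hasFDerivAt_integral_of_dominated_of_fderiv_le (F := fun y s => f s y)
    (F' := fun y s => fderiv ℝ (f s) y) (bound := fun _ => C) (s := ball y0 1)
    (ball_mem_nhds y0 one_pos) ?_ (hint y0) (hcs' y0).aestronglyMeasurable ?_
    (integrable_const C) ?_
  · exact Eventually.of_forall fun y => (hcs y).aestronglyMeasurable
  · filter_upwards [hae] with s hs y hy
    exact hC (s, y) ⟨hs, ball_subset_closedBall hy⟩
  · refine Eventually.of_forall fun s y _ => ?_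
    have : ContDiff ℝ ∞ (f s) := hf.comp (contDiff_const.prodMk contDiff_id)
    exact (this.differentiable (by norm_num) y).hasFDerivAt

theorem contDiff_integral_param_aux (hK : IsCompact K) (hν : ν Kᶜ = 0) (n : ℕ) :
    ∀ (E : Type) [NormedAddCommGroup E] [NormedSpace ℝ E] (f : S → F → E),
      ContDiff ℝ ∞ (Function.uncurry f) → ContDiff ℝ n fun y => ∫ s, f s y ∂ν := by
  induction n with
  | zero =>
    intro E _ _ f hf
    rw [Nat.cast_zero, contDiff_zero, continuous_iff_continuousAt]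
    exact fun y => (hasFDerivAt_integral_param ν hK hν hf y).continuousAt
  | succ n ih =>
    intro E _ _ f hf
    rw [show ((n + 1 : ℕ) : WithTop ℕ∞) = (n : WithTop ℕ∞) + 1 by push_cast; rfl,
      contDiff_succ_iff_fderiv]
    refine ⟨fun y => (hasFDerivAt_integral_param ν hK hν hf y).differentiableAt, by simp, ?_⟩
    have h : (fderiv ℝ fun y => ∫ s, f s y ∂ν) = fun y => ∫ s, fderiv ℝ (f s) y ∂ν := by
      funext y
      exact (hasFDerivAt_integral_param ν hK hν hf y).fderiv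
    rw [h]
    exact ih (F →L[ℝ] E) _ (contDiff_fderiv_snd hf)

/-- Smoothness of parameter integrals. -/
theorem contDiff_integral_param {E : Type} [NormedAddCommGroup E] [NormedSpace ℝ E]
    (hK : IsCompact K) (hν : ν Kᶜ = 0)
    {f : S → F → E} (hf : ContDiff ℝ ∞ (Function.uncurry f)) :
    ContDiff ℝ ∞ fun y => ∫ s, f s y ∂ν := by
  rw [contDiff_infty]
  exact fun n => contDiff_integral_param_aux ν hK hν n E f hf

end

end Vale.Agent.P204K.GX
end
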