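import Vale.Agent.P204.KC.K1
import Vale.Agent.P204.KC.K2
attribute [-instance] ProperSMul.toContinuousSMul IsTopologicalTorsor.toContinuousSMul IdemSemiring.toCanonicallyOrderedAdd IdemSemiring.toMulLeftMono IdemSemiring.toMulRightMono AddQuantale.instAddLeftMono AddQuantale.instAddRightMono Quantale.instMulLeftMono Quantale.instMulRightMono FiniteDimensional.rclike_to_real IsScalarTower.complexToReal FiniteDimensional.complexToReal

set_option linter.all false

section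
set_option linter.all false
/-!
Function level interface (definitions only): forms are functions `X → L2` in a measurable unitary frame,
`H = L2(X, μ; E6)`.
-/
open MeasureTheory Set
open scoped ContDiff InnerProductSpace

namespace Vale.Agent.P204K.GX
open Vale.Agent.P204K.T4 _root_.P204K.GX

abbrev E6 := EuclideanSpace ℝ (Fin 6)

/-- `L2` and `E6` have the same coordinates -/
noncomputable def toE : L2 ≃L[ℝ] E6 := (EuclideanSpace.equiv (Fin 6) ℝ).symm
noncomputable def ofE : E6 ≃L[ℝ] L2 := EuclideanSpace.equiv (Fin 6) ℝ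

/-- Hodge star in the standard unitary frame: `Q A B = ⟪toE A, toE (hs B)⟫` -/
def hs (B : L2) : L2 := ![B 5, -B 4, B 3, B 2, -B 1, B 0]

structure FnSys (X : Type) [MetricSpace X] [CompactSpace X] [MeasurableSpace X] [BorelSpace X] where
  μ : Measure X
  μfin : IsFiniteMeasure μ
  Om : Submodule ℝ (X → L2)
  Y : SmSys (Lp E6 2 μ) Om
  meas : ∀ b ∈ Om, Measurable b
  ι_eq : ∀ b : Om, (Y.ι b : X → E6) =ᵐ[μ] fun x => toE ((b : X → L2) x)
  st_eq : ∀ u, (Y.st u : X → E6) =ᵐ[μ] fun x => toE (hs (ofE (u x)))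
  pm_eq : ∀ (b : Om) x, (Y.pm b : X → L2) x = pM J0 ((b : X → L2) x)
  pmH_eq : ∀ u, (Y.pmH u : X → E6) =ᵐ[μ] fun x => toE (pM J0 (ofE (u x)))
  M0 : ∀ (b : Om) x, ‖(b : X → L2) x‖ ≤ Y.M 0 b
  F : Om
  F_eq : ∀ x, (F : X → L2) x = F0
  c : ℝ
  one_le_c : 1 ≤ c
  vol : ∀ x (r : ℝ), 0 ≤ r → (μ (Metric.ball x r)).toReal ≤ c * r ^ 4
  /-- pointwise smoothing bounds -/
  P0 : ∀ δ (b : Om) x, 0 < δ → δ ≤ Y.δ0 →
    ‖(Y.S δ (Y.ι b) : X → L2) x‖ ≤ c * (δ ^ 4)⁻¹ * ∫ y in Metric.ball x (c * δ), ‖(b : X → L2) y‖ ∂μ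
  P1 : ∀ δ (b : Om) x, 0 < δ → δ ≤ Y.δ0 →
    ‖pP J0 ((Y.S δ (Y.ι (Y.pm b)) : X → L2) x)‖ ≤ c * δ * (δ ^ 4)⁻¹ * ∫ y in Metric.ball x (c * δ), ‖(b : X → L2) y‖ ∂μ
  P3 : ∀ δ (b : Om) x, 0 < δ → δ ≤ Y.δ0 → (∀ y, Cone J0 ((b : X → L2) y)) →
    Cone J0 (pP J0 ((Y.S δ (Y.ι b) : X → L2) x) +
      (c * δ ^ 2 * (δ ^ 4)⁻¹ * ∫ y in Metric.ball x (c * δ), ‖(b : X → L2) y‖ ∂μ) • F0)
  PF : ∀ δ (b : Om), 0 < δ → δ ≤ Y.δ0 →
    |∫ x, Q F0 ((Y.S δ (Y.ι b) : X → L2) x) ∂μ - ∫ x, Q F0 ((b : X → L2) x) ∂μ| ≤ c * δ * ∫ x, ‖(b : X → L2) x‖ ∂μ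
  /-- smooth positive forms detect positivity almost everywhere -/
  pos_dense : ∀ v : Lp E6 2 μ, (∀ b : Om, (∀ x, Cone J0 ((b : X → L2) x)) → 0 ≤ ⟪v, Y.ι b⟫_ℝ) →
    ∀ᵐ x ∂μ, ∀ B : L2, Cone J0 B → 0 ≤ ⟪v x, toE B⟫_ℝ

namespace FnSys
variable {X : Type} [MetricSpace X] [CompactSpace X] [MeasurableSpace X] [BorelSpace X] (Z : FnSys X)

/-- a positive current of order zero: finite measure `t`, measurable density in the cone, normalised -/
structure Cur (t : Measure X) (D : X → L2) : Prop where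
  fin : IsFiniteMeasure t
  meas : Measurable D
  cone : ∀ x, Cone J0 (D x)
  norm : ∀ x, Q (D x) F0 = 1

/-- the functional -/
noncomputable def fn (t : Measure X) (D : X → L2) (b : X → L2) : ℝ := ∫ x, Q (D x) (b x) ∂t

/-- density function: `sup_x δ^{-2} t(B(x, c δ))` -/
noncomputable def dens (t : Measure X) (δ : ℝ) : ℝ := (δ ^ 2)⁻¹ * ⨆ x, (t (Metric.ball x (Z.c * δ))).toReal

/-- majorant `t_δ(y) = c δ^{-4} t(B(y, c δ))` -/
noncomputable def maj (t : Measure X) (δ : ℝ) (y : X) : ℝ := Z.c * (δ ^ 4)⁻¹ * (t (Metric.ball y (Z.c * δ))).toReal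

/-- mutual energy: square integrals of majorants -/
noncomputable def en (t : Measure X) (δ : ℝ) : ℝ := δ ^ 2 * ∫ y, Z.maj t δ y ^ 2 ∂Z.μ

end FnSys
end Vale.Agent.P204K.GX
end

section
set_option linter.all false
/-!
G9, part a: pointwise facts, Fubini swap, basic integral estimate.
-/
open MeasureTheory Set
open scoped ContDiff InnerProductSpace

namespace Vale.Agent.P204K.GX
open Vale.Agent.P204K.T4 _root_.P204K.GX

namespace G9

theorem Fm_J0 : Fm J0 = F0 := by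
  funext i
  fin_cases i <;> simp only [Fm, ofEnt, J0, Fin.isValue, Matrix.cons_val', Matrix.cons_val_zero, Matrix.cons_val_fin_one, Matrix.cons_val_one, sub_neg_eq_add, add_self_div_two, Matrix.cons_val, sub_self, zero_div, Fin.zero_eta, F0, Fin.mk_one, Fin.reduceFinMk]
  all_goals norm_num

theorem Q_F0_F0 : Q F0 F0 = 2 := by
  simp only [Q, F0, Fin.isValue, Matrix.cons_val_zero, Matrix.cons_val, mul_one, Matrix.cons_val_one, mul_zero, sub_zero, add_zero]; norm_num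

theorem pos_J0 : Pos J0 := by
  unfold Pos; rw [Fm_J0, Q_F0_F0]; norm_num

theorem cone_F0 : Cone J0 F0 := by
  rw [← Fm_J0]; exact cone_Fm isCx_J0

theorem toE_apply (A : L2) (i : Fin 6) : (toE A) i = A i := rfl
theorem ofE_toE (A : L2) : ofE (toE A) = A := rfl
theorem toE_ofE (A : E6) : toE (ofE A) = A := rfl

theorem inner_toE (A B : L2) : ⟪toE A, toE B⟫_ℝ = ∑ i, A i * B i := by
  rw [PiLp.inner_apply]
  apply Finset.sum_congr rfl
  intro i _
  rw [toE_apply, toE_apply]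
  simp only [RCLike.inner_apply, Real.ringHom_apply, mul_comm]

theorem Q_inner (A B : L2) : Q A B = ⟪toE A, toE (hs B)⟫_ℝ := by
  rw [inner_toE]
  simp only [Q, Fin.isValue, hs, Fin.sum_univ_succ, Matrix.cons_val_zero, Matrix.cons_val_succ, Fin.succ_zero_eq_one, mul_neg, Fin.succ_one_eq_two, Fin.reduceSucc, Finset.univ_unique, Fin.default_eq_zero, Matrix.cons_val_fin_one, Finset.sum_singleton]
  ring

theorem hs_add (A B : L2) : hs (A + B) = hs A + hs B := by
  funext i; fin_cases i <;> simp only [hs, Fin.isValue, Pi.add_apply, neg_add_rev, Fin.zero_eta, Matrix.cons_val_zero, Fin.mk_one, Matrix.cons_val_one, Fin.reduceFinMk, Matrix.cons_val] <;> ring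

theorem hs_smul (c : ℝ) (A : L2) : hs (c • A) = c • hs A := by
  funext i; fin_cases i <;> simp only [hs, Fin.isValue, Pi.smul_apply, smul_eq_mul, Fin.zero_eta, Matrix.cons_val_zero, Fin.mk_one, Matrix.cons_val_one, mul_neg, Fin.reduceFinMk, Matrix.cons_val]

theorem norm_toE_sq (A : L2) : ‖toE A‖ ^ 2 = ∑ i, A i ^ 2 := by
  rw [← real_inner_self_eq_norm_sq, inner_toE]
  apply Finset.sum_congr rfl
  intro i _; ring

theorem norm_toE_hs (A : L2) : ‖toE (hs A)‖ = ‖toE A‖ := by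
  have h : ‖toE (hs A)‖ ^ 2 = ‖toE A‖ ^ 2 := by
    rw [norm_toE_sq, norm_toE_sq]
    simp only [hs, Fin.isValue, Fin.sum_univ_succ, Matrix.cons_val_zero, Matrix.cons_val_succ, even_two, Even.neg_pow, Finset.univ_unique, Fin.default_eq_zero, Matrix.cons_val_fin_one, Finset.sum_const, Finset.card_singleton, one_smul, Fin.succ_zero_eq_one, Fin.succ_one_eq_two, Fin.reduceSucc, Finset.sum_singleton]; ring
  exact (sq_eq_sq₀ (norm_nonneg _) (norm_nonneg _)).mp h

theorem norm_le_toE (A : L2) : ‖A‖ ≤ ‖toE A‖ := by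
  rw [pi_norm_le_iff_of_nonneg (norm_nonneg _)]
  intro i
  have h : A i ^ 2 ≤ ‖toE A‖ ^ 2 := by
    rw [norm_toE_sq]
    exact Finset.single_le_sum (f := fun i => A i ^ 2) (fun j _ => sq_nonneg _) (Finset.mem_univ i)
  rw [Real.norm_eq_abs]
  exact abs_le_of_sq_le_sq h (norm_nonneg _)

theorem norm_cone_le {D : L2} (hD : Cone J0 D) : ‖D‖ ≤ Q D F0 := by
  have := T4.norm_le_of_cone isCx_J0 pos_J0 hD
  rwa [Fm_J0] at this

theorem abs_Q_le' (A B : L2) : |Q A B| ≤ ‖toE A‖ * ‖toE B‖ := by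
  rw [Q_inner, ← norm_toE_hs B]
  exact abs_real_inner_le_norm _ _

section swap

variable {X : Type} [MetricSpace X] [CompactSpace X] [MeasurableSpace X] [BorelSpace X]

theorem measurable_ball_real (t : Measure X) [IsFiniteMeasure t] (r : ℝ) :
    Measurable (fun y => (t (Metric.ball y r)).toReal) := by
  have h1 : MeasurableSet {p : X × X | dist p.2 p.1 < r} :=
    (isOpen_lt (continuous_snd.dist continuous_fst) continuous_const).measurableSet
  have h2 := measurable_measure_prodMk_left (ν := t) h1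
  exact h2.ennreal_toReal

theorem swap (t μ : Measure X) [IsFiniteMeasure t] [IsFiniteMeasure μ] {f : X → ℝ}
    (hf : Measurable f) {C : ℝ} (hb : ∀ x, |f x| ≤ C) (r : ℝ) :
    ∫ x, ∫ y in Metric.ball x r, f y ∂μ ∂t = ∫ y, f y * (t (Metric.ball y r)).toReal ∂μ := by
  have hS : MeasurableSet {p : X × X | dist p.2 p.1 < r} :=
    (isOpen_lt (continuous_snd.dist continuous_fst) continuous_const).measurableSet
  set G : X × X → ℝ := {p : X × X | dist p.2 p.1 < r}.indicator (fun p => f p.2) with hG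
  have hGm : Measurable G := (hf.comp measurable_snd).indicator hS
  have hGb : ∀ p, ‖G p‖ ≤ C := by
    intro p
    rw [hG, Real.norm_eq_abs]
    by_cases h : p ∈ {p : X × X | dist p.2 p.1 < r}
    · rw [Set.indicator_of_mem h]; exact hb _
    · rw [Set.indicator_of_notMem h, abs_zero]; exact (abs_nonneg _).trans (hb p.1)
  have hGi : Integrable (Function.uncurry (fun x y => G (x, y))) (t.prod μ) :=
    Integrable.of_bound hGm.aestronglyMeasurable C (Filter.Eventually.of_forall hGb)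
  have h1 := integral_integral_swap hGi
  have e1 : ∀ x, ∫ y, G (x, y) ∂μ = ∫ y in Metric.ball x r, f y ∂μ := by
    intro x
    rw [← integral_indicator Metric.isOpen_ball.measurableSet]
    rfl
  have e2 : ∀ y, ∫ x, G (x, y) ∂t = f y * (t (Metric.ball y r)).toReal := by
    intro y
    have : (fun x => G (x, y)) = (Metric.ball y r).indicator (fun _ => f y) := by
      funext x
      rw [hG]
      by_cases h : dist x y < r
      · rw [Set.indicator_of_mem (show x ∈ Metric.ball y r from h),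
          Set.indicator_of_mem (show (x, y) ∈ {p : X × X | dist p.2 p.1 < r} by
            show dist y x < r; rwa [dist_comm])]
      · rw [Set.indicator_of_notMem (show x ∉ Metric.ball y r from h),
          Set.indicator_of_notMem (show (x, y) ∉ {p : X × X | dist p.2 p.1 < r} by
            show ¬ dist y x < r; rwa [dist_comm])]
    rw [this, integral_indicator Metric.isOpen_ball.measurableSet, setIntegral_const, smul_eq_mul,
      mul_comm]
    rfl
  simp only [e1, e2] at h1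
  exact h1

end swap

end G9
end Vale.Agent.P204K.GX
end

section
set_option linter.all false
/-!
G9, part b: integral estimates for smoothed currents.
-/
open MeasureTheory Set
open scoped ContDiff InnerProductSpace

namespace Vale.Agent.P204K.GX
open Vale.Agent.P204K.T4 _root_.P204K.GX

namespace FnSys
open G9

variable {X : Type} [MetricSpace X] [CompactSpace X] [MeasurableSpace X] [BorelSpace X] (Z : FnSys X)

instance : IsFiniteMeasure Z.μ := Z.μfin

theorem c_pos : 0 < Z.c := lt_of_lt_of_le one_pos Z.one_le_c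

theorem fn_integrable {t : Measure X} {D : X → L2} (h : Cur t D) (b : Z.Om) :
    Integrable (fun x => Q (D x) ((b : X → L2) x)) t := by
  have := h.fin
  have hm : Measurable (fun x => Q (D x) ((b : X → L2) x)) :=
    continuous_Q.measurable.comp (h.meas.prodMk (Z.meas b b.2))
  refine Integrable.of_bound hm.aestronglyMeasurable (6 * Z.Y.M 0 b) (Filter.Eventually.of_forall ?_)
  intro x
  rw [Real.norm_eq_abs]
  refine (abs_Q_le _ _).trans ?_
  have h1 : ‖D x‖ ≤ 1 := by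
    have := norm_cone_le (h.cone x); rwa [h.norm x] at this
  have h2 := Z.M0 b x
  calc 6 * ‖D x‖ * ‖(b : X → L2) x‖ ≤ 6 * 1 * Z.Y.M 0 b := by gcongr
    _ = 6 * Z.Y.M 0 b := by ring

theorem fn_le {t : Measure X} {D : X → L2} (h : Cur t D) (b : Z.Om) {g : X → ℝ}
    (hg : Integrable g t) (hb : ∀ x, ‖(b : X → L2) x‖ ≤ g x) :
    |fn t D (b : X → L2)| ≤ 6 * ∫ x, g x ∂t := by
  unfold fn
  rw [← Real.norm_eq_abs, ← integral_const_mul]
  apply norm_integral_le_of_norm_le (hg.const_mul 6)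
  apply Filter.Eventually.of_forall
  intro x
  rw [Real.norm_eq_abs]
  refine (abs_Q_le _ _).trans ?_
  have h1 : ‖D x‖ ≤ 1 := by
    have := norm_cone_le (h.cone x); rwa [h.norm x] at this
  calc 6 * ‖D x‖ * ‖(b : X → L2) x‖ ≤ 6 * 1 * g x := by
        have := hb x
        gcongr
    _ = 6 * g x := by ring

theorem fn_add {t : Measure X} {D : X → L2} (h : Cur t D) (b b' : Z.Om) :
    fn t D ((b + b' : Z.Om) : X → L2) = fn t D (b : X → L2) + fn t D (b' : X → L2) := by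
  unfold fn
  rw [← integral_add (Z.fn_integrable h b) (Z.fn_integrable h b')]
  congr 1; funext x
  show Q (D x) ((b : X → L2) x + (b' : X → L2) x) = _
  rw [Q_add_right]

theorem fn_smul {t : Measure X} {D : X → L2} (h : Cur t D) (c : ℝ) (b : Z.Om) :
    fn t D ((c • b : Z.Om) : X → L2) = c * fn t D (b : X → L2) := by
  unfold fn
  rw [← integral_const_mul]
  congr 1; funext x
  show Q (D x) (c • (b : X → L2) x) = _
  rw [Q_smul_right]

theorem fn_bound {t : Measure X} {D : X → L2} (h : Cur t D) (b : Z.Om) :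
    |fn t D (b : X → L2)| ≤ 6 * (t Set.univ).toReal * Z.Y.M 0 b := by
  have := h.fin
  have h1 := Z.fn_le h b (g := fun _ => Z.Y.M 0 b) (integrable_const _) (Z.M0 b)
  rw [integral_const, smul_eq_mul] at h1
  refine h1.trans (le_of_eq ?_)
  rw [Measure.real]; ring

/-- the functional at scale `δ` as a continuous linear functional on `H` -/
noncomputable def fS {t : Measure X} {D : X → L2} (h : Cur t D) {δ : ℝ} (h0 : 0 < δ)
    (h1 : δ ≤ Z.Y.δ0) : Lp E6 2 Z.μ →L[ℝ] ℝ :=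
  LinearMap.mkContinuous
    { toFun := fun u => fn t D (Z.Y.S δ u : X → L2)
      map_add' := fun u v => by rw [map_add]; exact Z.fn_add h _ _
      map_smul' := fun c u => by
        rw [map_smul, RingHom.id_apply, smul_eq_mul]; exact Z.fn_smul h _ _ }
    (6 * (t Set.univ).toReal * (Z.Y.K 0 * (δ ^ (2 + 0))⁻¹)) (by
      intro u
      rw [Real.norm_eq_abs]
      refine (Z.fn_bound h _).trans ?_
      have h2 := Z.Y.SSM 0 δ u h0 h1
      have h3 : 0 ≤ 6 * (t Set.univ).toReal := by positivity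
      calc 6 * (t Set.univ).toReal * Z.Y.M 0 (Z.Y.S δ u)
          ≤ 6 * (t Set.univ).toReal * (Z.Y.K 0 * (δ ^ (2 + 0))⁻¹ * ‖u‖) :=
            mul_le_mul_of_nonneg_left h2 h3
        _ = _ := by ring)

theorem norm_b_meas (b : Z.Om) : Measurable (fun x => ‖(b : X → L2) x‖) :=
  (Z.meas b b.2).norm

theorem abs_norm_b (b : Z.Om) (x : X) : |‖(b : X → L2) x‖| ≤ Z.Y.M 0 b := by
  rw [abs_of_nonneg (norm_nonneg _)]; exact Z.M0 b x

theorem maj_nonneg {t : Measure X} {δ : ℝ} (h0 : 0 < δ) (y : X) : 0 ≤ Z.maj t δ y := by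
  unfold maj
  have := Z.c_pos
  positivity

theorem maj_meas (t : Measure X) [IsFiniteMeasure t] (δ : ℝ) : Measurable (Z.maj t δ) := by
  unfold maj
  exact (measurable_ball_real t _).const_mul _

theorem maj_le (t : Measure X) [IsFiniteMeasure t] {δ : ℝ} (h0 : 0 < δ) (y : X) :
    Z.maj t δ y ≤ Z.c * (δ ^ 4)⁻¹ * (t Set.univ).toReal := by
  unfold maj
  have := Z.c_pos
  have h1 : (t (Metric.ball y (Z.c * δ))).toReal ≤ (t Set.univ).toReal :=
    ENNReal.toReal_mono (measure_ne_top _ _) (measure_mono (subset_univ _))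
  gcongr

/-- integral of the local mean against `t` -/
theorem int_mean (t : Measure X) [IsFiniteMeasure t] (δ : ℝ) (b : Z.Om) :
    ∫ x, (Z.c * (δ ^ 4)⁻¹ * ∫ y in Metric.ball x (Z.c * δ), ‖(b : X → L2) y‖ ∂Z.μ) ∂t
      = ∫ y, ‖(b : X → L2) y‖ * Z.maj t δ y ∂Z.μ := by
  rw [integral_const_mul, swap t Z.μ (Z.norm_b_meas b) (Z.abs_norm_b b), ← integral_const_mul]
  congr 1; funext y
  unfold maj; ring

theorem mean_integrable (t : Measure X) [IsFiniteMeasure t] (δ : ℝ) (b : Z.Om) :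
    Integrable (fun x => Z.c * (δ ^ 4)⁻¹ * ∫ y in Metric.ball x (Z.c * δ), ‖(b : X → L2) y‖ ∂Z.μ) t := by
  apply Integrable.const_mul
  have hS : MeasurableSet {p : X × X | dist p.2 p.1 < Z.c * δ} :=
    (isOpen_lt (continuous_snd.dist continuous_fst) continuous_const).measurableSet
  set G : X × X → ℝ := {p : X × X | dist p.2 p.1 < Z.c * δ}.indicator
    (fun p => ‖(b : X → L2) p.2‖) with hG
  have hGm : Measurable G := ((Z.norm_b_meas b).comp measurable_snd).indicator hS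
  have hGb : ∀ p, ‖G p‖ ≤ Z.Y.M 0 b := by
    intro p
    rw [hG, Real.norm_eq_abs]
    by_cases h : p ∈ {p : X × X | dist p.2 p.1 < Z.c * δ}
    · rw [Set.indicator_of_mem h]; exact Z.abs_norm_b b _
    · rw [Set.indicator_of_notMem h, abs_zero]; exact Z.Y.M_nonneg _ _
  have hGi : Integrable G (t.prod Z.μ) :=
    Integrable.of_bound hGm.aestronglyMeasurable _ (Filter.Eventually.of_forall hGb)
  have h1 := hGi.integral_prod_left
  refine h1.congr (Filter.Eventually.of_forall (fun x => ?_))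
  show ∫ y, G (x, y) ∂Z.μ = ∫ y in Metric.ball x (Z.c * δ), ‖(b : X → L2) y‖ ∂Z.μ
  rw [← integral_indicator Metric.isOpen_ball.measurableSet]
  rfl

/-- basic estimate on smooth forms -/
theorem E1_smooth {t : Measure X} {D : X → L2} (h : Cur t D) {δ : ℝ} (h0 : 0 < δ)
    (h1 : δ ≤ Z.Y.δ0) (b : Z.Om) :
    |fn t D (Z.Y.S δ (Z.Y.ι b) : X → L2)| ≤ 6 * ∫ y, ‖(b : X → L2) y‖ * Z.maj t δ y ∂Z.μ := by
  have := h.fin
  rw [← Z.int_mean t δ b]
  exact Z.fn_le h _ (Z.mean_integrable t δ b) (fun x => Z.P0 δ b x h0 h1)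

/-- replacing a form by its invariant part -/
theorem fn_pP {t : Measure X} {D : X → L2} (h : Cur t D) (b : Z.Om) :
    fn t D (b : X → L2) = ∫ x, Q (D x) (pP J0 ((b : X → L2) x)) ∂t := by
  unfold fn
  congr 1; funext x
  exact (Q_inv_pP isCx_J0 pos_J0 (h.cone x).1 _).symm

theorem E1m_smooth {t : Measure X} {D : X → L2} (h : Cur t D) {δ : ℝ} (h0 : 0 < δ)
    (h1 : δ ≤ Z.Y.δ0) (b : Z.Om) :
    |fn t D (Z.Y.S δ (Z.Y.ι (Z.Y.pm b)) : X → L2)|
      ≤ 6 * δ * ∫ y, ‖(b : X → L2) y‖ * Z.maj t δ y ∂Z.μ := by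
  have := h.fin
  rw [Z.fn_pP h, ← Z.int_mean t δ b, ← Real.norm_eq_abs, mul_assoc, ← integral_const_mul δ,
    ← integral_const_mul]
  apply norm_integral_le_of_norm_le (((Z.mean_integrable t δ b).const_mul δ).const_mul 6)
  apply Filter.Eventually.of_forall
  intro x
  rw [Real.norm_eq_abs]
  refine (abs_Q_le _ _).trans ?_
  have h2 : ‖D x‖ ≤ 1 := by
    have := norm_cone_le (h.cone x); rwa [h.norm x] at this
  have h3 := Z.P1 δ b x h0 h1
  calc 6 * ‖D x‖ * ‖pP J0 ((Z.Y.S δ (Z.Y.ι (Z.Y.pm b)) : X → L2) x)‖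
      ≤ 6 * 1 * (Z.c * δ * (δ ^ 4)⁻¹ * ∫ y in Metric.ball x (Z.c * δ), ‖(b : X → L2) y‖ ∂Z.μ) := by
        gcongr
    _ = _ := by ring

section ext

theorem norm_sq_int (u : Lp E6 2 Z.μ) : ‖u‖ ^ 2 = ∫ x, ‖u x‖ ^ 2 ∂Z.μ := by
  rw [← real_inner_self_eq_norm_sq, L2.inner_def]
  congr 1; funext x
  exact real_inner_self_eq_norm_sq _

theorem memLp_norm (u : Lp E6 2 Z.μ) : MemLp (fun x => ‖u x‖) 2 Z.μ := (Lp.memLp u).norm

/-- Cauchy–Schwarz -/
theorem cs_int (u : Lp E6 2 Z.μ) {g : X → ℝ} (hg : Measurable g) (hg0 : ∀ x, 0 ≤ g x) {C : ℝ}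
    (hb : ∀ x, g x ≤ C) : ∫ x, ‖u x‖ * g x ∂Z.μ ≤ ‖u‖ * Real.sqrt (∫ x, g x ^ 2 ∂Z.μ) := by
  have hgL : MemLp g 2 Z.μ := MemLp.of_bound hg.aestronglyMeasurable C
    (Filter.Eventually.of_forall (fun x => by rw [Real.norm_eq_abs, abs_of_nonneg (hg0 x)]; exact hb x))
  have h := integral_mul_le_Lp_mul_Lq_of_nonneg (μ := Z.μ) (f := fun x => ‖u x‖) (g := g)
    Real.HolderConjugate.two_two (Filter.Eventually.of_forall (fun x => norm_nonneg _))
    (Filter.Eventually.of_forall hg0) (by simpa only [ENNReal.ofReal_ofNat] using Z.memLp_norm u) (by simpa only [ENNReal.ofReal_ofNat] using hgL)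
  refine h.trans (le_of_eq ?_)
  have e1 : (∫ a, ‖u a‖ ^ (2:ℝ) ∂Z.μ) ^ (1 / 2 : ℝ) = ‖u‖ := by
    simp only [Real.rpow_two]
    rw [← Z.norm_sq_int, ← Real.sqrt_eq_rpow, Real.sqrt_sq (norm_nonneg _)]
  have e2 : (∫ a, g a ^ (2:ℝ) ∂Z.μ) ^ (1 / 2 : ℝ) = Real.sqrt (∫ x, g x ^ 2 ∂Z.μ) := by
    simp only [Real.rpow_two]
    rw [← Real.sqrt_eq_rpow]
  rw [e1, e2]

theorem int_norm_mul (u : Lp E6 2 Z.μ) {g : X → ℝ} (hg : Measurable g) (hg0 : ∀ x, 0 ≤ g x) {C : ℝ}
    (hb : ∀ x, g x ≤ C) : Integrable (fun x => ‖u x‖ * g x) Z.μ := by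
  have h1 : Integrable (fun x => ‖u x‖) Z.μ :=
    (Z.memLp_norm u).integrable (by norm_num)
  exact h1.mul_bdd hg.aestronglyMeasurable (c := C)
    (Filter.Eventually.of_forall (fun x => by
      rw [Real.norm_eq_abs, abs_of_nonneg (hg0 x)]; exact hb x))

/-- closedness of weighted `L1` bounds -/
theorem closed_bound (f : Lp E6 2 Z.μ →L[ℝ] ℝ) (k : ℝ) (hk : 0 ≤ k) {g : X → ℝ}
    (hg : Measurable g) (hg0 : ∀ x, 0 ≤ g x) {C : ℝ} (hb : ∀ x, g x ≤ C)
    (h : ∀ b : Z.Om, |f (Z.Y.ι b)| ≤ k * ∫ y, ‖(b : X → L2) y‖ * g y ∂Z.μ) (u : Lp E6 2 Z.μ) :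
    |f u| ≤ k * ∫ y, ‖u y‖ * g y ∂Z.μ := by
  set R := Real.sqrt (∫ x, g x ^ 2 ∂Z.μ) with hR
  have key : ∀ b : Z.Om, |f u| ≤ k * ∫ y, ‖u y‖ * g y ∂Z.μ + (‖f‖ + k * R) * ‖u - Z.Y.ι b‖ := by
    intro b
    have h1 : |f u| ≤ |f (Z.Y.ι b)| + ‖f‖ * ‖u - Z.Y.ι b‖ := by
      have e : f u = f (Z.Y.ι b) + f (u - Z.Y.ι b) := by rw [← map_add]; congr 1; abel
      rw [e]
      refine (abs_add_le _ _).trans ?_
      gcongr
      exact f.le_opNorm _
    have h2 : ∫ y, ‖(b : X → L2) y‖ * g y ∂Z.μ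
        ≤ ∫ y, ‖(Z.Y.ι b : X → E6) y‖ * g y ∂Z.μ := by
      have hi := Z.int_norm_mul (Z.Y.ι b) hg hg0 hb
      apply integral_mono_of_nonneg (Filter.Eventually.of_forall
        (fun y => mul_nonneg (norm_nonneg _) (hg0 y))) hi
      filter_upwards [Z.ι_eq b] with y hy
      rw [hy]
      exact mul_le_mul_of_nonneg_right (norm_le_toE _) (hg0 y)
    have h3 : ∫ y, ‖(Z.Y.ι b : X → E6) y‖ * g y ∂Z.μ
        ≤ ∫ y, ‖u y‖ * g y ∂Z.μ + ‖u - Z.Y.ι b‖ * R := by
      have hi := Z.int_norm_mul (Z.Y.ι b) hg hg0 hb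
      have hu := Z.int_norm_mul u hg hg0 hb
      have hd := Z.int_norm_mul (u - Z.Y.ι b) hg hg0 hb
      have h4 : ∫ y, ‖(Z.Y.ι b : X → E6) y‖ * g y ∂Z.μ
          ≤ ∫ y, (‖u y‖ * g y + ‖(u - Z.Y.ι b : Lp E6 2 Z.μ) y‖ * g y) ∂Z.μ := by
        apply integral_mono_ae hi (hu.add hd)
        filter_upwards [Lp.coeFn_sub u (Z.Y.ι b)] with y hy
        show ‖(Z.Y.ι b : X → E6) y‖ * g y ≤ ‖u y‖ * g y + ‖(u - Z.Y.ι b : Lp E6 2 Z.μ) y‖ * g y
        rw [← add_mul]
        apply mul_le_mul_of_nonneg_right _ (hg0 y)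
        rw [hy, Pi.sub_apply]
        calc ‖(Z.Y.ι b : X → E6) y‖ = ‖u y - (u y - (Z.Y.ι b : X → E6) y)‖ := by
              congr 1; abel
          _ ≤ ‖u y‖ + ‖u y - (Z.Y.ι b : X → E6) y‖ := norm_sub_le _ _
      rw [integral_add hu hd] at h4
      have h5 := Z.cs_int (u - Z.Y.ι b) hg hg0 hb
      linarith
    have h6 := h b
    have h7 : k * ∫ y, ‖(b : X → L2) y‖ * g y ∂Z.μ
        ≤ k * (∫ y, ‖u y‖ * g y ∂Z.μ + ‖u - Z.Y.ι b‖ * R) :=
      mul_le_mul_of_nonneg_left (h2.trans h3) hk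
    linarith only [h7, h6, h1]
  by_contra hneg
  push Not at hneg
  set gap := |f u| - k * ∫ y, ‖u y‖ * g y ∂Z.μ with hgap
  have hgap0 : 0 < gap := by rw [hgap]; linarith
  have hK : 0 ≤ ‖f‖ + k * R := by positivity
  obtain ⟨b, hb'⟩ := Metric.denseRange_iff.mp Z.Y.ι_dense u (gap / (2 * (‖f‖ + k * R + 1)))
    (by positivity)
  rw [dist_eq_norm] at hb'
  have h1 := key b
  have h2 : (‖f‖ + k * R) * ‖u - Z.Y.ι b‖ ≤ gap / 2 := by
    calc (‖f‖ + k * R) * ‖u - Z.Y.ι b‖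
        ≤ (‖f‖ + k * R + 1) * (gap / (2 * (‖f‖ + k * R + 1))) := by
          apply mul_le_mul (by linarith) hb'.le (norm_nonneg _) (by linarith)
      _ = gap / 2 := by field_simp
  linarith

end ext

theorem E1 {t : Measure X} {D : X → L2} (h : Cur t D) {δ : ℝ} (h0 : 0 < δ)
    (h1 : δ ≤ Z.Y.δ0) (u : Lp E6 2 Z.μ) :
    |fn t D (Z.Y.S δ u : X → L2)| ≤ 6 * ∫ y, ‖u y‖ * Z.maj t δ y ∂Z.μ := by
  have := h.fin
  exact Z.closed_bound (Z.fS h h0 h1) 6 (by norm_num) (Z.maj_meas t δ) (Z.maj_nonneg h0)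
    (Z.maj_le t h0) (fun b => Z.E1_smooth h h0 h1 b) u

theorem E1m {t : Measure X} {D : X → L2} (h : Cur t D) {δ : ℝ} (h0 : 0 < δ)
    (h1 : δ ≤ Z.Y.δ0) (u : Lp E6 2 Z.μ) :
    |fn t D (Z.Y.S δ (Z.Y.pmH u) : X → L2)| ≤ 6 * δ * ∫ y, ‖u y‖ * Z.maj t δ y ∂Z.μ := by
  have := h.fin
  apply Z.closed_bound ((Z.fS h h0 h1) ∘L Z.Y.pmH) (6 * δ) (by positivity) (Z.maj_meas t δ)
    (Z.maj_nonneg h0) (Z.maj_le t h0) (fun b => ?_) u
  show |fn t D (Z.Y.S δ (Z.Y.pmH (Z.Y.ι b)) : X → L2)| ≤ _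
  rw [Z.Y.pmH_ι]
  exact Z.E1m_smooth h h0 h1 b

theorem int_maj_le {t : Measure X} [IsFiniteMeasure t] {δ : ℝ} (h0 : 0 < δ) (u : Lp E6 2 Z.μ) :
    δ * ∫ y, ‖u y‖ * Z.maj t δ y ∂Z.μ ≤ Real.sqrt (Z.en t δ) * ‖u‖ := by
  have h1 := Z.cs_int u (Z.maj_meas t δ) (Z.maj_nonneg h0) (Z.maj_le t h0)
  have h2 : Real.sqrt (Z.en t δ) = δ * Real.sqrt (∫ y, Z.maj t δ y ^ 2 ∂Z.μ) := by
    unfold en
    rw [Real.sqrt_mul (sq_nonneg _), Real.sqrt_sq h0.le]
  rw [h2]
  calc δ * ∫ y, ‖u y‖ * Z.maj t δ y ∂Z.μ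
      ≤ δ * (‖u‖ * Real.sqrt (∫ y, Z.maj t δ y ^ 2 ∂Z.μ)) := mul_le_mul_of_nonneg_left h1 h0.le
    _ = _ := by ring

theorem x_t1' {t : Measure X} {D : X → L2} (h : Cur t D) : ∃ C : ℝ, 0 ≤ C ∧ ∀ δ u, 0 < δ → δ ≤ Z.Y.δ0 →
    δ * |fn t D (Z.Y.S δ u : X → L2)| ≤ C * Real.sqrt (Z.en t δ) * ‖u‖ := by
  have := h.fin
  refine ⟨6, by norm_num, fun δ u h0 h1 => ?_⟩
  have h2 := mul_le_mul_of_nonneg_left (Z.E1 h h0 h1 u) h0.le
  have h3 := Z.int_maj_le (t := t) h0 u
  linarith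

theorem x_t2' {t : Measure X} {D : X → L2} (h : Cur t D) : ∃ C : ℝ, 0 ≤ C ∧ ∀ δ u, 0 < δ → δ ≤ Z.Y.δ0 →
    |fn t D (Z.Y.S δ (Z.Y.pmH u) : X → L2)| ≤ C * Real.sqrt (Z.en t δ) * ‖u‖ := by
  have := h.fin
  refine ⟨6, by norm_num, fun δ u h0 h1 => ?_⟩
  have h2 := Z.E1m h h0 h1 u
  have h3 := Z.int_maj_le (t := t) h0 u
  linarith

end FnSys
end Vale.Agent.P204K.GX
end

section
set_option linter.all false
/-!
G9, part c: energy of majorants.
-/
open MeasureTheory Set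
open scoped ContDiff InnerProductSpace Topology

namespace Vale.Agent.P204K.GX
open Vale.Agent.P204K.T4 _root_.P204K.GX

namespace FnSys
open G9

variable {X : Type} [MetricSpace X] [CompactSpace X] [MeasurableSpace X] [BorelSpace X] (Z : FnSys X)

theorem maj_int (t : Measure X) [IsFiniteMeasure t] {δ : ℝ} (h0 : 0 < δ) :
    ∫ y, Z.maj t δ y ∂Z.μ ≤ Z.c ^ 6 * (t Set.univ).toReal := by
  have hc := Z.c_pos
  have h1 := swap t Z.μ (f := fun _ => (1:ℝ)) measurable_const (C := 1) (by intro x; simp only [abs_one, Std.le_refl]) (Z.c * δ)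
  have e1 : ∫ y, Z.maj t δ y ∂Z.μ
      = Z.c * (δ ^ 4)⁻¹ * ∫ x, ∫ _y in Metric.ball x (Z.c * δ), (1:ℝ) ∂Z.μ ∂t := by
    rw [h1, ← integral_const_mul]
    congr 1; funext y
    unfold maj; ring
  rw [e1]
  have h2 : ∫ x, ∫ _y in Metric.ball x (Z.c * δ), (1:ℝ) ∂Z.μ ∂t
      ≤ ∫ _x, Z.c * (Z.c * δ) ^ 4 ∂t := by
    apply integral_mono_of_nonneg (Filter.Eventually.of_forall (fun x => by positivity))
      (integrable_const _)
    apply Filter.Eventually.of_forall
    intro x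
    show ∫ _y in Metric.ball x (Z.c * δ), (1:ℝ) ∂Z.μ ≤ Z.c * (Z.c * δ) ^ 4
    rw [setIntegral_const, smul_eq_mul, mul_one]
    exact Z.vol x (Z.c * δ) (by positivity)
  rw [integral_const, smul_eq_mul] at h2
  calc Z.c * (δ ^ 4)⁻¹ * ∫ x, ∫ _y in Metric.ball x (Z.c * δ), (1:ℝ) ∂Z.μ ∂t
      ≤ Z.c * (δ ^ 4)⁻¹ * ((t Set.univ).toReal * (Z.c * (Z.c * δ) ^ 4)) := by
        apply mul_le_mul_of_nonneg_left h2 (by positivity)
    _ = Z.c ^ 6 * (t Set.univ).toReal := by field_simp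

theorem bdd_balls (t : Measure X) [IsFiniteMeasure t] (r : ℝ) :
    BddAbove (Set.range (fun x => (t (Metric.ball x r)).toReal)) := by
  refine ⟨(t Set.univ).toReal, ?_⟩
  rintro _ ⟨x, rfl⟩
  exact ENNReal.toReal_mono (measure_ne_top _ _) (measure_mono (subset_univ _))

theorem maj_le_dens (t : Measure X) [IsFiniteMeasure t] {δ : ℝ} (h0 : 0 < δ) (y : X) :
    Z.maj t δ y ≤ Z.c * (δ ^ 2)⁻¹ * Z.dens t δ := by
  unfold maj dens
  have hc := Z.c_pos
  have h1 : (t (Metric.ball y (Z.c * δ))).toReal ≤ ⨆ x, (t (Metric.ball x (Z.c * δ))).toReal :=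
    le_ciSup (bdd_balls t _) y
  calc Z.c * (δ ^ 4)⁻¹ * (t (Metric.ball y (Z.c * δ))).toReal
      ≤ Z.c * (δ ^ 4)⁻¹ * ⨆ x, (t (Metric.ball x (Z.c * δ))).toReal := by gcongr
    _ = Z.c * (δ ^ 2)⁻¹ * ((δ ^ 2)⁻¹ * ⨆ x, (t (Metric.ball x (Z.c * δ))).toReal) := by
        field_simp

theorem dens_nonneg (t : Measure X) {δ : ℝ} (h0 : 0 < δ) : 0 ≤ Z.dens t δ := by
  unfold dens
  apply mul_nonneg (by positivity)
  exact Real.iSup_nonneg (fun x => ENNReal.toReal_nonneg)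

theorem maj_integrable (t : Measure X) [IsFiniteMeasure t] {δ : ℝ} (h0 : 0 < δ) :
    Integrable (Z.maj t δ) Z.μ := by
  refine Integrable.of_bound (Z.maj_meas t δ).aestronglyMeasurable
    (Z.c * (δ ^ 4)⁻¹ * (t Set.univ).toReal) (Filter.Eventually.of_forall (fun y => ?_))
  rw [Real.norm_eq_abs, abs_of_nonneg (Z.maj_nonneg h0 y)]
  exact Z.maj_le t h0 y

theorem x_en_le_dens {t : Measure X} [IsFiniteMeasure t] : ∃ C : ℝ, 0 ≤ C ∧ ∀ δ, 0 < δ → δ ≤ Z.Y.δ0 →
    Z.en t δ ≤ C * Z.dens t δ := by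
  have hc := Z.c_pos
  refine ⟨Z.c ^ 7 * (t Set.univ).toReal, by positivity, fun δ h0 h1 => ?_⟩
  unfold en
  have h2 : ∫ y, Z.maj t δ y ^ 2 ∂Z.μ ≤ ∫ y, (Z.c * (δ ^ 2)⁻¹ * Z.dens t δ) * Z.maj t δ y ∂Z.μ := by
    apply integral_mono_of_nonneg (Filter.Eventually.of_forall (fun y => sq_nonneg _))
      ((Z.maj_integrable t h0).const_mul _)
    apply Filter.Eventually.of_forall
    intro y
    show Z.maj t δ y ^ 2 ≤ (Z.c * (δ ^ 2)⁻¹ * Z.dens t δ) * Z.maj t δ y
    rw [pow_two]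
    exact mul_le_mul_of_nonneg_right (Z.maj_le_dens t h0 y) (Z.maj_nonneg h0 y)
  rw [integral_const_mul] at h2
  have h3 := Z.maj_int t h0
  have hd := Z.dens_nonneg t h0
  calc δ ^ 2 * ∫ y, Z.maj t δ y ^ 2 ∂Z.μ
      ≤ δ ^ 2 * ((Z.c * (δ ^ 2)⁻¹ * Z.dens t δ) * (Z.c ^ 6 * (t Set.univ).toReal)) := by
        apply mul_le_mul_of_nonneg_left _ (by positivity)
        refine h2.trans (mul_le_mul_of_nonneg_left h3 (by positivity))
    _ = Z.c ^ 7 * (t Set.univ).toReal * Z.dens t δ := by field_simp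

/-- the energy is controlled by the mean density -/
theorem en_le_int (p : Measure X) [IsFiniteMeasure p] {δ : ℝ} (h0 : 0 < δ) :
    Z.en p δ ≤ Z.c ^ 7 * ∫ x, (δ ^ 2)⁻¹ * (p (Metric.ball x (2 * Z.c * δ))).toReal ∂p := by
  have hc := Z.c_pos
  -- square of the ball mass as an integral
  have e1 : ∫ y, Z.maj p δ y ^ 2 ∂Z.μ = (Z.c * (δ ^ 4)⁻¹) *
      ∫ x, ∫ y in Metric.ball x (Z.c * δ), Z.maj p δ y ∂Z.μ ∂p := by
    rw [swap p Z.μ (Z.maj_meas p δ) (C := Z.c * (δ ^ 4)⁻¹ * (p Set.univ).toReal) (by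
      intro y
      rw [abs_of_nonneg (Z.maj_nonneg h0 y)]; exact Z.maj_le p h0 y), ← integral_const_mul]
    congr 1; funext y
    unfold maj; ring
  have h2 : ∀ x, ∫ y in Metric.ball x (Z.c * δ), Z.maj p δ y ∂Z.μ
      ≤ (Z.c * (Z.c * δ) ^ 4) * (Z.c * (δ ^ 4)⁻¹ * (p (Metric.ball x (2 * Z.c * δ))).toReal) := by
    intro x
    have h3 : ∫ y in Metric.ball x (Z.c * δ), Z.maj p δ y ∂Z.μ
        ≤ ∫ _y in Metric.ball x (Z.c * δ),
          Z.c * (δ ^ 4)⁻¹ * (p (Metric.ball x (2 * Z.c * δ))).toReal ∂Z.μ := by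
      apply setIntegral_mono_on (Z.maj_integrable p h0).integrableOn
        (integrable_const _).integrableOn Metric.isOpen_ball.measurableSet
      intro y hy
      unfold maj
      have h4 : Metric.ball y (Z.c * δ) ⊆ Metric.ball x (2 * Z.c * δ) := by
        apply Metric.ball_subset_ball'
        have : dist y x < Z.c * δ := hy
        linarith
      have h5 : (p (Metric.ball y (Z.c * δ))).toReal ≤ (p (Metric.ball x (2 * Z.c * δ))).toReal :=
        ENNReal.toReal_mono (measure_ne_top _ _) (measure_mono h4)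
      gcongr
    rw [setIntegral_const, smul_eq_mul] at h3
    refine h3.trans ?_
    apply mul_le_mul_of_nonneg_right (Z.vol x (Z.c * δ) (by positivity)) (by positivity)
  have hm : Measurable (fun x => (p (Metric.ball x (2 * Z.c * δ))).toReal) :=
    measurable_ball_real p _
  have hbd : Integrable (fun x => (p (Metric.ball x (2 * Z.c * δ))).toReal) p := by
    refine Integrable.of_bound hm.aestronglyMeasurable (p Set.univ).toReal
      (Filter.Eventually.of_forall (fun y => ?_))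
    rw [Real.norm_eq_abs, abs_of_nonneg ENNReal.toReal_nonneg]
    exact ENNReal.toReal_mono (measure_ne_top _ _) (measure_mono (subset_univ _))
  have h6 : ∫ x, ∫ y in Metric.ball x (Z.c * δ), Z.maj p δ y ∂Z.μ ∂p
      ≤ ∫ x, (Z.c * (Z.c * δ) ^ 4) * (Z.c * (δ ^ 4)⁻¹ *
        (p (Metric.ball x (2 * Z.c * δ))).toReal) ∂p := by
    apply integral_mono_of_nonneg (Filter.Eventually.of_forall
      (fun x => setIntegral_nonneg Metric.isOpen_ball.measurableSet
        (fun y _ => Z.maj_nonneg h0 y))) ((hbd.const_mul _).const_mul _)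
      (Filter.Eventually.of_forall h2)
  unfold en
  rw [e1]
  calc δ ^ 2 * ((Z.c * (δ ^ 4)⁻¹) * ∫ x, ∫ y in Metric.ball x (Z.c * δ), Z.maj p δ y ∂Z.μ ∂p)
      ≤ δ ^ 2 * ((Z.c * (δ ^ 4)⁻¹) * ∫ x, (Z.c * (Z.c * δ) ^ 4) * (Z.c * (δ ^ 4)⁻¹ *
        (p (Metric.ball x (2 * Z.c * δ))).toReal) ∂p) := by
        apply mul_le_mul_of_nonneg_left _ (by positivity)
        exact mul_le_mul_of_nonneg_left h6 (by positivity)
    _ = Z.c ^ 7 * ∫ x, (δ ^ 2)⁻¹ * (p (Metric.ball x (2 * Z.c * δ))).toReal ∂p := by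
        rw [integral_const_mul, integral_const_mul, integral_const_mul]
        field_simp


/-- the local potential tends to zero -/
theorem pot_tendsto (p : Measure X) [IsFiniteMeasure p] (x : X)
    (hf : ∫⁻ y, (ENNReal.ofReal (dist x y ^ 2))⁻¹ ∂p < ⊤) :
    Filter.Tendsto (fun ρ : ℝ => ∫⁻ y in Metric.ball x ρ, (ENNReal.ofReal (dist x y ^ 2))⁻¹ ∂p)
      (𝓝[>] 0) (𝓝 0) := by
  have hm : Measurable (fun y => (ENNReal.ofReal (dist x y ^ 2))⁻¹) :=
    ((measurable_const.dist measurable_id).pow_const 2).ennreal_ofReal.inv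
  have e : ∀ ρ : ℝ, ∫⁻ y in Metric.ball x ρ, (ENNReal.ofReal (dist x y ^ 2))⁻¹ ∂p
      = ∫⁻ y, (Metric.ball x ρ).indicator (fun y => (ENNReal.ofReal (dist x y ^ 2))⁻¹) y ∂p := by
    intro ρ
    rw [lintegral_indicator Metric.isOpen_ball.measurableSet]
  simp only [e]
  have h0 : (0 : ENNReal) = ∫⁻ _y : X, 0 ∂p := by simp only [lintegral_const, zero_mul]
  rw [h0]
  apply tendsto_lintegral_filter_of_dominated_convergence
    (fun y => (ENNReal.ofReal (dist x y ^ 2))⁻¹)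
  · exact Filter.Eventually.of_forall
      (fun ρ => (hm.indicator Metric.isOpen_ball.measurableSet))
  · exact Filter.Eventually.of_forall (fun ρ => Filter.Eventually.of_forall
      (fun y => Set.indicator_le_self _ _ _))
  · exact hf.ne
  · have h1 : ∀ᵐ y ∂p, (ENNReal.ofReal (dist x y ^ 2))⁻¹ < ⊤ := ae_lt_top hm hf.ne
    filter_upwards [h1] with y hy
    have hxy : 0 < dist x y := by
      rcases (dist_nonneg (x := x) (y := y)).lt_or_eq with h | h
      · exact h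
      · rw [← h] at hy; simp at hy
    apply tendsto_const_nhds.congr'
    have h2 : Set.Ioo (0:ℝ) (dist x y) ∈ 𝓝[>] (0:ℝ) := Ioo_mem_nhdsGT hxy
    filter_upwards [h2] with ρ hρ
    rw [Set.indicator_of_notMem]
    intro hmem
    have : dist y x < ρ := hmem
    rw [dist_comm] at this
    linarith only [this, hρ.2]


theorem ball_mass_le (p : Measure X) [IsFiniteMeasure p] (x : X) {ρ : ℝ} (hρ : 0 < ρ) :
    (ENNReal.ofReal (ρ ^ 2))⁻¹ * p (Metric.ball x ρ)
      ≤ ∫⁻ y in Metric.ball x ρ, (ENNReal.ofReal (dist x y ^ 2))⁻¹ ∂p := by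
  rw [← setLIntegral_const]
  apply setLIntegral_mono' Metric.isOpen_ball.measurableSet
  intro y hy
  apply ENNReal.inv_le_inv.mpr
  apply ENNReal.ofReal_le_ofReal
  have h1 : dist y x < ρ := hy
  rw [dist_comm] at h1
  exact pow_le_pow_left₀ dist_nonneg h1.le 2


theorem density_tendsto (p : Measure X) [IsFiniteMeasure p] (x : X)
    (hf : ∫⁻ y, (ENNReal.ofReal (dist x y ^ 2))⁻¹ ∂p < ⊤) {k : ℝ} (hk : 0 < k) :
    Filter.Tendsto (fun δ : ℝ => (δ ^ 2)⁻¹ * (p (Metric.ball x (k * δ))).toReal)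
      (𝓝[>] 0) (𝓝 0) := by
  have h1 := pot_tendsto p x hf
  have h2 : Filter.Tendsto (fun δ : ℝ => k * δ) (𝓝[>] 0) (𝓝[>] 0) := by
    apply tendsto_nhdsWithin_iff.mpr
    constructor
    · have : Filter.Tendsto (fun δ : ℝ => k * δ) (𝓝 0) (𝓝 (k * 0)) :=
        (continuous_const.mul continuous_id).tendsto 0
      rw [mul_zero] at this
      exact this.mono_left nhdsWithin_le_nhds
    · filter_upwards [self_mem_nhdsWithin] with δ hδ
      exact mul_pos hk hδ
  have h3 := h1.comp h2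
  have h4 : Filter.Tendsto (fun δ : ℝ => k ^ 2 *
      (∫⁻ y in Metric.ball x (k * δ), (ENNReal.ofReal (dist x y ^ 2))⁻¹ ∂p).toReal)
      (𝓝[>] 0) (𝓝 0) := by
    have h5 := (ENNReal.tendsto_toReal ENNReal.zero_ne_top).comp h3
    have h6 := h5.const_mul (k ^ 2)
    rw [ENNReal.toReal_zero, mul_zero] at h6
    exact h6
  apply squeeze_zero' (g := fun δ : ℝ => k ^ 2 *
      (∫⁻ y in Metric.ball x (k * δ), (ENNReal.ofReal (dist x y ^ 2))⁻¹ ∂p).toReal) _ _ h4
  · exact Filter.Eventually.of_forall (fun δ => by positivity)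
  · filter_upwards [self_mem_nhdsWithin] with δ hδ
    have hδ0 : (0:ℝ) < δ := hδ
    have hkδ : 0 < k * δ := mul_pos hk hδ0
    have h7 := ball_mass_le p x hkδ
    have hfin : ∫⁻ y in Metric.ball x (k * δ), (ENNReal.ofReal (dist x y ^ 2))⁻¹ ∂p ≠ ⊤ :=
      ((setLIntegral_le_lintegral _ _).trans_lt hf).ne
    have h8 := ENNReal.toReal_mono hfin h7
    rw [ENNReal.toReal_mul, ENNReal.toReal_inv, ENNReal.toReal_ofReal (by positivity)] at h8
    calc (δ ^ 2)⁻¹ * (p (Metric.ball x (k * δ))).toReal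
        = k ^ 2 * (((k * δ) ^ 2)⁻¹ * (p (Metric.ball x (k * δ))).toReal) := by field_simp
      _ ≤ _ := mul_le_mul_of_nonneg_left h8 (by positivity)

theorem x_en_tendsto {p : Measure X} [IsFiniteMeasure p]
    (hb : ∃ C : ℝ, ∀ x (r : ℝ), 0 < r → r ≤ 1 → (p (Metric.ball x r)).toReal ≤ C * r ^ 2)
    (hf : ∀ᵐ x ∂p, ∫⁻ y, (ENNReal.ofReal (dist x y ^ 2))⁻¹ ∂p < ⊤) :
    Filter.Tendsto (Z.en p) (nhdsWithin 0 (Set.Ioi 0)) (nhds 0) := by
  have hc := Z.c_pos
  obtain ⟨C, hC⟩ := hb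
  have hC0 : ∀ x : X, 0 ≤ C := fun x => by
    have := hC x 1 one_pos le_rfl
    have h2 : (0:ℝ) ≤ (p (Metric.ball x 1)).toReal := ENNReal.toReal_nonneg
    linarith only [this, h2]
  have h1 : Filter.Tendsto (fun δ : ℝ => ∫ x, (δ ^ 2)⁻¹ *
      (p (Metric.ball x (2 * Z.c * δ))).toReal ∂p) (𝓝[>] 0) (𝓝 (∫ _x : X, (0:ℝ) ∂p)) := by
    apply tendsto_integral_filter_of_dominated_convergence (fun _ => C * (2 * Z.c) ^ 2)
    · exact Filter.Eventually.of_forall
        (fun δ => ((measurable_ball_real p _).const_mul _).aestronglyMeasurable)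
    · have h2 : Set.Ioo (0:ℝ) (1 / (2 * Z.c)) ∈ 𝓝[>] (0:ℝ) := Ioo_mem_nhdsGT (by positivity)
      filter_upwards [h2] with δ hδ
      refine Filter.Eventually.of_forall (fun x => ?_)
      have hδ0 : 0 < δ := hδ.1
      have h3 : 2 * Z.c * δ ≤ 1 := by
        have := hδ.2
        rw [lt_div_iff₀ (by positivity)] at this
        linarith
      rw [Real.norm_eq_abs, abs_of_nonneg (by positivity)]
      have h4 := hC x (2 * Z.c * δ) (by positivity) h3
      calc (δ ^ 2)⁻¹ * (p (Metric.ball x (2 * Z.c * δ))).toReal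
          ≤ (δ ^ 2)⁻¹ * (C * (2 * Z.c * δ) ^ 2) := by gcongr
        _ = C * (2 * Z.c) ^ 2 := by field_simp
    · exact integrable_const _
    · filter_upwards [hf] with x hx
      exact density_tendsto p x hx (by positivity)
  rw [integral_zero] at h1
  have h2 := h1.const_mul (Z.c ^ 7)
  rw [mul_zero] at h2
  apply squeeze_zero' _ _ h2
  · filter_upwards [self_mem_nhdsWithin] with δ hδ
    unfold en
    exact mul_nonneg (sq_nonneg _) (integral_nonneg (fun y => sq_nonneg _))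
  · filter_upwards [self_mem_nhdsWithin] with δ hδ
    exact Z.en_le_int p hδ

end FnSys
end Vale.Agent.P204K.GX
end

section
set_option linter.all false
/-!
G9, part d: mutual positivity and the pairing with `F`.
-/
open MeasureTheory Set
open scoped ContDiff InnerProductSpace Topology

namespace Vale.Agent.P204K.GX
open Vale.Agent.P204K.T4 _root_.P204K.GX

namespace FnSys
open G9

variable {X : Type} [MetricSpace X] [CompactSpace X] [MeasurableSpace X] [BorelSpace X] (Z : FnSys X)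

theorem norm_st (u : Lp E6 2 Z.μ) : ‖Z.Y.st u‖ = ‖u‖ := by
  have h : ‖Z.Y.st u‖ ^ 2 = ‖u‖ ^ 2 := by
    rw [← real_inner_self_eq_norm_sq, Z.Y.st_symm, Z.Y.st_st, real_inner_self_eq_norm_sq]
  exact (sq_eq_sq₀ (norm_nonneg _) (norm_nonneg _)).mp h

/-- `w` represents the smoothed current -/
def Rep (t : Measure X) (D : X → L2) (δ : ℝ) (w : Lp E6 2 Z.μ) : Prop :=
  ∀ u, ⟪w, Z.Y.st u⟫_ℝ = fn t D (Z.Y.S δ u : X → L2)

theorem en_nonneg (t : Measure X) (δ : ℝ) : 0 ≤ Z.en t δ := by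
  unfold en
  exact mul_nonneg (sq_nonneg _) (integral_nonneg (fun y => sq_nonneg _))

theorem rep_norm {t : Measure X} {D : X → L2} (h : Cur t D) {δ : ℝ} (h0 : 0 < δ)
    (h1 : δ ≤ Z.Y.δ0) {w : Lp E6 2 Z.μ} (hw : Z.Rep t D δ w) :
    δ * ‖w‖ ≤ 6 * Real.sqrt (Z.en t δ) := by
  have := h.fin
  have e : ‖w‖ ^ 2 = fn t D (Z.Y.S δ (Z.Y.st w) : X → L2) := by
    rw [← hw, Z.Y.st_st, real_inner_self_eq_norm_sq]
  have h2 := Z.E1 h h0 h1 (Z.Y.st w)
  have h3 := Z.int_maj_le (t := t) h0 (Z.Y.st w)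
  rw [norm_st] at h3
  have h4 : δ * ‖w‖ ^ 2 ≤ 6 * (Real.sqrt (Z.en t δ) * ‖w‖) := by
    rw [e]
    have h5 := le_abs_self (fn t D (Z.Y.S δ (Z.Y.st w) : X → L2))
    linarith only [mul_nonneg (le_of_lt (sub_pos.2 h0)) (sub_nonneg.2 h5), mul_nonneg (le_of_lt (sub_pos.2 h0)) (sub_nonneg.2 h2), h3]
  rcases (norm_nonneg w).lt_or_eq with hp | hp
  · have : (δ * ‖w‖) * ‖w‖ ≤ (6 * Real.sqrt (Z.en t δ)) * ‖w‖ := by linarith only [h4]
    exact le_of_mul_le_mul_right this hp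
  · rw [← hp, mul_zero]; positivity

theorem rep_pm {t : Measure X} {D : X → L2} (h : Cur t D) {δ : ℝ} (h0 : 0 < δ)
    (h1 : δ ≤ Z.Y.δ0) {w : Lp E6 2 Z.μ} (hw : Z.Rep t D δ w) :
    ‖Z.Y.pmH w‖ ≤ 6 * Real.sqrt (Z.en t δ) := by
  have := h.fin
  have e : ‖Z.Y.pmH w‖ ^ 2 = fn t D (Z.Y.S δ (Z.Y.pmH (Z.Y.pmH w)) : X → L2) := by
    rw [← hw, Z.Y.st_pmH, ← Z.Y.pmH_symm, real_inner_self_eq_norm_sq]
  have h2 := Z.E1m h h0 h1 (Z.Y.pmH w)
  have h3 := Z.int_maj_le (t := t) h0 (Z.Y.pmH w)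
  have h4 : ‖Z.Y.pmH w‖ ^ 2 ≤ 6 * (Real.sqrt (Z.en t δ) * ‖Z.Y.pmH w‖) := by
    rw [e]
    have h5 := le_abs_self (fn t D (Z.Y.S δ (Z.Y.pmH (Z.Y.pmH w)) : X → L2))
    linarith
  rcases (norm_nonneg (Z.Y.pmH w)).lt_or_eq with hp | hp
  · have : ‖Z.Y.pmH w‖ * ‖Z.Y.pmH w‖ ≤ (6 * Real.sqrt (Z.en t δ)) * ‖Z.Y.pmH w‖ := by linarith only [h4]
    exact le_of_mul_le_mul_right this hp
  · rw [← hp]; positivity

theorem hs_F0 : hs F0 = F0 := by
  funext i; fin_cases i <;> simp only [hs, F0, Fin.isValue, Matrix.cons_val, neg_zero, Matrix.cons_val_one, Matrix.cons_val_zero, Fin.zero_eta, Fin.mk_one, Fin.reduceFinMk]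

theorem Q_F0_inner (A : L2) : Q A F0 = ⟪toE A, toE F0⟫_ℝ := by
  rw [Q_inner, hs_F0]

theorem norm_toE_F0 : ‖toE F0‖ ^ 2 = 2 := by
  rw [← real_inner_self_eq_norm_sq, ← Q_F0_inner, Q_F0_F0]

/-- the majorant times `F0` as an element of `H` -/
noncomputable def mF (t : Measure X) [IsFiniteMeasure t] {δ : ℝ} (h0 : 0 < δ) : Lp E6 2 Z.μ :=
  (MemLp.of_bound (f := fun y => Z.maj t δ y • toE F0)
    ((Z.maj_meas t δ).smul_const _).aestronglyMeasurable
    (Z.c * (δ ^ 4)⁻¹ * (t Set.univ).toReal * ‖toE F0‖) (Filter.Eventually.of_forall (fun y => by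
      rw [norm_smul, Real.norm_eq_abs, abs_of_nonneg (Z.maj_nonneg h0 y)]
      exact mul_le_mul_of_nonneg_right (Z.maj_le t h0 y) (norm_nonneg _)))).toLp _

theorem mF_coe (t : Measure X) [IsFiniteMeasure t] {δ : ℝ} (h0 : 0 < δ) :
    (Z.mF t h0 : X → E6) =ᵐ[Z.μ] fun y => Z.maj t δ y • toE F0 := MemLp.coeFn_toLp _

theorem inner_mF (t : Measure X) [IsFiniteMeasure t] {δ : ℝ} (h0 : 0 < δ) (b : Z.Om) :
    ⟪Z.mF t h0, Z.Y.ι b⟫_ℝ = ∫ y, Z.maj t δ y * Q ((b : X → L2) y) F0 ∂Z.μ := by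
  rw [L2.inner_def]
  apply integral_congr_ae
  filter_upwards [Z.mF_coe t h0, Z.ι_eq b] with y h1 h2
  rw [h1, h2, inner_smul_left, Q_F0_inner, real_inner_comm]
  rfl

theorem norm_mF (t : Measure X) [IsFiniteMeasure t] {δ : ℝ} (h0 : 0 < δ) :
    δ * ‖Z.mF t h0‖ = Real.sqrt (2 * Z.en t δ) := by
  have h1 : ‖Z.mF t h0‖ ^ 2 = 2 * ∫ y, Z.maj t δ y ^ 2 ∂Z.μ := by
    rw [Z.norm_sq_int, ← integral_const_mul]
    apply integral_congr_ae
    filter_upwards [Z.mF_coe t h0] with y hy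
    rw [hy, norm_smul, mul_pow, norm_toE_F0, Real.norm_eq_abs, sq_abs]; ring
  have h2 : 2 * Z.en t δ = (δ * ‖Z.mF t h0‖) ^ 2 := by
    unfold en; rw [mul_pow, h1]; ring
  rw [h2, Real.sqrt_sq (by positivity)]

/-- positivity on smooth positive forms -/
theorem pos_smooth {t : Measure X} {D : X → L2} (h : Cur t D) {δ : ℝ} (h0 : 0 < δ)
    (h1 : δ ≤ Z.Y.δ0) (b : Z.Om) (hb : ∀ x, Cone J0 ((b : X → L2) x)) :
    -(δ ^ 2 * ∫ y, ‖(b : X → L2) y‖ * Z.maj t δ y ∂Z.μ) ≤ fn t D (Z.Y.S δ (Z.Y.ι b) : X → L2) := by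
  have := h.fin
  rw [Z.fn_pP h, ← Z.int_mean t δ b, ← integral_const_mul, ← integral_neg]
  have hi : Integrable (fun x => Q (D x) (pP J0 ((Z.Y.S δ (Z.Y.ι b) : X → L2) x))) t := by
    refine (Z.fn_integrable h (Z.Y.S δ (Z.Y.ι b))).congr (Filter.Eventually.of_forall (fun x => ?_))
    exact (Q_inv_pP isCx_J0 pos_J0 (h.cone x).1 _).symm
  apply integral_mono (((Z.mean_integrable t δ b).const_mul (δ ^ 2)).neg) hi
  intro x
  have h2 := Z.P3 δ b x h0 h1 hb
  have h3 := Q_cone_nonneg isCx_J0 pos_J0 (h.cone x) h2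
  rw [Q_add_right, Q_smul_right, h.norm x, mul_one] at h3
  show -(δ ^ 2 * (Z.c * (δ ^ 4)⁻¹ * ∫ y in Metric.ball x (Z.c * δ), ‖(b : X → L2) y‖ ∂Z.μ))
    ≤ Q (D x) (pP J0 ((Z.Y.S δ (Z.Y.ι b) : X → L2) x))
  have e : δ ^ 2 * (Z.c * (δ ^ 4)⁻¹ * ∫ y in Metric.ball x (Z.c * δ), ‖(b : X → L2) y‖ ∂Z.μ)
    = Z.c * δ ^ 2 * (δ ^ 4)⁻¹ * ∫ y in Metric.ball x (Z.c * δ), ‖(b : X → L2) y‖ ∂Z.μ := by ring
  rw [e]
  linarith only [h3]

/-- cone duality -/
theorem cone_of_pair {A : L2} (h : ∀ B : L2, Cone J0 B → 0 ≤ Q B A) : Cone J0 (pP J0 A) := by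
  apply cone_of_Q isCx_J0 pos_J0 (pull_pP isCx_J0 A)
  intro a
  rw [Q_comm, Q_inv_pP isCx_J0 pos_J0 (cone_wd isCx_J0 a).1]
  exact h _ (cone_wd isCx_J0 a)

theorem pP_add (A B : L2) : pP J0 (A + B) = pP J0 A + pP J0 B := by
  unfold pP; rw [pull_add]; module

theorem pP_smul (c : ℝ) (A : L2) : pP J0 (c • A) = c • pP J0 A := by
  unfold pP; rw [pull_smul]; module

theorem pP_F0 : pP J0 F0 = F0 := pP_of_inv cone_F0.1

theorem Q_split (A B : L2) : Q A B = Q (pP J0 A) (pP J0 B) + Q (pM J0 A) (pM J0 B) := by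
  conv_lhs => rw [← pP_add_pM J0 A, ← pP_add_pM J0 B]
  rw [Q_add_left, Q_add_right, Q_add_right, Q_pP_pM isCx_J0 pos_J0, Q_comm (pM J0 A) (pP J0 B),
    Q_pP_pM isCx_J0 pos_J0]
  ring

theorem Q_F0_pP (A : L2) : Q F0 (pP J0 A) = Q F0 A := Q_inv_pP isCx_J0 pos_J0 cone_F0.1 A

theorem norm_toE_F0_le : ‖toE F0‖ ≤ 2 := by
  have h := norm_toE_F0
  nlinarith only [h]

theorem one_le_norm_toE_F0 : 1 ≤ ‖toE F0‖ := by
  have h := norm_toE_F0
  (by_contra nlg; linarith [mul_eq_zero_of_left (sub_eq_zero.2 h) (‖toE F0‖ - (0)), mul_nonneg (le_of_lt (sub_pos.2 (not_le.1 nlg))) (sub_nonneg.2 (norm_nonneg (toE F0))), mul_eq_zero_of_left (sub_eq_zero.2 h) (1 - (‖toE F0‖)), mul_pos (sub_pos.2 (not_le.1 nlg)) (sub_pos.2 (not_le.1 nlg))])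

/-- pointwise mutual positivity -/
theorem pair_lower {W W' : L2} {s s' : ℝ} (hs : 0 ≤ s) (hs' : 0 ≤ s')
    (h : Cone J0 (pP J0 (W + s • F0))) (h' : Cone J0 (pP J0 (W' + s' • F0))) :
    -(2 * s' * ‖toE W‖ + 2 * s * ‖toE W'‖ + 2 * s * s' + ‖toE (pM J0 W)‖ * ‖toE (pM J0 W')‖) ≤ Q W W' := by
  have h1 := Q_cone_nonneg isCx_J0 pos_J0 h h'
  rw [pP_add, pP_add, pP_smul, pP_smul, pP_F0, Q_add_left, Q_add_right, Q_add_right, Q_smul_left,
    Q_smul_left, Q_smul_right, Q_smul_right, Q_F0_F0, Q_F0_pP, Q_comm _ F0, Q_F0_pP] at h1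
  have h2 := abs_Q_le' (pM J0 W) (pM J0 W')
  have h3 := abs_Q_le' F0 W
  have h4 := abs_Q_le' F0 W'
  rw [Q_split]
  have h5 := neg_abs_le (Q (pM J0 W) (pM J0 W'))
  have h6 := le_abs_self (Q F0 W)
  have h7 := le_abs_self (Q F0 W')
  have h8 : Q F0 W ≤ 2 * ‖toE W‖ := (h6.trans h3).trans
    (mul_le_mul_of_nonneg_right norm_toE_F0_le (norm_nonneg _))
  have h9 : Q F0 W' ≤ 2 * ‖toE W'‖ := (h7.trans h4).trans
    (mul_le_mul_of_nonneg_right norm_toE_F0_le (norm_nonneg _))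
  have h10 := mul_le_mul_of_nonneg_left h8 hs'
  have h11 := mul_le_mul_of_nonneg_left h9 hs
  linarith

theorem meas_Q_F0 (b : Z.Om) : Measurable (fun y => Q ((b : X → L2) y) F0) := by
  have h : Continuous (fun A : L2 => Q A F0) := by
    simp only [Q]; fun_prop
  exact h.measurable.comp (Z.meas b b.2)

theorem int_b_maj_le (t : Measure X) [IsFiniteMeasure t] {δ : ℝ} (h0 : 0 < δ) (b : Z.Om)
    (hb : ∀ x, Cone J0 ((b : X → L2) x)) :
    ∫ y, ‖(b : X → L2) y‖ * Z.maj t δ y ∂Z.μ ≤ ∫ y, Z.maj t δ y * Q ((b : X → L2) y) F0 ∂Z.μ := by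
  have hμ := Z.μfin
  have hbd : ∀ y, |Z.maj t δ y| ≤ Z.c * (δ ^ 4)⁻¹ * (t Set.univ).toReal := fun y => by
    rw [abs_of_nonneg (Z.maj_nonneg h0 y)]; exact Z.maj_le t h0 y
  have i1 : Integrable (fun y => ‖(b : X → L2) y‖ * Z.maj t δ y) Z.μ := by
    refine Integrable.of_bound (((Z.norm_b_meas b).mul (Z.maj_meas t δ)).aestronglyMeasurable)
      (Z.Y.M 0 b * (Z.c * (δ ^ 4)⁻¹ * (t Set.univ).toReal)) (Filter.Eventually.of_forall (fun y => ?_))
    rw [Real.norm_eq_abs]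
    show |‖(b : X → L2) y‖ * Z.maj t δ y| ≤ _
    rw [abs_mul]
    exact mul_le_mul (Z.abs_norm_b b y) (hbd y) (abs_nonneg _) ((abs_nonneg _).trans (Z.abs_norm_b b y))
  have i2 : Integrable (fun y => Z.maj t δ y * Q ((b : X → L2) y) F0) Z.μ := by
    refine Integrable.of_bound (((Z.maj_meas t δ).mul (Z.meas_Q_F0 b)).aestronglyMeasurable)
      ((Z.c * (δ ^ 4)⁻¹ * (t Set.univ).toReal) * (6 * (Z.Y.M 0 b * ‖F0‖)))
      (Filter.Eventually.of_forall (fun y => ?_))
    rw [Real.norm_eq_abs]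
    show |Z.maj t δ y * Q ((b : X → L2) y) F0| ≤ _
    rw [abs_mul]
    refine mul_le_mul (hbd y) ?_ (abs_nonneg _) ((abs_nonneg _).trans (hbd y))
    refine (abs_Q_le _ _).trans ?_
    have h6 := mul_le_mul_of_nonneg_right (Z.M0 b y) (norm_nonneg F0)
    linarith
  apply integral_mono i1 i2
  intro y
  show ‖(b : X → L2) y‖ * Z.maj t δ y ≤ Z.maj t δ y * Q ((b : X → L2) y) F0
  rw [mul_comm]
  exact mul_le_mul_of_nonneg_left (norm_cone_le (hb y)) (Z.maj_nonneg h0 y)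

theorem rep_key {t : Measure X} [IsFiniteMeasure t] {D : X → L2} (h : Cur t D) {δ : ℝ} (h0 : 0 < δ)
    (h1 : δ ≤ Z.Y.δ0) {w : Lp E6 2 Z.μ} (hw : Z.Rep t D δ w) (b : Z.Om)
    (hb : ∀ x, Cone J0 ((b : X → L2) x)) :
    0 ≤ ⟪Z.Y.st w + δ ^ 2 • Z.mF t h0, Z.Y.ι b⟫_ℝ := by
  have h2 := Z.pos_smooth h h0 h1 b hb
  have h4 := mul_le_mul_of_nonneg_left (Z.int_b_maj_le t h0 b hb) (sq_nonneg δ)
  have e : ⟪Z.Y.st w + δ ^ 2 • Z.mF t h0, Z.Y.ι b⟫_ℝ = fn t D (Z.Y.S δ (Z.Y.ι b) : X → L2)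
      + δ ^ 2 * ∫ y, Z.maj t δ y * Q ((b : X → L2) y) F0 ∂Z.μ := by
    rw [inner_add_left, real_inner_smul_left, Z.inner_mF, Z.Y.st_symm, hw]
  rw [e]
  linarith

/-- the smoothed current plus a multiple of `F0` is positive almost everywhere -/
theorem rep_cone {t : Measure X} {D : X → L2} (h : Cur t D) {δ : ℝ} (h0 : 0 < δ)
    (h1 : δ ≤ Z.Y.δ0) {w : Lp E6 2 Z.μ} (hw : Z.Rep t D δ w) :
    ∀ᵐ x ∂Z.μ, Cone J0 (pP J0 (ofE (w x) + (δ ^ 2 * Z.maj t δ x) • F0)) := by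
  have := h.fin
  have hp := Z.pos_dense _ (Z.rep_key h h0 h1 hw)
  filter_upwards [hp, Lp.coeFn_add (Z.Y.st w) (δ ^ 2 • Z.mF t h0), Lp.coeFn_smul (δ ^ 2) (Z.mF t h0),
    Z.mF_coe t h0, Z.st_eq w] with x e1 e2 e3 e4 e5
  apply cone_of_pair
  intro B hB
  have e6 := e1 B hB
  rw [e2, Pi.add_apply, e3, Pi.smul_apply, e4, e5, real_inner_comm, smul_smul] at e6
  rw [Q_inner, hs_add, hs_smul, hs_F0, map_add, map_smul]
  exact e6

theorem int_mul_norm (u v : Lp E6 2 Z.μ) : Integrable (fun x => ‖u x‖ * ‖v x‖) Z.μ :=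
  (Z.memLp_norm u).integrable_mul (Z.memLp_norm v)

theorem cs_two (u v : Lp E6 2 Z.μ) : ∫ x, ‖u x‖ * ‖v x‖ ∂Z.μ ≤ ‖u‖ * ‖v‖ := by
  have h := integral_mul_le_Lp_mul_Lq_of_nonneg (μ := Z.μ) (f := fun x => ‖u x‖) (g := fun x => ‖v x‖)
    Real.HolderConjugate.two_two (Filter.Eventually.of_forall (fun x => norm_nonneg _))
    (Filter.Eventually.of_forall (fun x => norm_nonneg _)) (by simpa only [ENNReal.ofReal_ofNat] using Z.memLp_norm u)
    (by simpa only [ENNReal.ofReal_ofNat] using Z.memLp_norm v)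
  refine h.trans (le_of_eq ?_)
  have e1 : ∀ u : Lp E6 2 Z.μ, (∫ a, ‖u a‖ ^ (2:ℝ) ∂Z.μ) ^ (1 / 2 : ℝ) = ‖u‖ := by
    intro u
    simp only [Real.rpow_two]
    rw [← Z.norm_sq_int, ← Real.sqrt_eq_rpow, Real.sqrt_sq (norm_nonneg _)]
  rw [e1, e1]

theorem inner_st_Q (w w' : Lp E6 2 Z.μ) : ⟪w, Z.Y.st w'⟫_ℝ = ∫ x, Q (ofE (w x)) (ofE (w' x)) ∂Z.μ := by
  rw [L2.inner_def]
  apply integral_congr_ae
  filter_upwards [Z.st_eq w'] with x hx
  rw [hx, Q_inner]; rfl

theorem Q_integrable (w w' : Lp E6 2 Z.μ) : Integrable (fun x => Q (ofE (w x)) (ofE (w' x))) Z.μ := by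
  refine (L2.integrable_inner (𝕜 := ℝ) w (Z.Y.st w')).congr ?_
  filter_upwards [Z.st_eq w'] with x hx
  rw [hx, Q_inner]; rfl

/-- mutual positivity of two smoothed positive currents -/
theorem x_t3' {t p : Measure X} {D E : X → L2} (h : Cur t D) (h' : Cur p E) : ∃ C : ℝ, 0 ≤ C ∧
    ∀ δ (w w' : Lp E6 2 Z.μ), 0 < δ → δ ≤ Z.Y.δ0 →
    (∀ u, ⟪w, Z.Y.st u⟫_ℝ = fn t D (Z.Y.S δ u : X → L2)) →
    (∀ u, ⟪w', Z.Y.st u⟫_ℝ = fn p E (Z.Y.S δ u : X → L2)) →
    -(C * Real.sqrt (Z.en t δ) * Real.sqrt (Z.en p δ)) ≤ ⟪w, Z.Y.st w'⟫_ℝ := by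
  refine ⟨64, by norm_num, fun δ w w' h0 h1 hw hw' => ?_⟩
  have := h.fin
  have := h'.fin
  have hδ1 : δ ≤ 1 := h1.trans Z.Y.δ0_le
  set st := Real.sqrt (Z.en t δ) with hst
  set sp := Real.sqrt (Z.en p δ) with hsp
  have hst0 : 0 ≤ st := Real.sqrt_nonneg _
  have hsp0 : 0 ≤ sp := Real.sqrt_nonneg _
  have n1 := Z.rep_norm h h0 h1 hw
  have n2 := Z.rep_norm h' h0 h1 hw'
  have n3 := Z.rep_pm h h0 h1 hw
  have n4 := Z.rep_pm h' h0 h1 hw'
  have i1 := Z.int_norm_mul w (Z.maj_meas p δ) (Z.maj_nonneg h0) (Z.maj_le p h0)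
  have i2 := Z.int_norm_mul w' (Z.maj_meas t δ) (Z.maj_nonneg h0) (Z.maj_le t h0)
  have i3 := Z.int_norm_mul (Z.mF p h0) (Z.maj_meas t δ) (Z.maj_nonneg h0) (Z.maj_le t h0)
  have i4 := Z.int_mul_norm (Z.Y.pmH w) (Z.Y.pmH w')
  have b1 := Z.int_maj_le (t := p) h0 w
  have b2 := Z.int_maj_le (t := t) h0 w'
  have b3 := Z.int_maj_le (t := t) h0 (Z.mF p h0)
  have b4 := Z.cs_two (Z.Y.pmH w) (Z.Y.pmH w')
  have n5 := Z.norm_mF p h0
  rw [Z.inner_st_Q]
  have hpt : ∀ᵐ x ∂Z.μ, -(2 * δ ^ 2 * (‖w x‖ * Z.maj p δ x) + 2 * δ ^ 2 * (‖w' x‖ * Z.maj t δ x)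
      + 2 * δ ^ 4 * (‖Z.mF p h0 x‖ * Z.maj t δ x) + ‖Z.Y.pmH w x‖ * ‖Z.Y.pmH w' x‖)
      ≤ Q (ofE (w x)) (ofE (w' x)) := by
    filter_upwards [Z.rep_cone h h0 h1 hw, Z.rep_cone h' h0 h1 hw', Z.pmH_eq w, Z.pmH_eq w',
      Z.mF_coe p h0] with x e1 e2 e3 e4 e5
    have m1 := Z.maj_nonneg (t := t) h0 x
    have m2 := Z.maj_nonneg (t := p) h0 x
    have e6 := pair_lower (by positivity) (by positivity) e1 e2
    rw [e3, e4, e5]
    refine le_trans ?_ e6
    rw [toE_ofE, toE_ofE, norm_smul, Real.norm_eq_abs, abs_of_nonneg m2]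
    have e7 : Z.maj p δ x * 1 ≤ Z.maj p δ x * ‖toE F0‖ := mul_le_mul_of_nonneg_left one_le_norm_toE_F0 m2
    have e8 : δ ^ 4 * Z.maj t δ x * (Z.maj p δ x * 1) ≤ δ ^ 4 * Z.maj t δ x * (Z.maj p δ x * ‖toE F0‖) :=
      mul_le_mul_of_nonneg_left e7 (by positivity)
    linarith only [e8]
  have hI : Integrable (fun x => -(2 * δ ^ 2 * (‖w x‖ * Z.maj p δ x) + 2 * δ ^ 2 * (‖w' x‖ * Z.maj t δ x)
      + 2 * δ ^ 4 * (‖Z.mF p h0 x‖ * Z.maj t δ x) + ‖Z.Y.pmH w x‖ * ‖Z.Y.pmH w' x‖)) Z.μ :=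
    ((((i1.const_mul _).add (i2.const_mul _)).add (i3.const_mul _)).add i4).neg
  have hmono := integral_mono_ae hI (Z.Q_integrable w w') hpt
  refine le_trans ?_ hmono
  rw [integral_neg, integral_add, integral_add, integral_add, integral_const_mul, integral_const_mul,
    integral_const_mul]
  rotate_left
  · exact i1.const_mul _
  · exact i2.const_mul _
  · exact (i1.const_mul _).add (i2.const_mul _)
  · exact i3.const_mul _
  · exact ((i1.const_mul _).add (i2.const_mul _)).add (i3.const_mul _)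
  · exact i4
  set I1 := ∫ x, ‖w x‖ * Z.maj p δ x ∂Z.μ
  set I2 := ∫ x, ‖w' x‖ * Z.maj t δ x ∂Z.μ
  set I3 := ∫ x, ‖Z.mF p h0 x‖ * Z.maj t δ x ∂Z.μ
  set I4 := ∫ x, ‖Z.Y.pmH w x‖ * ‖Z.Y.pmH w' x‖ ∂Z.μ
  -- bounds
  have c1 : δ ^ 2 * I1 ≤ 6 * (st * sp) := by
    have a1 : δ * (δ * I1) ≤ δ * (sp * ‖w‖) := mul_le_mul_of_nonneg_left b1 h0.le
    have a2 : sp * (δ * ‖w‖) ≤ sp * (6 * st) := mul_le_mul_of_nonneg_left n1 hsp0
    linarith only [a2, a1]
  have c2 : δ ^ 2 * I2 ≤ 6 * (st * sp) := by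
    have a1 : δ * (δ * I2) ≤ δ * (st * ‖w'‖) := mul_le_mul_of_nonneg_left b2 h0.le
    have a2 : st * (δ * ‖w'‖) ≤ st * (6 * sp) := mul_le_mul_of_nonneg_left n2 hst0
    linarith only [a2, a1]
  have c3 : δ ^ 4 * I3 ≤ 2 * (st * sp) := by
    have a0 : Real.sqrt (2 * Z.en p δ) ≤ 2 * sp := by
      rw [Real.sqrt_mul (by norm_num)]
      have : Real.sqrt 2 ≤ 2 := by
        rw [Real.sqrt_le_left (by norm_num)]; norm_num
      exact mul_le_mul_of_nonneg_right this hsp0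
    have a1 : δ * (δ * I3) ≤ δ * (st * ‖Z.mF p h0‖) := mul_le_mul_of_nonneg_left b3 h0.le
    have a2 : st * (δ * ‖Z.mF p h0‖) ≤ st * (2 * sp) := mul_le_mul_of_nonneg_left (n5.le.trans a0) hst0
    have a3 : δ ^ 2 * I3 ≤ 2 * (st * sp) := by linarith only [a2, a1]
    have a4 : δ ^ 2 ≤ 1 := pow_le_one₀ h0.le hδ1
    have a5 : 0 ≤ st * sp := mul_nonneg hst0 hsp0
    calc δ ^ 4 * I3 = δ ^ 2 * (δ ^ 2 * I3) := by ring
      _ ≤ δ ^ 2 * (2 * (st * sp)) := mul_le_mul_of_nonneg_left a3 (sq_nonneg _)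
      _ ≤ 1 * (2 * (st * sp)) := mul_le_mul_of_nonneg_right a4 (by (clear * -; positivity))
      _ = 2 * (st * sp) := one_mul _
  have c4 : I4 ≤ 36 * (st * sp) := by
    refine b4.trans ?_
    calc ‖Z.Y.pmH w‖ * ‖Z.Y.pmH w'‖ ≤ (6 * st) * (6 * sp) :=
          mul_le_mul n3 n4 (norm_nonneg _) (by positivity)
      _ = 36 * (st * sp) := by ring
  linarith only [c1, c2, c3, c4]

end FnSys
end Vale.Agent.P204K.GX
end

section
set_option linter.all false
/-!
G9, part e: the pairing of the smoothed current with the smoothed `F`.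
-/
open MeasureTheory Set
open scoped ContDiff InnerProductSpace Topology

namespace Vale.Agent.P204K.GX
open Vale.Agent.P204K.T4 _root_.P204K.GX

namespace FnSys
open G9

variable {X : Type} [MetricSpace X] [CompactSpace X] [MeasurableSpace X] [BorelSpace X] (Z : FnSys X)

/-- `L1` bound of the representing vector -/
theorem rep_L1 {t : Measure X} {D : X → L2} (h : Cur t D) {δ : ℝ} (h0 : 0 < δ)
    (h1 : δ ≤ Z.Y.δ0) {w : Lp E6 2 Z.μ} (hw : Z.Rep t D δ w) :
    ∫ x, ‖w x‖ ∂Z.μ ≤ 6 * (Z.c ^ 6 * (t Set.univ).toReal) := by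
  have := h.fin
  have hμ := Z.μfin
  have hm : AEStronglyMeasurable (fun x => ‖w x‖⁻¹ • w x) Z.μ := by
    have h2 := Lp.aestronglyMeasurable w
    exact (h2.norm.aemeasurable.inv.aestronglyMeasurable).smul h2
  have hb : ∀ᵐ x ∂Z.μ, ‖‖w x‖⁻¹ • w x‖ ≤ 1 := by
    apply Filter.Eventually.of_forall
    intro x
    rw [norm_smul, norm_inv, norm_norm]
    rcases eq_or_ne ‖w x‖ 0 with h2 | h2
    · rw [h2]; simp only [inv_zero, mul_zero, zero_le_one]
    · rw [inv_mul_cancel₀ h2]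
  set u0 : Lp E6 2 Z.μ := (MemLp.of_bound hm 1 hb).toLp _ with hu0
  have hu : (u0 : X → E6) =ᵐ[Z.μ] fun x => ‖w x‖⁻¹ • w x := MemLp.coeFn_toLp _
  have e1 : ∫ x, ‖w x‖ ∂Z.μ = ⟪w, u0⟫_ℝ := by
    rw [L2.inner_def]
    apply integral_congr_ae
    filter_upwards [hu] with x hx
    rw [hx, real_inner_smul_right, real_inner_self_eq_norm_sq]
    rcases eq_or_ne ‖w x‖ 0 with h2 | h2
    · rw [h2]; simp
    · field_simp
  have e2 : ⟪w, u0⟫_ℝ = fn t D (Z.Y.S δ (Z.Y.st u0) : X → L2) := by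
    rw [← hw, Z.Y.st_st]
  have e3 : ∫ y, ‖Z.Y.st u0 y‖ * Z.maj t δ y ∂Z.μ ≤ ∫ y, Z.maj t δ y ∂Z.μ := by
    apply integral_mono_ae
    · exact Z.int_norm_mul _ (Z.maj_meas t δ) (Z.maj_nonneg h0) (Z.maj_le t h0)
    · exact Z.maj_integrable t h0
    · filter_upwards [Z.st_eq u0, hu, hb] with y h2 h3 h4
      show ‖Z.Y.st u0 y‖ * Z.maj t δ y ≤ Z.maj t δ y
      rw [h2, norm_toE_hs, toE_ofE, h3]
      have h5 := mul_le_mul_of_nonneg_right h4 (Z.maj_nonneg (t := t) h0 y)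
      rwa [one_mul] at h5
  rw [e1, e2]
  calc fn t D (Z.Y.S δ (Z.Y.st u0) : X → L2) ≤ |fn t D (Z.Y.S δ (Z.Y.st u0) : X → L2)| := le_abs_self _
    _ ≤ 6 * ∫ y, ‖Z.Y.st u0 y‖ * Z.maj t δ y ∂Z.μ := Z.E1 h h0 h1 _
    _ ≤ 6 * (Z.c ^ 6 * (t Set.univ).toReal) := by
      apply mul_le_mul_of_nonneg_left (e3.trans (Z.maj_int t h0)) (by norm_num)

/-- pairing of `F` with a smooth form -/
theorem inner_F (b : Z.Om) : ⟪Z.Y.ι Z.F, Z.Y.st (Z.Y.ι b)⟫_ℝ = ∫ x, Q F0 ((b : X → L2) x) ∂Z.μ := by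
  rw [L2.inner_def]
  apply integral_congr_ae
  filter_upwards [Z.st_eq (Z.Y.ι b), Z.ι_eq b, Z.ι_eq Z.F] with x h1 h2 h3
  rw [h1, h2, h3, ofE_toE, Z.F_eq, ← Q_inner]

/-- difference functional of the smoothed `F` -/
theorem dF_bound {δ : ℝ} (h0 : 0 < δ) (h1 : δ ≤ Z.Y.δ0) (u : Lp E6 2 Z.μ) :
    |⟪Z.Y.ι Z.F, Z.Y.st (Z.Y.ι (Z.Y.S δ u))⟫_ℝ - ⟪Z.Y.ι Z.F, Z.Y.st u⟫_ℝ|
      ≤ Z.c * δ * ∫ x, ‖u x‖ ∂Z.μ := by
  have hμ := Z.μfin
  have hc := Z.c_pos
  let L : Lp E6 2 Z.μ →L[ℝ] Lp E6 2 Z.μ := LinearMap.mkContinuous (Z.Y.ι ∘ₗ Z.Y.S δ) (Z.Y.K 0)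
    (fun u => Z.Y.S_norm δ u h0 h1)
  let f : Lp E6 2 Z.μ →L[ℝ] ℝ := (innerSL ℝ (Z.Y.ι Z.F)).comp (Z.Y.st.comp L)
    - (innerSL ℝ (Z.Y.ι Z.F)).comp Z.Y.st
  have hf : ∀ u, f u = ⟪Z.Y.ι Z.F, Z.Y.st (Z.Y.ι (Z.Y.S δ u))⟫_ℝ - ⟪Z.Y.ι Z.F, Z.Y.st u⟫_ℝ :=
    fun u => rfl
  have h2 := Z.closed_bound f (Z.c * δ) (by positivity) (g := fun _ => 1) measurable_const
    (fun _ => zero_le_one) (C := 1) (fun _ => le_refl _) (fun b => by
      rw [hf, Z.inner_F, Z.inner_F]
      simp only [mul_one]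
      exact Z.PF δ b h0 h1) u
  rw [hf] at h2
  simpa only [ge_iff_le, mul_one] using h2

theorem x_pF {t : Measure X} {D : X → L2} (h : Cur t D) (h1 : fn t D (Z.F : X → L2) = 1) :
    ∃ δ1 : ℝ, 0 < δ1 ∧ ∀ δ (w w' : Lp E6 2 Z.μ), 0 < δ → δ ≤ δ1 →
    (∀ u, ⟪w, Z.Y.st u⟫_ℝ = fn t D (Z.Y.S δ u : X → L2)) →
    (∀ u, ⟪w', Z.Y.st u⟫_ℝ = ⟪Z.Y.ι Z.F, Z.Y.st (Z.Y.ι (Z.Y.S δ u))⟫_ℝ) → 1 / 2 ≤ ⟪w, Z.Y.st w'⟫_ℝ := by
  have hc := Z.c_pos
  have hK : 0 < Z.Y.K 0 := lt_of_lt_of_le one_pos (Z.Y.one_le_K 0)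
  have hM : 0 ≤ Z.Y.M 1 Z.F := Z.Y.M_nonneg _ _
  set T := (t Set.univ).toReal with hT
  have hT0 : 0 ≤ T := ENNReal.toReal_nonneg
  set A := 6 * T * (Z.Y.K 0 * Z.Y.M 1 Z.F) + Z.c * (6 * (Z.c ^ 6 * T)) with hA
  have hA0 : 0 ≤ A := by positivity
  refine ⟨min Z.Y.δ0 (1 / (2 * (A + 1))), lt_min Z.Y.δ0_pos (by positivity), ?_⟩
  intro δ w w' h0 h2 hw hw'
  have hδ : δ ≤ Z.Y.δ0 := h2.trans (min_le_left _ _)
  have hδ' : δ ≤ 1 / (2 * (A + 1)) := h2.trans (min_le_right _ _)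
  have hδA : A * δ ≤ 1 / 2 := by
    have h3 : (A + 1) * δ ≤ (A + 1) * (1 / (2 * (A + 1))) := mul_le_mul_of_nonneg_left hδ' (by positivity)
    have h4 : (A + 1) * (1 / (2 * (A + 1))) = 1 / 2 := by field_simp
    linarith only [h4, h3, h0]
  -- split
  have e1 : ⟪w, Z.Y.st w'⟫_ℝ = fn t D (Z.Y.S δ (Z.Y.ι Z.F) : X → L2)
      + (⟪Z.Y.ι Z.F, Z.Y.st (Z.Y.ι (Z.Y.S δ w))⟫_ℝ - ⟪Z.Y.ι Z.F, Z.Y.st w⟫_ℝ) := by
    rw [← hw, ← hw', ← Z.Y.st_symm w w', real_inner_comm, ← Z.Y.st_symm w (Z.Y.ι Z.F),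
      real_inner_comm (Z.Y.st w) (Z.Y.ι Z.F)]
    ring
  have e2 := Z.fn_add h (Z.Y.S δ (Z.Y.ι Z.F)) (Z.F - Z.Y.S δ (Z.Y.ι Z.F))
  rw [add_sub_cancel, h1] at e2
  have e3 := Z.fn_bound h (Z.F - Z.Y.S δ (Z.Y.ι Z.F))
  have e4 := Z.Y.O2M 0 δ Z.F h0 hδ
  have e5 := Z.dF_bound h0 hδ w
  have e6 := Z.rep_L1 h h0 hδ hw
  have e7 : 6 * T * Z.Y.M 0 (Z.F - Z.Y.S δ (Z.Y.ι Z.F)) ≤ 6 * T * (Z.Y.K 0 * δ * Z.Y.M 1 Z.F) :=
    mul_le_mul_of_nonneg_left e4 (by positivity)
  have e8 : Z.c * δ * ∫ x, ‖w x‖ ∂Z.μ ≤ Z.c * δ * (6 * (Z.c ^ 6 * T)) :=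
    mul_le_mul_of_nonneg_left e6 (by positivity)
  have e9 := neg_abs_le (⟪Z.Y.ι Z.F, Z.Y.st (Z.Y.ι (Z.Y.S δ w))⟫_ℝ - ⟪Z.Y.ι Z.F, Z.Y.st w⟫_ℝ)
  have e10 := le_abs_self (fn t D ((Z.F - Z.Y.S δ (Z.Y.ι Z.F) : Z.Om) : X → L2))
  have e11 : 6 * T * (Z.Y.K 0 * δ * Z.Y.M 1 Z.F) + Z.c * δ * (6 * (Z.c ^ 6 * T)) = A * δ := by
    rw [hA]; ring
  rw [e1]
  linarith

end FnSys
end Vale.Agent.P204K.GX
end

section
set_option linter.all false
/-!
G7, part a: gluing finitely many positive currents of order zero.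
-/
open MeasureTheory Set
open scoped InnerProductSpace Topology ENNReal

namespace Vale.Agent.P204K.GX
open Vale.Agent.P204K.T4 _root_.P204K.GX

namespace G7

theorem cone_add {A B : L2} (hA : Cone J0 A) (hB : Cone J0 B) : Cone J0 (A + B) := by
  refine ⟨by rw [pull_add, hA.1, hB.1], fun v => ?_⟩
  rw [ev_add]; exact add_nonneg (hA.2 v) (hB.2 v)

theorem cone_smul {c : ℝ} (hc : 0 ≤ c) {A : L2} (hA : Cone J0 A) : Cone J0 (c • A) := by
  refine ⟨by rw [pull_smul, hA.1], fun v => ?_⟩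
  rw [ev_smul]; exact mul_nonneg hc (hA.2 v)

theorem cone_zero : Cone J0 (0 : L2) := by
  refine ⟨?_, fun v => ?_⟩
  · have := pull_smul J0 0 0
    simpa only [smul_zero, zero_smul] using this
  · have := ev_smul 0 (0 : L2) v (app J0 v)
    simp only [smul_zero, zero_mul] at this
    exact this.ge

theorem cone_sum {ι : Type*} (s : Finset ι) {G : ι → L2} (h : ∀ i ∈ s, Cone J0 (G i)) :
    Cone J0 (∑ i ∈ s, G i) := by
  classical
  induction s using Finset.induction_on with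
  | empty => simpa using cone_zero
  | insert a s ha ih =>
    rw [Finset.sum_insert ha]
    exact cone_add (h a (Finset.mem_insert_self a s)) (ih fun i hi => h i (Finset.mem_insert_of_mem hi))

theorem Q_sum_left {ι : Type*} (s : Finset ι) (G : ι → L2) (B : L2) :
    Q (∑ i ∈ s, G i) B = ∑ i ∈ s, Q (G i) B := by
  classical
  induction s using Finset.induction_on with
  | empty => simp
  | insert a s ha ih => rw [Finset.sum_insert ha, Finset.sum_insert ha, Q_add_left, ih]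

theorem Q_F0_F0' : Q F0 F0 = 2 := by simp only [Q, F0, Fin.isValue, Matrix.cons_val_zero, Matrix.cons_val, mul_one, Matrix.cons_val_one, mul_zero, sub_zero, add_zero]; norm_num

theorem Fm_J0' : Fm J0 = F0 := by
  funext i
  fin_cases i <;> simp only [Fm, ofEnt, J0, Fin.isValue, Matrix.cons_val', Matrix.cons_val_zero, Matrix.cons_val_fin_one, Matrix.cons_val_one, sub_neg_eq_add, add_self_div_two, Matrix.cons_val, sub_self, zero_div, Fin.zero_eta, F0, Fin.mk_one, Fin.reduceFinMk]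
  all_goals norm_num

theorem cone_F0' : Cone J0 F0 := by
  rw [← Fm_J0']; exact cone_Fm isCx_J0

variable {X : Type} [MeasurableSpace X]

/-- gluing of currents -/
theorem glue_cur {ι : Type} [Fintype ι] (ν : ι → Measure X) (hν : ∀ i, IsFiniteMeasure (ν i))
    (G : ι → X → L2) (hm : ∀ i, Measurable (G i)) (hc : ∀ i x, Cone J0 (G i x))
    (hn : ∀ i x, Q (G i x) F0 = 1) :
    ∃ (t : Measure X) (D : X → L2), IsFiniteMeasure t ∧ Measurable D ∧ (∀ x, Cone J0 (D x)) ∧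
      (∀ x, Q (D x) F0 = 1) ∧ ∀ b : X → L2, Measurable b → (∃ C : ℝ, ∀ i x, |Q (G i x) (b x)| ≤ C) →
        ∫ x, Q (D x) (b x) ∂t = ∑ i, ∫ x, Q (G i x) (b x) ∂(ν i) := by
  classical
  set t : Measure X := ∑ i, ν i with ht
  have hle : ∀ i, ν i ≤ t := fun i => Finset.single_le_sum (f := ν) (fun j _ => Measure.zero_le _) (Finset.mem_univ i)
  have htf : IsFiniteMeasure t := by
    constructor
    rw [ht, Measure.finset_sum_apply]
    exact ENNReal.sum_lt_top.2 fun i _ => measure_lt_top _ _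
  have hac : ∀ i, ν i ≪ t := fun i => (hle i).absolutelyContinuous
  set f : ι → X → ℝ≥0∞ := fun i => (ν i).rnDeriv t with hf
  have hfm : ∀ i, Measurable (f i) := fun i => Measure.measurable_rnDeriv _ _
  have hwd : ∀ i, t.withDensity (f i) = ν i := fun i => Measure.withDensity_rnDeriv_eq _ _ (hac i)
  have hlt : ∀ i, ∀ᵐ x ∂t, f i x < ∞ := fun i => Measure.rnDeriv_lt_top _ _
  -- the sum of the densities is one
  have hsum : ∀ᵐ x ∂t, ∑ i, f i x = 1 := by
    have h1 : t.withDensity (fun x => ∑ i, f i x) = t.withDensity 1 := by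
      rw [withDensity_one]
      have h2 : t.withDensity (fun x => ∑ i, f i x) = ∑ i, t.withDensity (f i) := by
        ext s hs
        rw [withDensity_apply _ hs, lintegral_finset_sum _ (fun i _ => hfm i), Measure.finset_sum_apply]
        exact Finset.sum_congr rfl fun i _ => (withDensity_apply _ hs).symm
      rw [h2]
      exact Finset.sum_congr rfl fun i _ => hwd i
    have h3 := (withDensity_eq_iff (μ := t) (f := fun x => ∑ i, f i x) (g := 1)
      (Finset.measurable_sum _ fun i _ => hfm i).aemeasurable aemeasurable_one (by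
        have h4 : ∫⁻ x, ∑ i, f i x ∂t = (t.withDensity (fun x => ∑ i, f i x)) univ := by
          rw [withDensity_apply _ MeasurableSet.univ, setLIntegral_univ]
        rw [h4, h1, withDensity_one]
        exact measure_ne_top _ _)).1 h1
    exact h3
  set D0 : X → L2 := fun x => ∑ i, (f i x).toReal • G i x with hD0
  have hD0m : Measurable D0 := Finset.measurable_sum _ fun i _ => ((hfm i).ennreal_toReal).smul (hm i)
  have hD0c : ∀ x, Cone J0 (D0 x) := fun x =>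
    cone_sum _ fun i _ => cone_smul ENNReal.toReal_nonneg (hc i x)
  have hD0n : ∀ᵐ x ∂t, Q (D0 x) F0 = 1 := by
    filter_upwards [hsum, ae_all_iff.2 hlt] with x h1 h2
    rw [hD0]
    show Q (∑ i, (f i x).toReal • G i x) F0 = 1
    rw [Q_sum_left]
    have : ∀ i, Q ((f i x).toReal • G i x) F0 = (f i x).toReal := by
      intro i; rw [Q_smul_left, hn i x, mul_one]
    simp only [this]
    rw [← ENNReal.toReal_sum (fun i _ => (h2 i).ne), h1]
    simp
  set D : X → L2 := fun x => if Q (D0 x) F0 = 1 then D0 x else (1 / 2 : ℝ) • F0 with hD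
  have hQm : Measurable (fun x => Q (D0 x) F0) := by
    have h : Continuous (fun A : L2 => Q A F0) := by simp only [Q]; fun_prop
    exact h.measurable.comp hD0m
  have hDD : ∀ᵐ x ∂t, D x = D0 x := by
    filter_upwards [hD0n] with x h1
    rw [hD]; simp only [h1, if_true]
  refine ⟨t, D, htf, ?_, ?_, ?_, ?_⟩
  · exact Measurable.ite (hQm (measurableSet_singleton 1)) hD0m measurable_const
  · intro x
    by_cases h : Q (D0 x) F0 = 1
    · simp only [hD, h, if_true]; exact hD0c x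
    · simp only [hD, h, if_false]; exact cone_smul (by norm_num) cone_F0'
  · intro x
    by_cases h : Q (D0 x) F0 = 1
    · simp only [hD, h, if_true]
    · simp only [hD, h, if_false]; rw [Q_smul_left, Q_F0_F0']; norm_num
  · intro b hb hC
    obtain ⟨C, hC⟩ := hC
    have hQb : ∀ i, Measurable (fun x => Q (G i x) (b x)) := fun i =>
      continuous_Q.measurable.comp ((hm i).prodMk hb)
    have e1 : ∀ i, ∫ x, Q (G i x) (b x) ∂(ν i) = ∫ x, (f i x).toReal * Q (G i x) (b x) ∂t := by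
      intro i
      conv_lhs => rw [← hwd i]
      rw [integral_withDensity_eq_integral_toReal_smul (hfm i) (hlt i)]
      rfl
    have hint : ∀ i, Integrable (fun x => (f i x).toReal * Q (G i x) (b x)) t := by
      intro i
      have h1 : Integrable (fun x => (f i x).toReal) t := Measure.integrable_toReal_rnDeriv
      exact h1.mul_bdd (hQb i).aestronglyMeasurable (c := C)
        (Filter.Eventually.of_forall fun x => by rw [Real.norm_eq_abs]; exact hC i x)
    simp only [e1]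
    rw [← integral_finset_sum _ fun i _ => hint i]
    apply integral_congr_ae
    filter_upwards [hDD] with x hx
    rw [hx]
    show Q (∑ i, (f i x).toReal • G i x) (b x) = _
    rw [Q_sum_left]
    exact Finset.sum_congr rfl fun i _ => by rw [Q_smul_left]

end G7
end Vale.Agent.P204K.GX
end

section
set_option linter.all false
/-!
G7, part b: continuous forms on `CM`, order unit, measure representation of positive functionals.
-/
open MeasureTheory Set
open scoped InnerProductSpace Topology ENNReal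

namespace Vale.Agent.P204K.GX
open Vale.Agent.P204K.T4 _root_.P204K.GX

namespace G7

theorem cont_pull {Z : Type*} [TopologicalSpace Z] {f : Z → M4} {g : Z → L2} (hf : Continuous f)
    (hg : Continuous g) : Continuous (fun z => pull (f z) (g z)) :=
  Continuous.comp (g := fun p : M4 × L2 => pull p.1 p.2) (f := fun z => (f z, g z))
    continuous_pull (hf.prodMk hg)

theorem contAt_pull {Z : Type*} [TopologicalSpace Z] {f : Z → M4} {g : Z → L2} {z : Z}
    (hf : ContinuousAt f z) (hg : ContinuousAt g z) : ContinuousAt (fun z => pull (f z) (g z)) z :=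
  ContinuousAt.comp (g := fun p : M4 × L2 => pull p.1 p.2) (f := fun z => (f z, g z))
    continuous_pull.continuousAt (hf.prodMk hg)

theorem meas_pull {Z : Type*} [MeasurableSpace Z] {f : Z → M4} {g : Z → L2} (hf : Measurable f)
    (hg : Measurable g) : Measurable (fun z => pull (f z) (g z)) :=
  Measurable.comp (g := fun p : M4 × L2 => pull p.1 p.2) (f := fun z => (f z, g z))
    continuous_pull.measurable (hf.prodMk hg)

theorem meas_Q {Z : Type*} [MeasurableSpace Z] {f : Z → L2} {g : Z → L2} (hf : Measurable f)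
    (hg : Measurable g) : Measurable (fun z => Q (f z) (g z)) :=
  Measurable.comp (g := fun p : L2 × L2 => Q p.1 p.2) (f := fun z => (f z, g z))
    continuous_Q.measurable (hf.prodMk hg)

theorem cont_app {Z : Type*} [TopologicalSpace Z] {f : Z → M4} {g : Z → V4} (hf : Continuous f)
    (hg : Continuous g) : Continuous (fun z => app (f z) (g z)) :=
  Continuous.comp (g := fun p : M4 × V4 => app p.1 p.2) (f := fun z => (f z, g z))
    continuous_app (hf.prodMk hg)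

theorem cont_ev {Z : Type*} [TopologicalSpace Z] {f : Z → L2} {g h : Z → V4} (hf : Continuous f)
    (hg : Continuous g) (hh : Continuous h) : Continuous (fun z => ev (f z) (g z) (h z)) :=
  Continuous.comp (g := fun p : L2 × V4 × V4 => ev p.1 p.2.1 p.2.2) (f := fun z => (f z, g z, h z))
    continuous_ev (hf.prodMk (hg.prodMk hh))

end G7

namespace CM
variable {X : Type} [MetricSpace X] (M : CM X)

theorem J_cont (a : M.A) : Continuous (M.J a) := (M.J_smooth a).continuous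

theorem cf_F0 (a : M.A) (y : V4) : M.cf a (fun _ => F0) y = pull (M.m a y) F0 := rfl

theorem mm_m'_J0 (a : M.A) (y : V4) : mm (M.m' a y) J0 = mm (M.J a y) (M.m' a y) := by
  apply m4_ext; intro v
  rw [app_mm, app_mm]
  have h := M.m_J a y (app (M.m' a y) v)
  rw [M.m_m'] at h
  rw [← h, M.m'_m]

/-- positivity in a chart -/
theorem ev_cf (a : M.A) (u : X → L2) (y v : V4) :
    ev (M.cf a u y) v (app (M.J a y) v)
      = ev (u (M.ψ a y)) (app (M.m a y) v) (app J0 (app (M.m a y) v)) := by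
  unfold cf
  rw [ev_pull, M.m_J]

theorem ev_frame (a : M.A) (u : X → L2) (y v : V4) :
    ev (u (M.ψ a y)) v (app J0 v)
      = ev (M.cf a u y) (app (M.m' a y) v) (app (M.J a y) (app (M.m' a y) v)) := by
  rw [ev_cf, M.m_m']

theorem cone_pull' {a : M.A} {y : V4} {B : L2} (h : Cone (M.J a y) B) :
    Cone J0 (pull (M.m' a y) B) := by
  refine ⟨?_, fun v => ?_⟩
  · rw [← pull_mm, M.mm_m'_J0, pull_mm, h.1]
  · rw [ev_pull]
    have e : app (M.m' a y) (app J0 v) = app (M.J a y) (app (M.m' a y) v) := by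
      rw [← app_mm, M.mm_m'_J0, app_mm]
    rw [e]; exact h.2 _

theorem posDef_F (a : M.A) (y : V4) : PosDef (M.J a y) (pull (M.m a y) F0) := by
  refine ⟨?_, fun v hv => ?_⟩
  · rw [M.pull_m_J, G7.cone_F0'.1]
  · rw [ev_pull, M.m_J]
    have h := posDef_Fm isCx_J0
    rw [G7.Fm_J0'] at h
    apply h.2
    intro h0
    apply hv
    rw [← M.m'_m a y v, h0]
    exact app_zero _

/-! ### continuity of extensions -/

theorem continuous_of_ext {E : Type*} [TopologicalSpace E] [Zero E]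
    (a c : M.A) {K : Set V4} (hK : IsCompact K) {F : V4 → E}
    (h1 : ∀ y ∈ M.O a c, ContinuousAt F y)
    (h0 : ∀ y, M.ψ a y ∉ M.ψ c '' K → F y = 0) : Continuous F := by
  rw [continuous_iff_continuousAt]
  intro y
  by_cases hy : y ∈ M.O a c
  · exact h1 y hy
  · have hcl : IsClosed (M.ψ c '' K) := (hK.image (M.continuous_ψ c)).isClosed
    have hopen : IsOpen {z | M.ψ a z ∉ M.ψ c '' K} :=
      (hcl.isOpen_compl).preimage (M.continuous_ψ a)
    have hmem : y ∈ {z | M.ψ a z ∉ M.ψ c '' K} := by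
      intro hz
      obtain ⟨w, -, hw⟩ := hz
      exact hy ⟨w, hw⟩
    have heq : F =ᶠ[𝓝 y] fun _ => 0 := by
      filter_upwards [hopen.mem_nhds hmem] with z hz
      exact h0 z hz
    exact continuousAt_const.congr heq.symm

theorem ext_mem_C0 (c : M.A) {γ : V4 → L2} (hγ : Continuous γ)
    (hc : HasCompactSupport γ) : M.ext c γ ∈ M.C0 := by
  intro a
  refine M.continuous_of_ext a c hc (K := tsupport γ) ?_ ?_
  · intro y hy
    have h1 : ContinuousAt (fun z => pull (M.Dt a c z) (γ (M.τ a c z))) y :=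
      G7.contAt_pull (M.contDiffAt_Dt hy).continuousAt
        (hγ.continuousAt.comp (M.continuousAt_τ hy))
    refine h1.congr ?_
    filter_upwards [(M.isOpen_O a c).mem_nhds hy] with z hz
    rw [cf_ext, if_pos hz]
  · intro y hy
    rw [cf_ext]
    split_ifs with h
    · have : γ (M.τ a c y) = 0 := by
        apply image_eq_zero_of_notMem_tsupport
        intro hm
        exact hy ⟨_, hm, M.ψ_τ h⟩
      rw [this, pull_zero]
    · rfl

theorem Om_le_C07 : M.Om ≤ M.C0 := fun u hu a => (hu a).continuous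

theorem F0_mem_Om : (fun _ => F0 : X → L2) ∈ M.Om := M.F_smooth

/-! ### measurability -/

section meas
variable [MeasurableSpace X] [BorelSpace X]

theorem measEmb (a : M.A) : MeasurableEmbedding (M.ψ a) := (M.ψo a).measurableEmbedding

theorem measurable_of_charts {E : Type*} [MeasurableSpace E] {u : X → E}
    (h : ∀ a, Measurable (fun y => u (M.ψ a y))) : Measurable u := by
  intro s hs
  have e : u ⁻¹' s = ⋃ a, M.ψ a '' ((fun y => u (M.ψ a y)) ⁻¹' s) := by
    ext x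
    simp only [mem_preimage, mem_iUnion, mem_image]
    constructor
    · intro hx
      obtain ⟨a, y, _, rfl⟩ := M.cov x
      exact ⟨a, y, hx, rfl⟩
    · rintro ⟨a, y, hy, rfl⟩; exact hy
  rw [e]
  exact MeasurableSet.iUnion fun a => (M.measEmb a).measurableSet_image.2 (h a hs)

theorem measurable_C07 {u : X → L2} (hu : u ∈ M.C0) : Measurable u := by
  apply M.measurable_of_charts
  intro a
  have e : (fun y => u (M.ψ a y)) = fun y => pull (M.m' a y) (M.cf a u y) := by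
    funext y; exact M.eq_pull_m' u a y
  rw [e]
  exact G7.meas_pull (M.m'_meas a) (hu a).measurable

end meas

/-! ### order unit -/

theorem unit_chart (a : M.A) {g : V4 → L2} (hg : Continuous g) :
    ∃ t : ℝ, 0 ≤ t ∧ ∀ y v, ‖y‖ ≤ 1 →
      0 ≤ t * ev (pull (M.m a y) F0) v (app (M.J a y) v) + ev (g y) v (app (M.J a y) v) := by
  set K : Set (V4 × V4) := Metric.closedBall 0 1 ×ˢ Metric.sphere 0 1 with hK
  have hKc : IsCompact K := (isCompact_closedBall _ _).prod (isCompact_sphere _ _)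
  have hJ : Continuous (fun p : V4 × V4 => app (M.J a p.1) p.2) :=
    G7.cont_app ((M.J_cont a).comp continuous_fst) continuous_snd
  have hev : ∀ g : V4 → L2, Continuous g →
      Continuous (fun p : V4 × V4 => ev (g p.1) p.2 (app (M.J a p.1) p.2)) := fun g hg =>
    G7.cont_ev (hg.comp continuous_fst) continuous_snd hJ
  have hF := hev _ (M.F_smooth a).continuous
  have hG := hev g hg
  obtain ⟨B, hB⟩ := hKc.exists_bound_of_continuousOn hG.continuousOn
  obtain ⟨c, hc0, hc⟩ : ∃ c : ℝ, 0 < c ∧ ∀ p ∈ K,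
      c ≤ ev (pull (M.m a p.1) F0) p.2 (app (M.J a p.1) p.2) := by
    rcases K.eq_empty_or_nonempty with hE | hE
    · exact ⟨1, one_pos, fun p hp => by rw [hE] at hp; exact absurd hp (Set.notMem_empty _)⟩
    · obtain ⟨p0, hp0, hmin⟩ := hKc.exists_isMinOn hE hF.continuousOn
      refine ⟨_, ?_, fun p hp => hmin hp⟩
      apply (M.posDef_F a p0.1).2
      intro h0
      have h2 : ‖p0.2‖ = 1 := by
        have := hp0.2
        rwa [mem_sphere_zero_iff_norm] at this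
      rw [h0, norm_zero] at h2
      exact zero_ne_one h2
  refine ⟨max B 0 / c, by positivity, fun y v hy => ?_⟩
  rcases eq_or_ne v 0 with h0 | h0
  · rw [h0, app_zero, ev_self, ev_self]; simp only [mul_zero, add_zero, Std.le_refl]
  · have hvn : 0 < ‖v‖ := norm_pos_iff.2 h0
    have hmem : (y, ‖v‖⁻¹ • v) ∈ K := by
      refine ⟨mem_closedBall_zero_iff.2 hy, ?_⟩
      rw [mem_sphere_zero_iff_norm, norm_smul, norm_inv, norm_norm, inv_mul_cancel₀ hvn.ne']
    have h1 := hc _ hmem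
    have h2 := hB _ hmem
    rw [Real.norm_eq_abs] at h2
    have h3 := neg_abs_le (ev (g y) (‖v‖⁻¹ • v) (app (M.J a y) (‖v‖⁻¹ • v)))
    have hom : ∀ A : L2, ev A v (app (M.J a y) v)
        = ‖v‖ ^ 2 * ev A (‖v‖⁻¹ • v) (app (M.J a y) (‖v‖⁻¹ • v)) := by
      intro A
      rw [app_smul, ev_smul_left, ev_smul_right]
      field_simp
    rw [hom, hom (g y)]
    have h4 : max B 0 / c * c ≤ max B 0 / c * ev (pull (M.m a y) F0) (‖v‖⁻¹ • v)
        (app (M.J a y) (‖v‖⁻¹ • v)) := mul_le_mul_of_nonneg_left h1 (by positivity)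
    rw [div_mul_cancel₀ _ hc0.ne'] at h4
    have h5 : -(max B 0) ≤ ev (g y) (‖v‖⁻¹ • v) (app (M.J a y) (‖v‖⁻¹ • v)) := by
      have : B ≤ max B 0 := le_max_left _ _
      simp only at h2
      linarith only [h2, h3, this]
    have h6 : 0 ≤ max B 0 / c * ev (pull (M.m a y) F0) (‖v‖⁻¹ • v)
        (app (M.J a y) (‖v‖⁻¹ • v)) + ev (g y) (‖v‖⁻¹ • v) (app (M.J a y) (‖v‖⁻¹ • v)) := by
      linarith only [h4, h5]
    linarith only [mul_nonneg (sq_nonneg ‖v‖) h6]

/-- `F0` is an order unit for continuous forms -/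
theorem exists_unit {u : X → L2} (hu : u ∈ M.C0) :
    ∃ t : ℝ, 0 ≤ t ∧ ∀ x v, 0 ≤ t * ev F0 v (app J0 v) + ev (u x) v (app J0 v) := by
  choose t ht0 ht using fun a => M.unit_chart a (hu a)
  refine ⟨∑ a, t a, Finset.sum_nonneg fun a _ => ht0 a, fun x v => ?_⟩
  obtain ⟨a, y, hy, rfl⟩ := M.cov x
  have h1 := ht a y (app (M.m' a y) v) hy.le
  have h2 := M.ev_frame a u y v
  have h3 := M.ev_frame a (fun _ => F0) y v
  rw [M.cf_F0] at h3
  rw [← h2, ← h3] at h1
  have h4 : t a ≤ ∑ a, t a := Finset.single_le_sum (f := t) (fun b _ => ht0 b) (Finset.mem_univ a)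
  have h5 : 0 ≤ ev F0 v (app J0 v) := G7.cone_F0'.2 v
  have h6 := mul_le_mul_of_nonneg_right h4 h5
  linarith only [h1, h6]

/-- boundedness of the pairing with normalised positive vectors -/
theorem exists_Q_bound {u : X → L2} (hu : u ∈ M.C0) :
    ∃ t : ℝ, 0 ≤ t ∧ ∀ x D, Cone J0 D → Q D F0 = 1 → |Q D (u x)| ≤ t := by
  have hpos : Pos J0 := by unfold Pos; rw [G7.Fm_J0', G7.Q_F0_F0']; norm_num
  obtain ⟨t1, h10, h1⟩ := M.exists_unit hu
  obtain ⟨t2, h20, h2⟩ := M.exists_unit (M.C0.neg_mem hu)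
  have key : ∀ (t : ℝ) (B D : L2), (∀ v, 0 ≤ t * ev F0 v (app J0 v) + ev B v (app J0 v)) →
      Cone J0 D → Q D F0 = 1 → -t ≤ Q D B := by
    intro t B D hB hD hn
    have h3 : Cone J0 (pP J0 (t • F0 + B)) := cone_pP isCx_J0 fun v => by
      rw [ev_add, ev_smul]; exact hB v
    have h4 := Q_cone_nonneg isCx_J0 hpos hD h3
    rw [Q_inv_pP isCx_J0 hpos hD.1, Q_add_right, Q_smul_right, hn] at h4
    linarith
  refine ⟨max t1 t2, by positivity, fun x D hD hn => ?_⟩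
  have h3 := key t1 (u x) D (h1 x) hD hn
  have h4 := key t2 (-u x) D (h2 x) hD hn
  rw [Q_neg_right] at h4
  rw [abs_le]
  constructor
  · have := le_max_left t1 t2; linarith
  · have := le_max_right t1 t2; linarith

end CM
end Vale.Agent.P204K.GX
end

section
set_option linter.all false
/-!
G7, part c: measure representation of positive functionals on continuous forms of `CM`.
-/
open MeasureTheory Set
open scoped InnerProductSpace Topology ENNReal CompactlySupported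

namespace Vale.Agent.P204K.GX
open Vale.Agent.P204K.T4 _root_.P204K.GX

namespace CM
variable {X : Type} [MetricSpace X] (M : CM X)

theorem ext_add7 (a : M.A) (γ γ' : V4 → L2) : M.ext a (γ + γ') = M.ext a γ + M.ext a γ' := by
  funext x
  by_cases h : x ∈ range (M.ψ a)
  · obtain ⟨y, rfl⟩ := h
    rw [Pi.add_apply, M.ext_ψ_self, M.ext_ψ_self, M.ext_ψ_self, Pi.add_apply, pull_add]
  · rw [Pi.add_apply, M.ext_of_notMem a _ h, M.ext_of_notMem a _ h, M.ext_of_notMem a _ h, add_zero]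

theorem ext_smul7 (a : M.A) (c : ℝ) (γ : V4 → L2) : M.ext a (c • γ) = c • M.ext a γ := by
  funext x
  by_cases h : x ∈ range (M.ψ a)
  · obtain ⟨y, rfl⟩ := h
    rw [Pi.smul_apply, M.ext_ψ_self, M.ext_ψ_self, Pi.smul_apply, pull_smul]
  · rw [Pi.smul_apply, M.ext_of_notMem a _ h, M.ext_of_notMem a _ h, smul_zero]

/-- the functional in a chart -/
noncomputable def locT (T : M.C0 →ₗ[ℝ] ℝ) (a : M.A) : C_c(V4, L2) →ₗ[ℝ] ℝ where
  toFun η := T ⟨M.ext a η, M.ext_mem_C0 a η.continuous η.hasCompactSupport⟩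
  map_add' η η' := by
    rw [← map_add]; congr 1
    exact Subtype.ext (M.ext_add7 a η η')
  map_smul' c η := by
    rw [RingHom.id_apply, ← map_smul]; congr 1
    exact Subtype.ext (M.ext_smul7 a c η)

/-- cut of a continuous form -/
noncomputable def cutC {u : X → L2} (hu : u ∈ M.C0) (a : M.A) : C_c(V4, L2) where
  toFun := M.cut u a
  continuous_toFun := (M.contDiff_zl a).continuous.smul (hu a)
  hasCompactSupport' := M.hasCompactSupport_cut u a

theorem T_eq_sum (T : M.C0 →ₗ[ℝ] ℝ) (u : M.C0) : T u = ∑ a, M.locT T a (M.cutC u.2 a) := by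
  have e : u = ∑ a, (⟨M.ext a (M.cutC u.2 a), M.ext_mem_C0 a (M.cutC u.2 a).continuous
      (M.cutC u.2 a).hasCompactSupport⟩ : M.C0) := by
    apply Subtype.ext
    rw [AddSubmonoidClass.coe_finsetSum]
    exact (M.sum_ext_cut u).symm
  conv_lhs => rw [e]
  rw [map_sum]
  rfl

/-- mass density in a chart -/
noncomputable def sdens (a : M.A) (D : V4 → L2) (y : V4) : ℝ := Q (D y) (pull (M.m a y) F0)

/-- normalised density in the frame -/
noncomputable def gdens (a : M.A) (D : V4 → L2) (y : V4) : L2 :=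
  (M.sdens a D y)⁻¹ • (det4 (M.m a y) • pull (M.m' a y) (D y))

theorem Q_frame (a : M.A) (y : V4) (A B : L2) :
    Q A (pull (M.m a y) B) = Q (det4 (M.m a y) • pull (M.m' a y) A) B := by
  have e : A = pull (M.m a y) (pull (M.m' a y) A) := by
    rw [← pull_mm, M.mm_m'_m, pull_one]
  conv_lhs => rw [e]
  rw [Q_pull, Q_smul_left]

variable {M} in
theorem sdens_pos {a : M.A} {D : V4 → L2} (hc : ∀ y, Cone (M.J a y) (D y))
    (hn : ∀ y, Q (D y) (Fm (M.J a y)) = 1) (y : V4) : 0 < M.sdens a D y := by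
  apply Q_posDef_pos (M.J_cx a y) (M.J_pos a y) (hc y) _ (M.posDef_F a y)
  intro h0
  have := hn y
  rw [h0, Q_zero_left] at this
  exact zero_ne_one this

theorem sdens_meas (a : M.A) {D : V4 → L2} (hD : Measurable D) : Measurable (M.sdens a D) :=
  G7.meas_Q hD (G7.meas_pull (M.m_meas a) measurable_const)

theorem gdens_meas (a : M.A) {D : V4 → L2} (hD : Measurable D) : Measurable (M.gdens a D) := by
  have h1 : Measurable (fun y => det4 (M.m a y)) :=
    contDiff_det4.continuous.measurable.comp (M.m_meas a)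
  exact (M.sdens_meas a hD).inv.smul (h1.smul (G7.meas_pull (M.m'_meas a) hD))

variable {M} in
theorem gdens_cone {a : M.A} {D : V4 → L2} (hc : ∀ y, Cone (M.J a y) (D y))
    (hn : ∀ y, Q (D y) (Fm (M.J a y)) = 1) (y : V4) : Cone J0 (M.gdens a D y) :=
  G7.cone_smul (inv_nonneg.2 (sdens_pos hc hn y).le)
    (G7.cone_smul (M.m_det a y).le (M.cone_pull' (hc y)))

variable {M} in
theorem gdens_norm {a : M.A} {D : V4 → L2} (hc : ∀ y, Cone (M.J a y) (D y))
    (hn : ∀ y, Q (D y) (Fm (M.J a y)) = 1) (y : V4) : Q (M.gdens a D y) F0 = 1 := by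
  unfold gdens
  rw [Q_smul_left, ← M.Q_frame]
  exact inv_mul_cancel₀ (sdens_pos hc hn y).ne'

variable {M} in
theorem gdens_eq {a : M.A} {D : V4 → L2} (hc : ∀ y, Cone (M.J a y) (D y))
    (hn : ∀ y, Q (D y) (Fm (M.J a y)) = 1) (y : V4) (B : L2) :
    Q (D y) (pull (M.m a y) B) = M.sdens a D y * Q (M.gdens a D y) B := by
  unfold gdens
  rw [Q_smul_left, ← M.Q_frame, ← mul_assoc, mul_inv_cancel₀ (sdens_pos hc hn y).ne', one_mul]

/-- bound of the mass density on the support of the cut-off -/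
theorem wdens_bdd {a : M.A} {D : V4 → L2} (hc : ∀ y, Cone (M.J a y) (D y))
    (hn : ∀ y, Q (D y) (Fm (M.J a y)) = 1) :
    ∃ C : ℝ, 0 ≤ C ∧ ∀ y, M.zl a y * M.sdens a D y ≤ (Metric.closedBall (0 : V4) 2).indicator (fun _ => C) y := by
  obtain ⟨B, hB⟩ := (isCompact_closedBall (0 : V4) 2).exists_bound_of_continuousOn
    (M.F_smooth a).continuous.continuousOn
  refine ⟨6 * max B 0, by positivity, fun y => ?_⟩
  by_cases hy : y ∈ Metric.closedBall (0 : V4) 2
  · rw [Set.indicator_of_mem hy]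
    have h1 : M.sdens a D y ≤ 6 * max B 0 := by
      refine (le_abs_self _).trans ((abs_Q_le _ _).trans ?_)
      have h2 : ‖D y‖ ≤ 1 := by
        rw [← hn y]; exact norm_le_of_cone (M.J_cx a y) (M.J_pos a y) (hc y)
      have h3 : ‖pull (M.m a y) F0‖ ≤ max B 0 := (hB y hy).trans (le_max_left _ _)
      have h4 : ‖D y‖ * ‖pull (M.m a y) F0‖ ≤ 1 * max B 0 :=
        mul_le_mul h2 h3 (norm_nonneg _) zero_le_one
      linarith only [h4]
    have h5 := mul_le_mul (M.zeta_le_one a (M.ψ a y)) h1 (sdens_pos hc hn y).le zero_le_one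
    rw [one_mul] at h5
    exact h5
  · rw [Set.indicator_of_notMem hy, M.zl_eq_zero a (fun h => hy (Metric.ball_subset_closedBall h)),
      zero_mul]

variable [MeasurableSpace X] [BorelSpace X]

theorem rep [CompactSpace X] (T : M.C0 →ₗ[ℝ] ℝ)
    (hT : ∀ u : M.C0, (∀ x v, 0 ≤ ev ((u : X → L2) x) v (app J0 v)) → 0 ≤ T u) :
    ∃ (t : Measure X) (D : X → L2), FnSys.Cur t D ∧ ∀ u : M.C0, T u = FnSys.fn t D (u : X → L2) := by
  have hloc : ∀ a, ∃ (t : Measure V4) (D : V4 → L2), t.Regular ∧ Measurable D ∧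
      (∀ y, Cone (M.J a y) (D y)) ∧ (∀ y, Q (D y) (Fm (M.J a y)) = 1) ∧
      ∀ η : C_c(V4, L2), M.locT T a η = ∫ y, Q (D y) (η y) ∂t := by
    intro a
    apply meas_rep (M.J a) (M.J_cont a) (M.J_cx a) (M.J_pos a)
    intro η hη
    apply hT
    intro x v
    by_cases h : x ∈ range (M.ψ a)
    · obtain ⟨y, rfl⟩ := h
      show 0 ≤ ev (M.ext a η (M.ψ a y)) v (app J0 v)
      rw [M.ev_frame a (M.ext a η), M.cf_ext_self]
      exact hη y _
    · show 0 ≤ ev (M.ext a η x) v (app J0 v)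
      rw [M.ext_of_notMem a _ h]
      exact (G7.cone_zero.2 v)
  choose t D ht hDm hDc hDn hrep using hloc
  -- local measures
  set w : ∀ a, V4 → ℝ := fun a y => M.zl a y * M.sdens a (D a) y with hw
  have hw0 : ∀ a y, 0 ≤ w a y := fun a y => mul_nonneg (M.zl_nonneg a y) (sdens_pos (hDc a) (hDn a) y).le
  have hwm : ∀ a, Measurable (w a) := fun a =>
    (M.contDiff_zl a).continuous.measurable.mul (M.sdens_meas a (hDm a))
  set ν0 : ∀ a, Measure V4 := fun a => (t a).withDensity (fun y => ENNReal.ofReal (w a y)) with hν0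
  have hν0f : ∀ a, IsFiniteMeasure (ν0 a) := by
    intro a
    have hreg := ht a
    obtain ⟨C, hC0, hC⟩ := M.wdens_bdd (hDc a) (hDn a)
    apply isFiniteMeasure_withDensity
    have h1 : ∫⁻ y, ENNReal.ofReal (w a y) ∂(t a)
        ≤ ∫⁻ y, (Metric.closedBall (0 : V4) 2).indicator (fun _ => ENNReal.ofReal C) y ∂(t a) := by
      apply lintegral_mono
      intro y
      show ENNReal.ofReal (w a y) ≤ (Metric.closedBall (0 : V4) 2).indicator (fun _ => ENNReal.ofReal C) y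
      have h2 := hC y
      by_cases hy : y ∈ Metric.closedBall (0 : V4) 2
      · rw [Set.indicator_of_mem hy] at h2 ⊢
        exact ENNReal.ofReal_le_ofReal h2
      · rw [Set.indicator_of_notMem hy] at h2 ⊢
        rw [ENNReal.ofReal_of_nonpos h2]
    refine (h1.trans_lt ?_).ne
    rw [lintegral_indicator_const Metric.isClosed_closedBall.measurableSet]
    exact ENNReal.mul_lt_top ENNReal.ofReal_lt_top (isCompact_closedBall (0 : V4) 2).measure_lt_top
  set ν : M.A → Measure X := fun a => (ν0 a).map (M.ψ a) with hν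
  have hνf : ∀ a, IsFiniteMeasure (ν a) := fun a => Measure.isFiniteMeasure_map _ _
  set G : M.A → X → L2 := fun a => Function.extend (M.ψ a) (M.gdens a (D a)) (fun _ => (1 / 2 : ℝ) • F0)
    with hG
  have hGψ : ∀ a y, G a (M.ψ a y) = M.gdens a (D a) y := fun a y => (M.ψ_inj a).extend_apply _ _ _
  have hGm : ∀ a, Measurable (G a) := fun a =>
    (M.measEmb a).measurable_extend (M.gdens_meas a (hDm a)) measurable_const
  have hGc : ∀ a x, Cone J0 (G a x) := by
    intro a x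
    by_cases h : x ∈ range (M.ψ a)
    · obtain ⟨y, rfl⟩ := h
      rw [hGψ]; exact gdens_cone (hDc a) (hDn a) y
    · have : G a x = (1 / 2 : ℝ) • F0 := Function.extend_apply' _ _ _ (fun ⟨y, hy⟩ => h ⟨y, hy⟩)
      rw [this]; exact G7.cone_smul (by norm_num1) G7.cone_F0'
  have hGn : ∀ a x, Q (G a x) F0 = 1 := by
    intro a x
    by_cases h : x ∈ range (M.ψ a)
    · obtain ⟨y, rfl⟩ := h
      rw [hGψ]; exact gdens_norm (hDc a) (hDn a) y
    · have : G a x = (1 / 2 : ℝ) • F0 := Function.extend_apply' _ _ _ (fun ⟨y, hy⟩ => h ⟨y, hy⟩)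
      rw [this, Q_smul_left, G7.Q_F0_F0']; norm_num
  obtain ⟨tt, DD, h1, h2, h3, h4, h5⟩ := G7.glue_cur ν hνf G hGm hGc hGn
  refine ⟨tt, DD, ⟨h1, h2, h3, h4⟩, fun u => ?_⟩
  obtain ⟨C, hC0, hC⟩ := M.exists_Q_bound u.2
  have h6 := h5 (u : X → L2) (M.measurable_C07 u.2) ⟨C, fun a x => hC x _ (hGc a x) (hGn a x)⟩
  show T u = ∫ x, Q (DD x) ((u : X → L2) x) ∂tt
  rw [h6, M.T_eq_sum T u]
  refine Finset.sum_congr rfl fun a _ => ?_
  rw [hrep, (M.measEmb a).integral_map]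
  rw [hν0]
  simp only
  rw [integral_withDensity_eq_integral_toReal_smul (hwm a).ennreal_ofReal
    (Filter.Eventually.of_forall fun y => ENNReal.ofReal_lt_top)]
  congr 1
  funext y
  rw [hGψ, ENNReal.toReal_ofReal (hw0 a y)]
  show Q (D a y) (M.zl a y • M.cf a u y) = w a y • Q (M.gdens a (D a) y) ((u : X → L2) (M.ψ a y))
  rw [Q_smul_right, smul_eq_mul, hw]
  simp only
  rw [mul_assoc, ← gdens_eq (hDc a) (hDn a)]
  rfl

end CM
end Vale.Agent.P204K.GX
end

section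

/-! Stokes on `ℝ⁴` for the pairing `Q`, and its converse. -/

open scoped BigOperators ContDiff
open MeasureTheory

namespace Vale.Agent.P204K.T4

theorem pd_continuous {i : Fin 4} {u : V4 → ℝ} (hu : ContDiff ℝ 1 u) : Continuous fun y => pd i u y :=
  (hu.continuous_fderiv one_ne_zero).clm_apply continuous_const

theorem pd_hasCompactSupport {i : Fin 4} {u : V4 → ℝ} (hc : HasCompactSupport u) :
    HasCompactSupport fun y => pd i u y := hc.fderiv_apply (𝕜 := ℝ) _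

/-- Integration by parts. -/
theorem ibp4 {i : Fin 4} {u w : V4 → ℝ} (hu : ContDiff ℝ 1 u) (hc : HasCompactSupport u)
    (hw : ContDiff ℝ 1 w) : ∫ y, pd i u y * w y = - ∫ y, u y * pd i w y := by
  have h1 := pd_continuous (i := i) hu
  have h2 := pd_continuous (i := i) hw
  have hc1 := pd_hasCompactSupport (i := i) hc
  have := integral_mul_fderiv_eq_neg_fderiv_mul_of_integrable (μ := (volume : Measure V4)) (f := u)
    (g := w) (v := Pi.single i 1)
    ((h1.mul hw.continuous).integrable_of_hasCompactSupport hc1.mul_right)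
    ((hu.continuous.mul h2).integrable_of_hasCompactSupport hc.mul_right)
    ((hu.continuous.mul hw.continuous).integrable_of_hasCompactSupport hc.mul_right)
    (fun x _ => hu.differentiable one_ne_zero x) (fun x _ => hw.differentiable one_ne_zero x)
  change ∫ y, fderiv ℝ u y (Pi.single i 1) * w y = - ∫ y, u y * fderiv ℝ w y (Pi.single i 1)
  rw [this, neg_neg]

/-- components of the exterior derivative of a two-form -/
noncomputable def dd (β : V4 → L2) (i j k : Fin 4) (x : V4) : ℝ :=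
  pd i (fun y => ent (β y) j k) x + pd j (fun y => ent (β y) k i) x
    + pd k (fun y => ent (β y) i j) x

/-- the entries of the (Euclidean) dual two-form -/
def dent (B : L2) : M4 := ent ![B 5, -B 4, B 3, B 2, -B 1, B 0]

theorem Q_d1 (η : V4 → V4) (B : L2) (y : V4) :
    Q (d1 η y) B = ∑ j, ∑ i, pd i (fun z => η z j) y * dent B i j := by
  simp only [d1, Q, dent, Fin.sum_univ_four, ent, ofEnt]
  simp only [Fin.isValue, Matrix.cons_val_zero, Matrix.cons_val_one, Matrix.cons_val, neg_neg, Matrix.cons_val', Matrix.cons_val_fin_one, mul_zero, mul_neg, zero_add, add_zero]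
  ring

theorem dent_contDiff {β : V4 → L2} {n : WithTop ℕ∞} (hβ : ContDiff ℝ n β) (i j : Fin 4) :
    ContDiff ℝ n fun y => dent (β y) i j := by
  have h : ∀ k, ContDiff ℝ n fun y => β y k := fun k => contDiff_pi.1 hβ k
  fin_cases i <;> fin_cases j <;> simp only [dent, ent, Fin.isValue, Matrix.cons_val_zero, Matrix.cons_val_one, Matrix.cons_val, neg_neg, Fin.zero_eta, Matrix.cons_val', Matrix.cons_val_fin_one, Fin.mk_one, Fin.reduceFinMk] <;>
    first | exact contDiff_const | exact h _ | exact (h _).neg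

theorem sum_pd_dent {β : V4 → L2} (hβ : Differentiable ℝ β) (y : V4) (j : Fin 4) :
    ∑ i, pd i (fun z => dent (β z) i j) y =
      (![-dd β 1 2 3 y, dd β 0 2 3 y, -dd β 0 1 3 y, dd β 0 1 2 y] : V4) j := by
  have h : ∀ k, DifferentiableAt ℝ (fun y => β y k) y := fun k => (differentiable_pi.1 hβ k) y
  have hn : ∀ i k, pd i (fun z => -β z k) y = -pd i (fun z => β z k) y := by
    intro i k
    unfold pd
    rw [fderiv_fun_neg]
    rfl
  have h0 : ∀ i, pd i (fun _ : V4 => (0 : ℝ)) y = 0 := by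
    intro i
    unfold pd
    simp only [fderiv_fun_const, Pi.zero_apply, zero_apply]
  fin_cases j <;> simp only [dent, ent, Fin.isValue, Matrix.cons_val_zero, Matrix.cons_val_one, Matrix.cons_val, neg_neg, Fin.zero_eta, Matrix.cons_val', Matrix.cons_val_fin_one, Fin.sum_univ_four, h0, hn, zero_add, dd, neg_add_rev, Fin.mk_one, add_zero, Fin.reduceFinMk] <;> ring

theorem stokes_gen {η : V4 → V4} {β : V4 → L2} (hη : ContDiff ℝ 1 η) (hc : HasCompactSupport η)
    (hβ : ContDiff ℝ 1 β) :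
    ∫ y, Q (d1 η y) (β y) = ∫ y, (η y 0 * dd β 1 2 3 y - η y 1 * dd β 0 2 3 y
      + η y 2 * dd β 0 1 3 y - η y 3 * dd β 0 1 2 y) := by
  have hηj : ∀ j, ContDiff ℝ 1 fun z => η z j := fun j => contDiff_pi.1 hη j
  have hcj : ∀ j, HasCompactSupport fun z => η z j := fun j =>
    hc.comp_left (g := fun v : V4 => v j) rfl
  have hI1 : ∀ i j, Integrable fun y => pd i (fun z => η z j) y * dent (β y) i j := fun i j =>
    ((pd_continuous (hηj j)).mul (dent_contDiff hβ i j).continuous).integrable_of_hasCompactSupport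
      (pd_hasCompactSupport (hcj j)).mul_right
  have hI2 : ∀ i j, Integrable fun y => η y j * pd i (fun z => dent (β z) i j) y := fun i j =>
    ((hηj j).continuous.mul (pd_continuous (dent_contDiff hβ i j))).integrable_of_hasCompactSupport
      (hcj j).mul_right
  simp only [Q_d1]
  rw [integral_finsetSum _ fun j _ => integrable_finsetSum _ fun i _ => hI1 i j]
  have h1 : ∀ j, ∫ y, ∑ i, pd i (fun z => η z j) y * dent (β y) i j =
      ∫ y, -(η y j * (![-dd β 1 2 3 y, dd β 0 2 3 y, -dd β 0 1 3 y, dd β 0 1 2 y] : V4) j) := by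
    intro j
    rw [integral_finsetSum _ fun i _ => hI1 i j]
    rw [Finset.sum_congr rfl fun i _ => ibp4 (hηj j) (hcj j) (dent_contDiff hβ i j)]
    rw [Finset.sum_neg_distrib, ← integral_finsetSum _ fun i _ => hI2 i j, ← integral_neg]
    congr 1
    funext y
    rw [← sum_pd_dent (hβ.differentiable one_ne_zero) y j, Finset.mul_sum]
  rw [Finset.sum_congr rfl fun j _ => h1 j, ← integral_finsetSum]
  · congr 1
    funext y
    simp only [Fin.isValue, Finset.sum_neg_distrib, Fin.sum_univ_four, Matrix.cons_val_zero, mul_neg, Matrix.cons_val_one, Matrix.cons_val, neg_add_rev, neg_neg]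
    ring
  · intro j _
    have h2 : (fun y => -(η y j * (![-dd β 1 2 3 y, dd β 0 2 3 y, -dd β 0 1 3 y, dd β 0 1 2 y] : V4) j)) =
        fun y => -(∑ i, η y j * pd i (fun z => dent (β z) i j) y) := by
      funext y
      rw [← sum_pd_dent (hβ.differentiable one_ne_zero) y j, Finset.mul_sum]
    rw [h2]
    exact (integrable_finsetSum _ fun i _ => hI2 i j).neg

/-- Stokes: exact forms pair to zero with closed forms. -/
theorem stokes4 {η : V4 → V4} {β : V4 → L2} (hη : ContDiff ℝ 1 η) (hc : HasCompactSupport η)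
    (hβ : ContDiff ℝ 1 β) (hcl : Closed β) : ∫ y, Q (d1 η y) (β y) = 0 := by
  rw [stokes_gen hη hc hβ]
  have h : ∀ i j k y, dd β i j k y = 0 := fun i j k y => hcl y i j k
  simp [h]

/-- A continuous function orthogonal to all test functions vanishes. -/
theorem eq_zero_of_test {w : V4 → ℝ} (hw : Continuous w)
    (h : ∀ g : V4 → ℝ, ContDiff ℝ ∞ g → HasCompactSupport g → ∫ y, g y * w y = 0) : ∀ y, w y = 0 := by
  have h1 := ae_eq_zero_of_integral_contDiff_smul_eq_zero (μ := (volume : Measure V4))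
    hw.locallyIntegrable (fun g hg hc => h g hg hc)
  have h2 : w =ᵐ[volume] fun _ => (0 : ℝ) := h1
  have h3 := (hw.ae_eq_iff_eq volume continuous_const).1 h2
  intro y
  rw [h3]

/-- Weakly closed smooth forms are closed. -/
theorem weak4 {β : V4 → L2} (hβ : ContDiff ℝ 1 β)
    (h : ∀ η : V4 → V4, ContDiff ℝ ∞ η → HasCompactSupport η → ∫ y, Q (d1 η y) (β y) = 0) :
    Closed β := by
  have hcont : ∀ i j k, Continuous (dd β i j k) := by
    intro i j k
    have he : ∀ i j, ContDiff ℝ 1 fun y => ent (β y) i j := by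
      intro i j
      have h : ∀ k, ContDiff ℝ 1 fun y => β y k := fun k => contDiff_pi.1 hβ k
      fin_cases i <;> fin_cases j <;> simp only [ent, Fin.isValue, Fin.zero_eta, Matrix.cons_val', Matrix.cons_val_zero, Matrix.cons_val_fin_one, Fin.mk_one, Matrix.cons_val_one, Fin.reduceFinMk, Matrix.cons_val] <;>
        first | exact contDiff_const | exact h _ | exact (h _).neg
    exact ((pd_continuous (he j k)).add (pd_continuous (he k i))).add (pd_continuous (he i j))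
  have key : ∀ l : Fin 4, ∀ g : V4 → ℝ, ContDiff ℝ ∞ g → HasCompactSupport g →
      ∫ y, g y * (![dd β 1 2 3 y, -dd β 0 2 3 y, dd β 0 1 3 y, -dd β 0 1 2 y] : V4) l = 0 := by
    intro l g hg hgc
    have hη : ContDiff ℝ ∞ (fun y => (Pi.single l (g y) : V4)) := by
      rw [contDiff_pi]
      intro m
      by_cases hm : m = l
      · subst hm
        simpa only [Pi.single_eq_same] using hg
      · simpa [Pi.single_apply, hm] using contDiff_const
    have hηc : HasCompactSupport (fun y => (Pi.single l (g y) : V4)) :=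
      hgc.comp_left (g := fun r : ℝ => (Pi.single l r : V4)) (by simp)
    have h1 := h _ hη hηc
    rw [stokes_gen (hη.of_le (by norm_num)) hηc hβ] at h1
    rw [← h1]
    congr 1
    funext y
    fin_cases l <;> simp only [Fin.isValue, Fin.zero_eta, Matrix.cons_val_zero, Pi.single_eq_same, ne_eq, one_ne_zero, not_false_eq_true, Pi.single_eq_of_ne, zero_mul, sub_zero, Fin.reduceEq, add_zero, Fin.mk_one, Matrix.cons_val_one, mul_neg, zero_ne_one, zero_sub, Fin.reduceFinMk, Matrix.cons_val, sub_self, zero_add]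
  have h0 := eq_zero_of_test (hcont 1 2 3) (fun g hg hc => by simpa only [Fin.isValue, Matrix.cons_val_zero] using key 0 g hg hc)
  have h1 := eq_zero_of_test (hcont 0 2 3) (fun g hg hc => by simpa only [Fin.isValue, Matrix.cons_val_one, Matrix.cons_val_zero, mul_neg, integral_neg, neg_eq_zero] using key 1 g hg hc)
  have h2 := eq_zero_of_test (hcont 0 1 3) (fun g hg hc => by simpa only [Fin.isValue, Matrix.cons_val] using key 2 g hg hc)
  have h3 := eq_zero_of_test (hcont 0 1 2) (fun g hg hc => by simpa [integral_neg] using key 3 g hg hc)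
  intro x i j k
  have hn : ∀ i m, pd i (fun z => -β z m) x = -pd i (fun z => β z m) x := by
    intro i m
    unfold pd
    rw [fderiv_fun_neg]
    rfl
  have hz : ∀ i, pd i (fun _ : V4 => (0 : ℝ)) x = 0 := by
    intro i
    unfold pd
    simp only [fderiv_fun_const, Pi.zero_apply, zero_apply]
  have h0 := h0 x
  have h1 := h1 x
  have h2 := h2 x
  have h3 := h3 x
  simp only [dd] at h0 h1 h2 h3
  fin_cases i <;> fin_cases j <;> fin_cases k <;>
    simp only [Fin.isValue, ent, Matrix.cons_val', Matrix.cons_val, Matrix.cons_val_fin_one, Matrix.cons_val_one, Matrix.cons_val_zero, hn, Fin.zero_eta, hz, add_zero, Fin.mk_one, add_neg_cancel, Fin.reduceFinMk, neg_add_cancel, zero_add] at h0 h1 h2 h3 ⊢ <;> linarith only [h3, h2, h1, h0]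

end Vale.Agent.P204K.T4
end

section
set_option linter.all false
/-!
G7, part d: the positive current `T` and the Kähler current `R` on `CM`.
-/
open MeasureTheory Set
open scoped InnerProductSpace Topology ENNReal

namespace Vale.Agent.P204K.GX
open Vale.Agent.P204K.T4 _root_.P204K.GX

namespace CM
variable {X : Type} [MetricSpace X] (M : CM X)

/-- the constant form `F0` -/
def FOm : M.Om := ⟨fun _ => F0, M.F0_mem_Om⟩

/-- inclusion of smooth forms into continuous forms -/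
def toC0 : M.Om →ₗ[ℝ] M.C0 := Submodule.inclusion M.Om_le_C07

/-- positive continuous forms -/
def posC : PointedCone ℝ M.C0 where
  carrier := {u | ∀ x v, 0 ≤ ev ((u : X → L2) x) v (app J0 v)}
  add_mem' := by
    intro u v hu hv x w
    have := add_nonneg (hu x w) (hv x w)
    rw [← ev_add] at this
    exact this
  zero_mem' := fun x v => G7.cone_zero.2 v
  smul_mem' := by
    intro c u hu x w
    have := mul_nonneg c.2 (hu x w)
    rw [← ev_smul] at this
    exact this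

theorem unitC (η : M.C0) : ∃ t : ℝ, t • M.toC0 M.FOm + η ∈ M.posC := by
  obtain ⟨t, -, ht⟩ := M.exists_unit η.2
  refine ⟨t, fun x v => ?_⟩
  show 0 ≤ ev (t • F0 + (η : X → L2) x) v (app J0 v)
  rw [ev_add, ev_smul]
  exact ht x v

/-- smooth closed invariant forms as continuous forms -/
def KC : Submodule ℝ M.C0 where
  carrier := {u | ∃ b : M.Om, b ∈ M.Cl ∧ (∀ x, pM J0 ((b : X → L2) x) = 0) ∧ M.toC0 b = u}
  add_mem' := by
    rintro _ _ ⟨b, hb, hb', rfl⟩ ⟨c, hc, hc', rfl⟩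
    refine ⟨b + c, M.Cl.add_mem hb hc, fun x => ?_, map_add _ _ _⟩
    have e : pM J0 ((b : X → L2) x + (c : X → L2) x) = pM J0 ((b : X → L2) x) + pM J0 ((c : X → L2) x) := by
      unfold pM; rw [pull_add]; module
    show pM J0 ((b : X → L2) x + (c : X → L2) x) = 0
    rw [e, hb', hc', add_zero]
  zero_mem' := ⟨0, M.Cl.zero_mem, fun x => by
    show pM J0 (0 : L2) = 0
    unfold pM; rw [pull_zero]; simp, map_zero _⟩
  smul_mem' := by
    rintro r _ ⟨b, hb, hb', rfl⟩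
    refine ⟨r • b, M.Cl.smul_mem r hb, fun x => ?_, map_smul _ _ _⟩
    have e : pM J0 (r • (b : X → L2) x) = r • pM J0 ((b : X → L2) x) := by
      unfold pM; rw [pull_smul]; module
    show pM J0 (r • (b : X → L2) x) = 0
    rw [e, hb', smul_zero]

theorem inv_of_pM {A : L2} (h : pM J0 A = 0) : pull J0 A = A := by
  have h1 := pP_add_pM J0 A
  rw [h, add_zero] at h1
  rw [← h1]; exact pull_pP isCx_J0 A

variable [MeasurableSpace X] [BorelSpace X]

/-- **G7, the positive current `T`.** -/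
theorem exists_T [CompactSpace X] (h : ¬ ∃ w ∈ M.Cl, (∀ x, pM J0 ((w : X → L2) x) = 0) ∧
      ∀ x, PosDef J0 ((w : X → L2) x)) :
    ∃ (t : Measure X) (D : X → L2), FnSys.Cur t D ∧
      (∀ b ∈ M.Cl, (∀ x, pM J0 ((b : X → L2) x) = 0) → FnSys.fn t D (b : X → L2) = 0) ∧
      FnSys.fn t D (fun _ => F0) = 1 := by
  obtain ⟨T, h1, h2, h3⟩ := GX.exists_T M.posC (M.toC0 M.FOm) M.unitC M.KC (by
    rintro _ ⟨b, hb, hb', rfl⟩ c hc hpos
    apply h
    refine ⟨b, hb, hb', fun x => ⟨inv_of_pM (hb' x), fun v hv => ?_⟩⟩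
    have h4 := hpos x v
    have h4' : 0 ≤ ev ((b : X → L2) x - c • F0) v (app J0 v) := h4
    rw [ev_sub, ev_smul] at h4'
    have h5 : 0 < ev F0 v (app J0 v) := by
      have := (posDef_Fm isCx_J0).2 v hv
      rwa [G7.Fm_J0'] at this
    have h6 := mul_pos hc h5
    linarith only [h4', h6])
  obtain ⟨t, D, hC, hr⟩ := M.rep T (fun u hu => h2 u hu)
  refine ⟨t, D, hC, fun b hb hb' => ?_, ?_⟩
  · have h4 := h1 (M.toC0 b) ⟨b, hb, hb', rfl⟩
    rw [hr] at h4
    exact h4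
  · rw [hr] at h3; exact h3

/-- boundedness of continuous forms in the frame -/
theorem exists_norm_bound7 {u : X → L2} (hu : u ∈ M.C0) : ∃ B : ℝ, ∀ x, ‖u x‖ ≤ B := by
  choose C hC1 hC using fun a => M.exists_cf_bound a 1
  choose B hB using fun a => (isCompact_closedBall (0 : V4) 1).exists_bound_of_continuousOn (hu a).continuousOn
  refine ⟨∑ a, C a * |B a|, fun x => ?_⟩
  obtain ⟨a, y, hy, rfl⟩ := M.cov x
  have h1 := (hC a y hy.le u).2
  have h2 := (hB a y (mem_closedBall_zero_iff.2 hy.le)).trans (le_abs_self (B a))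
  have h0 : 0 ≤ C a := zero_le_one.trans (hC1 a)
  calc ‖u (M.ψ a y)‖ ≤ C a * ‖M.cf a u y‖ := h1
    _ ≤ C a * |B a| := mul_le_mul_of_nonneg_left h2 h0
    _ ≤ ∑ a, C a * |B a| := Finset.single_le_sum (f := fun a => C a * |B a|)
      (fun b _ => mul_nonneg (zero_le_one.trans (hC1 b)) (abs_nonneg _)) (Finset.mem_univ a)

theorem integrable_Q7 {u v : X → L2} (hu : u ∈ M.C0) (hv : v ∈ M.C0) :
    Integrable (fun x => Q (u x) (v x)) M.mu := by
  obtain ⟨A, hA⟩ := M.exists_norm_bound7 hu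
  obtain ⟨B, hB⟩ := M.exists_norm_bound7 hv
  refine Integrable.of_bound (G7.meas_Q (M.measurable_C07 hu) (M.measurable_C07 hv)).aestronglyMeasurable
    (6 * A * B) (Filter.Eventually.of_forall fun x => ?_)
  rw [Real.norm_eq_abs]
  refine (abs_Q_le _ _).trans ?_
  have h1 := mul_le_mul (hA x) (hB x) (norm_nonneg _) ((norm_nonneg _).trans (hA x))
  linarith only [h1]

/-- Stokes -/
theorem stokesX {e c : M.Om} (he : e ∈ M.Ex) (hc : c ∈ M.Cl) :
    ∫ x, Q ((e : X → L2) x) ((c : X → L2) x) ∂M.mu = 0 := by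
  have hi : ∀ u : M.Om, Integrable (fun x => Q ((u : X → L2) x) ((c : X → L2) x)) M.mu := fun u =>
    M.integrable_Q7 (M.Om_le_C07 u.2) (M.Om_le_C07 c.2)
  unfold Ex at he
  induction he using Submodule.span_induction with
  | mem u hu =>
    obtain ⟨a, η, hη, rfl⟩ := hu
    show ∫ x, Q (M.ext a (d1 η) x) ((c : X → L2) x) ∂M.mu = 0
    rw [M.integral_ext]
    exact stokes4 (hη.1.of_le (by norm_num)) hη.2 ((c.2 a).of_le (by norm_num)) (hc a)
  | zero =>
    show ∫ x, Q (0 : L2) ((c : X → L2) x) ∂M.mu = 0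
    simp
  | add u v _ _ hu hv =>
    have e1 : ∀ x, Q (((u + v : M.Om) : X → L2) x) ((c : X → L2) x)
        = Q ((u : X → L2) x) ((c : X → L2) x) + Q ((v : X → L2) x) ((c : X → L2) x) := fun x =>
      Q_add_left _ _ _
    simp only [e1]
    rw [integral_add (hi u) (hi v), hu, hv, add_zero]
  | smul r u _ hu =>
    have e1 : ∀ x, Q (((r • u : M.Om) : X → L2) x) ((c : X → L2) x)
        = r * Q ((u : X → L2) x) ((c : X → L2) x) := fun x => Q_smul_left _ _ _
    simp only [e1]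
    rw [integral_const_mul, hu, mul_zero]

/-- the pairing on continuous forms -/
noncomputable def IC : M.C0 →ₗ[ℝ] M.C0 →ₗ[ℝ] ℝ :=
  LinearMap.mk₂ ℝ (fun u v => ∫ x, Q ((u : X → L2) x) ((v : X → L2) x) ∂M.mu)
    (fun u u' v => by
      rw [← integral_add (M.integrable_Q7 u.2 v.2) (M.integrable_Q7 u'.2 v.2)]
      congr 1; funext x; exact Q_add_left _ _ _)
    (fun r u v => by
      rw [smul_eq_mul, ← integral_const_mul]
      congr 1; funext x; exact Q_smul_left _ _ _)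
    (fun u v v' => by
      rw [← integral_add (M.integrable_Q7 u.2 v.2) (M.integrable_Q7 u.2 v'.2)]
      congr 1; funext x; exact Q_add_right _ _ _)
    (fun r u v => by
      rw [smul_eq_mul, ← integral_const_mul]
      congr 1; funext x; exact Q_smul_right _ _ _)

theorem IC_apply (u v : M.C0) : M.IC u v = ∫ x, Q ((u : X → L2) x) ((v : X → L2) x) ∂M.mu := rfl

omit [MeasurableSpace X] [BorelSpace X] in
theorem pP_mem_C0 {u : X → L2} (hu : u ∈ M.C0) : (fun x => pP J0 (u x)) ∈ M.C0 := by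
  intro a
  have e : M.cf a (fun x => pP J0 (u x)) = fun y => pP (M.J a y) (M.cf a u y) := by
    funext y; exact M.cf_pP a u y
  rw [e]
  unfold pP
  exact ((hu a).add (G7.cont_pull (M.J_cont a) (hu a))).const_smul (1 / 2 : ℝ)

/-- invariant part on continuous forms -/
noncomputable def ppC : M.C0 →ₗ[ℝ] M.C0 where
  toFun u := ⟨fun x => pP J0 ((u : X → L2) x), M.pP_mem_C0 u.2⟩
  map_add' u v := by
    apply Subtype.ext; funext x
    show pP J0 ((u : X → L2) x + (v : X → L2) x) = pP J0 ((u : X → L2) x) + pP J0 ((v : X → L2) x)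
    unfold pP; rw [pull_add]; module
  map_smul' r u := by
    apply Subtype.ext; funext x
    show pP J0 (r • (u : X → L2) x) = r • pP J0 ((u : X → L2) x)
    unfold pP; rw [pull_smul]; module

omit [MeasurableSpace X] [BorelSpace X] in
theorem ppC_apply (u : M.C0) (x : X) : ((M.ppC u : M.C0) : X → L2) x = pP J0 ((u : X → L2) x) := rfl

omit [MeasurableSpace X] [BorelSpace X] in
theorem sub_ppC_apply (u : M.C0) (x : X) :
    ((u - M.ppC u : M.C0) : X → L2) x = pM J0 ((u : X → L2) x) := by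
  show (u : X → L2) x - pP J0 ((u : X → L2) x) = _
  have := pP_add_pM J0 ((u : X → L2) x)
  nth_rw 1 [← this]
  rw [add_sub_cancel_left]

theorem posJ0 : Pos J0 := by unfold Pos; rw [G7.Fm_J0', G7.Q_F0_F0']; norm_num

theorem Q_pM_self_nonneg (A : L2) : 0 ≤ Q (pM J0 A) (pM J0 A) := by
  rcases eq_or_ne (pM J0 A) 0 with h | h
  · rw [h]; simp
  · exact (Q_anti_pos isCx_J0 posJ0 (pull_pM isCx_J0 A) h).le

theorem mu_pos [Nonempty X] : 0 < M.mu.real univ := by
  obtain ⟨x⟩ := (inferInstance : Nonempty X)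
  obtain ⟨a, y, hy, rfl⟩ := M.cov x
  have h1 : (M.mu.restrict (range (M.ψ a))) univ ≤ M.mu univ := Measure.restrict_apply_le _ _
  rw [M.mu_restrict, Measure.map_apply (M.measurable_ψ a) MeasurableSet.univ, preimage_univ,
    withDensity_apply _ MeasurableSet.univ, setLIntegral_univ] at h1
  have h2 : 0 < ∫⁻ y, ENNReal.ofReal (det4 (M.m a y)) := by
    rw [lintegral_pos_iff_support (M.measurable_dens' a)]
    have : Function.support (fun y => ENNReal.ofReal (det4 (M.m a y))) = univ := by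
      apply Set.eq_univ_of_forall
      intro y
      rw [Function.mem_support]
      exact (ENNReal.ofReal_pos.2 (M.m_det a y)).ne'
    rw [this]
    exact Measure.measure_univ_pos.2 (NeZero.ne _)
  exact ENNReal.toReal_pos (h2.trans_le h1).ne' (measure_ne_top _ _)

/-- the pairing data on `CM` -/
noncomputable def pairData [Nonempty X] (om : M.Om) (hcl : om ∈ M.Cl)
    (hP : ∀ x, pP J0 ((om : X → L2) x) = F0) : PairData M.C0 where
  I := M.IC
  symm u v := by
    rw [IC_apply, IC_apply]; congr 1; funext x; exact Q_comm _ _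
  pp := M.ppC
  pp_pp u := by
    apply Subtype.ext; funext x
    exact pP_of_inv (pull_pP isCx_J0 _)
  orth u v := by
    rw [IC_apply]
    have e : ∀ x, Q (((M.ppC u : M.C0) : X → L2) x) (((v - M.ppC v : M.C0) : X → L2) x) = 0 := by
      intro x
      rw [M.ppC_apply, M.sub_ppC_apply]
      exact Q_pP_pM isCx_J0 posJ0 _ _
    simp only [e, integral_zero]
  anti u := by
    rw [IC_apply]
    apply integral_nonneg
    intro x
    show 0 ≤ Q (((u - M.ppC u : M.C0) : X → L2) x) (((u - M.ppC u : M.C0) : X → L2) x)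
    rw [M.sub_ppC_apply]
    exact Q_pM_self_nonneg _
  C := M.posC
  om := M.toC0 om
  cone_self u hu := by
    rw [IC_apply]
    apply integral_nonneg
    intro x
    have h : Cone J0 (pP J0 ((u : X → L2) x)) := cone_pP isCx_J0 (fun v => hu x v)
    exact Q_cone_nonneg isCx_J0 posJ0 h h
  cone_om u hu := by
    rw [IC_apply]
    apply integral_nonneg
    intro x
    have h : Cone J0 (pP J0 ((u : X → L2) x)) := cone_pP isCx_J0 (fun v => hu x v)
    show 0 ≤ Q (pP J0 ((u : X → L2) x)) (pP J0 ((om : X → L2) x))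
    rw [hP]
    exact Q_cone_nonneg isCx_J0 posJ0 h G7.cone_F0'
  C_pp u := by
    constructor
    · intro h x v
      have := h x v
      rw [M.ppC_apply, ev_pP isCx_J0] at this
      exact this
    · intro h x v
      rw [M.ppC_apply, ev_pP isCx_J0]
      exact h x v
  om_mem := by
    intro x v
    show 0 ≤ ev ((om : X → L2) x) v (app J0 v)
    rw [← ev_pP isCx_J0, hP]
    exact G7.cone_F0'.2 v
  pos := by
    rw [IC_apply]
    have e : ∀ x, Q (((M.ppC (M.toC0 om) : M.C0) : X → L2) x)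
        (((M.ppC (M.toC0 om) : M.C0) : X → L2) x) = 2 := by
      intro x
      show Q (pP J0 ((om : X → L2) x)) (pP J0 ((om : X → L2) x)) = 2
      rw [hP, G7.Q_F0_F0']
    simp only [e, integral_const, smul_eq_mul]
    have := M.mu_pos
    positivity
  unit u := by
    obtain ⟨t, ht⟩ := M.unitC u
    refine ⟨t, ?_⟩
    have e : M.ppC (M.toC0 om) = M.toC0 M.FOm := by
      apply Subtype.ext; funext x; exact hP x
    rw [e]; exact ht
  Ex := M.Ex.map M.toC0
  exact_self := by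
    rintro _ ⟨e, he, rfl⟩
    exact M.stokesX he (M.Ex_le_Cl he)
  exact_om := by
    rintro _ ⟨e, he, rfl⟩
    exact M.stokesX he hcl

/-- **G7, the Kähler current `R = F + P`.** -/
theorem exists_R [CompactSpace X] (om : M.Om) (hcl : om ∈ M.Cl)
    (hP : ∀ x, pP J0 ((om : X → L2) x) = F0) :
    ∃ (p : Measure X) (E : X → L2), FnSys.Cur p E ∧
    ∀ e ∈ M.Ex, ∫ x, Q F0 ((e : X → L2) x) ∂M.mu + FnSys.fn p E (e : X → L2) = 0 := by
  rcases isEmpty_or_nonempty X with hX | hX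
  · refine ⟨0, fun _ => 0, ⟨inferInstance, measurable_const, fun x => hX.elim x, fun x => hX.elim x⟩,
      fun e _ => ?_⟩
    have e1 : M.mu = 0 := Measure.eq_zero_of_isEmpty _
    rw [e1]
    show ∫ x, Q F0 ((e : X → L2) x) ∂(0 : Measure X) + ∫ x, _ ∂(0 : Measure X) = 0
    rw [integral_zero_measure, integral_zero_measure, add_zero]
  · obtain ⟨P, hP', hPe⟩ := (M.pairData om hcl hP).exists_R
    obtain ⟨p, E, hC, hr⟩ := M.rep P (fun u hu => hP' u hu)
    refine ⟨p, E, hC, fun e he => ?_⟩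
    have h1 := hPe (M.toC0 e) (Submodule.mem_map_of_mem he)
    rw [hr] at h1
    have e1 : (M.pairData om hcl hP).I ((M.pairData om hcl hP).pp (M.pairData om hcl hP).om) (M.toC0 e)
        = ∫ x, Q F0 ((e : X → L2) x) ∂M.mu := by
      show M.IC (M.ppC (M.toC0 om)) (M.toC0 e) = _
      rw [IC_apply]
      congr 1; funext x
      show Q (pP J0 ((om : X → L2) x)) _ = _
      rw [hP]; rfl
    rw [e1] at h1
    exact h1

end CM
end Vale.Agent.P204K.GX
end

section

/-!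
Coordinates of the fibres: the Euclidean space `E6`, the Hodge star `hs`, the projection `pM J0`.
-/

open MeasureTheory Set
open scoped ContDiff InnerProductSpace

namespace Vale.Agent.P204K.GX.Hil
open Vale.Agent.P204K.T4 Vale.Agent.P204K.GX

theorem ofE_toE (A : L2) : ofE (toE A) = A := rfl
theorem toE_ofE (A : E6) : toE (ofE A) = A := rfl

theorem inner_E6 (u v : E6) :
    ⟪u, v⟫_ℝ = u 0 * v 0 + u 1 * v 1 + u 2 * v 2 + u 3 * v 3 + u 4 * v 4 + u 5 * v 5 := by
  simp only [PiLp.inner_apply, Fin.sum_univ_six, RCLike.inner_apply, conj_trivial]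
  ring

theorem inner_toE (A B : L2) :
    ⟪toE A, toE B⟫_ℝ = A 0 * B 0 + A 1 * B 1 + A 2 * B 2 + A 3 * B 3 + A 4 * B 4 + A 5 * B 5 := by
  rw [inner_E6]; rfl

theorem Q_eq_inner (A B : L2) : Q A B = ⟪toE A, toE (hs B)⟫_ℝ := by
  rw [inner_toE]
  simp only [Q, Fin.isValue, hs, Matrix.cons_val_zero, Matrix.cons_val_one, mul_neg, Matrix.cons_val, add_left_inj]
  ring

theorem hs_hs (B : L2) : hs (hs B) = B := by
  funext i; fin_cases i <;> simp only [hs, Fin.isValue, Matrix.cons_val, neg_neg, Matrix.cons_val_one, Matrix.cons_val_zero, Fin.zero_eta, Fin.mk_one, Fin.reduceFinMk]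

theorem hs_add (A B : L2) : hs (A + B) = hs A + hs B := by
  funext i; fin_cases i <;> simp only [hs, Fin.isValue, Pi.add_apply, neg_add_rev, Fin.zero_eta, Matrix.cons_val_zero, Fin.mk_one, Matrix.cons_val_one, Fin.reduceFinMk, Matrix.cons_val] <;> ring

theorem hs_smul (c : ℝ) (A : L2) : hs (c • A) = c • hs A := by
  funext i; fin_cases i <;> simp only [hs, Fin.isValue, Pi.smul_apply, smul_eq_mul, Fin.zero_eta, Matrix.cons_val_zero, Fin.mk_one, Matrix.cons_val_one, mul_neg, Fin.reduceFinMk, Matrix.cons_val]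

theorem inner_hs_left (A B : L2) : ⟪toE (hs A), toE B⟫_ℝ = ⟪toE A, toE (hs B)⟫_ℝ := by
  rw [inner_toE, inner_toE]
  simp only [hs, Fin.isValue, Matrix.cons_val_zero, Matrix.cons_val_one, neg_mul, Matrix.cons_val, mul_neg]
  ring

theorem pM_J0 (A : L2) : pM J0 A =
    ![0, (A 1 - A 4) / 2, (A 2 + A 3) / 2, (A 2 + A 3) / 2, (A 4 - A 1) / 2, 0] := by
  unfold pM
  rw [pull_J0]
  funext i
  simp only [Pi.smul_apply, Pi.sub_apply, smul_eq_mul]
  fin_cases i
  · simp only [one_div, Fin.zero_eta, Fin.isValue, Nat.succ_eq_add_one, Nat.reduceAdd, Matrix.cons_val_zero, sub_self, mul_zero]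
  · simp only [one_div, Fin.mk_one, Fin.isValue, Nat.succ_eq_add_one, Nat.reduceAdd, Matrix.cons_val_one, Matrix.cons_val_zero]; ring
  · simp only [one_div, Fin.reduceFinMk, Fin.isValue, Nat.succ_eq_add_one, Nat.reduceAdd, Matrix.cons_val, sub_neg_eq_add]; ring
  · simp only [one_div, Fin.reduceFinMk, Fin.isValue, Nat.succ_eq_add_one, Nat.reduceAdd, Matrix.cons_val, sub_neg_eq_add]; ring
  · simp only [one_div, Fin.reduceFinMk, Fin.isValue, Nat.succ_eq_add_one, Nat.reduceAdd, Matrix.cons_val]; ring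
  · simp only [one_div, Fin.reduceFinMk, Fin.isValue, Nat.succ_eq_add_one, Nat.reduceAdd, Matrix.cons_val, sub_self, mul_zero]

theorem hs_pM (A : L2) : hs (pM J0 A) = pM J0 A := by
  rw [pM_J0]
  funext i
  fin_cases i <;> simp only [hs, Nat.succ_eq_add_one, Nat.reduceAdd, Fin.isValue, Matrix.cons_val, Matrix.cons_val_one, Matrix.cons_val_zero, Fin.zero_eta, Fin.mk_one, Fin.reduceFinMk] <;> ring

theorem pM_pM (A : L2) : pM J0 (pM J0 A) = pM J0 A := by
  rw [pM_J0 (pM J0 A), pM_J0 A]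
  funext i
  fin_cases i <;> simp only [Nat.succ_eq_add_one, Nat.reduceAdd, Fin.isValue, Matrix.cons_val_one, Matrix.cons_val_zero, Matrix.cons_val, add_halves, Fin.zero_eta, Fin.mk_one, ne_eq, OfNat.ofNat_ne_zero, not_false_eq_true, div_left_inj', Fin.reduceFinMk] <;> ring

theorem pM_add' (A B : L2) : pM J0 (A + B) = pM J0 A + pM J0 B := by
  rw [pM_J0, pM_J0, pM_J0]
  funext i
  simp only [Pi.add_apply]
  fin_cases i <;> simp only [Nat.succ_eq_add_one, Nat.reduceAdd, Fin.isValue, Fin.zero_eta, Matrix.cons_val_zero, add_zero, Fin.mk_one, Matrix.cons_val_one, Fin.reduceFinMk, Matrix.cons_val] <;> ring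

theorem pM_smul' (c : ℝ) (A : L2) : pM J0 (c • A) = c • pM J0 A := by
  rw [pM_J0, pM_J0]
  funext i
  simp only [Pi.smul_apply, smul_eq_mul]
  fin_cases i <;> simp only [Nat.succ_eq_add_one, Nat.reduceAdd, Fin.isValue, Fin.zero_eta, Matrix.cons_val_zero, mul_zero, Fin.mk_one, Matrix.cons_val_one, Fin.reduceFinMk, Matrix.cons_val] <;> ring

theorem inner_pM_left (A B : L2) : ⟪toE (pM J0 A), toE B⟫_ℝ = ⟪toE A, toE (pM J0 B)⟫_ℝ := by
  rw [inner_toE, inner_toE, pM_J0, pM_J0]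
  simp only [Nat.succ_eq_add_one, Nat.reduceAdd, Fin.isValue, Matrix.cons_val_zero, zero_mul, Matrix.cons_val_one, zero_add, Matrix.cons_val, add_zero, mul_zero]
  ring

theorem norm_toE_sq (A : L2) : ‖toE A‖ ^ 2 =
    A 0 ^ 2 + A 1 ^ 2 + A 2 ^ 2 + A 3 ^ 2 + A 4 ^ 2 + A 5 ^ 2 := by
  rw [← real_inner_self_eq_norm_sq, inner_toE]; ring

theorem norm_toE_le (A : L2) : ‖toE A‖ ≤ 3 * ‖A‖ := by
  have h := norm_toE_sq A
  have hi : ∀ i, A i ^ 2 ≤ ‖A‖ ^ 2 := fun i => by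
    have := norm_le_pi_norm A i
    rw [Real.norm_eq_abs] at this
    rw [← sq_abs]
    exact pow_le_pow_left₀ (abs_nonneg _) this 2
  apply le_of_sq_le_sq _ (by positivity)
  rw [h]
  have h0 := hi 0; have h1 := hi 1; have h2 := hi 2
  have h3 := hi 3; have h4 := hi 4; have h5 := hi 5
  linarith only [h0, h1, h2, h3, h4, h5, sq_nonneg ‖A‖]

/-- the Hodge star on `E6` -/
noncomputable def stE : E6 →L[ℝ] E6 :=
  LinearMap.toContinuousLinearMap
    { toFun := fun u => toE (hs (ofE u))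
      map_add' := by intro u v; rw [map_add, hs_add, map_add]
      map_smul' := by intro c u; rw [map_smul, hs_smul, map_smul]; rfl }

theorem stE_apply (u : E6) : stE u = toE (hs (ofE u)) := rfl

/-- the anti-invariant projection on `E6` -/
noncomputable def pmE : E6 →L[ℝ] E6 :=
  LinearMap.toContinuousLinearMap
    { toFun := fun u => toE (pM J0 (ofE u))
      map_add' := by intro u v; rw [map_add, pM_add', map_add]
      map_smul' := by intro c u; rw [map_smul, pM_smul', map_smul]; rfl }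

theorem pmE_apply (u : E6) : pmE u = toE (pM J0 (ofE u)) := rfl

theorem stE_stE (u : E6) : stE (stE u) = u := by
  rw [stE_apply, stE_apply, ofE_toE, hs_hs, toE_ofE]

theorem pmE_pmE (u : E6) : pmE (pmE u) = pmE u := by
  rw [pmE_apply, pmE_apply, ofE_toE, pM_pM]

theorem stE_pmE (u : E6) : stE (pmE u) = pmE u := by
  rw [stE_apply, pmE_apply, ofE_toE, hs_pM]

theorem inner_stE (u v : E6) : ⟪stE u, v⟫_ℝ = ⟪u, stE v⟫_ℝ := by
  rw [stE_apply, stE_apply]
  have := inner_hs_left (ofE u) (ofE v)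
  rwa [toE_ofE, toE_ofE] at this

theorem inner_pmE (u v : E6) : ⟪pmE u, v⟫_ℝ = ⟪u, pmE v⟫_ℝ := by
  rw [pmE_apply, pmE_apply]
  have := inner_pM_left (ofE u) (ofE v)
  rwa [toE_ofE, toE_ofE] at this

end Vale.Agent.P204K.GX.Hil
end
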