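import Vale.Agent.P204.MathlibUsed
import Vale.Agent.P204.KC.K0
import Vale.Agent.P204.KC.K1

set_option linter.all false

section

/-!
# P204: from `Donaldson.{0}` to all universes

A compact manifold lives, up to homeomorphism, in `Type`: transport of structures.
-/

set_option linter.all false

open scoped Manifold ContDiff Topology
open Set

namespace Vale.Agent.P204K.DC

universe u v

section Transport

variable {E : Type} [NormedAddCommGroup E] [NormedSpace ℝ E]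
variable {X : Type u} [TopologicalSpace X] [ChartedSpace E X]
variable {Y : Type v} [TopologicalSpace Y] (φ : Y ≃ₜ X)

/-- the charted space structure pulled back by a homeomorphism -/
@[reducible] def cs : ChartedSpace E Y where
  atlas := {c | ∃ c0 ∈ atlas E X, c = φ.transOpenPartialHomeomorph c0}
  chartAt y := φ.transOpenPartialHomeomorph (chartAt E (φ y))
  mem_chart_source y := by
    show φ y ∈ (chartAt E (φ y)).source
    exact mem_chart_source E (φ y)
  chart_mem_atlas y := ⟨_, chart_mem_atlas E (φ y), rfl⟩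

theorem cs_isManifold [IsManifold 𝓘(ℝ, E) ∞ X] :
    @IsManifold ℝ _ E _ _ E _ 𝓘(ℝ, E) ∞ Y _ (cs (E := E) φ) := by
  letI : ChartedSpace E Y := cs (E := E) φ
  have h : HasGroupoid Y (contDiffGroupoid ∞ 𝓘(ℝ, E)) := by
    refine ⟨?_⟩
    rintro c c' ⟨c0, h0, rfl⟩ ⟨c0', h0', rfl⟩
    have h1 := StructureGroupoid.compatible (contDiffGroupoid ∞ 𝓘(ℝ, E)) h0 h0'
    refine StructureGroupoid.mem_of_eqOnSource _ h1 ⟨?_, ?_⟩
    · ext y
      simp
    · intro y hy
      simp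
  exact { h with }

theorem mfderiv_eq_of {M N M' N' : Type*} [TopologicalSpace M] [ChartedSpace E M] [TopologicalSpace N]
    [ChartedSpace E N] [TopologicalSpace M'] [ChartedSpace E M'] [TopologicalSpace N'] [ChartedSpace E N']
    {f : M → N} {f' : M' → N'} {x : M} {x' : M'}
    (hw : writtenInExtChartAt 𝓘(ℝ, E) 𝓘(ℝ, E) x f = writtenInExtChartAt 𝓘(ℝ, E) 𝓘(ℝ, E) x' f')
    (hp : extChartAt 𝓘(ℝ, E) x x = extChartAt 𝓘(ℝ, E) x' x') (hc : ContinuousAt f x ↔ ContinuousAt f' x') :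
    (mfderiv 𝓘(ℝ, E) 𝓘(ℝ, E) f x : E →L[ℝ] E) = (mfderiv 𝓘(ℝ, E) 𝓘(ℝ, E) f' x' : E →L[ℝ] E) := by
  have hd : MDifferentiableAt 𝓘(ℝ, E) 𝓘(ℝ, E) f x ↔ MDifferentiableAt 𝓘(ℝ, E) 𝓘(ℝ, E) f' x' := by
    rw [mdifferentiableAt_iff, mdifferentiableAt_iff, hw, hp, hc]
  by_cases h : MDifferentiableAt 𝓘(ℝ, E) 𝓘(ℝ, E) f' x'
  · have h1 : (mfderiv 𝓘(ℝ, E) 𝓘(ℝ, E) f x : E →L[ℝ] E) =
        fderivWithin ℝ (writtenInExtChartAt 𝓘(ℝ, E) 𝓘(ℝ, E) x f) (range 𝓘(ℝ, E)) (extChartAt 𝓘(ℝ, E) x x) :=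
      (hd.2 h).mfderiv
    have h2 : (mfderiv 𝓘(ℝ, E) 𝓘(ℝ, E) f' x' : E →L[ℝ] E) =
        fderivWithin ℝ (writtenInExtChartAt 𝓘(ℝ, E) 𝓘(ℝ, E) x' f') (range 𝓘(ℝ, E)) (extChartAt 𝓘(ℝ, E) x' x') :=
      h.mfderiv
    rw [h1, h2, hw, hp]
  · have h1 : (mfderiv 𝓘(ℝ, E) 𝓘(ℝ, E) f x : E →L[ℝ] E) = 0 :=
      mfderiv_zero_of_not_mdifferentiableAt fun h' => h (hd.1 h')
    have h2 : (mfderiv 𝓘(ℝ, E) 𝓘(ℝ, E) f' x' : E →L[ℝ] E) = 0 :=
      mfderiv_zero_of_not_mdifferentiableAt h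
    exact h1.trans h2.symm

/-- the differential of a map into `Y` -/
theorem mfderiv_symm_comp (f : E → X) (y : E) :
    letI : ChartedSpace E Y := cs (E := E) φ
    (mfderiv 𝓘(ℝ, E) 𝓘(ℝ, E) (fun z => φ.symm (f z)) y : E →L[ℝ] E) =
      (mfderiv 𝓘(ℝ, E) 𝓘(ℝ, E) f y : E →L[ℝ] E) := by
  letI : ChartedSpace E Y := cs (E := E) φ
  refine mfderiv_eq_of ?_ rfl (φ.symm.comp_continuousAt_iff f y)
  funext z
  simp only [writtenInExtChartAt, extChartAt, Function.comp_apply]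
  show (chartAt E (φ (φ.symm (f y)))) (φ (φ.symm (f _))) = (chartAt E (f y)) (f _)
  rw [φ.apply_symm_apply, φ.apply_symm_apply]

theorem mfderiv_comp_phi (g : X → E) (x : X) :
    letI : ChartedSpace E Y := cs (E := E) φ
    (mfderiv 𝓘(ℝ, E) 𝓘(ℝ, E) (fun z => g (φ z)) (φ.symm x) : E →L[ℝ] E) =
      (mfderiv 𝓘(ℝ, E) 𝓘(ℝ, E) g x : E →L[ℝ] E) := by
  letI : ChartedSpace E Y := cs (E := E) φ
  refine mfderiv_eq_of ?_ ?_ ?_
  · funext z
    simp only [writtenInExtChartAt, extChartAt, Function.comp_apply]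
    show g (φ (φ.symm ((chartAt E (φ (φ.symm x))).symm z))) = g ((chartAt E x).symm z)
    rw [φ.apply_symm_apply, φ.apply_symm_apply]
  · show (chartAt E (φ (φ.symm x))) (φ (φ.symm x)) = (chartAt E x) x
    rw [φ.apply_symm_apply]
  · have := φ.comp_continuousAt_iff' g (φ.symm x)
    rw [φ.apply_symm_apply] at this
    exact this

/-- transport of a two-form to `Y` -/
def tf (om : TwoForm E X) : @TwoForm E _ _ Y _ (cs (E := E) φ) :=
  fun y => (om (φ y) : E [⋀^Fin 2]→L[ℝ] ℝ)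

/-- transport of a two-form to `X` -/
def bf (om : @TwoForm E _ _ Y _ (cs (E := E) φ)) : TwoForm E X :=
  fun x => (om (φ.symm x) : E [⋀^Fin 2]→L[ℝ] ℝ)

/-- transport of a field of endomorphisms to `Y` -/
def tJ (J : EndField E X) : @EndField E _ _ Y _ (cs (E := E) φ) :=
  fun y => (J (φ y) : E →L[ℝ] E)

theorem pull_tf (c0 : OpenPartialHomeomorph X E) (om : TwoForm E X) :
    letI : ChartedSpace E Y := cs (E := E) φ
    pullForm (φ.transOpenPartialHomeomorph c0).symm (tf φ om) = pullForm c0.symm om := by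
  letI : ChartedSpace E Y := cs (E := E) φ
  funext y
  have e1 : (fun x => om x : X → E [⋀^Fin 2]→L[ℝ] ℝ) (φ (φ.symm (c0.symm y))) =
      (fun x => om x : X → E [⋀^Fin 2]→L[ℝ] ℝ) (c0.symm y) := by rw [φ.apply_symm_apply]
  exact congrArg₂ (fun (A : E [⋀^Fin 2]→L[ℝ] ℝ) (L : E →L[ℝ] E) => A.compContinuousLinearMap L) e1
    (mfderiv_symm_comp φ c0.symm y)

theorem tf_bf (om : @TwoForm E _ _ Y _ (cs (E := E) φ)) : tf φ (bf φ om) = om := by
  letI : ChartedSpace E Y := cs (E := E) φ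
  funext y
  show (fun y => om y : Y → E [⋀^Fin 2]→L[ℝ] ℝ) (φ.symm (φ y)) = (fun y => om y : Y → E [⋀^Fin 2]→L[ℝ] ℝ) y
  rw [φ.symm_apply_apply]

theorem pull_bf (c0 : OpenPartialHomeomorph X E) (om : @TwoForm E _ _ Y _ (cs (E := E) φ)) :
    letI : ChartedSpace E Y := cs (E := E) φ
    pullForm c0.symm (bf φ om) = pullForm (φ.transOpenPartialHomeomorph c0).symm om := by
  letI : ChartedSpace E Y := cs (E := E) φ
  have h := pull_tf φ c0 (bf φ om)
  rw [tf_bf] at h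
  exact h.symm

theorem endRep_tJ (c0 : OpenPartialHomeomorph X E) (J : EndField E X) :
    letI : ChartedSpace E Y := cs (E := E) φ
    endRep (φ.transOpenPartialHomeomorph c0) (tJ φ J) = endRep c0 J := by
  letI : ChartedSpace E Y := cs (E := E) φ
  funext y
  have e1 : (fun x => J x : X → E →L[ℝ] E) (φ (φ.symm (c0.symm y))) =
      (fun x => J x : X → E →L[ℝ] E) (c0.symm y) := by rw [φ.apply_symm_apply]
  have e2 := mfderiv_symm_comp φ c0.symm y
  have e3 := mfderiv_comp_phi φ c0 (c0.symm y)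
  have e4 : ∀ (A A' B B' C C' : E →L[ℝ] E), A = A' → B = B' → C = C' →
      A.comp (B.comp C) = A'.comp (B'.comp C') := by
    rintro A _ B _ C _ rfl rfl rfl; rfl
  exact e4 _ _ _ _ _ _ e3 e1 e2

theorem almostComplex_tJ {J : EndField E X} (hJ : AlmostComplex J) :
    @AlmostComplex E _ _ Y _ (cs (E := E) φ) (tJ φ J) := by
  letI : ChartedSpace E Y := cs (E := E) φ
  refine ⟨?_, fun y v => hJ.sq (φ y) v⟩
  rintro c ⟨c0, h0, rfl⟩
  rw [endRep_tJ]
  exact hJ.smooth c0 h0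

theorem symplectic_tf {om : TwoForm E X} (h : Symplectic om) :
    @Symplectic E _ _ Y _ (cs (E := E) φ) (tf φ om) := by
  letI : ChartedSpace E Y := cs (E := E) φ
  refine ⟨?_, ?_, fun y v hv => h.nondegenerate (φ y) v hv⟩
  · rintro c ⟨c0, h0, rfl⟩
    rw [pull_tf]
    exact h.smooth c0 h0
  · rintro c ⟨c0, h0, rfl⟩
    rw [pull_tf]
    exact h.closed c0 h0

theorem symplectic_bf {om : @TwoForm E _ _ Y _ (cs (E := E) φ)}
    (h : @Symplectic E _ _ Y _ (cs (E := E) φ) om) : Symplectic (bf φ om) := by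
  letI : ChartedSpace E Y := cs (E := E) φ
  refine ⟨?_, ?_, fun x v hv => h.nondegenerate (φ.symm x) v hv⟩
  · intro c0 h0
    rw [pull_bf]
    exact h.smooth _ ⟨c0, h0, rfl⟩
  · intro c0 h0
    rw [pull_bf]
    exact h.closed _ ⟨c0, h0, rfl⟩

theorem compatible_bf {om : @TwoForm E _ _ Y _ (cs (E := E) φ)} {J : EndField E X}
    (h : @Compatible E _ _ Y _ (cs (E := E) φ) om (tJ φ J)) : Compatible (bf φ om) J := by
  letI : ChartedSpace E Y := cs (E := E) φ
  have e : ∀ x, (fun x => J x : X → E →L[ℝ] E) (φ (φ.symm x)) = (fun x => J x : X → E →L[ℝ] E) x := by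
    intro x; rw [φ.apply_symm_apply]
  refine ⟨fun x v hv => ?_, fun x v w => ?_⟩
  · have h1 := h.tames (φ.symm x) v hv
    have h2 : tJ φ J (φ.symm x) v = J x v := congrArg (fun L : E →L[ℝ] E => L v) (e x)
    rw [h2] at h1
    exact h1
  · have h1 := h.invariant (φ.symm x) v w
    have h2 : ∀ v : E, tJ φ J (φ.symm x) v = J x v := fun v => congrArg (fun L : E →L[ℝ] E => L v) (e x)
    rw [h2 v, h2 w] at h1
    exact h1

end Transport

theorem small_of_compact {E : Type} [TopologicalSpace E] (X : Type u) [TopologicalSpace X] [ChartedSpace E X]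
    [CompactSpace X] : Small.{0} X := by
  obtain ⟨t, ht⟩ := isCompact_univ.elim_nhds_subcover (fun x : X => (chartAt E x).source)
    (fun x _ => chart_source_mem_nhds E x)
  have h1 : ∀ x : X, Small.{0} ((chartAt E x).source) := fun x =>
    small_of_injective (f := fun y : (chartAt E x).source => chartAt E x y) (fun y z h =>
      Subtype.ext ((chartAt E x).injOn y.2 z.2 h))
  have h2 : Small.{0} (↑(⋃ x : t, (chartAt E (x : X)).source) : Type u) := small_iUnion _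
  rw [← small_univ_iff]
  refine small_subset (t := univ) (s := ⋃ x : t, (chartAt E (x : X)).source) fun x _ => ?_
  obtain ⟨y, hy, hxy⟩ := mem_iUnion₂.1 (ht.2 (mem_univ x))
  exact mem_iUnion.2 ⟨⟨y, hy⟩, hxy⟩

theorem donaldson_univ (h : Donaldson.{0}) : Donaldson.{u} := by
  rintro X _ _ _ _ _ _ J hJ ⟨om, hom, hT⟩
  have hs : Small.{0} X := small_of_compact (E := EuclideanSpace ℝ (Fin 4)) X
  letI : TopologicalSpace (Shrink.{0} X) := TopologicalSpace.induced (equivShrink X).symm inferInstance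
  let φ : Shrink.{0} X ≃ₜ X := (equivShrink X).symm.toHomeomorphOfIsInducing ⟨rfl⟩
  letI : ChartedSpace (EuclideanSpace ℝ (Fin 4)) (Shrink.{0} X) := cs φ
  haveI : IsManifold (𝓡 4) ∞ (Shrink.{0} X) := cs_isManifold φ
  haveI : CompactSpace (Shrink.{0} X) := φ.symm.compactSpace
  haveI : T2Space (Shrink.{0} X) := φ.symm.t2Space
  haveI : ConnectedSpace (Shrink.{0} X) := φ.symm.surjective.connectedSpace φ.symm.continuous
  obtain ⟨om', h1, h2⟩ := h (Shrink.{0} X) (tJ φ J) (almostComplex_tJ φ hJ)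
    ⟨tf φ om, symplectic_tf φ hom, fun y v hv => hT (φ y) v hv⟩
  exact ⟨bf φ om', symplectic_bf φ h1, compatible_bf φ h2⟩

end Vale.Agent.P204K.DC
end

section

/-!
# El Mir on `X`, part 1: reading a positive current in a chart
-/

open scoped BigOperators ContDiff Topology ENNReal
open MeasureTheory Set

namespace Vale.Agent.P204K.GX
open T4

theorem cone_smul {J : M4} {A : L2} (h : Cone J A) {c : ℝ} (hc : 0 ≤ c) : Cone J (c • A) := by
  refine ⟨by rw [pull_smul, h.1], fun v => ?_⟩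
  rw [ev_smul]
  exact mul_nonneg hc (h.2 v)

theorem cone_add {J : M4} {A B : L2} (h : Cone J A) (h' : Cone J B) : Cone J (A + B) := by
  refine ⟨by rw [pull_add, h.1, h'.1], fun v => ?_⟩
  rw [ev_add]
  exact add_nonneg (h.2 v) (h'.2 v)

theorem pos_J0_std : Pos J0 := by
  unfold Pos Q Fm ofEnt J0
  simp only [Fin.isValue, Matrix.cons_val', Matrix.cons_val_zero, Matrix.cons_val_fin_one, Matrix.cons_val_one, sub_neg_eq_add, add_self_div_two, Matrix.cons_val, sub_self, zero_div, mul_one, mul_zero, sub_zero, add_zero, pos_add_self_iff, zero_lt_one]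

theorem Fm_J0_eq : Fm J0 = F0 := by
  funext i
  fin_cases i <;> simp only [Fm, ofEnt, J0, Fin.isValue, Matrix.cons_val', Matrix.cons_val_zero, Matrix.cons_val_fin_one, Matrix.cons_val_one, sub_neg_eq_add, add_self_div_two, Matrix.cons_val, sub_self, zero_div, Fin.zero_eta, F0, Fin.mk_one, Fin.reduceFinMk]

theorem measurable_QQ {α : Type*} [MeasurableSpace α] {A B : α → L2} (hA : Measurable A)
    (hB : Measurable B) : Measurable fun a => Q (A a) (B a) := by
  have hA' : ∀ i, Measurable fun a => A a i := fun i => (measurable_pi_apply i).comp hA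
  have hB' : ∀ i, Measurable fun a => B a i := fun i => (measurable_pi_apply i).comp hB
  unfold Q
  fun_prop

theorem measurable_pull {α : Type*} [MeasurableSpace α] {P : α → M4} {A : α → L2}
    (hP : Measurable P) (hA : Measurable A) : Measurable fun a => pull (P a) (A a) := by
  have hA' : ∀ i, Measurable fun a => A a i := fun i => (measurable_pi_apply i).comp hA
  have hP' : ∀ i j, Measurable fun a => P a i j := fun i j =>
    (measurable_pi_apply j).comp ((measurable_pi_apply i).comp hP)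
  have key : ∀ i j, Measurable fun a => pent (P a) (A a) i j := by
    intro i j
    unfold pent mn
    fun_prop
  refine measurable_pi_lambda _ fun k => ?_
  simp only [pull_eq]
  fin_cases k
  · exact key 0 1
  · exact key 0 2
  · exact key 0 3
  · exact key 1 2
  · exact key 1 3
  · exact key 2 3

/-- The two-sided bound for normalised positive elements. -/
theorem exists_norm_bound : ∃ C : ℝ, 1 ≤ C ∧ ∀ A : L2, Cone J0 A → Q A F0 = 1 →
    ‖A‖ ≤ C ∧ 1 ≤ C * ‖A‖ := by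
  have hG : Good {J0} := ⟨isCompact_singleton, by rintro J rfl; exact isCx_J0,
    by rintro J rfl; exact pos_J0_std⟩
  obtain ⟨c, hc, h⟩ := hG.exists_Q_Fm
  refine ⟨max (max c⁻¹ (6 * ‖F0‖)) 1, le_max_right _ _, fun A hA hn => ⟨?_, ?_⟩⟩
  · have h1 := h J0 rfl A hA
    rw [Fm_J0_eq, hn] at h1
    have h2 : ‖A‖ ≤ c⁻¹ := by
      rw [le_inv_comm₀ (norm_nonneg A |>.lt_of_ne' ?_) hc]
      · rw [← one_div, le_div_iff₀]
        · exact h1
        · refine (norm_nonneg A).lt_of_ne' ?_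
          intro h0
          rw [norm_eq_zero] at h0
          rw [h0] at hn
          simp at hn
      · intro h0
        rw [norm_eq_zero] at h0
        rw [h0] at hn
        simp at hn
    exact h2.trans ((le_max_left _ _).trans (le_max_left _ _))
  · have h1 := (abs_le.1 (abs_Q_le A F0)).2
    rw [hn] at h1
    have h2 : 6 * ‖A‖ * ‖F0‖ = (6 * ‖F0‖) * ‖A‖ := by ring
    rw [h2] at h1
    exact h1.trans (mul_le_mul_of_nonneg_right ((le_max_right _ _).trans (le_max_left _ _))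
      (norm_nonneg _))

namespace CM
variable {X : Type} [MetricSpace X] (M : CM X)

theorem frame (a : M.A) (y : V4) : Frame (M.J a y) (M.m' a y) (M.m a y) where
  right := M.m'_m a y
  left := M.m_m' a y
  comm := by
    intro v
    have h := M.m_J a y (app (M.m' a y) v)
    rw [M.m_m'] at h
    rw [← h, M.m'_m]
  pos := by
    have h := det4_mm (M.m a y) (M.m' a y)
    rw [M.mm_m_m', det4_one] at h
    by_contra hneg
    have := M.m_det a y
    nlinarith

theorem pull_m'_m (a : M.A) (y : V4) (B : L2) : pull (M.m' a y) (pull (M.m a y) B) = B := by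
  rw [← pull_mm, M.mm_m_m', pull_one]

theorem cone_pull (a : M.A) (y : V4) {B : L2} (hB : Cone J0 B) :
    Cone (M.J a y) (pull (M.m a y) B) := by
  rw [← (M.frame a y).cone_iff, M.pull_m'_m]
  exact hB

theorem det_m' (a : M.A) (y : V4) : det4 (M.m' a y) = (det4 (M.m a y))⁻¹ := by
  have h := det4_mm (M.m a y) (M.m' a y)
  rw [M.mm_m_m', det4_one] at h
  exact eq_inv_of_mul_eq_one_right h.symm

theorem Q_pull_m' (a : M.A) (y : V4) (B γ : L2) :
    det4 (M.m' a y) * Q (pull (M.m a y) B) γ = Q B (pull (M.m' a y) γ) := by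
  rw [← Q_pull, M.pull_m'_m]

/-! ### The local current -/

/-- density of the chart current before normalisation -/
noncomputable def Dl (a : M.A) (D : X → L2) (y : V4) : L2 := pull (M.m a y) (D (M.ψ a y))

/-- normalisation factor -/
noncomputable def ql (a : M.A) (D : X → L2) (y : V4) : ℝ := Q (M.Dl a D y) (Fm (M.J a y))

/-- weight -/
noncomputable def wl (a : M.A) (D : X → L2) (y : V4) : ℝ := det4 (M.m' a y) * M.ql a D y

/-- normalised density -/
noncomputable def Dn (a : M.A) (D : X → L2) (y : V4) : L2 := (M.ql a D y)⁻¹ • M.Dl a D y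

variable {M} {D : X → L2}

theorem Dl_ne (a : M.A) (hn : ∀ x, Q (D x) F0 = 1) (y : V4) : M.Dl a D y ≠ 0 := by
  intro h
  have h1 : D (M.ψ a y) = 0 := by
    rw [← M.pull_m'_m a y (D (M.ψ a y))]
    change pull (M.m' a y) (M.Dl a D y) = 0
    rw [h, pull_zero]
  have h2 := hn (M.ψ a y)
  rw [h1] at h2
  simp at h2

theorem ql_pos (a : M.A) (hc : ∀ x, Cone J0 (D x)) (hn : ∀ x, Q (D x) F0 = 1) (y : V4) :
    0 < M.ql a D y :=
  Q_posDef_pos (M.J_cx a y) (M.J_pos a y) (M.cone_pull a y (hc _)) (Dl_ne a hn y)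
    (posDef_Fm (M.J_cx a y))

theorem wl_pos (a : M.A) (hc : ∀ x, Cone J0 (D x)) (hn : ∀ x, Q (D x) F0 = 1) (y : V4) :
    0 < M.wl a D y := mul_pos (M.frame a y).pos (ql_pos a hc hn y)

theorem Dn_cone (a : M.A) (hc : ∀ x, Cone J0 (D x)) (hn : ∀ x, Q (D x) F0 = 1) (y : V4) :
    Cone (M.J a y) (M.Dn a D y) :=
  cone_smul (M.cone_pull a y (hc _)) (inv_nonneg.2 (ql_pos a hc hn y).le)

theorem Dn_norm (a : M.A) (hc : ∀ x, Cone J0 (D x)) (hn : ∀ x, Q (D x) F0 = 1) (y : V4) :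
    Q (M.Dn a D y) (Fm (M.J a y)) = 1 := by
  unfold Dn
  rw [Q_smul_left]
  exact inv_mul_cancel₀ (ql_pos a hc hn y).ne'

theorem wl_Dn (a : M.A) (hc : ∀ x, Cone J0 (D x)) (hn : ∀ x, Q (D x) F0 = 1) (y : V4) (γ : L2) :
    M.wl a D y * Q (M.Dn a D y) γ = Q (D (M.ψ a y)) (pull (M.m' a y) γ) := by
  unfold wl Dn
  rw [Q_smul_left, ← M.Q_pull_m']
  have := (ql_pos a hc hn y).ne'
  unfold Dl at this ⊢
  field_simp

/-- two-sided bounds of the weight on compact sets -/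
theorem exists_wl_bound (a : M.A) (hc : ∀ x, Cone J0 (D x)) (hn : ∀ x, Q (D x) F0 = 1) (ρ : ℝ) :
    ∃ C : ℝ, 1 ≤ C ∧ ∀ y, ‖y‖ ≤ ρ → M.wl a D y ≤ C ∧ 1 ≤ C * M.wl a D y := by
  obtain ⟨C1, hC1, h1⟩ := M.exists_cf_bound a ρ
  obtain ⟨C2, hC2, h2⟩ := exists_norm_bound
  have hG : Good (M.J a '' Metric.closedBall 0 ρ) :=
    ⟨(isCompact_closedBall _ _).image (M.J_smooth a).continuous,
      by rintro J ⟨y, _, rfl⟩; exact M.J_cx a y, by rintro J ⟨y, _, rfl⟩; exact M.J_pos a y⟩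
  obtain ⟨c3, hc3, h3⟩ := hG.exists_Q_Fm
  obtain ⟨C4, hC4, h4⟩ := hG.exists_norm_Fm
  -- bounds for the determinant
  have hdet : Continuous fun y => det4 (M.m a y) := M.continuous_det_m a
  obtain ⟨C5, h5⟩ := (isCompact_closedBall (0 : V4) ρ).bddAbove_image hdet.continuousOn
  have hdet' : Continuous fun y => (det4 (M.m a y))⁻¹ := hdet.inv₀ fun y => (M.m_det a y).ne'
  obtain ⟨C6, h6⟩ := (isCompact_closedBall (0 : V4) ρ).bddAbove_image hdet'.continuousOn
  set B5 := max C5 1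
  set B6 := max C6 1
  have hB5 : (1 : ℝ) ≤ B5 := le_max_right _ _
  have hB6 : (1 : ℝ) ≤ B6 := le_max_right _ _
  have hC1' : (0 : ℝ) < C1 := by linarith
  have hC2' : (0 : ℝ) < C2 := by linarith only [hC2]
  refine ⟨max (max (B6 * (6 * (C1 * C2) * C4)) (B5 * (c3⁻¹ * (C1 * C2)))) 1,
    le_max_right _ _, fun y hy => ?_⟩
  have hy' : y ∈ Metric.closedBall (0 : V4) ρ := by simpa only [Metric.mem_closedBall, dist_zero_right] using hy
  have e5 : det4 (M.m a y) ≤ B5 := (h5 (mem_image_of_mem _ hy')).trans (le_max_left _ _)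
  have e6 : (det4 (M.m a y))⁻¹ ≤ B6 := (h6 (mem_image_of_mem _ hy')).trans (le_max_left _ _)
  obtain ⟨e2, e2'⟩ := h2 _ (hc (M.ψ a y)) (hn _)
  have e1 : ‖M.Dl a D y‖ ≤ C1 * C2 :=
    ((h1 y hy D).1).trans (mul_le_mul_of_nonneg_left e2 (by linarith only [hC1]))
  have e1' : 1 ≤ (C1 * C2) * ‖M.Dl a D y‖ := by
    have h := (h1 y hy D).2
    calc (1 : ℝ) ≤ C2 * ‖D (M.ψ a y)‖ := e2'
      _ ≤ C2 * (C1 * ‖M.cf a D y‖) := mul_le_mul_of_nonneg_left h (by linarith only [hC2])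
      _ = (C1 * C2) * ‖M.Dl a D y‖ := by rw [show M.cf a D y = M.Dl a D y from rfl]; ring
  have e3 : c3 * ‖M.Dl a D y‖ ≤ M.ql a D y :=
    h3 _ (mem_image_of_mem _ hy') _ (M.cone_pull a y (hc _))
  have e4 : M.ql a D y ≤ 6 * (C1 * C2) * C4 := by
    have h := (abs_le.1 (abs_Q_le (M.Dl a D y) (Fm (M.J a y)))).2
    refine h.trans ?_
    have h4' := h4 _ (mem_image_of_mem (M.J a) hy')
    have : 6 * ‖M.Dl a D y‖ ≤ 6 * (C1 * C2) := by linarith only [e1]
    exact mul_le_mul this h4' (norm_nonneg _) (by positivity)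
  have hq := ql_pos a hc hn y
  have hm := M.m_det a y
  have hwl : M.wl a D y = (det4 (M.m a y))⁻¹ * M.ql a D y := by unfold wl; rw [M.det_m']
  rw [hwl]
  constructor
  · refine le_trans ?_ ((le_max_left _ _).trans (le_max_left _ _))
    exact mul_le_mul e6 e4 hq.le (by linarith only [hB6])
  · have h7 : 1 ≤ (B5 * (c3⁻¹ * (C1 * C2))) * ((det4 (M.m a y))⁻¹ * M.ql a D y) := by
      have h8 : 1 ≤ c3⁻¹ * (C1 * C2) * M.ql a D y := by
        have : (C1 * C2) * ‖M.Dl a D y‖ ≤ c3⁻¹ * (C1 * C2) * M.ql a D y := by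
          have h9 : ‖M.Dl a D y‖ ≤ c3⁻¹ * M.ql a D y := by
            rw [← div_eq_inv_mul, le_div_iff₀ hc3]; linarith only [e3]
          calc (C1 * C2) * ‖M.Dl a D y‖ ≤ (C1 * C2) * (c3⁻¹ * M.ql a D y) :=
                mul_le_mul_of_nonneg_left h9 (by positivity)
            _ = _ := by ring
        linarith only [e1', this]
      have h10 : 1 ≤ B5 * (det4 (M.m a y))⁻¹ := by
        rw [← div_eq_mul_inv, le_div_iff₀ hm]; linarith only [e5]
      calc (1 : ℝ) = 1 * 1 := by ring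
        _ ≤ (B5 * (det4 (M.m a y))⁻¹) * (c3⁻¹ * (C1 * C2) * M.ql a D y) :=
          mul_le_mul h10 h8 zero_le_one (by positivity)
        _ = _ := by ring
    refine h7.trans (mul_le_mul_of_nonneg_right ?_ (by positivity))
    exact (le_max_right _ _).trans (le_max_left _ _)

variable [MeasurableSpace X] [BorelSpace X]

theorem measurable_Dl (a : M.A) (hD : Measurable D) : Measurable (M.Dl a D) :=
  measurable_pull (M.m_meas a) (hD.comp (M.measurable_ψ a))

theorem measurable_ql (a : M.A) (hD : Measurable D) : Measurable (M.ql a D) :=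
  measurable_QQ (measurable_Dl a hD) ((continuous_Fm.comp (M.J_smooth a).continuous).measurable)

theorem measurable_wl (a : M.A) (hD : Measurable D) : Measurable (M.wl a D) :=
  (measurable_det4.comp (M.m'_meas a)).mul (measurable_ql a hD)

theorem measurable_Dn (a : M.A) (hD : Measurable D) : Measurable (M.Dn a D) :=
  (measurable_ql a hD).inv.smul (measurable_Dl a hD)

/-- the chart measure -/
noncomputable def ra (M : CM X) (a : M.A) (r : Measure X) (D : X → L2) : Measure V4 :=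
  (r.comap (M.ψ a)).withDensity fun y => ENNReal.ofReal (M.wl a D y)

theorem map_comap_ψ (a : M.A) (r : Measure X) :
    (r.comap (M.ψ a)).map (M.ψ a) = r.restrict (range (M.ψ a)) :=
  (M.measurableEmbedding_ψ a).map_comap r

/-- change of variables from the chart measure to the measure on `X` -/
theorem integral_ra (a : M.A) (r : Measure X) (hD : Measurable D) (hc : ∀ x, Cone J0 (D x))
    (hn : ∀ x, Q (D x) F0 = 1) {S : Set X} (hS : MeasurableSet S) (γ : V4 → L2) :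
    ∫ y in M.ψ a ⁻¹' S, Q (M.Dn a D y) (γ y) ∂(M.ra a r D) =
      ∫ x in S, Q (D x) (M.ext a γ x) ∂r := by
  have hpre : MeasurableSet (M.ψ a ⁻¹' S) := hS.preimage (M.measurable_ψ a)
  have hr : MeasurableSet (range (M.ψ a)) := (M.isOpen_range a).measurableSet
  have h1 : ∫ x in S, Q (D x) (M.ext a γ x) ∂r =
      ∫ x in range (M.ψ a), S.indicator (fun x => Q (D x) (M.ext a γ x)) x ∂r := by
    rw [setIntegral_eq_integral_of_forall_compl_eq_zero (s := range (M.ψ a)),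
      integral_indicator hS]
    intro x hx
    by_cases hxS : x ∈ S
    · rw [indicator_of_mem hxS, M.ext_of_notMem a γ hx]
      simp
    · rw [indicator_of_notMem hxS]
  rw [h1, ← map_comap_ψ, (M.measurableEmbedding_ψ a).integral_map]
  have h2 : ∫ y in M.ψ a ⁻¹' S, Q (M.Dn a D y) (γ y) ∂(M.ra a r D) =
      ∫ y, (M.ψ a ⁻¹' S).indicator (fun y => Q (M.Dn a D y) (γ y)) y ∂(M.ra a r D) :=
    (integral_indicator hpre).symm
  rw [h2]
  unfold ra
  rw [integral_withDensity_eq_integral_toReal_smul (measurable_wl a hD).ennreal_ofReal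
    (Filter.Eventually.of_forall fun y => ENNReal.ofReal_lt_top)]
  refine integral_congr_ae (Filter.Eventually.of_forall fun y => ?_)
  show (ENNReal.ofReal (M.wl a D y)).toReal • (M.ψ a ⁻¹' S).indicator
    (fun y => Q (M.Dn a D y) (γ y)) y = S.indicator (fun x => Q (D x) (M.ext a γ x)) (M.ψ a y)
  rw [ENNReal.toReal_ofReal (wl_pos a hc hn y).le, smul_eq_mul]
  by_cases hy : M.ψ a y ∈ S
  · rw [indicator_of_mem (show y ∈ M.ψ a ⁻¹' S from hy), indicator_of_mem hy,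
      wl_Dn a hc hn, M.ext_ψ_self]
  · rw [indicator_of_notMem (show y ∉ M.ψ a ⁻¹' S from hy), indicator_of_notMem hy, mul_zero]

instance comap_finite (a : M.A) (r : Measure X) [IsFiniteMeasure r] :
    IsFiniteMeasure (r.comap (M.ψ a)) := by
  constructor
  rw [(M.measurableEmbedding_ψ a).comap_apply]
  exact measure_lt_top _ _

theorem ra_locallyFinite (a : M.A) (r : Measure X) [IsFiniteMeasure r]
    (hc : ∀ x, Cone J0 (D x)) (hn : ∀ x, Q (D x) F0 = 1) :
    IsLocallyFiniteMeasure (M.ra a r D) := by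
  constructor
  intro y
  obtain ⟨C, hC, h⟩ := exists_wl_bound (M := M) (D := D) a hc hn (‖y‖ + 1)
  refine ⟨Metric.ball y 1, Metric.ball_mem_nhds _ one_pos, ?_⟩
  unfold ra
  rw [withDensity_apply _ measurableSet_ball]
  calc ∫⁻ z in Metric.ball y 1, ENNReal.ofReal (M.wl a D z) ∂(r.comap (M.ψ a))
      ≤ ∫⁻ z in Metric.ball y 1, ENNReal.ofReal C ∂(r.comap (M.ψ a)) := by
        refine setLIntegral_mono' measurableSet_ball fun z hz => ENNReal.ofReal_le_ofReal ?_
        refine (h z ?_).1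
        have : ‖z - y‖ < 1 := by simpa only [Metric.mem_ball, dist_eq_norm] using hz
        calc ‖z‖ = ‖y + (z - y)‖ := by congr 1; abel
          _ ≤ ‖y‖ + ‖z - y‖ := norm_add_le _ _
          _ ≤ ‖y‖ + 1 := by linarith
    _ < ⊤ := by
        rw [lintegral_const]
        exact ENNReal.mul_lt_top ENNReal.ofReal_lt_top (measure_lt_top _ _)

end CM
end Vale.Agent.P204K.GX
end

section

set_option linter.all false
open scoped BigOperators Topology

namespace Vale.Agent.P204K.T4.EM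

/-! Algebra for the energy estimate: star of bivectors, triple cross products. -/

/-- The two-form dual to a bivector: `Q A (sw u v) = ev A u v`. -/
def sw (u v : V4) : L2 :=
  ![u 2 * v 3 - u 3 * v 2, -(u 1 * v 3 - u 3 * v 1), u 1 * v 2 - u 2 * v 1,
    u 0 * v 3 - u 3 * v 0, -(u 0 * v 2 - u 2 * v 0), u 0 * v 1 - u 1 * v 0]

theorem sw_0 (u v : V4) : sw u v 0 = u 2 * v 3 - u 3 * v 2 := rfl
theorem sw_1 (u v : V4) : sw u v 1 = -(u 1 * v 3 - u 3 * v 1) := rfl
theorem sw_2 (u v : V4) : sw u v 2 = u 1 * v 2 - u 2 * v 1 := rfl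
theorem sw_3 (u v : V4) : sw u v 3 = u 0 * v 3 - u 3 * v 0 := rfl
theorem sw_4 (u v : V4) : sw u v 4 = -(u 0 * v 2 - u 2 * v 0) := rfl
theorem sw_5 (u v : V4) : sw u v 5 = u 0 * v 1 - u 1 * v 0 := rfl

theorem Q_sw (A : L2) (u v : V4) : Q A (sw u v) = ev A u v := by
  simp only [Q, sw_0, sw_1, sw_2, sw_3, sw_4, sw_5, ev_eq]; ring

/-- Nondegeneracy of the wedge pairing. -/
theorem ext_Q {A B : L2} (h : ∀ C, Q C A = Q C B) : A = B := by
  funext i
  have h0 := h (Pi.single 5 1)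
  have h1 := h (Pi.single 4 1)
  have h2 := h (Pi.single 3 1)
  have h3 := h (Pi.single 2 1)
  have h4 := h (Pi.single 1 1)
  have h5 := h (Pi.single 0 1)
  simp only [Q, Fin.isValue, ne_eq, Fin.reduceEq, not_false_eq_true, Pi.single_eq_of_ne, zero_mul, sub_self, add_zero, Pi.single_eq_same, one_mul, zero_add, zero_sub, neg_inj, sub_zero, zero_ne_one, one_ne_zero] at h0 h1 h2 h3 h4 h5
  fin_cases i
  · exact h0
  · exact h1
  · exact h2
  · exact h3
  · exact h4
  · exact h5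

/-- Triple cross product, a covector: `X u v w c = - det (e_c, u, v, w)`. -/
def X3 (u v w : V4) : V4 :=
  ![-(u 1 * (v 2 * w 3 - v 3 * w 2) - u 2 * (v 1 * w 3 - v 3 * w 1) + u 3 * (v 1 * w 2 - v 2 * w 1)),
    u 0 * (v 2 * w 3 - v 3 * w 2) - u 2 * (v 0 * w 3 - v 3 * w 0) + u 3 * (v 0 * w 2 - v 2 * w 0),
    -(u 0 * (v 1 * w 3 - v 3 * w 1) - u 1 * (v 0 * w 3 - v 3 * w 0) + u 3 * (v 0 * w 1 - v 1 * w 0)),
    u 0 * (v 1 * w 2 - v 2 * w 1) - u 1 * (v 0 * w 2 - v 2 * w 0) + u 2 * (v 0 * w 1 - v 1 * w 0)]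

theorem X3_0 (u v w : V4) : X3 u v w 0 = -(u 1 * (v 2 * w 3 - v 3 * w 2)
    - u 2 * (v 1 * w 3 - v 3 * w 1) + u 3 * (v 1 * w 2 - v 2 * w 1)) := rfl
theorem X3_1 (u v w : V4) : X3 u v w 1 = u 0 * (v 2 * w 3 - v 3 * w 2)
    - u 2 * (v 0 * w 3 - v 3 * w 0) + u 3 * (v 0 * w 2 - v 2 * w 0) := rfl
theorem X3_2 (u v w : V4) : X3 u v w 2 = -(u 0 * (v 1 * w 3 - v 3 * w 1)
    - u 1 * (v 0 * w 3 - v 3 * w 0) + u 3 * (v 0 * w 1 - v 1 * w 0)) := rfl
theorem X3_3 (u v w : V4) : X3 u v w 3 = u 0 * (v 1 * w 2 - v 2 * w 1)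
    - u 1 * (v 0 * w 2 - v 2 * w 0) + u 2 * (v 0 * w 1 - v 1 * w 0) := rfl

theorem wd_X3 (xi a b c : V4) : wd xi (X3 a b c) =
    dp xi a • sw b c + dp xi b • sw c a + dp xi c • sw a b := by
  funext i
  fin_cases i
  · show wd xi (X3 a b c) 0 = (dp xi a • sw b c + dp xi b • sw c a + dp xi c • sw a b) 0
    simp only [wd_0, X3_0, X3_1, X3_2, X3_3, Pi.add_apply, Pi.smul_apply, smul_eq_mul, sw_0, dp_eq]
    ring
  · show wd xi (X3 a b c) 1 = (dp xi a • sw b c + dp xi b • sw c a + dp xi c • sw a b) 1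
    simp only [wd_1, X3_0, X3_1, X3_2, X3_3, Pi.add_apply, Pi.smul_apply, smul_eq_mul, sw_1, dp_eq]
    ring
  · show wd xi (X3 a b c) 2 = (dp xi a • sw b c + dp xi b • sw c a + dp xi c • sw a b) 2
    simp only [wd_2, X3_0, X3_1, X3_2, X3_3, Pi.add_apply, Pi.smul_apply, smul_eq_mul, sw_2, dp_eq]
    ring
  · show wd xi (X3 a b c) 3 = (dp xi a • sw b c + dp xi b • sw c a + dp xi c • sw a b) 3
    simp only [wd_3, X3_0, X3_1, X3_2, X3_3, Pi.add_apply, Pi.smul_apply, smul_eq_mul, sw_3, dp_eq]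
    ring
  · show wd xi (X3 a b c) 4 = (dp xi a • sw b c + dp xi b • sw c a + dp xi c • sw a b) 4
    simp only [wd_4, X3_0, X3_1, X3_2, X3_3, Pi.add_apply, Pi.smul_apply, smul_eq_mul, sw_4, dp_eq]
    ring
  · show wd xi (X3 a b c) 5 = (dp xi a • sw b c + dp xi b • sw c a + dp xi c • sw a b) 5
    simp only [wd_5, X3_0, X3_1, X3_2, X3_3, Pi.add_apply, Pi.smul_apply, smul_eq_mul, sw_5, dp_eq]
    ring

/-- Trace. -/
def tr4 (M : M4) : ℝ := M 0 0 + M 1 1 + M 2 2 + M 3 3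

/-- Columns of a matrix. -/
def colv (M : M4) (i : Fin 4) : V4 := fun k => M k i

/-- Antisymmetrised first slot derivative. -/
theorem gamma_id (M : M4) (b c : V4) :
    ofEnt (fun i j => X3 (colv M i) b c j - X3 (colv M j) b c i) =
      tr4 M • sw b c - sw (app M b) c - sw b (app M c) := by
  funext i
  fin_cases i
  · show X3 (colv M 0) b c 1 - X3 (colv M 1) b c 0 =
      (tr4 M • sw b c - sw (app M b) c - sw b (app M c)) 0
    simp only [X3_0, X3_1, X3_2, X3_3, Pi.sub_apply, Pi.smul_apply, smul_eq_mul, sw_0, colv,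
      app_eq, tr4]
    ring
  · show X3 (colv M 0) b c 2 - X3 (colv M 2) b c 0 =
      (tr4 M • sw b c - sw (app M b) c - sw b (app M c)) 1
    simp only [X3_0, X3_1, X3_2, X3_3, Pi.sub_apply, Pi.smul_apply, smul_eq_mul, sw_1, colv,
      app_eq, tr4]
    ring
  · show X3 (colv M 0) b c 3 - X3 (colv M 3) b c 0 =
      (tr4 M • sw b c - sw (app M b) c - sw b (app M c)) 2
    simp only [X3_0, X3_1, X3_2, X3_3, Pi.sub_apply, Pi.smul_apply, smul_eq_mul, sw_2, colv,
      app_eq, tr4]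
    ring
  · show X3 (colv M 1) b c 2 - X3 (colv M 2) b c 1 =
      (tr4 M • sw b c - sw (app M b) c - sw b (app M c)) 3
    simp only [X3_0, X3_1, X3_2, X3_3, Pi.sub_apply, Pi.smul_apply, smul_eq_mul, sw_3, colv,
      app_eq, tr4]
    ring
  · show X3 (colv M 1) b c 3 - X3 (colv M 3) b c 1 =
      (tr4 M • sw b c - sw (app M b) c - sw b (app M c)) 4
    simp only [X3_0, X3_1, X3_2, X3_3, Pi.sub_apply, Pi.smul_apply, smul_eq_mul, sw_4, colv,
      app_eq, tr4]
    ring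
  · show X3 (colv M 2) b c 3 - X3 (colv M 3) b c 2 =
      (tr4 M • sw b c - sw (app M b) c - sw b (app M c)) 5
    simp only [X3_0, X3_1, X3_2, X3_3, Pi.sub_apply, Pi.smul_apply, smul_eq_mul, sw_5, colv,
      app_eq, tr4]
    ring

theorem X3_cyc (u v w : V4) : X3 u v w = X3 v w u := by
  funext i
  fin_cases i
  · show X3 u v w 0 = X3 v w u 0; simp only [X3_0]; ring
  · show X3 u v w 1 = X3 v w u 1; simp only [X3_1]; ring
  · show X3 u v w 2 = X3 v w u 2; simp only [X3_2]; ring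
  · show X3 u v w 3 = X3 v w u 3; simp only [X3_3]; ring

/-! The Hermitian metric and the Kaehler type identity. -/

/-- The metric `g(v,w) = (⟨v,w⟩ + ⟨Jv,Jw⟩)/2`. -/
noncomputable def gm (J : M4) (v w : V4) : ℝ := (dp v w + dp (app J v) (app J w)) / 2

theorem gm_eq_ev {J : M4} (hJ : IsCx J) (v w : V4) : gm J v w = ev (Fm J) v (app J w) := by
  rw [ev_Fm, hJ, dp_neg_right, gm]; ring

theorem gm_symm (J : M4) (v w : V4) : gm J v w = gm J w v := by
  unfold gm; rw [dp_comm v w, dp_comm (app J v)]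

/-- The matrix of the metric. -/
noncomputable def gM (J : M4) : M4 := fun i j =>
  ((if i = j then 1 else 0) + ∑ k, J k i * J k j) / 2

/-- Lowering an index. -/
noncomputable def low (J : M4) (w : V4) : V4 := app (gM J) w

theorem dp_low (J : M4) (w u : V4) : dp (low J w) u = gm J w u := by
  simp only [dp_eq, low, app_eq, gM, gm, Fin.sum_univ_four]
  simp only [↓reduceIte, Fin.isValue, zero_ne_one, zero_add, Fin.reduceEq, one_ne_zero]
  ring

end Vale.Agent.P204K.T4.EM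
end

section
set_option linter.all false
/-! Algebra and calculus for the El Mir step. -/
open MeasureTheory Set Filter Topology
open scoped ContDiff

namespace Vale.Agent.P204K.T4.EM

/-- interior product `ι_w F` -/
def ic (F : L2) (w : V4) : V4 := ![
  -(F 0 * w 1) - F 1 * w 2 - F 2 * w 3, F 0 * w 0 - F 3 * w 2 - F 4 * w 3,
  F 1 * w 0 + F 3 * w 1 - F 5 * w 3, F 2 * w 0 + F 4 * w 1 + F 5 * w 2]

theorem ic_0 (F : L2) (w : V4) : ic F w 0 = -(F 0 * w 1) - F 1 * w 2 - F 2 * w 3 := rfl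
theorem ic_1 (F : L2) (w : V4) : ic F w 1 = F 0 * w 0 - F 3 * w 2 - F 4 * w 3 := rfl
theorem ic_2 (F : L2) (w : V4) : ic F w 2 = F 1 * w 0 + F 3 * w 1 - F 5 * w 3 := rfl
theorem ic_3 (F : L2) (w : V4) : ic F w 3 = F 2 * w 0 + F 4 * w 1 + F 5 * w 2 := rfl

theorem dp_ic (F : L2) (w u : V4) : dp (ic F w) u = ev F w u := by
  simp only [dp_eq, ic_0, ic_1, ic_2, ic_3, ev_eq]; ring

/-- universal identity `ι_w F ∧ ι_u F ∧ D = F(w,u) F ∧ D - (F∧F) D(w,u) / 2` -/
theorem Q_wd_ic (F D : L2) (w u : V4) :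
    Q D (wd (ic F w) (ic F u)) = ev F w u * Q F D - Q F F / 2 * ev D w u := by
  simp only [Q, wd_0, wd_1, wd_2, wd_3, wd_4, wd_5, ic_0, ic_1, ic_2, ic_3, ev_eq]
  ring

theorem low_eq_ic {J : M4} (hJ : IsCx J) (w : V4) : low J w = - ic (Fm J) (app J w) := by
  apply ext_dp
  intro v
  rw [dp_low, gm_eq_ev hJ, dp_neg_left, dp_ic]
  have h := ev_pull J (Fm J) w (app J v)
  rw [pull_Fm hJ, hJ, ev_neg_right] at h
  rw [h]

/-- Kähler type identity. -/
theorem Q_wd_low {J : M4} (hJ : IsCx J) (D : L2) (w u : V4) :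
    Q D (wd (low J w) (low J u)) =
      ev (Fm J) w u * Q (Fm J) D - Q (Fm J) (Fm J) / 2 * ev (pull J D) w u := by
  rw [low_eq_ic hJ, low_eq_ic hJ, wd_neg_left, wd_neg_right, neg_neg, Q_wd_ic, ev_pull]
  congr 2
  rw [← ev_pull, pull_Fm hJ]

/-- Hodge star of the flat metric (coordinates) -/
def hst (B : L2) : L2 := ![B 5, -B 4, B 3, B 2, -B 1, B 0]

/-- Inverse metric. -/
noncomputable def Gi (J : M4) : M4 := fun i j =>
  2 / Q (Fm J) (Fm J) * ∑ k, J i k * ent (hst (Fm J)) k j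

theorem app_Gi (J : M4) (a : V4) :
    app (Gi J) a = (2 / Q (Fm J) (Fm J)) • app J (app (ent (hst (Fm J))) a) := by
  funext i
  simp only [app, Gi, Pi.smul_apply, smul_eq_mul, Fin.sum_univ_four]
  ring

theorem ev_hst (F : L2) (v a : V4) : ev F v (app (ent (hst F)) a) = - (Q F F / 2) * dp v a := by
  have e0 : app (ent (hst F)) a 0 = F 5 * a 1 - F 4 * a 2 + F 3 * a 3 := by
    simp only [ent, hst, Fin.isValue, Matrix.cons_val_zero, Matrix.cons_val_one, Matrix.cons_val, neg_neg, app_eq, Matrix.cons_val', Matrix.cons_val_fin_one, zero_mul, zero_add, neg_mul, add_left_inj]; ring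
  have e1 : app (ent (hst F)) a 1 = -F 5 * a 0 + F 2 * a 2 - F 1 * a 3 := by
    simp only [ent, hst, Fin.isValue, Matrix.cons_val_zero, Matrix.cons_val_one, Matrix.cons_val, neg_neg, app_eq, Matrix.cons_val', Matrix.cons_val_fin_one, neg_mul, zero_mul, add_zero]; ring
  have e2 : app (ent (hst F)) a 2 = F 4 * a 0 - F 2 * a 1 + F 0 * a 3 := by
    simp only [ent, hst, Fin.isValue, Matrix.cons_val_zero, Matrix.cons_val_one, Matrix.cons_val, neg_neg, app_eq, Matrix.cons_val', Matrix.cons_val_fin_one, neg_mul, zero_mul, add_zero, add_left_inj]; ring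
  have e3 : app (ent (hst F)) a 3 = -F 3 * a 0 + F 1 * a 1 - F 0 * a 2 := by
    simp only [ent, hst, Fin.isValue, Matrix.cons_val_zero, Matrix.cons_val_one, Matrix.cons_val, neg_neg, app_eq, Matrix.cons_val', Matrix.cons_val_fin_one, neg_mul, zero_mul, add_zero]; ring
  rw [ev_eq, e0, e1, e2, e3, dp_eq]
  simp only [Q]
  ring

theorem gm_Gi {J : M4} (hJ : IsCx J) (hpos : Pos J) (v a : V4) : gm J v (app (Gi J) a) = dp v a := by
  have hp : Q (Fm J) (Fm J) ≠ 0 := ne_of_gt hpos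
  rw [gm_eq_ev hJ, app_Gi, app_smul, hJ, ev_smul_right, ev_neg_right, ev_hst]
  field_simp

theorem gm_eq_dp (J : M4) (v w : V4) : gm J v w = dp v (app (gM J) w) := by
  rw [gm_symm, ← dp_low, low, dp_comm]

/-! product rules -/

theorem HasDerivAt.dpr {u v : ℝ → V4} {u' v' : V4} {t : ℝ} (hu : HasDerivAt u u' t) (hv : HasDerivAt v v' t) :
    HasDerivAt (fun s => dp (u s) (v s)) (dp u' (v t) + dp (u t) v') t := by
  have a := hasDerivAt_pi.1 hu
  have b := hasDerivAt_pi.1 hv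
  have h := ((((a 0).mul (b 0)).add ((a 1).mul (b 1))).add ((a 2).mul (b 2))).add ((a 3).mul (b 3))
  have e : (fun s => dp (u s) (v s)) = ((((fun s => u s 0) * fun s => v s 0) + (fun s => u s 1) * fun s => v s 1) +
      (fun s => u s 2) * fun s => v s 2) + (fun s => u s 3) * fun s => v s 3 := by
    funext s; simp only [dp_eq, Pi.add_apply, Pi.mul_apply]
  rw [e]
  refine h.congr_deriv ?_
  simp only [dp_eq]; ring

theorem HasDerivAt.appr {M : ℝ → M4} {M' : M4} {v : ℝ → V4} {v' : V4} {t : ℝ} (hM : HasDerivAt M M' t)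
    (hv : HasDerivAt v v' t) :
    HasDerivAt (fun s => app (M s) (v s)) (app M' (v t) + app (M t) v') t := by
  rw [hasDerivAt_pi]
  intro i
  exact HasDerivAt.dpr (hasDerivAt_pi.1 hM i) hv

theorem HasDerivAt.swr {u v : ℝ → V4} {u' v' : V4} {t : ℝ} (hu : HasDerivAt u u' t) (hv : HasDerivAt v v' t) :
    HasDerivAt (fun s => sw (u s) (v s)) (sw u' (v t) + sw (u t) v') t := by
  have a := hasDerivAt_pi.1 hu
  have b := hasDerivAt_pi.1 hv
  have key : ∀ i j, HasDerivAt (fun s => u s i * v s j - u s j * v s i)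
      ((u' i * v t j + u t i * v' j) - (u' j * v t i + u t j * v' i)) t := fun i j =>
    ((a i).mul (b j)).sub ((a j).mul (b i))
  rw [hasDerivAt_pi]
  intro i
  fin_cases i
  · refine (key 2 3).congr_deriv ?_
    show _ = sw u' (v t) 0 + sw (u t) v' 0
    simp only [sw_0]; ring
  · refine (key 1 3).neg.congr_deriv ?_
    show _ = sw u' (v t) 1 + sw (u t) v' 1
    simp only [sw_1]; ring
  · refine (key 1 2).congr_deriv ?_
    show _ = sw u' (v t) 2 + sw (u t) v' 2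
    simp only [sw_2]; ring
  · refine (key 0 3).congr_deriv ?_
    show _ = sw u' (v t) 3 + sw (u t) v' 3
    simp only [sw_3]; ring
  · refine (key 0 2).neg.congr_deriv ?_
    show _ = sw u' (v t) 4 + sw (u t) v' 4
    simp only [sw_4]; ring
  · refine (key 0 1).congr_deriv ?_
    show _ = sw u' (v t) 5 + sw (u t) v' 5
    simp only [sw_5]; ring

theorem HasDerivAt.X3r {u v w : ℝ → V4} {u' v' w' : V4} {t : ℝ} (hu : HasDerivAt u u' t)
    (hv : HasDerivAt v v' t) (hw : HasDerivAt w w' t) :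
    HasDerivAt (fun s => X3 (u s) (v s) (w s)) (X3 u' (v t) (w t) + X3 (u t) v' (w t) + X3 (u t) (v t) w') t := by
  have a := hasDerivAt_pi.1 hu
  have b := hasDerivAt_pi.1 hv
  have c := hasDerivAt_pi.1 hw
  have key : ∀ i j k, HasDerivAt (fun s => u s i * (v s j * w s k - v s k * w s j))
      (u' i * (v t j * w t k - v t k * w t j) +
        u t i * ((v' j * w t k + v t j * w' k) - (v' k * w t j + v t k * w' j))) t := fun i j k =>
    (a i).mul (((b j).mul (c k)).sub ((b k).mul (c j)))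
  rw [hasDerivAt_pi]
  intro i
  fin_cases i
  · refine (((key 1 2 3).sub (key 2 1 3)).add (key 3 1 2)).neg.congr_deriv ?_
    show _ = X3 u' (v t) (w t) 0 + X3 (u t) v' (w t) 0 + X3 (u t) (v t) w' 0
    simp only [X3_0]; ring
  · refine (((key 0 2 3).sub (key 2 0 3)).add (key 3 0 2)).congr_deriv ?_
    show _ = X3 u' (v t) (w t) 1 + X3 (u t) v' (w t) 1 + X3 (u t) (v t) w' 1
    simp only [X3_1]; ring
  · refine (((key 0 1 3).sub (key 1 0 3)).add (key 3 0 1)).neg.congr_deriv ?_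
    show _ = X3 u' (v t) (w t) 2 + X3 (u t) v' (w t) 2 + X3 (u t) (v t) w' 2
    simp only [X3_2]; ring
  · refine (((key 0 1 2).sub (key 1 0 2)).add (key 2 0 1)).congr_deriv ?_
    show _ = X3 u' (v t) (w t) 3 + X3 (u t) v' (w t) 3 + X3 (u t) (v t) w' 3
    simp only [X3_3]; ring

/-! smoothness of the algebraic operations -/

section smooth
variable {E : Type} [NormedAddCommGroup E] [NormedSpace ℝ E]

theorem cd_comp {n : ℕ} {f : E → Fin n → ℝ} (hf : ContDiff ℝ ∞ f) (i : Fin n) : ContDiff ℝ ∞ (fun x => f x i) :=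
  contDiff_pi_apply_of hf i
where contDiff_pi_apply_of {n : ℕ} {f : E → Fin n → ℝ} (hf : ContDiff ℝ ∞ f) (i : Fin n) :
    ContDiff ℝ ∞ (fun x => f x i) := (contDiff_pi.1 hf) i

theorem cd_comp2 {f : E → M4} (hf : ContDiff ℝ ∞ f) (i j : Fin 4) : ContDiff ℝ ∞ (fun x => f x i j) :=
  (contDiff_pi.1 ((contDiff_pi.1 hf) i)) j

theorem cd_dp {u v : E → V4} (hu : ContDiff ℝ ∞ u) (hv : ContDiff ℝ ∞ v) :
    ContDiff ℝ ∞ (fun x => dp (u x) (v x)) := by
  simp only [dp_eq]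
  exact ((((cd_comp hu 0).mul (cd_comp hv 0)).add ((cd_comp hu 1).mul (cd_comp hv 1))).add
    ((cd_comp hu 2).mul (cd_comp hv 2))).add ((cd_comp hu 3).mul (cd_comp hv 3))

theorem cd_app {M : E → M4} {v : E → V4} (hM : ContDiff ℝ ∞ M) (hv : ContDiff ℝ ∞ v) :
    ContDiff ℝ ∞ (fun x => app (M x) (v x)) := by
  rw [contDiff_pi]
  intro i
  exact cd_dp ((contDiff_pi.1 hM) i) hv

theorem cd_sw {u v : E → V4} (hu : ContDiff ℝ ∞ u) (hv : ContDiff ℝ ∞ v) :
    ContDiff ℝ ∞ (fun x => sw (u x) (v x)) := by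
  have key : ∀ i j, ContDiff ℝ ∞ (fun x => u x i * v x j - u x j * v x i) := fun i j =>
    ((cd_comp hu i).mul (cd_comp hv j)).sub ((cd_comp hu j).mul (cd_comp hv i))
  rw [contDiff_pi]
  intro i
  fin_cases i
  · exact key 2 3
  · exact (key 1 3).neg
  · exact key 1 2
  · exact key 0 3
  · exact (key 0 2).neg
  · exact key 0 1

theorem cd_wd {u v : E → V4} (hu : ContDiff ℝ ∞ u) (hv : ContDiff ℝ ∞ v) :
    ContDiff ℝ ∞ (fun x => wd (u x) (v x)) := by
  have key : ∀ i j, ContDiff ℝ ∞ (fun x => u x i * v x j - u x j * v x i) := fun i j =>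
    ((cd_comp hu i).mul (cd_comp hv j)).sub ((cd_comp hu j).mul (cd_comp hv i))
  rw [contDiff_pi]
  intro i
  fin_cases i
  · exact key 0 1
  · exact key 0 2
  · exact key 0 3
  · exact key 1 2
  · exact key 1 3
  · exact key 2 3

theorem cd_X3 {u v w : E → V4} (hu : ContDiff ℝ ∞ u) (hv : ContDiff ℝ ∞ v) (hw : ContDiff ℝ ∞ w) :
    ContDiff ℝ ∞ (fun x => X3 (u x) (v x) (w x)) := by
  have key : ∀ i j k, ContDiff ℝ ∞ (fun x => u x i * (v x j * w x k - v x k * w x j)) := fun i j k =>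
    (cd_comp hu i).mul (((cd_comp hv j).mul (cd_comp hw k)).sub ((cd_comp hv k).mul (cd_comp hw j)))
  rw [contDiff_pi]
  intro i
  fin_cases i
  · exact (((key 1 2 3).sub (key 2 1 3)).add (key 3 1 2)).neg
  · exact ((key 0 2 3).sub (key 2 0 3)).add (key 3 0 2)
  · exact (((key 0 1 3).sub (key 1 0 3)).add (key 3 0 1)).neg
  · exact ((key 0 1 2).sub (key 1 0 2)).add (key 2 0 1)

theorem cd_Q {A B : E → L2} (hA : ContDiff ℝ ∞ A) (hB : ContDiff ℝ ∞ B) :
    ContDiff ℝ ∞ (fun x => Q (A x) (B x)) := by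
  simp only [Q]
  exact ((((((cd_comp hA 0).mul (cd_comp hB 5)).sub ((cd_comp hA 1).mul (cd_comp hB 4))).add
    ((cd_comp hA 2).mul (cd_comp hB 3))).add ((cd_comp hA 3).mul (cd_comp hB 2))).sub
    ((cd_comp hA 4).mul (cd_comp hB 1))).add ((cd_comp hA 5).mul (cd_comp hB 0))

theorem cd_M4 {M : E → M4} (h : ∀ i j, ContDiff ℝ ∞ (fun x => M x i j)) : ContDiff ℝ ∞ M :=
  contDiff_pi.2 fun i => contDiff_pi.2 fun j => h i j

theorem cd_Fm {J : E → M4} (hJ : ContDiff ℝ ∞ J) : ContDiff ℝ ∞ (fun x => Fm (J x)) := by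
  have key : ∀ i j, ContDiff ℝ ∞ (fun x => (J x j i - J x i j) / 2) := fun i j =>
    ((cd_comp2 hJ j i).sub (cd_comp2 hJ i j)).div_const 2
  rw [contDiff_pi]
  intro i
  fin_cases i
  · exact key 0 1
  · exact key 0 2
  · exact key 0 3
  · exact key 1 2
  · exact key 1 3
  · exact key 2 3

theorem cd_gM {J : E → M4} (hJ : ContDiff ℝ ∞ J) : ContDiff ℝ ∞ (fun x => gM (J x)) := by
  refine cd_M4 fun i j => ?_
  simp only [gM]
  exact (contDiff_const.add (ContDiff.sum fun k _ => (cd_comp2 hJ k i).mul (cd_comp2 hJ k j))).div_const 2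

theorem cd_hst {B : E → L2} (hB : ContDiff ℝ ∞ B) : ContDiff ℝ ∞ (fun x => hst (B x)) := by
  rw [contDiff_pi]
  intro i
  fin_cases i
  · exact cd_comp hB 5
  · exact (cd_comp hB 4).neg
  · exact cd_comp hB 3
  · exact cd_comp hB 2
  · exact (cd_comp hB 1).neg
  · exact cd_comp hB 0

theorem cd_ent {B : E → L2} (hB : ContDiff ℝ ∞ B) : ContDiff ℝ ∞ (fun x => ent (B x)) := by
  refine cd_M4 fun i j => ?_
  fin_cases i <;> fin_cases j
  · exact contDiff_const
  · exact cd_comp hB 0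
  · exact cd_comp hB 1
  · exact cd_comp hB 2
  · exact (cd_comp hB 0).neg
  · exact contDiff_const
  · exact cd_comp hB 3
  · exact cd_comp hB 4
  · exact (cd_comp hB 1).neg
  · exact (cd_comp hB 3).neg
  · exact contDiff_const
  · exact cd_comp hB 5
  · exact (cd_comp hB 2).neg
  · exact (cd_comp hB 4).neg
  · exact (cd_comp hB 5).neg
  · exact contDiff_const

theorem cd_Gi {J : E → M4} (hJ : ContDiff ℝ ∞ J) (hp : ∀ x, Pos (J x)) : ContDiff ℝ ∞ (fun x => Gi (J x)) := by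
  refine cd_M4 fun i j => ?_
  simp only [Gi]
  exact (contDiff_const.div (cd_Q (cd_Fm hJ) (cd_Fm hJ)) fun x => ne_of_gt (hp x)).mul
    (ContDiff.sum fun k _ => (cd_comp2 hJ i k).mul (cd_comp2 (cd_ent (cd_hst (cd_Fm hJ))) k j))

end smooth

end Vale.Agent.P204K.T4.EM
end

section
set_option linter.all false
/-! The connection-like matrices, the squared distance, the pointwise identity. -/
open MeasureTheory Set Filter Topology
open scoped ContDiff

namespace Vale.Agent.P204K.T4.EM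

theorem hasDerivAt_line {E : Type} [NormedAddCommGroup E] [NormedSpace ℝ E] {f : V4 → E} {x : V4}
    (hf : DifferentiableAt ℝ f x) (v : V4) : HasDerivAt (fun t : ℝ => f (x + t • v)) (fderiv ℝ f x v) 0 := by
  have h1 : HasDerivAt (fun t : ℝ => x + t • v) v 0 := by
    have := ((hasDerivAt_id (0 : ℝ)).smul_const v).const_add x
    simpa using this
  have h2 : HasFDerivAt f (fderiv ℝ f x) (x + (0 : ℝ) • v) := by
    simpa using hf.hasFDerivAt
  exact h2.comp_hasDerivAt (0 : ℝ) h1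

theorem fderiv_eq_of_line {E : Type} [NormedAddCommGroup E] [NormedSpace ℝ E] {f : V4 → E} {x : V4}
    (hf : DifferentiableAt ℝ f x) {v : V4} {d : E} (h : HasDerivAt (fun t : ℝ => f (x + t • v)) d 0) :
    fderiv ℝ f x v = d := (hasDerivAt_line hf v).unique h

/-- derivative of the metric matrix -/
noncomputable def dG (J : V4 → M4) (l : Fin 4) (x : V4) : M4 := fderiv ℝ (fun z => gM (J z)) x (eb l)

/-- `Γ_l = - G⁻¹ ∂_l G / 2` -/
noncomputable def Ga (J : V4 → M4) (l : Fin 4) (x : V4) : M4 := fun i j =>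
  -(1 / 2) * ∑ k, Gi (J x) i k * dG J l x k j

theorem app_Ga (J : V4 → M4) (l : Fin 4) (x v : V4) :
    app (Ga J l x) v = -(1 / 2 : ℝ) • app (Gi (J x)) (app (dG J l x) v) := by
  funext i
  simp only [app, Ga, Pi.smul_apply, smul_eq_mul, Fin.sum_univ_four, Pi.neg_apply]
  ring

theorem dp_smul_right (c : ℝ) (a v : V4) : dp a (c • v) = c * dp a v := by
  simp only [dp_eq, Pi.smul_apply, smul_eq_mul]; ring
theorem dp_add_right (a v w : V4) : dp a (v + w) = dp a v + dp a w := by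
  simp only [dp_eq, Pi.add_apply]; ring

theorem gm_add_right (J : M4) (v u w : V4) : gm J v (u + w) = gm J v u + gm J v w := by
  simp only [gm, app_add, dp_add_right]; ring
theorem gm_smul_right (J : M4) (c : ℝ) (v u : V4) : gm J v (c • u) = c * gm J v u := by
  simp only [gm, app_smul, dp_smul_right]; ring
theorem gm_Ga {J : V4 → M4} (hcx : ∀ y, IsCx (J y)) (hpos : ∀ y, Pos (J y)) (l : Fin 4) (x v w : V4) :
    gm (J x) v (app (Ga J l x) w) = -(1 / 2) * dp v (app (dG J l x) w) := by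
  rw [app_Ga, gm_smul_right, gm_Gi (hcx x) (hpos x)]

theorem cd_dG {J : V4 → M4} (hJ : ContDiff ℝ ∞ J) (l : Fin 4) : ContDiff ℝ ∞ (dG J l) := by
  have h : ContDiff ℝ ∞ (fderiv ℝ (fun z => gM (J z))) := (cd_gM hJ).fderiv_right (by simp)
  exact h.clm_apply contDiff_const

theorem cd_Ga {J : V4 → M4} (hJ : ContDiff ℝ ∞ J) (hpos : ∀ y, Pos (J y)) (l : Fin 4) :
    ContDiff ℝ ∞ (Ga J l) := by
  refine cd_M4 fun i j => ?_
  simp only [Ga]
  exact contDiff_const.mul (ContDiff.sum fun k _ => (cd_comp2 (cd_Gi hJ hpos) i k).mul (cd_comp2 (cd_dG hJ l) k j))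

/-- squared distance -/
noncomputable def qd (J : V4 → M4) (x y : V4) : ℝ := gm (J x) (y - x) (y - x)

/-- adapted frame `A_l = e_l + Γ_l w` -/
noncomputable def AA (J : V4 → M4) (l : Fin 4) (x y : V4) : V4 := eb l + app (Ga J l x) (y - x)

theorem cd_qd {J : V4 → M4} (hJ : ContDiff ℝ ∞ J) : ContDiff ℝ ∞ (fun p : V4 × V4 => qd J p.1 p.2) := by
  have h1 : ContDiff ℝ ∞ (fun p : V4 × V4 => p.2 - p.1) := contDiff_snd.sub contDiff_fst
  have h2 : ContDiff ℝ ∞ (fun p : V4 × V4 => gM (J p.1)) := cd_gM (hJ.comp contDiff_fst)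
  simp only [qd, gm_eq_dp]
  exact cd_dp h1 (cd_app h2 h1)

theorem cd_AA {J : V4 → M4} (hJ : ContDiff ℝ ∞ J) (hpos : ∀ y, Pos (J y)) (l : Fin 4) :
    ContDiff ℝ ∞ (fun p : V4 × V4 => AA J l p.1 p.2) := by
  have h1 : ContDiff ℝ ∞ (fun p : V4 × V4 => p.2 - p.1) := contDiff_snd.sub contDiff_fst
  have h2 : ContDiff ℝ ∞ (fun p : V4 × V4 => Ga J l p.1) := (cd_Ga hJ hpos l).comp contDiff_fst
  exact contDiff_const.add (cd_app h2 h1)

/-! line derivatives in `x` -/

section der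
variable {J : V4 → M4} (hJ : ContDiff ℝ ∞ J) (hcx : ∀ y, IsCx (J y)) (hpos : ∀ y, Pos (J y))
include hJ

theorem line_w (x y : V4) (v : V4) : HasDerivAt (fun t : ℝ => y - (x + t • v)) (-v) 0 := by
  have := ((((hasDerivAt_id (0 : ℝ)).smul_const v).const_add x).const_sub y)
  simpa only [id_eq, one_smul] using this

theorem line_gM (x : V4) (l : Fin 4) : HasDerivAt (fun t : ℝ => gM (J (x + t • eb l))) (dG J l x) 0 :=
  hasDerivAt_line (((cd_gM hJ).differentiable (by simp)) x) (eb l)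

theorem line_Ga (hpos : ∀ y, Pos (J y)) (x : V4) (j l : Fin 4) :
    HasDerivAt (fun t : ℝ => Ga J j (x + t • eb l)) (fderiv ℝ (Ga J j) x (eb l)) 0 :=
  hasDerivAt_line (((cd_Ga hJ hpos j).differentiable (by simp)) x) (eb l)

include hcx hpos

theorem line_qd (x y : V4) (l : Fin 4) :
    HasDerivAt (fun t : ℝ => qd J (x + t • eb l) y) (-2 * gm (J x) (y - x) (AA J l x y)) 0 := by
  have h1 := line_w hJ x y (eb l)
  have h2 := HasDerivAt.dpr h1 (HasDerivAt.appr (line_gM hJ x l) h1)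
  simp only [qd, gm_eq_dp]
  refine h2.congr_deriv ?_
  simp only [zero_smul, add_zero]
  rw [AA]
  have e1 := gm_Ga hcx hpos l x (y - x) (y - x)
  have e2 := gm_eq_dp (J x) (y - x) (eb l + app (Ga J l x) (y - x))
  rw [gm_add_right, e1] at e2
  rw [← e2, gm_eq_dp, app_neg, dp_neg_left, dp_add_right, dp_neg_right]
  have e3 : dp (eb l) (app (gM (J x)) (y - x)) = dp (y - x) (app (gM (J x)) (eb l)) := by
    rw [← gm_eq_dp, ← gm_eq_dp, gm_symm]
  rw [e3]; ring

theorem line_AA (x y : V4) (j l : Fin 4) :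
    HasDerivAt (fun t : ℝ => AA J j (x + t • eb l) y)
      (app (fderiv ℝ (Ga J j) x (eb l)) (y - x) - app (Ga J j x) (eb l)) 0 := by
  have h1 := line_w hJ x y (eb l)
  have h2 := (HasDerivAt.appr (line_Ga hJ hpos x j l) h1).const_add (eb j)
  refine h2.congr_deriv ?_
  simp only [zero_smul, add_zero, app_neg]
  exact (sub_eq_add_neg _ _).symm

/-- line derivative in `x` of `φ(q) sw w A_j` -/
theorem line_B {φ φ' : ℝ → ℝ} (x y : V4) (j l : Fin 4) (hφ : HasDerivAt φ (φ' (qd J x y)) (qd J x y)) :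
    HasDerivAt (fun t : ℝ => φ (qd J (x + t • eb l) y) • sw (y - (x + t • eb l)) (AA J j (x + t • eb l) y))
      ((φ' (qd J x y) * (-2 * gm (J x) (y - x) (AA J l x y))) • sw (y - x) (AA J j x y) +
        φ (qd J x y) • (sw (-eb l) (AA J j x y) + sw (y - x)
          (app (fderiv ℝ (Ga J j) x (eb l)) (y - x) - app (Ga J j x) (eb l)))) 0 := by
  have h1 := line_w hJ x y (eb l)
  have h2 := line_qd hJ hcx hpos x y l
  have h3 := line_AA hJ hcx hpos x y j l
  have h4 : HasDerivAt (fun t : ℝ => φ (qd J (x + t • eb l) y))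
      (φ' (qd J x y) * (-2 * gm (J x) (y - x) (AA J l x y))) 0 := by
    have hφ' : HasDerivAt φ (φ' (qd J x y)) (qd J (x + (0 : ℝ) • eb l) y) := by simpa using hφ
    exact hφ'.comp (0 : ℝ) h2
  have h5 := h4.smul (HasDerivAt.swr h1 h3)
  refine h5.congr_deriv ?_
  simp only [zero_smul, add_zero]
  rw [add_comm]

/-! line derivatives in `y` -/

omit hJ hcx hpos in
theorem line_wy (x y : V4) (v : V4) : HasDerivAt (fun t : ℝ => (y + t • v) - x) v 0 := by
  have := ((((hasDerivAt_id (0 : ℝ)).smul_const v).const_add y).sub_const x)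
  simpa only [hasDerivAt_sub_const_iff, hasDerivAt_const_add_iff, id_eq, one_smul] using this

omit hJ hcx hpos in
theorem line_qdy (x y v : V4) :
    HasDerivAt (fun t : ℝ => qd J x (y + t • v)) (2 * gm (J x) (y - x) v) 0 := by
  have h1 := line_wy x y v
  have h2 := HasDerivAt.dpr h1 (HasDerivAt.appr (hasDerivAt_const (0 : ℝ) (gM (J x))) h1)
  simp only [qd, gm_eq_dp]
  refine h2.congr_deriv ?_
  have e0 : app (0 : M4) (y + (0 : ℝ) • v - x) = 0 := by funext i; simp [app]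
  simp only [zero_smul, add_zero] at e0 ⊢
  rw [e0, zero_add]
  have e3 : dp v (app (gM (J x)) (y - x)) = dp (y - x) (app (gM (J x)) v) := by
    rw [← gm_eq_dp, ← gm_eq_dp, gm_symm]
  rw [e3]; ring

omit hJ hcx hpos in
theorem line_AAy (x y v : V4) (j : Fin 4) :
    HasDerivAt (fun t : ℝ => AA J j x (y + t • v)) (app (Ga J j x) v) 0 := by
  have h1 := line_wy x y v
  have h2 := (HasDerivAt.appr (hasDerivAt_const (0 : ℝ) (Ga J j x)) h1).const_add (eb j)
  refine h2.congr_deriv ?_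
  have e0 : app (0 : M4) (y + (0 : ℝ) • v - x) = 0 := by funext i; simp [app]
  rw [e0, zero_add]

omit hJ hcx hpos in
theorem line_X {φ φ' : ℝ → ℝ} (x y : V4) (l j : Fin 4) (v : V4)
    (hφ : HasDerivAt φ (φ' (qd J x y)) (qd J x y)) :
    HasDerivAt (fun t : ℝ => φ (qd J x (y + t • v)) •
        X3 ((y + t • v) - x) (AA J l x (y + t • v)) (AA J j x (y + t • v)))
      ((φ' (qd J x y) * (2 * gm (J x) (y - x) v)) • X3 (y - x) (AA J l x y) (AA J j x y) +
        φ (qd J x y) • (X3 v (AA J l x y) (AA J j x y) + X3 (y - x) (app (Ga J l x) v) (AA J j x y) +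
          X3 (y - x) (AA J l x y) (app (Ga J j x) v))) 0 := by
  have h1 := line_wy x y v
  have h2 := line_qdy (J := J) x y v
  have h4 : HasDerivAt (fun t : ℝ => φ (qd J x (y + t • v)))
      (φ' (qd J x y) * (2 * gm (J x) (y - x) v)) 0 := by
    have hφ' : HasDerivAt φ (φ' (qd J x y)) (qd J x (y + (0 : ℝ) • v)) := by simpa using hφ
    exact hφ'.comp (0 : ℝ) h2
  have h5 := h4.smul (HasDerivAt.X3r h1 (line_AAy (J := J) x y v l) (line_AAy (J := J) x y v j))
  refine h5.congr_deriv ?_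
  simp only [zero_smul, add_zero]
  rw [add_comm]

end der

/-! algebra of the exterior derivative -/

theorem colv_app (M : M4) (i : Fin 4) : colv M i = app M (eb i) := by
  funext k; simp only [colv, app, eb, Pi.single_apply, mul_ite, mul_one, mul_zero, Finset.sum_ite_eq', Finset.mem_univ, ↓reduceIte]

/-- identity matrix -/
def I4 : M4 := fun i j => if i = j then 1 else 0

theorem app_I4 (v : V4) : app I4 v = v := by
  funext i; simp only [app, I4, ite_mul, one_mul, zero_mul, Finset.sum_ite_eq, Finset.mem_univ, ↓reduceIte]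

theorem tr4_I4 : tr4 I4 = 4 := by simp only [tr4, I4, Fin.isValue, ↓reduceIte]; norm_num

theorem ofEnt_add (P R : M4) : ofEnt (fun i j => P i j + R i j) = ofEnt P + ofEnt R := by
  funext i; fin_cases i <;> rfl

theorem ofEnt_smul (c : ℝ) (P : M4) : ofEnt (fun i j => c * P i j) = c • ofEnt P := by
  funext i; fin_cases i <;> rfl

theorem ofEnt_wd (c X : V4) : ofEnt (fun i j => c i * X j - c j * X i) = wd c X := by
  funext i; fin_cases i <;> simp only [ofEnt, Fin.isValue, Fin.zero_eta, Matrix.cons_val_zero, wd, Fin.mk_one, Matrix.cons_val_one, Fin.reduceFinMk, Matrix.cons_val] <;> ring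

theorem ofEnt_congr {P R : M4} (h : ∀ i j, P i j = R i j) : ofEnt P = ofEnt R := by
  have : P = R := by funext i j; exact h i j
  rw [this]

/-- `d1 η y` from line derivatives -/
theorem d1_of_line {η : V4 → V4} {y : V4} (hη : DifferentiableAt ℝ η y) {G : Fin 4 → V4}
    (h : ∀ i, HasDerivAt (fun t : ℝ => η (y + t • eb i)) (G i) 0) :
    d1 η y = ofEnt fun i j => G i j - G j i := by
  unfold d1
  refine ofEnt_congr fun i j => ?_
  have key : ∀ i j, pd i (fun z => η z j) y = G i j := by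
    intro i j
    have h1 : DifferentiableAt ℝ (fun z => η z j) y := (differentiableAt_pi.1 hη) j
    exact fderiv_eq_of_line h1 ((hasDerivAt_pi.1 (h i)) j)
  rw [key, key]

/-- the value of `d1 η`, `η = φ(q) X3 w A_l A_j` -/
noncomputable def dX (J : V4 → M4) (φ φ' : ℝ → ℝ) (x : V4) (l j : Fin 4) (y : V4) : L2 :=
  (2 * φ' (qd J x y)) • (gm (J x) (y - x) (y - x) • sw (AA J l x y) (AA J j x y) +
      gm (J x) (y - x) (AA J l x y) • sw (AA J j x y) (y - x) +
      gm (J x) (y - x) (AA J j x y) • sw (y - x) (AA J l x y)) +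
    φ (qd J x y) • ((2 : ℝ) • sw (AA J l x y) (AA J j x y) +
      (tr4 (Ga J l x) • sw (AA J j x y) (y - x) - sw (app (Ga J l x) (AA J j x y)) (y - x) -
        sw (AA J j x y) (app (Ga J l x) (y - x))) +
      (tr4 (Ga J j x) • sw (y - x) (AA J l x y) - sw (app (Ga J j x) (y - x)) (AA J l x y) -
        sw (y - x) (app (Ga J j x) (AA J l x y))))

theorem d1_X {J : V4 → M4} {φ φ' : ℝ → ℝ} (x y : V4) (l j : Fin 4)
    (hφ : HasDerivAt φ (φ' (qd J x y)) (qd J x y))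
    (hd : DifferentiableAt ℝ (fun y => φ (qd J x y) • X3 (y - x) (AA J l x y) (AA J j x y)) y) :
    d1 (fun y => φ (qd J x y) • X3 (y - x) (AA J l x y) (AA J j x y)) y = dX J φ φ' x l j y := by
  rw [d1_of_line hd (fun i => line_X (J := J) x y l j (eb i) hφ)]
  have e1 : ∀ i, gm (J x) (y - x) (eb i) = low (J x) (y - x) i := by
    intro i; rw [← dp_low]; simp only [dp, eb, Pi.single_apply, mul_ite, mul_one, mul_zero, Finset.sum_ite_eq', Finset.mem_univ, ↓reduceIte]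
  have g1 := gamma_id I4 (AA J l x y) (AA J j x y)
  have g2 := gamma_id (Ga J l x) (AA J j x y) (y - x)
  have g3 := gamma_id (Ga J j x) (y - x) (AA J l x y)
  simp only [colv_app, app_I4, tr4_I4] at g1 g2 g3
  have e2 : (ofEnt fun i j_1 => ((φ' (qd J x y) * (2 * gm (J x) (y - x) (eb i))) •
        X3 (y - x) (AA J l x y) (AA J j x y) + φ (qd J x y) • (X3 (eb i) (AA J l x y) (AA J j x y) +
          X3 (y - x) (app (Ga J l x) (eb i)) (AA J j x y) +
          X3 (y - x) (AA J l x y) (app (Ga J j x) (eb i)))) j_1 -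
      ((φ' (qd J x y) * (2 * gm (J x) (y - x) (eb j_1))) •
        X3 (y - x) (AA J l x y) (AA J j x y) + φ (qd J x y) • (X3 (eb j_1) (AA J l x y) (AA J j x y) +
          X3 (y - x) (app (Ga J l x) (eb j_1)) (AA J j x y) +
          X3 (y - x) (AA J l x y) (app (Ga J j x) (eb j_1)))) i) =
      (2 * φ' (qd J x y)) • wd (low (J x) (y - x)) (X3 (y - x) (AA J l x y) (AA J j x y)) +
      φ (qd J x y) • ((ofEnt fun i k => X3 (eb i) (AA J l x y) (AA J j x y) k -
          X3 (eb k) (AA J l x y) (AA J j x y) i) +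
        (ofEnt fun i k => X3 (app (Ga J l x) (eb i)) (AA J j x y) (y - x) k -
          X3 (app (Ga J l x) (eb k)) (AA J j x y) (y - x) i) +
        (ofEnt fun i k => X3 (app (Ga J j x) (eb i)) (y - x) (AA J l x y) k -
          X3 (app (Ga J j x) (eb k)) (y - x) (AA J l x y) i)) := by
    rw [← ofEnt_wd, ← ofEnt_add, ← ofEnt_add, ← ofEnt_smul, ← ofEnt_smul, ← ofEnt_add]
    refine ofEnt_congr fun i k => ?_
    simp only [Pi.add_apply, Pi.smul_apply, smul_eq_mul, e1]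
    rw [X3_cyc (y - x) (app (Ga J l x) (eb i)) (AA J j x y),
      X3_cyc (y - x) (app (Ga J l x) (eb k)) (AA J j x y),
      ← X3_cyc (app (Ga J j x) (eb i)) (y - x) (AA J l x y),
      ← X3_cyc (app (Ga J j x) (eb k)) (y - x) (AA J l x y)]
    ring
  rw [e2, g1, g2, g3, wd_X3, dp_low, dp_low, dp_low, dX]
  congr 2
  congr 1
  congr 1
  module

end Vale.Agent.P204K.T4.EM
end

section
set_option linter.all false
/-! Smooth parametric integrals against a locally finite measure with bounded density. -/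
open MeasureTheory Set Filter Topology
open scoped ContDiff

namespace Vale.Agent.P204K.T4.EM

/-- `Q` as a continuous bilinear map -/
noncomputable def QL : L2 →L[ℝ] L2 →L[ℝ] ℝ :=
  LinearMap.mkContinuous₂ (LinearMap.mk₂ ℝ Q Q_add_left Q_smul_left Q_add_right Q_smul_right) 6
    (fun A B => by
      rw [LinearMap.mk₂_apply, Real.norm_eq_abs]
      exact abs_Q_le A B)

theorem QL_apply (A B : L2) : QL A B = Q A B := rfl

theorem contDiff_pi {r : Measure V4} {D : V4 → L2} (hD : LocallyIntegrable D r)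
    {K : V4 × V4 → L2} (hK : ContDiff ℝ ∞ K) {R : ℝ} (hs : ∀ x y, R < ‖x - y‖ → K (x, y) = 0) :
    ContDiff ℝ ∞ (fun x => ∫ y, Q (D y) (K (x, y)) ∂r) := by
  have h := contDiffOn_convolution_right_with_param (μ := r) (n := (⊤ : ℕ∞)) QL (P := V4) (s := univ)
    (g := fun p z => K (p, p - z)) (k := Metric.closedBall 0 R) isOpen_univ
    (isCompact_closedBall _ _) (by
      intro p x _ hx
      apply hs
      simp only [Metric.mem_closedBall, dist_zero_right, not_le] at hx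
      simpa using hx) hD (by
      apply ContDiff.contDiffOn
      exact hK.comp (contDiff_fst.prodMk (contDiff_fst.sub contDiff_snd)))
  rw [univ_prod_univ] at h
  have h2 := h.comp (s := univ) (f := fun x : V4 => ((x, x) : V4 × V4))
    (contDiff_id.prodMk contDiff_id).contDiffOn (by intro x _; trivial)
  have h3 := contDiffOn_univ.1 h2
  convert h3 using 2 with x
  simp only [Function.comp_apply, convolution_def, QL_apply, sub_sub_cancel]

theorem fderiv_pi {r : Measure V4} {D : V4 → L2} (hD : LocallyIntegrable D r)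
    {K : V4 × V4 → L2} (hK : ContDiff ℝ ∞ K) {R : ℝ} (hs : ∀ x y, R < ‖x - y‖ → K (x, y) = 0)
    (x v : V4) :
    fderiv ℝ (fun x => ∫ y, Q (D y) (K (x, y)) ∂r) x v =
      ∫ y, Q (D y) (fderiv ℝ (fun x => K (x, y)) x v) ∂r := by
  set g : V4 → V4 → L2 := fun p z => K (p, p - z) with hgdef
  have hg : ContDiff ℝ ∞ (fun p : V4 × V4 => g p.1 p.2) :=
    hK.comp (contDiff_fst.prodMk (contDiff_fst.sub contDiff_snd))
  have hgs : ∀ p z, p ∈ (univ : Set V4) → z ∉ Metric.closedBall (0 : V4) R → g p z = 0 := by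
    intro p z _ hz
    apply hs
    simp only [Metric.mem_closedBall, dist_zero_right, not_le] at hz
    simpa using hz
  have hg1 : Differentiable ℝ (fun p : V4 × V4 => g p.1 p.2) := hg.differentiable (by simp)
  have h := hasFDerivAt_convolution_right_with_param (μ := r) QL (P := V4) (s := univ)
    (g := g) (k := Metric.closedBall 0 R) isOpen_univ (isCompact_closedBall _ _) hgs hD
    ((hg.of_le (by norm_cast)).contDiffOn) (x, x) (mem_univ _)
  have hdiag : HasFDerivAt (fun x : V4 => ((x, x) : V4 × V4))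
      ((ContinuousLinearMap.id ℝ V4).prod (ContinuousLinearMap.id ℝ V4)) x :=
    (hasFDerivAt_id x).prodMk (hasFDerivAt_id x)
  have h2 := HasFDerivAt.comp (g := fun q : V4 × V4 => (convolution D (g q.1) QL r q.2))
    (f := fun x : V4 => ((x, x) : V4 × V4)) x h hdiag
  have e1 : (fun x => ∫ y, Q (D y) (K (x, y)) ∂r) =
      (fun q : V4 × V4 => (convolution D (g q.1) QL r q.2)) ∘ fun x : V4 => ((x, x) : V4 × V4) := by
    funext x
    simp only [Function.comp_apply, convolution_def, QL_apply, hgdef, sub_sub_cancel]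
  have hk0 : ∀ z, z ∉ Metric.closedBall (0 : V4) R → fderiv ℝ (fun p : V4 × V4 => g p.1 p.2) (x, z) = 0 := by
    intro z hz
    apply (hasFDerivAt_zero_of_eventually_const 0 ?_).fderiv
    have M2 : (Metric.closedBall (0 : V4) R)ᶜ ∈ 𝓝 z := Metric.isClosed_closedBall.isOpen_compl.mem_nhds hz
    rw [nhds_prod_eq]
    filter_upwards [prod_mem_prod univ_mem M2]
    rintro ⟨p, y⟩ ⟨_, hy⟩
    exact hgs p y (mem_univ _) hy
  rw [e1, h2.fderiv]
  simp only [ContinuousLinearMap.comp_apply, ContinuousLinearMap.prod_apply, ContinuousLinearMap.id_apply]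
  rw [convolution_precompR_apply]
  · simp only [convolution_def, QL_apply]
    congr 1
    funext y
    have hc : HasFDerivAt (fun x' : V4 => ((x', x' - y) : V4 × V4))
      ((ContinuousLinearMap.id ℝ V4).prod (ContinuousLinearMap.id ℝ V4)) x :=
      (hasFDerivAt_id x).prodMk ((hasFDerivAt_id x).sub_const y)
    have h3 := HasFDerivAt.comp (g := fun p : V4 × V4 => g p.1 p.2)
      (f := fun x' : V4 => ((x', x' - y) : V4 × V4)) x (hg1 (x, x - y)).hasFDerivAt hc
    have e2 : (fun x' => K (x', y)) = (fun p : V4 × V4 => g p.1 p.2) ∘ fun x' : V4 => ((x', x' - y) : V4 × V4) := by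
      funext x'
      simp only [Function.comp_apply, hgdef, sub_sub_cancel]
    rw [e2, h3.fderiv]
    rfl
  · exact hD
  · exact HasCompactSupport.intro (isCompact_closedBall (0 : V4) R) hk0
  · exact (hg.continuous_fderiv (by simp)).comp (continuous_const.prodMk continuous_id)

/-- integrability of the integrand -/
theorem integrable_pi {r : Measure V4} {D : V4 → L2} (hD : LocallyIntegrable D r)
    {k : V4 → L2} (hk : Continuous k) {K : Set V4} (hK : IsCompact K) (hs : ∀ y, y ∉ K → k y = 0) :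
    Integrable (fun y => Q (D y) (k y)) r := by
  have h1 : IntegrableOn (fun y => Q (D y) (k y)) K r := by
    have hDi := hD.integrableOn_isCompact hK
    obtain ⟨C, hC⟩ := hK.exists_bound_of_continuousOn hk.continuousOn
    refine Integrable.mono' (g := fun y => 6 * C * ‖D y‖) ((hDi.norm.const_mul (6 * C))) ?_ ?_
    · exact continuous_Q.comp_aestronglyMeasurable (hDi.aestronglyMeasurable.prodMk hk.aestronglyMeasurable)
    · filter_upwards [ae_restrict_mem hK.measurableSet] with y hy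
      have a1 := abs_Q_le (D y) (k y)
      have a2 := hC y hy
      rw [Real.norm_eq_abs]
      calc |Q (D y) (k y)| ≤ 6 * ‖D y‖ * ‖k y‖ := a1
        _ ≤ 6 * ‖D y‖ * C := by gcongr
        _ = 6 * C * ‖D y‖ := by ring
  have h2 : Function.support (fun y => Q (D y) (k y)) ⊆ K := by
    intro y hy
    by_contra hn
    apply hy
    show Q (D y) (k y) = 0
    rw [hs y hn]; simp [Q]
  exact (integrableOn_iff_integrable_of_support_subset h2).1 h1

end Vale.Agent.P204K.T4.EM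
end

section
set_option linter.all false
/-! The exact identity for `d b`. -/
open MeasureTheory Set Filter Topology
open scoped ContDiff

namespace Vale.Agent.P204K.T4.EM

theorem app_sub (J : M4) (v w : V4) : app J (v - w) = app J v - app J w := by
  rw [sub_eq_add_neg, app_add, app_neg, sub_eq_add_neg]

/-- curvature-like vector `R_{lj} w` -/
noncomputable def Rc (J : V4 → M4) (l j : Fin 4) (x w : V4) : V4 :=
  app (fderiv ℝ (Ga J j) x (eb l)) w - app (fderiv ℝ (Ga J l) x (eb j)) w +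
    app (Ga J j x) (app (Ga J l x) w) - app (Ga J l x) (app (Ga J j x) w)

/-- `x`-derivative of the kernel of `b_j` -/
noncomputable def dB (J : V4 → M4) (φ φ' : ℝ → ℝ) (j l : Fin 4) (x y : V4) : L2 :=
  (φ' (qd J x y) * (-2 * gm (J x) (y - x) (AA J l x y))) • sw (y - x) (AA J j x y) +
        φ (qd J x y) • (sw (-eb l) (AA J j x y) + sw (y - x)
          (app (fderiv ℝ (Ga J j) x (eb l)) (y - x) - app (Ga J j x) (eb l)))

/-- `κ = -(2 φ' q + 4 φ)` -/
noncomputable def kap (φ φ' : ℝ → ℝ) (t : ℝ) : ℝ := -(2 * φ' t * t + 4 * φ t)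

theorem dB_sub (J : V4 → M4) (φ φ' : ℝ → ℝ) (j l : Fin 4) (x y : V4) :
    dB J φ φ' j l x y - dB J φ φ' l j x y = dX J φ φ' x l j y +
      (kap φ φ' (qd J x y)) • sw (AA J l x y) (AA J j x y) +
      φ (qd J x y) • (sw (y - x) (Rc J l j x (y - x)) +
        (tr4 (Ga J l x) • sw (y - x) (AA J j x y) - tr4 (Ga J j x) • sw (y - x) (AA J l x y))) := by
  have el : eb l = AA J l x y - app (Ga J l x) (y - x) := by unfold AA; abel
  have ej : eb j = AA J j x y - app (Ga J j x) (y - x) := by unfold AA; abel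
  have e1 : dB J φ φ' j l x y = (φ' (qd J x y) * (-2 * gm (J x) (y - x) (AA J l x y))) • sw (y - x) (AA J j x y) +
        φ (qd J x y) • (sw (-(AA J l x y - app (Ga J l x) (y - x))) (AA J j x y) + sw (y - x)
          (app (fderiv ℝ (Ga J j) x (eb l)) (y - x) - app (Ga J j x) (AA J l x y - app (Ga J l x) (y - x)))) := by
    unfold dB; rw [← el]
  have e2 : dB J φ φ' l j x y = (φ' (qd J x y) * (-2 * gm (J x) (y - x) (AA J j x y))) • sw (y - x) (AA J l x y) +
        φ (qd J x y) • (sw (-(AA J j x y - app (Ga J j x) (y - x))) (AA J l x y) + sw (y - x)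
          (app (fderiv ℝ (Ga J l) x (eb j)) (y - x) - app (Ga J l x) (AA J j x y - app (Ga J j x) (y - x)))) := by
    unfold dB; rw [← ej]
  rw [e1, e2, dX, kap, Rc, qd]
  generalize AA J l x y = a
  generalize AA J j x y = b
  generalize y - x = w
  generalize app (fderiv ℝ (Ga J j) x (eb l)) w = p1
  generalize app (fderiv ℝ (Ga J l) x (eb j)) w = p2
  simp only [app_sub]
  apply ext_Q
  intro C
  simp only [Q_add_right, Q_smul_right, Q_sub_right, Q_sw, sub_eq_add_neg, Q_neg_right, ev_add_left, ev_add_right,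
    ev_neg_left, ev_neg_right]
  rw [ev_antisymm C b a, ev_antisymm C b w, ev_antisymm C (app (Ga J l x) b) w, ev_antisymm C b (app (Ga J l x) w),
    ev_antisymm C (app (Ga J j x) w) a]
  ring

end Vale.Agent.P204K.T4.EM
end

section
set_option linter.all false
/-! The kernels, the potential `V` and the one-form `b`. -/
open MeasureTheory Set Filter Topology
open scoped ContDiff

namespace Vale.Agent.P204K.T4.EM

/-- cutoff -/
noncomputable def th (t : ℝ) : ℝ := Real.smoothTransition (2 - 16 * t)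
noncomputable def th1 (t : ℝ) : ℝ := deriv th t
noncomputable def th2 (t : ℝ) : ℝ := deriv th1 t

theorem cd_th : ContDiff ℝ ∞ th :=
  Real.smoothTransition.contDiff.comp (contDiff_const.sub (contDiff_const.mul contDiff_id))
theorem cd_th1 : ContDiff ℝ ∞ th1 := (contDiff_infty_iff_deriv.1 cd_th).2
theorem cd_th2 : ContDiff ℝ ∞ th2 := (contDiff_infty_iff_deriv.1 cd_th1).2
theorem hd_th (t : ℝ) : HasDerivAt th (th1 t) t := (cd_th.differentiable (by simp) t).hasDerivAt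
theorem hd_th1 (t : ℝ) : HasDerivAt th1 (th2 t) t := (cd_th1.differentiable (by simp) t).hasDerivAt

theorem th_nonneg (t : ℝ) : 0 ≤ th t := Real.smoothTransition.nonneg _
theorem th_le_one (t : ℝ) : th t ≤ 1 := Real.smoothTransition.le_one _
theorem th_one {t : ℝ} (h : t ≤ 1 / 16) : th t = 1 := Real.smoothTransition.one_of_one_le (by linarith)
theorem th_zero {t : ℝ} (h : 1 / 8 ≤ t) : th t = 0 := Real.smoothTransition.zero_of_nonpos (by linarith)

theorem th1_zero {t : ℝ} (h : t < 1 / 16 ∨ 1 / 8 < t) : th1 t = 0 := by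
  rcases h with h | h
  · have : th =ᶠ[𝓝 t] fun _ => 1 := by
      filter_upwards [Iio_mem_nhds h] with z hz using th_one (le_of_lt hz)
    rw [th1, this.deriv_eq]; simp
  · have : th =ᶠ[𝓝 t] fun _ => 0 := by
      filter_upwards [Ioi_mem_nhds h] with z hz using th_zero (le_of_lt hz)
    rw [th1, this.deriv_eq]; simp

theorem th2_zero {t : ℝ} (h : t < 1 / 16 ∨ 1 / 8 < t) : th2 t = 0 := by
  rcases h with h | h
  · have : th1 =ᶠ[𝓝 t] fun _ => 0 := by
      filter_upwards [Iio_mem_nhds h] with z hz using th1_zero (Or.inl hz)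
    rw [th2, this.deriv_eq]; simp
  · have : th1 =ᶠ[𝓝 t] fun _ => 0 := by
      filter_upwards [Ioi_mem_nhds h] with z hz using th1_zero (Or.inr hz)
    rw [th2, this.deriv_eq]; simp

theorem exists_th_bd : ∃ C : ℝ, 0 ≤ C ∧ (∀ t, |th1 t| ≤ C) ∧ (∀ t, |th2 t| ≤ C) := by
  obtain ⟨C1, h1⟩ := (isCompact_Icc (a := (1 / 16 : ℝ)) (b := 1 / 8)).exists_bound_of_continuousOn
    cd_th1.continuous.continuousOn
  obtain ⟨C2, h2⟩ := (isCompact_Icc (a := (1 / 16 : ℝ)) (b := 1 / 8)).exists_bound_of_continuousOn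
    cd_th2.continuous.continuousOn
  refine ⟨max 0 (max C1 C2), le_max_left _ _, fun t => ?_, fun t => ?_⟩
  · by_cases h : t ∈ Icc (1 / 16 : ℝ) (1 / 8)
    · exact (h1 t h).trans ((le_max_left _ _).trans (le_max_right _ _))
    · have : t < 1 / 16 ∨ 1 / 8 < t := by
        by_contra hc; push Not at hc; exact h ⟨hc.1, hc.2⟩
      rw [th1_zero this]; simp only [abs_zero, le_sup_left]
  · by_cases h : t ∈ Icc (1 / 16 : ℝ) (1 / 8)
    · exact (h2 t h).trans ((le_max_right _ _).trans (le_max_right _ _))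
    · have : t < 1 / 16 ∨ 1 / 8 < t := by
        by_contra hc; push Not at hc; exact h ⟨hc.1, hc.2⟩
      rw [th2_zero this]; simp only [abs_zero, le_sup_left]

/-- `f_s(t) = θ(t)/(t+s)` and derivatives -/
noncomputable def fk (s t : ℝ) : ℝ := th t / (t + s)
noncomputable def fk1 (s t : ℝ) : ℝ := th1 t / (t + s) - th t / (t + s) ^ 2
noncomputable def fk2 (s t : ℝ) : ℝ := th2 t / (t + s) - 2 * th1 t / (t + s) ^ 2 + 2 * th t / (t + s) ^ 3

theorem hd_fk {s t : ℝ} (h : t + s ≠ 0) : HasDerivAt (fk s) (fk1 s t) t := by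
  have h1 : HasDerivAt (fun t => t + s) 1 t := (hasDerivAt_id t).add_const s
  have := (hd_th t).div h1 h
  refine this.congr_deriv ?_
  rw [fk1]; field_simp

theorem hd_fk1 {s t : ℝ} (h : t + s ≠ 0) : HasDerivAt (fk1 s) (fk2 s t) t := by
  have h1 : HasDerivAt (fun t => t + s) 1 t := (hasDerivAt_id t).add_const s
  have h2 : HasDerivAt (fun t => (t + s) ^ 2) (2 * (t + s)) t := by
    have := h1.pow 2
    refine this.congr_deriv ?_
    simp only [Nat.cast_ofNat, Nat.add_one_sub_one, pow_one, mul_one]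
  have := ((hd_th1 t).div h1 h).sub ((hd_th t).div h2 (pow_ne_zero 2 h))
  refine this.congr_deriv ?_
  rw [fk2]; field_simp; ring

/-- `φ = 2 f'` -/
noncomputable def ph (s t : ℝ) : ℝ := 2 * fk1 s t
noncomputable def ph1 (s t : ℝ) : ℝ := 2 * fk2 s t

theorem hd_ph {s t : ℝ} (h : t + s ≠ 0) : HasDerivAt (ph s) (ph1 s t) t := (hd_fk1 h).const_mul 2

theorem kap_eq {s t : ℝ} (h : t + s ≠ 0) : kap (ph s) (ph1 s) t =
    8 * s * th t / (t + s) ^ 3 + (8 * t * th1 t / (t + s) ^ 2 - 8 * th1 t / (t + s) - 4 * t * th2 t / (t + s)) := by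
  rw [kap, ph, ph1, fk1, fk2]; field_simp; ring

section smooth
variable {E : Type} [NormedAddCommGroup E] [NormedSpace ℝ E]

theorem cd_fk {s : ℝ} {q : E → ℝ} (hq : ContDiff ℝ ∞ q) (h : ∀ p, q p + s ≠ 0) :
    ContDiff ℝ ∞ (fun p => fk s (q p)) :=
  (cd_th.comp hq).div (hq.add contDiff_const) h

theorem cd_fk1 {s : ℝ} {q : E → ℝ} (hq : ContDiff ℝ ∞ q) (h : ∀ p, q p + s ≠ 0) :
    ContDiff ℝ ∞ (fun p => fk1 s (q p)) :=
  ((cd_th1.comp hq).div (hq.add contDiff_const) h).sub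
    ((cd_th.comp hq).div ((hq.add contDiff_const).pow 2) fun p => pow_ne_zero 2 (h p))

theorem cd_ph {s : ℝ} {q : E → ℝ} (hq : ContDiff ℝ ∞ q) (h : ∀ p, q p + s ≠ 0) :
    ContDiff ℝ ∞ (fun p => ph s (q p)) := contDiff_const.mul (cd_fk1 hq h)
end smooth

theorem dp_self_ge (w : V4) : ‖w‖ ^ 2 ≤ dp w w := by
  have h : ∀ i, w i ^ 2 ≤ dp w w := by
    intro i
    rw [dp_eq]
    fin_cases i <;> simp only [Fin.zero_eta, Fin.isValue, Fin.mk_one, Fin.reduceFinMk] <;> linarith only [mul_self_nonneg (w 1), mul_self_nonneg (w 2), mul_self_nonneg (w 3), mul_self_nonneg (w 0)]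
  have h2 : ‖w‖ ≤ Real.sqrt (dp w w) := by
    rw [pi_norm_le_iff_of_nonneg (Real.sqrt_nonneg _)]
    intro i
    rw [Real.norm_eq_abs]
    apply Real.le_sqrt_of_sq_le
    rw [sq_abs]; exact h i
  calc ‖w‖ ^ 2 ≤ Real.sqrt (dp w w) ^ 2 := by gcongr
    _ = dp w w := Real.sq_sqrt (dp_self_nonneg w)

theorem qd_ge (J : V4 → M4) (x y : V4) : ‖y - x‖ ^ 2 / 2 ≤ qd J x y := by
  rw [qd, gm]
  have := dp_self_nonneg (app (J x) (y - x))
  have := dp_self_ge (y - x)
  linarith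

theorem qd_nonneg (J : V4 → M4) (x y : V4) : 0 ≤ qd J x y :=
  le_trans (by positivity) (qd_ge J x y)

theorem qd_add_ne (J : V4 → M4) {s : ℝ} (hs : 0 < s) (x y : V4) : qd J x y + s ≠ 0 := by
  have := qd_nonneg J x y; positivity

/-- away from the diagonal all kernels vanish -/
theorem qd_far {J : V4 → M4} {x y : V4} (h : 1 / 2 < ‖x - y‖) : 1 / 8 < qd J x y := by
  have h1 := qd_ge J x y
  rw [norm_sub_rev] at h
  nlinarith

theorem fk_zero {s t : ℝ} (h : 1 / 8 < t) : fk s t = 0 := by rw [fk, th_zero h.le]; simp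
theorem fk1_zero {s t : ℝ} (h : 1 / 8 < t) : fk1 s t = 0 := by
  rw [fk1, th_zero h.le, th1_zero (Or.inr h)]; simp
theorem fk2_zero {s t : ℝ} (h : 1 / 8 < t) : fk2 s t = 0 := by
  rw [fk2, th_zero h.le, th1_zero (Or.inr h), th2_zero (Or.inr h)]; simp
theorem ph_zero {s t : ℝ} (h : 1 / 8 < t) : ph s t = 0 := by rw [ph, fk1_zero h]; simp
theorem ph1_zero {s t : ℝ} (h : 1 / 8 < t) : ph1 s t = 0 := by rw [ph1, fk2_zero h]; simp

def c0 : L2 := ![1, 0, 0, 0, 0, 0]
def c1 : L2 := ![0, 0, 0, 0, 0, 1]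
theorem Q_c0_c1 (t : ℝ) : Q c0 (t • c1) = t := by simp only [Q, c0, Fin.isValue, Matrix.cons_val_zero, c1, Pi.smul_apply, Matrix.cons_val, smul_eq_mul, mul_one, one_mul, Matrix.cons_val_one, mul_zero, sub_zero, add_zero]

/-- kernels -/
noncomputable def KV (J : V4 → M4) (s : ℝ) (p : V4 × V4) : L2 := fk s (qd J p.1 p.2) • c1
noncomputable def KB (J : V4 → M4) (s : ℝ) (j : Fin 4) (p : V4 × V4) : L2 :=
  ph s (qd J p.1 p.2) • sw (p.2 - p.1) (AA J j p.1 p.2)

noncomputable def Vp (J : V4 → M4) (r : Measure V4) (s : ℝ) (x : V4) : ℝ := ∫ y, fk s (qd J x y) ∂r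
noncomputable def bp (J : V4 → M4) (r : Measure V4) (D : V4 → L2) (s : ℝ) (x : V4) : V4 :=
  fun j => ∫ y, Q (D y) (KB J s j (x, y)) ∂r

theorem Vp_eq (J : V4 → M4) (r : Measure V4) (s : ℝ) (x : V4) :
    Vp J r s x = ∫ y, Q c0 (KV J s (x, y)) ∂r := by
  simp only [KV, Q_c0_c1, Vp]

section main
variable {J : V4 → M4} (hJ : ContDiff ℝ ∞ J) (hcx : ∀ y, IsCx (J y)) (hpos : ∀ y, Pos (J y))
  {r : Measure V4} {D : V4 → L2} {s : ℝ} (hs : 0 < s)

include hJ hs in
theorem cd_KV : ContDiff ℝ ∞ (KV J s) :=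
  (cd_fk (cd_qd hJ) fun p => qd_add_ne J hs _ _).smul contDiff_const

include hJ hpos hs in
theorem cd_KB (j : Fin 4) : ContDiff ℝ ∞ (KB J s j) :=
  (cd_ph (cd_qd hJ) fun p => qd_add_ne J hs _ _).smul (cd_sw (contDiff_snd.sub contDiff_fst) (cd_AA hJ hpos j))

theorem KV_far (x y : V4) (h : 1 / 2 < ‖x - y‖) : KV J s (x, y) = 0 := by
  rw [KV, fk_zero (qd_far h), zero_smul]
theorem KB_far (j : Fin 4) (x y : V4) (h : 1 / 2 < ‖x - y‖) : KB J s j (x, y) = 0 := by
  rw [KB, ph_zero (qd_far h), zero_smul]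

theorem li_const [IsLocallyFiniteMeasure r] : LocallyIntegrable (fun _ : V4 => c0) r := locallyIntegrable_const _

include hJ hs in
theorem Vp_smooth [IsLocallyFiniteMeasure r] : ContDiff ℝ ∞ (Vp J r s) := by
  have h := contDiff_pi (li_const (r := r)) (cd_KV hJ hs) (KV_far (s := s) (J := J))
  have e : Vp J r s = fun x => ∫ y, Q c0 (KV J s (x, y)) ∂r := by funext x; exact Vp_eq J r s x
  rw [e]; exact h

include hJ hpos hs in
theorem bp_smooth (hD : LocallyIntegrable D r) : ContDiff ℝ ∞ (bp J r D s) := by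
  rw [_root_.contDiff_pi]
  intro j
  exact contDiff_pi hD (cd_KB hJ hpos hs j) (KB_far (s := s) (J := J) j)

end main

end Vale.Agent.P204K.T4.EM
end

section
set_option linter.all false
/-! Uniform bounds on compact sets and the quadratic gain for the pulled back density. -/
open MeasureTheory Set Filter Topology
open scoped ContDiff

namespace Vale.Agent.P204K.T4.EM

theorem abs_ent_le (A : L2) (i j : Fin 4) : |ent A i j| ≤ ‖A‖ := by
  have h : ∀ k, |A k| ≤ ‖A‖ := fun k => norm_le_pi_norm A k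
  have h0 : (0 : ℝ) ≤ ‖A‖ := norm_nonneg _
  fin_cases i <;> fin_cases j <;> simp only [ent, Fin.isValue, Fin.zero_eta, Matrix.cons_val', Matrix.cons_val_zero, Matrix.cons_val_fin_one, abs_zero, norm_nonneg, Fin.mk_one, Matrix.cons_val_one, ge_iff_le, Fin.reduceFinMk, Matrix.cons_val, abs_neg] <;> first | exact h _ | exact h0

theorem abs_M4_le (P : M4) (i j : Fin 4) : |P i j| ≤ ‖P‖ :=
  (norm_le_pi_norm (P i) j).trans (norm_le_pi_norm P i)

theorem norm_M4_le {P : M4} {c : ℝ} (hc : 0 ≤ c) (h : ∀ i j, |P i j| ≤ c) : ‖P‖ ≤ c := by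
  rw [pi_norm_le_iff_of_nonneg hc]
  intro i
  rw [pi_norm_le_iff_of_nonneg hc]
  intro j
  exact h i j

theorem norm_ofEnt_le {P : M4} {c : ℝ} (hc : 0 ≤ c) (h : ∀ i j, |P i j| ≤ c) : ‖ofEnt P‖ ≤ c := by
  rw [pi_norm_le_iff_of_nonneg hc]
  intro i
  fin_cases i <;> exact h _ _

theorem norm_app_le (P : M4) (v : V4) : ‖app P v‖ ≤ 4 * ‖P‖ * ‖v‖ := by
  rw [pi_norm_le_iff_of_nonneg (by positivity)]
  intro i
  rw [Real.norm_eq_abs, app]
  calc |∑ j, P i j * v j| ≤ ∑ j, |P i j * v j| := Finset.abs_sum_le_sum_abs _ _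
    _ ≤ ∑ j : Fin 4, ‖P‖ * ‖v‖ := by
        apply Finset.sum_le_sum
        intro j _
        rw [abs_mul]
        exact mul_le_mul (abs_M4_le P i j) (norm_le_pi_norm v j) (abs_nonneg _) (norm_nonneg _)
    _ = 4 * ‖P‖ * ‖v‖ := by simp only [Finset.sum_const, Finset.card_univ, Fintype.card_fin, nsmul_eq_mul, Nat.cast_ofNat]; ring

theorem abs_dp_le (a v : V4) : |dp a v| ≤ 4 * ‖a‖ * ‖v‖ := by
  rw [dp]
  calc |∑ j, a j * v j| ≤ ∑ j, |a j * v j| := Finset.abs_sum_le_sum_abs _ _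
    _ ≤ ∑ j : Fin 4, ‖a‖ * ‖v‖ := by
        apply Finset.sum_le_sum
        intro j _
        rw [abs_mul]
        exact mul_le_mul (norm_le_pi_norm a j) (norm_le_pi_norm v j) (abs_nonneg _) (norm_nonneg _)
    _ = 4 * ‖a‖ * ‖v‖ := by simp only [Finset.sum_const, Finset.card_univ, Fintype.card_fin, nsmul_eq_mul, Nat.cast_ofNat]; ring

theorem abs_ev_le (A : L2) (v w : V4) : |ev A v w| ≤ 16 * ‖A‖ * ‖v‖ * ‖w‖ := by
  rw [ev]
  calc |∑ i, ∑ j, ent A i j * v i * w j| ≤ ∑ i, |∑ j, ent A i j * v i * w j| := Finset.abs_sum_le_sum_abs _ _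
    _ ≤ ∑ i : Fin 4, ∑ j : Fin 4, ‖A‖ * ‖v‖ * ‖w‖ := by
        apply Finset.sum_le_sum
        intro i _
        refine (Finset.abs_sum_le_sum_abs _ _).trans ?_
        apply Finset.sum_le_sum
        intro j _
        rw [abs_mul, abs_mul]
        have h1 := abs_ent_le A i j
        have h2 : |v i| ≤ ‖v‖ := norm_le_pi_norm v i
        have h3 : |w j| ≤ ‖w‖ := norm_le_pi_norm w j
        gcongr
    _ = 16 * ‖A‖ * ‖v‖ * ‖w‖ := by simp only [Finset.sum_const, Finset.card_univ, Fintype.card_fin, nsmul_eq_mul, Nat.cast_ofNat]; ring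

theorem abs_gm_le (J : M4) (v w : V4) : |gm J v w| ≤ 16 * ‖gM J‖ * ‖v‖ * ‖w‖ := by
  rw [gm_eq_dp]
  refine (abs_dp_le _ _).trans ?_
  have := norm_app_le (gM J) w
  calc 4 * ‖v‖ * ‖app (gM J) w‖ ≤ 4 * ‖v‖ * (4 * ‖gM J‖ * ‖w‖) := by gcongr
    _ = 16 * ‖gM J‖ * ‖v‖ * ‖w‖ := by ring

theorem pull_sub_le (P R : M4) (A : L2) :
    ‖pull P A - pull R A‖ ≤ 16 * ‖A‖ * (‖P‖ + ‖R‖) * ‖P - R‖ := by
  have e : pull P A - pull R A = ofEnt fun i j => (∑ k, ∑ l, ent A k l * P k i * P l j) -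
      ∑ k, ∑ l, ent A k l * R k i * R l j := by
    funext i; fin_cases i <;> rfl
  rw [e]
  apply norm_ofEnt_le (by positivity)
  intro i j
  rw [← Finset.sum_sub_distrib]
  calc |∑ k, ((∑ l, ent A k l * P k i * P l j) - ∑ l, ent A k l * R k i * R l j)|
      ≤ ∑ k : Fin 4, ∑ l : Fin 4, ‖A‖ * (‖P‖ + ‖R‖) * ‖P - R‖ := by
        refine (Finset.abs_sum_le_sum_abs _ _).trans ?_
        apply Finset.sum_le_sum
        intro k _
        rw [← Finset.sum_sub_distrib]
        refine (Finset.abs_sum_le_sum_abs _ _).trans ?_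
        apply Finset.sum_le_sum
        intro l _
        have e2 : ent A k l * P k i * P l j - ent A k l * R k i * R l j =
            ent A k l * (P k i * (P - R) l j + (P - R) k i * R l j) := by
          simp only [Pi.sub_apply]; ring
        rw [e2, abs_mul]
        have h1 := abs_ent_le A k l
        have h2 : |P k i * (P - R) l j + (P - R) k i * R l j| ≤ (‖P‖ + ‖R‖) * ‖P - R‖ := by
          refine (abs_add_le _ _).trans ?_
          rw [abs_mul, abs_mul]
          have a1 := abs_M4_le P k i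
          have a2 := abs_M4_le (P - R) l j
          have a3 := abs_M4_le (P - R) k i
          have a4 := abs_M4_le R l j
          have b1 : |P k i| * |(P - R) l j| ≤ ‖P‖ * ‖P - R‖ := mul_le_mul a1 a2 (abs_nonneg _) (norm_nonneg _)
          have b2 : |(P - R) k i| * |R l j| ≤ ‖P - R‖ * ‖R‖ := mul_le_mul a3 a4 (abs_nonneg _) (norm_nonneg _)
          linarith only [b1, b2]
        calc |ent A k l| * |P k i * (P - R) l j + (P - R) k i * R l j| ≤ ‖A‖ * ((‖P‖ + ‖R‖) * ‖P - R‖) :=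
              mul_le_mul h1 h2 (abs_nonneg _) (norm_nonneg _)
          _ = ‖A‖ * (‖P‖ + ‖R‖) * ‖P - R‖ := by ring
    _ = 16 * ‖A‖ * (‖P‖ + ‖R‖) * ‖P - R‖ := by simp only [Finset.sum_const, Finset.card_univ, Fintype.card_fin, nsmul_eq_mul, Nat.cast_ofNat]; ring

theorem pull_I4 (A : L2) : pull I4 A = A := by
  apply ext_ev; intro v w; rw [ev_pull, app_I4, app_I4]

theorem pull_le (P : M4) (A : L2) : ‖pull P A‖ ≤ 16 * ‖A‖ * ‖P‖ * ‖P‖ := by
  have h := pull_sub_le P 0 A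
  have e : pull 0 A = 0 := by
    apply ext_ev; intro v w
    rw [ev_pull]
    have : app (0 : M4) v = 0 := by funext i; simp [app]
    rw [this]
    simp [ev_eq]
  rw [e, sub_zero, sub_zero, norm_zero, add_zero] at h
  linarith

theorem pM_le (J : M4) (A : L2) : ‖pM J A‖ ≤ (1 + 16 * ‖J‖ * ‖J‖) * ‖A‖ := by
  rw [pM, norm_smul]
  have h1 := norm_sub_le A (pull J A)
  have h2 := pull_le J A
  have h3 : ‖(1 / 2 : ℝ)‖ = 1 / 2 := by norm_num
  rw [h3]
  linarith only [mul_nonneg (sub_nonneg.2 (norm_nonneg A)) (sub_nonneg.2 (mul_nonneg (norm_nonneg J) (norm_nonneg J))), mul_nonneg (mul_self_nonneg (1 : ℝ)) (sub_nonneg.2 (norm_nonneg A)), mul_nonneg (mul_self_nonneg (1 : ℝ)) (sub_nonneg.2 h2), mul_nonneg (mul_self_nonneg (1 : ℝ)) (sub_nonneg.2 h1)]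

theorem pM_add' (J : M4) (A B : L2) : pM J (A + B) = pM J A + pM J B := by
  unfold pM; rw [pull_add]; module

/-- matrix with columns `A_l` -/
noncomputable def Nm (J : V4 → M4) (x y : V4) : M4 := fun i l => AA J l x y i

theorem pull_Nm (J : V4 → M4) (x y : V4) (D : L2) :
    pull (Nm J x y) D = ofEnt fun l j => ev D (AA J l x y) (AA J j x y) := by
  unfold pull
  refine ofEnt_congr fun l j => ?_
  rw [ev]
  rfl

/-- uniform data on a compact set -/
structure UB (J : V4 → M4) (K : Set V4) (C : ℝ) : Prop where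
  one_le : 1 ≤ C
  Jx : ∀ x ∈ K, ∀ y, ‖y - x‖ ≤ 1 / 2 → ‖J y‖ ≤ C
  lipJ : ∀ x ∈ K, ∀ y, ‖y - x‖ ≤ 1 / 2 → ‖J y - J x‖ ≤ C * ‖y - x‖
  lipF : ∀ x ∈ K, ∀ y, ‖y - x‖ ≤ 1 / 2 → ‖Fm (J y) - Fm (J x)‖ ≤ C * ‖y - x‖
  Fx : ∀ x ∈ K, ‖Fm (J x)‖ ≤ C
  gx : ∀ x ∈ K, ‖gM (J x)‖ ≤ C
  Gx : ∀ x ∈ K, ∀ l, ‖Ga J l x‖ ≤ C
  dGx : ∀ x ∈ K, ∀ l j, ‖fderiv ℝ (Ga J j) x (eb l)‖ ≤ C
  Pf : ∀ x ∈ K, |Q (Fm (J x)) (Fm (J x)) / 2| ≤ C
  Pf' : ∀ x ∈ K, |2 / Q (Fm (J x)) (Fm (J x))| ≤ C

theorem exists_lip {E : Type} [NormedAddCommGroup E] [NormedSpace ℝ E] {f : V4 → E} (hf : ContDiff ℝ ∞ f)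
    {K : Set V4} (hK : IsCompact K) : ∃ C : ℝ, 0 ≤ C ∧ ∀ x ∈ K, ∀ y, ‖y - x‖ ≤ 1 / 2 → ‖f y - f x‖ ≤ C * ‖y - x‖ := by
  obtain ⟨R, hR⟩ := hK.isBounded.subset_closedBall (0 : V4)
  obtain ⟨C, hC⟩ := (isCompact_closedBall (0 : V4) (R + 1)).exists_bound_of_continuousOn
    (hf.continuous_fderiv (by simp)).continuousOn
  refine ⟨max C 0, le_max_right _ _, fun x hx y hy => ?_⟩
  have hx1 := hR hx
  rw [Metric.mem_closedBall, dist_zero_right] at hx1
  have hx2 : x ∈ Metric.closedBall (0 : V4) (R + 1) := by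
    rw [Metric.mem_closedBall, dist_zero_right]; linarith only [hx1]
  have hy2 : y ∈ Metric.closedBall (0 : V4) (R + 1) := by
    rw [Metric.mem_closedBall, dist_zero_right]
    have : ‖y‖ ≤ ‖y - x‖ + ‖x‖ := by simpa only [sub_add_cancel] using norm_add_le (y - x) x
    linarith only [hy, hx1, this]
  refine (convex_closedBall (0 : V4) (R + 1)).norm_image_sub_le_of_norm_fderiv_le (𝕜 := ℝ)
    (fun z _ => hf.differentiable (by simp) z) (fun z hz => (hC z hz).trans (le_max_left _ _)) hx2 hy2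

theorem exists_UB {J : V4 → M4} (hJ : ContDiff ℝ ∞ J) (hpos : ∀ y, Pos (J y)) {K : Set V4} (hK : IsCompact K) :
    ∃ C, UB J K C := by
  obtain ⟨C1, h1, h1'⟩ := exists_lip hJ hK
  obtain ⟨C2, h2, h2'⟩ := exists_lip (cd_Fm hJ) hK
  obtain ⟨C3, h3⟩ := hK.exists_bound_of_continuousOn hJ.continuous.continuousOn
  obtain ⟨C4, h4⟩ := hK.exists_bound_of_continuousOn (cd_Fm hJ).continuous.continuousOn
  obtain ⟨C5, h5⟩ := hK.exists_bound_of_continuousOn (cd_gM hJ).continuous.continuousOn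
  have h6 : ∀ l, ∃ C, ∀ x ∈ K, ‖Ga J l x‖ ≤ C := fun l =>
    hK.exists_bound_of_continuousOn (cd_Ga hJ hpos l).continuous.continuousOn
  choose C6 h6 using h6
  have h7 : ∀ l j, ∃ C, ∀ x ∈ K, ‖fderiv ℝ (Ga J j) x (eb l)‖ ≤ C := fun l j =>
    hK.exists_bound_of_continuousOn (((cd_Ga hJ hpos j).continuous_fderiv (by simp)).clm_apply
      continuous_const).continuousOn
  choose C7 h7 using h7
  have hq : Continuous (fun x => Q (Fm (J x)) (Fm (J x))) := (cd_Q (cd_Fm hJ) (cd_Fm hJ)).continuous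
  obtain ⟨C8, h8⟩ := hK.exists_bound_of_continuousOn (f := fun x => Q (Fm (J x)) (Fm (J x)) / 2)
    (hq.div_const 2).continuousOn
  obtain ⟨C9, h9⟩ := hK.exists_bound_of_continuousOn (f := fun x => 2 / Q (Fm (J x)) (Fm (J x)))
    (continuous_const.div hq fun x => ne_of_gt (hpos x)).continuousOn
  set C : ℝ := 1 + |C1| + |C2| + |C3| + |C4| + |C5| + (∑ l, |C6 l|) + (∑ l, ∑ j, |C7 l j|) + |C8| + |C9| with hC
  have s6 : 0 ≤ ∑ l, |C6 l| := Finset.sum_nonneg fun _ _ => abs_nonneg _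
  have s7 : 0 ≤ ∑ l, ∑ j, |C7 l j| := Finset.sum_nonneg fun _ _ => Finset.sum_nonneg fun _ _ => abs_nonneg _
  have s6' : ∀ l, |C6 l| ≤ ∑ l, |C6 l| := fun l =>
    Finset.single_le_sum (f := fun l => |C6 l|) (fun _ _ => abs_nonneg _) (Finset.mem_univ l)
  have s7' : ∀ l j, |C7 l j| ≤ ∑ l, ∑ j, |C7 l j| := fun l j =>
    (Finset.single_le_sum (f := fun j => |C7 l j|) (fun _ _ => abs_nonneg _) (Finset.mem_univ j)).trans
    (Finset.single_le_sum (f := fun l => ∑ j, |C7 l j|) (fun _ _ => Finset.sum_nonneg fun _ _ => abs_nonneg _)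
      (Finset.mem_univ l))
  have n1 := abs_nonneg C1
  have n2 := abs_nonneg C2
  have n3 := abs_nonneg C3
  have n4 := abs_nonneg C4
  have n5 := abs_nonneg C5
  have n8 := abs_nonneg C8
  have n9 := abs_nonneg C9
  refine ⟨C, ⟨by linarith, ?_, ?_, ?_, ?_, ?_, ?_, ?_, ?_, ?_⟩⟩
  · intro x hx y hy
    have a1 := h1' x hx y hy
    have a2 := h3 x hx
    have a3 : ‖J y‖ ≤ ‖J y - J x‖ + ‖J x‖ := by simpa only [sub_add_cancel] using norm_add_le (J y - J x) (J x)
    have a4 : C1 * ‖y - x‖ ≤ |C1| * (1 / 2) :=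
      mul_le_mul (le_abs_self _) hy (norm_nonneg _) (abs_nonneg _)
    linarith only [s6, s7, n1, n2, n4, n5, n8, n9, a1, a2, a3, a4, le_abs_self C3]
  · intro x hx y hy
    refine (h1' x hx y hy).trans (mul_le_mul_of_nonneg_right ?_ (norm_nonneg _))
    linarith only [s6, s7, n2, n3, n4, n5, n8, n9, le_abs_self C1]
  · intro x hx y hy
    refine (h2' x hx y hy).trans (mul_le_mul_of_nonneg_right ?_ (norm_nonneg _))
    linarith only [s6, s7, n1, n3, n4, n5, n8, n9, le_abs_self C2]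
  · intro x hx; have := h4 x hx; linarith only [s6, s7, n1, n2, n3, n5, n8, n9, this, le_abs_self C4]
  · intro x hx; have := h5 x hx; linarith [le_abs_self C5]
  · intro x hx l; have := h6 l x hx; linarith only [s7, n1, n2, n3, n4, n5, n8, n9, this, le_abs_self (C6 l), s6' l]
  · intro x hx l j; have := h7 l j x hx; linarith only [s6, n1, n2, n3, n4, n5, n8, n9, this, le_abs_self (C7 l j), s7' l j]
  · intro x hx
    have := h8 x hx
    rw [Real.norm_eq_abs] at this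
    linarith only [s6, s7, n1, n2, n3, n4, n5, n9, this, le_abs_self C8]
  · intro x hx
    have := h9 x hx
    rw [Real.norm_eq_abs] at this
    linarith [le_abs_self C9]

theorem Nm_sub_le {J : V4 → M4} {K : Set V4} {C : ℝ} (h : UB J K C) {x : V4} (hx : x ∈ K) (y : V4) :
    ‖Nm J x y - I4‖ ≤ 4 * C * ‖y - x‖ := by
  apply norm_M4_le (by have := h.one_le; positivity)
  intro i l
  have e : (Nm J x y - I4) i l = app (Ga J l x) (y - x) i := by
    simp only [Nm, AA, Pi.sub_apply, Pi.add_apply, I4, eb, Pi.single_apply]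
    split_ifs <;> ring
  rw [e]
  have h1 := norm_app_le (Ga J l x) (y - x)
  have h2 := norm_le_pi_norm (app (Ga J l x) (y - x)) i
  have h3 := h.Gx x hx l
  calc |app (Ga J l x) (y - x) i| ≤ ‖app (Ga J l x) (y - x)‖ := h2
    _ ≤ 4 * ‖Ga J l x‖ * ‖y - x‖ := h1
    _ ≤ 4 * C * ‖y - x‖ := by gcongr

theorem continuous_det4 : Continuous det4 := by
  unfold det4 mn
  fun_prop

theorem det4_I4 : det4 I4 = 1 := by
  simp only [det4, mn, I4, Fin.isValue, ↓reduceIte, mul_one, one_ne_zero, zero_ne_one, mul_zero, sub_zero, Fin.reduceEq, sub_self, add_zero]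

theorem neg_step {q n m c : ℝ} (hc : 0 < c) (hn : 1 / c ≤ n) (hq : q < 0) (h : -m ≤ q * n) : -(m * c) ≤ q := by
  have c3 : q * n ≤ q * (1 / c) := mul_le_mul_of_nonpos_left hn hq.le
  have c4 : -m ≤ q / c := by rw [div_eq_mul_one_div]; exact h.trans c3
  rw [le_div_iff₀ hc] at c4
  linarith only [c4]

theorem exists_gain2 {J : V4 → M4} (hJ : ContDiff ℝ ∞ J) (hcx : ∀ y, IsCx (J y)) (hpos : ∀ y, Pos (J y))
    {K : Set V4} (hK : IsCompact K) :
    ∃ C, 0 ≤ C ∧ ∀ x ∈ K, ∀ y, ‖y - x‖ ≤ 1 / 2 → ∀ D, Cone (J y) D → Q D (Fm (J y)) = 1 →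
      ∀ A, Cone (J x) A → -(C * ‖A‖ * ‖y - x‖ ^ 2) ≤ Q A (pull (Nm J x y) D) := by
  obtain ⟨C, h⟩ := exists_UB hJ hpos hK
  have hC1 := h.one_le
  have hgood : Good (J '' K) := by
    refine ⟨hK.image hJ.continuous, ?_, ?_⟩
    · rintro _ ⟨x, _, rfl⟩; exact hcx x
    · rintro _ ⟨x, _, rfl⟩; exact hpos x
  obtain ⟨Cg, hCg, hg⟩ := hgood.exists_gain
  -- neighbourhood of the identity with positive determinant
  have hdet : ∃ ε, 0 < ε ∧ ∀ P : M4, ‖P - I4‖ < ε → 0 < det4 P := by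
    have h1 : ∀ᶠ P in 𝓝 I4, 0 < det4 P :=
      continuous_det4.continuousAt.eventually (lt_mem_nhds (by rw [det4_I4]; exact one_pos))
    obtain ⟨ε, hε, h2⟩ := Metric.eventually_nhds_iff.1 h1
    exact ⟨ε, hε, fun P hP => h2 (by rwa [dist_eq_norm])⟩
  obtain ⟨ε, hε, hdet⟩ := hdet
  have hI : ‖I4‖ ≤ 1 := by
    apply norm_M4_le zero_le_one
    intro i j
    simp only [I4]
    split_ifs <;> simp only [abs_one, Std.le_refl, abs_zero, zero_le_one]
  -- bounds for `B = pull N D`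
  set C2 : ℝ := 16 * (2 + 2 * C) * (4 * C) with hC2
  have hB : ∀ x ∈ K, ∀ y, ‖y - x‖ ≤ 1 / 2 → ∀ D : L2, ‖D‖ ≤ 1 →
      ‖pull (Nm J x y) D - D‖ ≤ C2 * ‖y - x‖ := by
    intro x hx y hy D hD
    have h1 := Nm_sub_le h hx y
    have h2 := pull_sub_le (Nm J x y) I4 D
    rw [pull_I4] at h2
    have h3 : ‖Nm J x y‖ ≤ 1 + 2 * C := by
      have : ‖Nm J x y‖ ≤ ‖Nm J x y - I4‖ + ‖I4‖ := by simpa only [sub_add_cancel] using norm_add_le (Nm J x y - I4) I4
      linarith only [mul_nonneg (sub_nonneg.2 hy) (sub_nonneg.2 hC1), mul_nonneg (mul_self_nonneg (1 : ℝ)) (sub_nonneg.2 this), mul_nonneg (mul_self_nonneg (1 : ℝ)) (sub_nonneg.2 h1), mul_nonneg (mul_self_nonneg (1 : ℝ)) (sub_nonneg.2 hy), mul_nonneg (mul_self_nonneg (1 : ℝ)) (sub_nonneg.2 hI)]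
    calc ‖pull (Nm J x y) D - D‖ ≤ 16 * ‖D‖ * (‖Nm J x y‖ + ‖I4‖) * ‖Nm J x y - I4‖ := h2
      _ ≤ 16 * 1 * ((1 + 2 * C) + 1) * (4 * C * ‖y - x‖) := by gcongr
      _ = C2 * ‖y - x‖ := by rw [hC2]; ring
  have hC2' : 0 ≤ C2 := by positivity
  set C3 : ℝ := 16 * C * C + (1 + 16 * C * C) * C2 with hC3
  have hpM : ∀ x ∈ K, ∀ y, ‖y - x‖ ≤ 1 / 2 → ∀ D : L2, Cone (J y) D → ‖D‖ ≤ 1 →
      ‖pM (J x) (pull (Nm J x y) D)‖ ≤ C3 * ‖y - x‖ := by
    intro x hx y hy D hcD hD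
    have h1 := hB x hx y hy D hD
    have e1 : pull (Nm J x y) D = D + (pull (Nm J x y) D - D) := by abel
    have e2 : pM (J x) D = (1 / 2 : ℝ) • (pull (J y) D - pull (J x) D) := by
      unfold pM; rw [hcD.1]
    have h2 : ‖pM (J x) D‖ ≤ 16 * C * C * ‖y - x‖ := by
      rw [e2, norm_smul]
      have a1 := pull_sub_le (J y) (J x) D
      have a2 := h.Jx x hx y hy
      have a3 := h.Jx x hx x (by simp only [sub_self, norm_zero, one_div, inv_nonneg, Nat.ofNat_nonneg])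
      have a4 := h.lipJ x hx y hy
      have a5 : ‖(1 / 2 : ℝ)‖ = 1 / 2 := by norm_num
      rw [a5]
      have : 16 * ‖D‖ * (‖J y‖ + ‖J x‖) * ‖J y - J x‖ ≤ 16 * 1 * (C + C) * (C * ‖y - x‖) := by gcongr
      linarith only [a1, this]
    have h3 : ‖pM (J x) (pull (Nm J x y) D - D)‖ ≤ (1 + 16 * C * C) * (C2 * ‖y - x‖) := by
      refine (pM_le _ _).trans ?_
      have a3 := h.Jx x hx x (by simp only [sub_self, norm_zero, one_div, inv_nonneg, Nat.ofNat_nonneg])
      gcongr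
    rw [e1, pM_add']
    refine (norm_add_le _ _).trans ?_
    have e3 : pM (J x) (D + (pull (Nm J x y) D - D) - D) = pM (J x) (pull (Nm J x y) D - D) := by
      congr 1; abel
    calc ‖pM (J x) D‖ + ‖pM (J x) (pull (Nm J x y) D - D)‖
        ≤ 16 * C * C * ‖y - x‖ + (1 + 16 * C * C) * (C2 * ‖y - x‖) := add_le_add h2 h3
      _ = C3 * ‖y - x‖ := by rw [hC3]; ring
  set C4 : ℝ := 6 * C * C2 + 6 * C with hC4
  set C5 : ℝ := 1 + C2 with hC5
  set δ : ℝ := min (1 / (2 * C4)) (ε / (8 * C)) with hδ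
  have hC4p : 0 < C4 := by positivity
  have hδp : 0 < δ := lt_min (by positivity) (by positivity)
  set c0 : ℝ := 1 / (2 * C5) with hc0
  have hC5p : 0 < C5 := by positivity
  have hc0p : 0 < c0 := by positivity
  set Cfin : ℝ := Cg / c0 * C3 ^ 2 * (12 * C) + 6 * C5 / δ ^ 2 with hCfin
  have hCfinp : 0 ≤ Cfin := by (clear * - hCg hC1 hε; positivity)
  refine ⟨Cfin, hCfinp, fun x hx y hy D hcD hnD A hA => ?_⟩
  have hD1 : ‖D‖ ≤ 1 := by rw [← hnD]; exact norm_le_of_cone (hcx y) (hpos y) hcD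
  have b1 := hB x hx y hy D hD1
  have b2 := hpM x hx y hy D hcD hD1
  set B := pull (Nm J x y) D with hBdef
  have b3 : ‖B‖ ≤ C5 := by
    have : ‖B‖ ≤ ‖B - D‖ + ‖D‖ := by simpa only [sub_add_cancel] using norm_add_le (B - D) D
    have : C2 * ‖y - x‖ ≤ C2 * 1 := by gcongr; linarith only [hy]
    rw [hC5]; linarith
  have hw0 : 0 ≤ ‖y - x‖ := norm_nonneg _
  have hA0 : 0 ≤ ‖A‖ := norm_nonneg _
  by_cases hw : ‖y - x‖ ≤ δ
  · have b4 : 1 / 2 ≤ Q B (Fm (J x)) := by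
      have e1 : Q B (Fm (J x)) = 1 + Q (B - D) (Fm (J x)) - Q D (Fm (J y) - Fm (J x)) := by
        rw [Q_sub_left, Q_sub_right, hnD]; ring
      have a1 := abs_le.1 (abs_Q_le (B - D) (Fm (J x)))
      have a2 := abs_le.1 (abs_Q_le D (Fm (J y) - Fm (J x)))
      have a3 := h.Fx x hx
      have a4 := h.lipF x hx y hy
      have a5 : 6 * ‖B - D‖ * ‖Fm (J x)‖ ≤ 6 * (C2 * ‖y - x‖) * C := by gcongr
      have a6 : 6 * ‖D‖ * ‖Fm (J y) - Fm (J x)‖ ≤ 6 * 1 * (C * ‖y - x‖) := by gcongr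
      have a7 : C4 * ‖y - x‖ ≤ 1 / 2 := by
        have : ‖y - x‖ ≤ 1 / (2 * C4) := hw.trans (min_le_left _ _)
        calc C4 * ‖y - x‖ ≤ C4 * (1 / (2 * C4)) := by gcongr
          _ = 1 / 2 := by field_simp
      rw [e1]
      have : 6 * (C2 * ‖y - x‖) * C + 6 * 1 * (C * ‖y - x‖) = C4 * ‖y - x‖ := by rw [hC4]; ring
      linarith only [a5, a6, a7, a1.1, a2.2]
    have b5 : 0 ≤ Q B B := by
      rw [hBdef, Q_pull]
      apply mul_nonneg
      · apply le_of_lt
        apply hdet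
        have a1 := Nm_sub_le h hx y
        have a2 : ‖y - x‖ ≤ ε / (8 * C) := hw.trans (min_le_right _ _)
        calc ‖Nm J x y - I4‖ ≤ 4 * C * ‖y - x‖ := a1
          _ ≤ 4 * C * (ε / (8 * C)) := by gcongr
          _ = ε / 2 := by field_simp; ring
          _ < ε := by linarith only [hε]
      · exact Q_cone_nonneg (hcx y) (hpos y) hcD hcD
    have b6 : c0 * ‖B‖ ≤ Q B (Fm (J x)) := by
      refine le_trans ?_ b4
      calc c0 * ‖B‖ ≤ c0 * C5 := by gcongr
        _ = 1 / 2 := by rw [hc0]; field_simp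
    have b7 := hg (J x) ⟨x, hx, rfl⟩ A hA B c0 hc0p b5 b6
    have b8 : 1 / (12 * C) ≤ ‖B‖ := by
      have a1 := (abs_le.1 (abs_Q_le B (Fm (J x)))).2
      have a3 := h.Fx x hx
      have a4 : 6 * ‖B‖ * ‖Fm (J x)‖ ≤ 6 * ‖B‖ * C := by gcongr
      rw [div_le_iff₀ (by positivity)]
      linarith only [b4, a1, a4]
    have hBp : 0 < ‖B‖ := lt_of_lt_of_le (by positivity) b8
    by_cases hs : 0 ≤ Q A B
    · have : 0 ≤ Cfin * ‖A‖ * ‖y - x‖ ^ 2 := by (clear * - hCg hC1 hε; positivity)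
      linarith only [hs, this]
    · push Not at hs
      have c1 : Cg / c0 * ‖A‖ * ‖pM (J x) B‖ ^ 2 ≤ Cg / c0 * ‖A‖ * (C3 * ‖y - x‖) ^ 2 := by gcongr
      have c4 := neg_step (by positivity : (0 : ℝ) < 12 * C) b8 hs ((neg_le_neg c1).trans b7)
      refine le_trans (neg_le_neg ?_) c4
      have e : Cg / c0 * ‖A‖ * (C3 * ‖y - x‖) ^ 2 * (12 * C) =
        (Cg / c0 * C3 ^ 2 * (12 * C)) * ‖A‖ * ‖y - x‖ ^ 2 := by ring
      rw [e, hCfin]
      have c5 : 0 ≤ 6 * C5 / δ ^ 2 := by positivity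
      gcongr
      linarith only [c5]
  · push Not at hw
    have a1 := (abs_le.1 (abs_Q_le A B)).1
    have a2 : 6 * ‖A‖ * ‖B‖ ≤ 6 * ‖A‖ * C5 := by gcongr
    have a3 : 1 ≤ ‖y - x‖ ^ 2 / δ ^ 2 := by
      rw [le_div_iff₀ (by positivity), one_mul]
      gcongr
    have a4 : 6 * ‖A‖ * C5 ≤ 6 * C5 / δ ^ 2 * ‖A‖ * ‖y - x‖ ^ 2 := by
      have e : 6 * C5 / δ ^ 2 * ‖A‖ * ‖y - x‖ ^ 2 = (6 * ‖A‖ * C5) * (‖y - x‖ ^ 2 / δ ^ 2) := by ring
      rw [e]
      exact le_mul_of_one_le_right (by positivity) a3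
    have a5 : 6 * C5 / δ ^ 2 * ‖A‖ * ‖y - x‖ ^ 2 ≤ Cfin * ‖A‖ * ‖y - x‖ ^ 2 := by
      have : 6 * C5 / δ ^ 2 ≤ Cfin := by
        have c6 : 0 ≤ Cg / c0 * C3 ^ 2 * (12 * C) := by positivity
        rw [hCfin]; linarith only [c6]
      gcongr
    linarith only [a1, a2, a4, a5]

end Vale.Agent.P204K.T4.EM
end

section
set_option linter.all false
/-! Integrated identities. -/
open MeasureTheory Set Filter Topology
open scoped ContDiff

namespace Vale.Agent.P204K.T4.EM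

theorem _root_.Vale.Agent.P204K.T4.LCur.norm_le {J : V4 → M4} {r : Measure V4} {D : V4 → L2} (h : LCur J r D)
    (hcx : ∀ y, IsCx (J y)) (hpos : ∀ y, Pos (J y)) (y : V4) : ‖D y‖ ≤ 1 := by
  rw [← h.norm y]; exact norm_le_of_cone (hcx y) (hpos y) (h.cone y)

theorem _root_.Vale.Agent.P204K.T4.LCur.li {J : V4 → M4} {r : Measure V4} {D : V4 → L2} (h : LCur J r D)
    (hcx : ∀ y, IsCx (J y)) (hpos : ∀ y, Pos (J y)) : LocallyIntegrable D r := by
  haveI := h.fin
  refine (locallyIntegrable_const (1 : ℝ)).mono h.meas.aestronglyMeasurable ?_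
  refine Eventually.of_forall fun y => ?_
  simpa only [norm_one] using h.norm_le hcx hpos y

theorem cd_y {E : Type} [NormedAddCommGroup E] [NormedSpace ℝ E] {f : V4 × V4 → E} (hf : ContDiff ℝ ∞ f) (x : V4) :
    ContDiff ℝ ∞ (fun y => f (x, y)) := hf.comp (contDiff_const.prodMk contDiff_id)

section main
variable {J : V4 → M4} (hJ : ContDiff ℝ ∞ J) (hcx : ∀ y, IsCx (J y)) (hpos : ∀ y, Pos (J y))
  {r : Measure V4} {D : V4 → L2} (h : LCur J r D) {s : ℝ} (hs : 0 < s)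

theorem not_mem_ball {x y : V4} (hy : y ∉ Metric.closedBall x (1 / 2)) : 1 / 2 < ‖x - y‖ := by
  rw [Metric.mem_closedBall, dist_eq_norm, not_le, norm_sub_rev] at hy; exact hy

include hJ hpos hs in
theorem cd_eta1 (x : V4) (l j : Fin 4) :
    ContDiff ℝ ∞ (fun y => ph s (qd J x y) • X3 (y - x) (AA J l x y) (AA J j x y)) := by
  have h1 : ContDiff ℝ ∞ (fun y => qd J x y) := cd_y (cd_qd hJ) x
  have h2 : ContDiff ℝ ∞ (fun y => AA J l x y) := cd_y (cd_AA hJ hpos l) x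
  have h3 : ContDiff ℝ ∞ (fun y => AA J j x y) := cd_y (cd_AA hJ hpos j) x
  have h4 : ContDiff ℝ ∞ (fun y => ph s (qd J x y)) := cd_ph h1 fun y => qd_add_ne J hs x y
  have h5 : ContDiff ℝ ∞ (fun y : V4 => y - x) := contDiff_id.sub contDiff_const
  have h6 : ContDiff ℝ ∞ (fun y => X3 (y - x) (AA J l x y) (AA J j x y)) := cd_X3 h5 h2 h3
  rw [_root_.contDiff_pi]
  intro i
  exact h4.mul (cd_comp h6 i)

include hJ hpos hs in
theorem TF_eta1 (x : V4) (l j : Fin 4) :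
    TF (fun y => ph s (qd J x y) • X3 (y - x) (AA J l x y) (AA J j x y)) := by
  refine ⟨cd_eta1 hJ hpos hs x l j, ?_⟩
  refine HasCompactSupport.intro (isCompact_closedBall x (1 / 2)) fun y hy => ?_
  rw [ph_zero (qd_far (not_mem_ball hy)), zero_smul]

include hJ hpos hs h in
theorem closed1 (x : V4) (l j : Fin 4) : ∫ y, Q (D y) (dX J (ph s) (ph1 s) x l j y) ∂r = 0 := by
  have h1 := h.closed _ (TF_eta1 hJ hpos hs x l j)
  rw [← h1]
  congr 1
  funext y
  rw [d1_X (φ' := ph1 s) x y l j (hd_ph (qd_add_ne J hs x y))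
    ((cd_eta1 hJ hpos hs x l j).differentiable (by simp) y)]

/-- second test form: `f(q) low (e_j)` -/
theorem closed2_aux (hJ : ContDiff ℝ ∞ J) (hs : 0 < s) (x y : V4) (j : Fin 4) :
    d1 (fun y => fk s (qd J x y) • low (J x) (eb j)) y =
      ph s (qd J x y) • wd (low (J x) (y - x)) (low (J x) (eb j)) := by
  have h1 : ContDiff ℝ ∞ (fun y => qd J x y) := cd_y (cd_qd hJ) x
  have h2 : ContDiff ℝ ∞ (fun y => fk s (qd J x y) • low (J x) (eb j)) :=
    (cd_fk h1 fun y => qd_add_ne J hs x y).smul contDiff_const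
  have h3 : ∀ i, HasDerivAt (fun t : ℝ => fk s (qd J x (y + t • eb i)) • low (J x) (eb j))
      ((fk1 s (qd J x y) * (2 * gm (J x) (y - x) (eb i))) • low (J x) (eb j)) 0 := by
    intro i
    have h4 := line_qdy (J := J) x y (eb i)
    have h5 : HasDerivAt (fk s) (fk1 s (qd J x y)) (qd J x (y + (0 : ℝ) • eb i)) := by
      simpa using hd_fk (qd_add_ne J hs x y)
    exact (h5.comp (0 : ℝ) h4).smul_const (low (J x) (eb j))
  rw [d1_of_line (h2.differentiable (by simp) y) h3, ← ofEnt_wd, ← ofEnt_smul]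
  refine ofEnt_congr fun i k => ?_
  have e1 : ∀ i, gm (J x) (y - x) (eb i) = low (J x) (y - x) i := by
    intro i; rw [← dp_low]; simp [dp, eb, Pi.single_apply]
  simp only [Pi.smul_apply, smul_eq_mul, e1, ph]
  ring

include hJ hs h in
theorem closed2 (x : V4) (j : Fin 4) :
    ∫ y, ph s (qd J x y) * Q (D y) (wd (low (J x) (y - x)) (low (J x) (eb j))) ∂r = 0 := by
  have h1 : ContDiff ℝ ∞ (fun y => qd J x y) := cd_y (cd_qd hJ) x
  have h2 : TF (fun y => fk s (qd J x y) • low (J x) (eb j)) := by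
    refine ⟨(cd_fk h1 fun y => qd_add_ne J hs x y).smul contDiff_const, ?_⟩
    refine HasCompactSupport.intro (isCompact_closedBall x (1 / 2)) fun y hy => ?_
    rw [fk_zero (qd_far (not_mem_ball hy)), zero_smul]
  have h3 := h.closed _ h2
  rw [← h3]
  congr 1
  funext y
  rw [closed2_aux hJ hs, Q_smul_right]

/-- derivative of `V` -/
theorem pd_Vp (hJ : ContDiff ℝ ∞ J) (hcx : ∀ y, IsCx (J y)) (hpos : ∀ y, Pos (J y)) (hs : 0 < s)
    [IsLocallyFiniteMeasure r] (l : Fin 4) (x : V4) :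
    pd l (Vp J r s) x = -∫ y, ph s (qd J x y) * gm (J x) (y - x) (AA J l x y) ∂r := by
  have e : Vp J r s = fun x => ∫ y, Q c0 (KV J s (x, y)) ∂r := by funext x; exact Vp_eq J r s x
  rw [pd, e, fderiv_pi li_const (cd_KV hJ hs) (KV_far (s := s) (J := J)), ← integral_neg]
  congr 1
  funext y
  have hd : DifferentiableAt ℝ (fun x => KV J s (x, y)) x :=
    ((cd_KV hJ hs).comp (contDiff_id.prodMk contDiff_const)).differentiable (by simp) x
  have h1 : HasDerivAt (fun t : ℝ => KV J s (x + t • eb l, y))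
      ((fk1 s (qd J x y) * (-2 * gm (J x) (y - x) (AA J l x y))) • c1) 0 := by
    have h4 := line_qd hJ hcx hpos x y l
    have h5 : HasDerivAt (fk s) (fk1 s (qd J x y)) (qd J (x + (0 : ℝ) • eb l) y) := by
      simpa using hd_fk (qd_add_ne J hs x y)
    exact (h5.comp (0 : ℝ) h4).smul_const c1
  have h2 := fderiv_eq_of_line hd h1
  have e3 : (Pi.single l 1 : V4) = eb l := rfl
  rw [e3, h2, Q_c0_c1, ph]
  ring

/-- derivative of `b` -/
theorem pd_bp (hJ : ContDiff ℝ ∞ J) (hcx : ∀ y, IsCx (J y)) (hpos : ∀ y, Pos (J y)) (hs : 0 < s)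
    (hD : LocallyIntegrable D r) (j l : Fin 4) (x : V4) :
    pd l (fun x => bp J r D s x j) x = ∫ y, Q (D y) (dB J (ph s) (ph1 s) j l x y) ∂r := by
  have e : (fun x => bp J r D s x j) = fun x => ∫ y, Q (D y) (KB J s j (x, y)) ∂r := rfl
  rw [pd, e, fderiv_pi hD (cd_KB hJ hpos hs j) (KB_far (s := s) (J := J) j)]
  congr 1
  funext y
  have hd : DifferentiableAt ℝ (fun x => KB J s j (x, y)) x :=
    ((cd_KB hJ hpos hs j).comp (contDiff_id.prodMk contDiff_const)).differentiable (by simp) x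
  have h1 := line_B hJ hcx hpos (φ := ph s) (φ' := ph1 s) x y j l (hd_ph (qd_add_ne J hs x y))
  have h2 := fderiv_eq_of_line hd h1
  have e3 : (Pi.single l 1 : V4) = eb l := rfl
  rw [e3, h2, dB]

/-- continuity of kernels in `y` -/
theorem cont_pi_y {K : V4 × V4 → L2} (hK : ContDiff ℝ ∞ K) (x : V4) : Continuous (fun y => K (x, y)) :=
  hK.continuous.comp (continuous_const.prodMk continuous_id)

theorem dB_eq_fderiv (hJ : ContDiff ℝ ∞ J) (hcx : ∀ y, IsCx (J y)) (hpos : ∀ y, Pos (J y)) (hs : 0 < s)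
    (j l : Fin 4) (x y : V4) :
    dB J (ph s) (ph1 s) j l x y = fderiv ℝ (KB J s j) (x, y) (eb l, 0) := by
  have hd : DifferentiableAt ℝ (fun x => KB J s j (x, y)) x :=
    ((cd_KB hJ hpos hs j).comp (contDiff_id.prodMk contDiff_const)).differentiable (by simp) x
  have h1 := line_B hJ hcx hpos (φ := ph s) (φ' := ph1 s) x y j l (hd_ph (qd_add_ne J hs x y))
  have h2 := fderiv_eq_of_line hd h1
  rw [dB, ← h2]
  have h3 : HasFDerivAt (KB J s j) (fderiv ℝ (KB J s j) (x, y)) (x, y) :=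
    ((cd_KB hJ hpos hs j).differentiable (by simp) (x, y)).hasFDerivAt
  have h4 : HasFDerivAt (fun x : V4 => ((x, y) : V4 × V4)) ((ContinuousLinearMap.id ℝ V4).prod 0) x :=
    (hasFDerivAt_id x).prodMk (hasFDerivAt_const y x)
  have h5 := HasFDerivAt.comp (g := KB J s j) (f := fun x : V4 => ((x, y) : V4 × V4)) x h3 h4
  have h6 : fderiv ℝ (fun x => KB J s j (x, y)) x = _ := h5.fderiv
  rw [h6]
  rfl

theorem cont_dB (hJ : ContDiff ℝ ∞ J) (hcx : ∀ y, IsCx (J y)) (hpos : ∀ y, Pos (J y)) (hs : 0 < s)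
    (j l : Fin 4) (x : V4) : Continuous (fun y => dB J (ph s) (ph1 s) j l x y) := by
  have e : (fun y => dB J (ph s) (ph1 s) j l x y) = fun y => fderiv ℝ (KB J s j) (x, y) (eb l, 0) := by
    funext y; exact dB_eq_fderiv hJ hcx hpos hs j l x y
  rw [e]
  exact (((cd_KB hJ hpos hs j).continuous_fderiv (by simp)).comp
    (continuous_const.prodMk continuous_id)).clm_apply continuous_const

theorem dB_zero (j l : Fin 4) {x y : V4} (hy : 1 / 2 < ‖x - y‖) : dB J (ph s) (ph1 s) j l x y = 0 := by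
  rw [dB, ph_zero (qd_far hy), ph1_zero (qd_far hy)]; simp only [neg_mul, mul_neg, zero_mul, neg_zero, zero_smul, smul_add, add_zero]

theorem cont_dX (hJ : ContDiff ℝ ∞ J) (hpos : ∀ y, Pos (J y)) (hs : 0 < s)
    (l j : Fin 4) (x : V4) : Continuous (fun y => dX J (ph s) (ph1 s) x l j y) := by
  have e : (fun y => dX J (ph s) (ph1 s) x l j y) =
      fun y => d1 (fun y => ph s (qd J x y) • X3 (y - x) (AA J l x y) (AA J j x y)) y := by
    funext y
    rw [d1_X (φ' := ph1 s) x y l j (hd_ph (qd_add_ne J hs x y))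
      ((cd_eta1 hJ hpos hs x l j).differentiable (by simp) y)]
  rw [e]
  have hη := cd_eta1 hJ hpos hs x l j
  have key : ∀ i k, Continuous (fun y => pd i (fun z => (ph s (qd J x z) •
      X3 (z - x) (AA J l x z) (AA J j x z)) k) y) := by
    intro i k
    exact ((cd_comp hη k).continuous_fderiv (by simp)).clm_apply continuous_const
  unfold d1
  refine continuous_pi fun i => ?_
  fin_cases i
  · exact (key 0 1).sub (key 1 0)
  · exact (key 0 2).sub (key 2 0)
  · exact (key 0 3).sub (key 3 0)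
  · exact (key 1 2).sub (key 2 1)
  · exact (key 1 3).sub (key 3 1)
  · exact (key 2 3).sub (key 3 2)

theorem dX_zero (l j : Fin 4) {x y : V4} (hy : 1 / 2 < ‖x - y‖) : dX J (ph s) (ph1 s) x l j y = 0 := by
  rw [dX, ph_zero (qd_far hy), ph1_zero (qd_far hy)]; simp only [mul_zero, smul_add, zero_smul, add_zero]

/-- the main part of `d b` -/
noncomputable def mainK (J : V4 → M4) (s : ℝ) (l j : Fin 4) (x y : V4) : L2 :=
  (kap (ph s) (ph1 s) (qd J x y)) • sw (AA J l x y) (AA J j x y) +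
    ph s (qd J x y) • sw (y - x) (Rc J l j x (y - x))

theorem dB_sub' (l j : Fin 4) (x y : V4) :
    mainK J s l j x y = (dB J (ph s) (ph1 s) j l x y - dB J (ph s) (ph1 s) l j x y) -
      dX J (ph s) (ph1 s) x l j y - (tr4 (Ga J l x) • KB J s j (x, y) - tr4 (Ga J j x) • KB J s l (x, y)) := by
  rw [dB_sub, mainK, KB, KB]
  module

theorem d1_bp (hJ : ContDiff ℝ ∞ J) (hcx : ∀ y, IsCx (J y)) (hpos : ∀ y, Pos (J y)) (hs : 0 < s)
    (h : LCur J r D) (x : V4) :
    d1 (bp J r D s) x = ofEnt (fun l j => ∫ y, Q (D y) (mainK J s l j x y) ∂r) +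
      wd (fun l => tr4 (Ga J l x)) (bp J r D s x) := by
  have hD := h.li hcx hpos
  rw [← ofEnt_wd, ← ofEnt_add, d1]
  refine ofEnt_congr fun l j => ?_
  rw [pd_bp hJ hcx hpos hs hD, pd_bp hJ hcx hpos hs hD]
  have hK := isCompact_closedBall x (1 / 2 : ℝ)
  have i1 : ∀ j l, Integrable (fun y => Q (D y) (dB J (ph s) (ph1 s) j l x y)) r := fun j l =>
    integrable_pi hD (cont_dB hJ hcx hpos hs j l x) hK fun y hy => dB_zero j l (not_mem_ball hy)
  have i2 : Integrable (fun y => Q (D y) (dX J (ph s) (ph1 s) x l j y)) r :=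
    integrable_pi hD (cont_dX hJ hpos hs l j x) hK fun y hy => dX_zero l j (not_mem_ball hy)
  have i3 : ∀ j, Integrable (fun y => Q (D y) (KB J s j (x, y))) r := fun j =>
    integrable_pi hD (cont_pi_y (cd_KB hJ hpos hs j) x) hK fun y hy => KB_far j x y (not_mem_ball hy)
  have e1 : ∫ y, Q (D y) (mainK J s l j x y) ∂r =
      (∫ y, Q (D y) (dB J (ph s) (ph1 s) j l x y) ∂r - ∫ y, Q (D y) (dB J (ph s) (ph1 s) l j x y) ∂r) -
      ∫ y, Q (D y) (dX J (ph s) (ph1 s) x l j y) ∂r -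
      (tr4 (Ga J l x) * ∫ y, Q (D y) (KB J s j (x, y)) ∂r - tr4 (Ga J j x) * ∫ y, Q (D y) (KB J s l (x, y)) ∂r) := by
    have e2 : (fun y => Q (D y) (mainK J s l j x y)) = fun y =>
        ((Q (D y) (dB J (ph s) (ph1 s) j l x y) - Q (D y) (dB J (ph s) (ph1 s) l j x y)) -
          Q (D y) (dX J (ph s) (ph1 s) x l j y)) -
        (tr4 (Ga J l x) * Q (D y) (KB J s j (x, y)) - tr4 (Ga J j x) * Q (D y) (KB J s l (x, y))) := by
      funext y
      rw [dB_sub']
      simp only [Q_sub_right, Q_smul_right]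
    have j1 : Integrable (fun y => Q (D y) (dB J (ph s) (ph1 s) j l x y) -
      Q (D y) (dB J (ph s) (ph1 s) l j x y)) r := (i1 j l).sub (i1 l j)
    have j2 : Integrable (fun y => tr4 (Ga J l x) * Q (D y) (KB J s j (x, y))) r := (i3 j).const_mul _
    have j3 : Integrable (fun y => tr4 (Ga J j x) * Q (D y) (KB J s l (x, y))) r := (i3 l).const_mul _
    have j4 : Integrable (fun y => (Q (D y) (dB J (ph s) (ph1 s) j l x y) -
      Q (D y) (dB J (ph s) (ph1 s) l j x y)) - Q (D y) (dX J (ph s) (ph1 s) x l j y)) r := j1.sub i2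
    have j5 : Integrable (fun y => tr4 (Ga J l x) * Q (D y) (KB J s j (x, y)) -
      tr4 (Ga J j x) * Q (D y) (KB J s l (x, y))) r := j2.sub j3
    rw [e2, integral_sub j4 j5, integral_sub j1 i2, integral_sub (i1 j l) (i1 l j),
      integral_sub j2 j3, integral_const_mul, integral_const_mul]
  rw [closed1 hJ hpos h hs x l j, sub_zero] at e1
  rw [e1]
  simp only [bp]
  ring

end main

end Vale.Agent.P204K.T4.EM
end

section
set_option linter.all false
/-! Kernel bounds, properties (P1) and (P2). -/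
open MeasureTheory Set Filter Topology
open scoped ContDiff

namespace Vale.Agent.P204K.T4.EM

/-- scalar bounds -/
theorem fk_nonneg {s t : ℝ} (hs : 0 < s) (ht : 0 ≤ t) : 0 ≤ fk s t := by
  have := th_nonneg t
  rw [fk]; positivity

theorem exists_scalar : ∃ C : ℝ, 1 ≤ C ∧ ∀ s t : ℝ, 0 < s → 0 ≤ t → t ≤ 1 / 8 →
    |ph s t| * t ≤ C * (1 + fk s t) ∧
    |kap (ph s) (ph1 s) t - 8 * s * th t / (t + s) ^ 3| ≤ C ∧
    8 * s * th t / (t + s) ^ 3 * t ≤ 8 * fk s t := by
  obtain ⟨C, hC, h1, h2⟩ := exists_th_bd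
  refine ⟨2 + 260 * C, by linarith, fun s t hs ht ht8 => ?_⟩
  have hts : 0 < t + s := by linarith only [hs, ht]
  have e1 : t / (t + s) ≤ 1 := by rw [div_le_one hts]; linarith only [hs]
  have e1' : 0 ≤ t / (t + s) := by positivity
  have hth := th_nonneg t
  have hf := fk_nonneg hs ht
  have q1 := h1 t
  have q2 := h2 t
  refine ⟨?_, ?_, ?_⟩
  · have e2 : |ph s t| * t = |2 * (th1 t * (t / (t + s)) - fk s t * (t / (t + s)))| := by
      rw [← abs_of_nonneg ht, ← abs_mul, abs_of_nonneg ht]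
      congr 1
      rw [ph, fk1, fk]; field_simp
    rw [e2, abs_mul]
    have e3 : |th1 t * (t / (t + s)) - fk s t * (t / (t + s))| ≤ C + fk s t := by
      refine (abs_sub _ _).trans ?_
      rw [abs_mul, abs_mul, abs_of_nonneg e1', abs_of_nonneg hf]
      have : |th1 t| * (t / (t + s)) ≤ C * 1 := by gcongr
      have : fk s t * (t / (t + s)) ≤ fk s t * 1 := by gcongr
      linarith
    have e4 : |(2 : ℝ)| = 2 := by norm_num
    rw [e4]
    nlinarith only [hC, e3, hf]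
  · rw [kap_eq hts.ne']
    have e3 : 8 * s * th t / (t + s) ^ 3 + (8 * t * th1 t / (t + s) ^ 2 - 8 * th1 t / (t + s) - 4 * t * th2 t / (t + s))
        - 8 * s * th t / (t + s) ^ 3 = 8 * th1 t * (t / (t + s)) / (t + s) - 8 * th1 t / (t + s) -
          4 * th2 t * (t / (t + s)) := by field_simp; ring
    rw [e3]
    by_cases h16 : t < 1 / 16
    · rw [th1_zero (Or.inl h16), th2_zero (Or.inl h16)]; simp only [mul_zero, zero_mul, zero_div, sub_self, abs_zero, ge_iff_le]; linarith only [hC]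
    · push Not at h16
      have e5 : 1 / (t + s) ≤ 16 := by
        rw [div_le_iff₀ hts]; linarith only [hs, h16]
      have e5' : 0 ≤ 1 / (t + s) := by positivity
      have e6 : 8 * th1 t * (t / (t + s)) / (t + s) - 8 * th1 t / (t + s) - 4 * th2 t * (t / (t + s)) =
        8 * th1 t * (t / (t + s)) * (1 / (t + s)) - 8 * th1 t * (1 / (t + s)) - 4 * th2 t * (t / (t + s)) := by
        ring
      rw [e6]
      have a1 : |8 * th1 t * (t / (t + s)) * (1 / (t + s))| ≤ 8 * C * 1 * 16 := by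
        rw [abs_mul, abs_mul, abs_mul, abs_of_nonneg e1', abs_of_nonneg e5']
        have : |(8 : ℝ)| = 8 := by norm_num
        rw [this]; gcongr
      have a2 : |8 * th1 t * (1 / (t + s))| ≤ 8 * C * 16 := by
        rw [abs_mul, abs_mul, abs_of_nonneg e5']
        have : |(8 : ℝ)| = 8 := by norm_num
        rw [this]; gcongr
      have a3 : |4 * th2 t * (t / (t + s))| ≤ 4 * C * 1 := by
        rw [abs_mul, abs_mul, abs_of_nonneg e1']
        have : |(4 : ℝ)| = 4 := by norm_num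
        rw [this]; gcongr
      have b1 := abs_le.1 a1
      have b2 := abs_le.1 a2
      have b3 := abs_le.1 a3
      rw [abs_le]
      constructor <;> linarith only [b1.1, b2.2, b3.2, b1.2, b2.1, b3.1]
  · have e7 : 8 * s * th t / (t + s) ^ 3 * t = 8 * fk s t * ((s / (t + s)) * (t / (t + s))) := by
      rw [fk]; field_simp
    rw [e7]
    have e8 : s / (t + s) ≤ 1 := by rw [div_le_one hts]; linarith only [ht]
    have e9 : 0 ≤ s / (t + s) := by positivity
    have : (s / (t + s)) * (t / (t + s)) ≤ 1 := by nlinarith only [e8, e1, e9]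
    nlinarith only [hf, this]

/-- the majorant -/
noncomputable def ms (J : V4 → M4) (s : ℝ) (x y : V4) : ℝ :=
  (Metric.closedBall x (1 / 2)).indicator (fun _ => (1 : ℝ)) y + fk s (qd J x y)

section main
variable {J : V4 → M4} {r : Measure V4} {D : V4 → L2} {s : ℝ}

theorem cont_fk (hJ : ContDiff ℝ ∞ J) (hs : 0 < s) (x : V4) : Continuous (fun y => fk s (qd J x y)) :=
  (cd_fk (cd_y (cd_qd hJ) x) fun y => qd_add_ne J hs x y).continuous

theorem int_fk (hJ : ContDiff ℝ ∞ J) (hs : 0 < s) [IsLocallyFiniteMeasure r] (x : V4) :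
    Integrable (fun y => fk s (qd J x y)) r := by
  refine (cont_fk hJ hs x).integrable_of_hasCompactSupport ?_
  exact HasCompactSupport.intro (isCompact_closedBall x (1 / 2)) fun y hy => fk_zero (qd_far (not_mem_ball hy))

theorem int_ms (hJ : ContDiff ℝ ∞ J) (hs : 0 < s) [IsLocallyFiniteMeasure r] (x : V4) :
    Integrable (ms J s x) r := by
  refine Integrable.add ?_ (int_fk hJ hs x)
  rw [integrable_indicator_iff Metric.isClosed_closedBall.measurableSet]
  exact integrableOn_const (isCompact_closedBall x (1 / 2)).measure_lt_top.ne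

theorem integral_ms_le (hJ : ContDiff ℝ ∞ J) (hs : 0 < s) [IsLocallyFiniteMeasure r] {K : Set V4}
    (hK : IsCompact K) {x : V4} (hx : x ∈ K) :
    ∫ y, ms J s x y ∂r ≤ (1 + (r (Metric.cthickening (1 / 2) K)).toReal) * (1 + Vp J r s x) := by
  have h1 : ∫ y, ms J s x y ∂r = (r (Metric.closedBall x (1 / 2))).toReal + Vp J r s x := by
    have : Integrable ((Metric.closedBall x (1 / 2)).indicator (fun _ => (1 : ℝ))) r := by
      rw [integrable_indicator_iff Metric.isClosed_closedBall.measurableSet]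
      exact integrableOn_const (isCompact_closedBall x (1 / 2)).measure_lt_top.ne
    simp only [ms]
    rw [integral_add this (int_fk hJ hs x), integral_indicator Metric.isClosed_closedBall.measurableSet]
    simp only [one_div, integral_const, Measure.real, MeasurableSet.univ, Measure.restrict_apply, univ_inter, smul_eq_mul, mul_one, Vp]
  have h2 : (r (Metric.closedBall x (1 / 2))).toReal ≤ (r (Metric.cthickening (1 / 2) K)).toReal := by
    apply ENNReal.toReal_mono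
    · exact (hK.cthickening).measure_lt_top.ne
    · exact measure_mono (Metric.closedBall_subset_cthickening hx _)
  have h3 : 0 ≤ Vp J r s x := integral_nonneg fun y => fk_nonneg hs (qd_nonneg J x y)
  have h4 : 0 ≤ (r (Metric.cthickening (1 / 2) K)).toReal := ENNReal.toReal_nonneg
  rw [h1]
  nlinarith only [h2, h3, h4]

theorem ms_nonneg (hs : 0 < s) (x y : V4) : 0 ≤ ms J s x y := by
  apply add_nonneg
  · exact Set.indicator_nonneg (fun _ _ => zero_le_one) _
  · exact fk_nonneg hs (qd_nonneg J x y)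

/-- kernels bounded by `|ph| |w|^2` are dominated by the majorant -/
theorem exists_ph_ms : ∃ C : ℝ, 1 ≤ C ∧ ∀ (J : V4 → M4) (s : ℝ) (x y : V4), 0 < s →
    |ph s (qd J x y)| * ‖y - x‖ ^ 2 ≤ C * ms J s x y := by
  obtain ⟨C, hC, h⟩ := exists_scalar
  refine ⟨2 * C, by linarith, fun J s x y hs => ?_⟩
  by_cases h8 : qd J x y ≤ 1 / 8
  · have h1 := (h s (qd J x y) hs (qd_nonneg J x y) h8).1
    have h2 := qd_ge J x y
    have h3 : ms J s x y = 1 + fk s (qd J x y) := by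
      rw [ms, Set.indicator_of_mem]
      rw [Metric.mem_closedBall, dist_eq_norm]
      by_contra hc
      push Not at hc
      have : 1 / 8 < qd J x y := qd_far (by rwa [norm_sub_rev])
      linarith only [h8, this]
    rw [h3]
    have h4 : |ph s (qd J x y)| * ‖y - x‖ ^ 2 ≤ |ph s (qd J x y)| * (2 * qd J x y) := by
      gcongr; linarith only [h2]
    linarith only [h1, h4]
  · push Not at h8
    rw [ph_zero h8, abs_zero, zero_mul]
    have := ms_nonneg (J := J) hs x y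
    positivity

theorem Rc_le {K : Set V4} {C : ℝ} (h : UB J K C) {x : V4} (hx : x ∈ K) (l j : Fin 4) (w : V4) :
    ‖Rc J l j x w‖ ≤ (8 * C + 32 * C * C) * ‖w‖ := by
  have hC := h.one_le
  have a1 := norm_app_le (fderiv ℝ (Ga J j) x (eb l)) w
  have a2 := norm_app_le (fderiv ℝ (Ga J l) x (eb j)) w
  have a3 := norm_app_le (Ga J j x) (app (Ga J l x) w)
  have a4 := norm_app_le (Ga J l x) (app (Ga J j x) w)
  have a5 := norm_app_le (Ga J l x) w
  have a6 := norm_app_le (Ga J j x) w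
  have b1 := h.dGx x hx l j
  have b2 := h.dGx x hx j l
  have b3 := h.Gx x hx l
  have b4 := h.Gx x hx j
  have hw := norm_nonneg w
  have c1 : ‖app (fderiv ℝ (Ga J j) x (eb l)) w‖ ≤ 4 * C * ‖w‖ := a1.trans (by gcongr)
  have c2 : ‖app (fderiv ℝ (Ga J l) x (eb j)) w‖ ≤ 4 * C * ‖w‖ := a2.trans (by gcongr)
  have c3 : ‖app (Ga J j x) (app (Ga J l x) w)‖ ≤ 4 * C * (4 * C * ‖w‖) :=
    a3.trans (mul_le_mul (by gcongr) (a5.trans (by gcongr)) (norm_nonneg _) (by positivity))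
  have c4 : ‖app (Ga J l x) (app (Ga J j x) w)‖ ≤ 4 * C * (4 * C * ‖w‖) :=
    a4.trans (mul_le_mul (by gcongr) (a6.trans (by gcongr)) (norm_nonneg _) (by positivity))
  rw [Rc]
  calc ‖app (fderiv ℝ (Ga J j) x (eb l)) w - app (fderiv ℝ (Ga J l) x (eb j)) w +
      app (Ga J j x) (app (Ga J l x) w) - app (Ga J l x) (app (Ga J j x) w)‖
      ≤ ‖app (fderiv ℝ (Ga J j) x (eb l)) w‖ + ‖app (fderiv ℝ (Ga J l) x (eb j)) w‖ +
        ‖app (Ga J j x) (app (Ga J l x) w)‖ + ‖app (Ga J l x) (app (Ga J j x) w)‖ := by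
        refine (norm_sub_le _ _).trans ?_
        gcongr
        refine (norm_add_le _ _).trans ?_
        gcongr
        exact norm_sub_le _ _
    _ ≤ (8 * C + 32 * C * C) * ‖w‖ := by linarith only [c1, c2, c3, c4]

/-- error kernel for (P1) -/
noncomputable def E1 (J : V4 → M4) (D : V4 → L2) (j : Fin 4) (x y : V4) : ℝ :=
  Q (Fm (J x)) (Fm (J x)) / 2 * (ev (D y) (y - x) (AA J j x y) - ev (pull (J x) (D y)) (y - x) (eb j)) +
    (∑ k, J x k j * gm (J x) (y - x) (AA J k x y)) + ev (Fm (J x)) (y - x) (eb j) * Q (Fm (J x)) (D y)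

theorem ev_Fm_eb {J : M4} (hJ : IsCx J) (w : V4) (j : Fin 4) :
    ev (Fm J) w (eb j) = -∑ k, J k j * gm J w (eb k) := by
  have e1 : app J (eb j) = ∑ k, J k j • eb k := by
    funext i
    simp only [app, eb, Pi.single_apply, mul_ite, mul_one, mul_zero, Finset.sum_ite_eq', Finset.mem_univ, ↓reduceIte, Finset.sum_apply, Pi.smul_apply, smul_eq_mul, Finset.sum_ite_eq]
  have h1 : gm J w (app J (eb j)) = - ev (Fm J) w (eb j) := by
    rw [gm_eq_ev hJ, hJ, ev_neg_right]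
  have h2 : gm J w (app J (eb j)) = ∑ k, J k j * gm J w (eb k) := by
    rw [e1]
    simp only [Fin.sum_univ_four, gm_add_right, gm_smul_right]
  linarith only [h1, h2]

theorem E1_eq (hcx : ∀ y, IsCx (J y)) (j : Fin 4) (x y : V4) (hD : Q (D y) (Fm (J y)) = 1)
    (hc : pull (J y) (D y) = D y) :
    E1 J D j x y = Q (Fm (J x)) (Fm (J x)) / 2 * (ev (D y) (y - x) (app (Ga J j x) (y - x)) +
      ev (pull (J y) (D y) - pull (J x) (D y)) (y - x) (eb j)) +
      (∑ k, J x k j * gm (J x) (y - x) (app (Ga J k x) (y - x))) -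
      ev (Fm (J x)) (y - x) (eb j) * Q (D y) (Fm (J y) - Fm (J x)) := by
  have h1 := ev_Fm_eb (hcx x) (y - x) j
  have h2 : ∑ k, J x k j * gm (J x) (y - x) (AA J k x y) = ∑ k, J x k j * gm (J x) (y - x) (eb k) +
      ∑ k, J x k j * gm (J x) (y - x) (app (Ga J k x) (y - x)) := by
    rw [← Finset.sum_add_distrib]
    apply Finset.sum_congr rfl
    intro k _
    rw [AA, gm_add_right]; ring
  rw [E1, h2, Q_sub_right, hD, ev_sub, hc, AA, ev_add_right, Q_comm (Fm (J x)) (D y)]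
  have h3 : ∑ k, J x k j * gm (J x) (y - x) (eb k) = - ev (Fm (J x)) (y - x) (eb j) := by rw [h1]; ring
  rw [h3]; ring

theorem norm_eb (j : Fin 4) : ‖eb j‖ ≤ 1 := by
  rw [pi_norm_le_iff_of_nonneg zero_le_one]
  intro i
  simp only [eb, Pi.single_apply]
  split_ifs <;> simp only [norm_one, Std.le_refl, norm_zero, zero_le_one]

theorem E1_le (hcx : ∀ y, IsCx (J y)) (hpos : ∀ y, Pos (J y)) (h : LCur J r D) {K : Set V4} {C : ℝ}
    (hU : UB J K C) {x : V4} (hx : x ∈ K) (y : V4) (hy : ‖y - x‖ ≤ 1 / 2) (j : Fin 4) :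
    |E1 J D j x y| ≤ (64 * C * C + 512 * C * C * C + 256 * C * C * C + 96 * C * C) * ‖y - x‖ ^ 2 := by
  have hC := hU.one_le
  have hD := h.norm_le hcx hpos y
  rw [E1_eq hcx j x y (h.norm y) (h.cone y).1]
  set w := y - x with hw
  have hw0 : 0 ≤ ‖w‖ := norm_nonneg w
  have g1 : ∀ k, ‖app (Ga J k x) w‖ ≤ 4 * C * ‖w‖ := fun k =>
    (norm_app_le _ _).trans (by have := hU.Gx x hx k; gcongr)
  have a1 : |ev (D y) w (app (Ga J j x) w)| ≤ 16 * 1 * ‖w‖ * (4 * C * ‖w‖) :=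
    (abs_ev_le _ _ _).trans (by have := g1 j; gcongr)
  have a2 : |ev (pull (J y) (D y) - pull (J x) (D y)) w (eb j)| ≤ 16 * (16 * 1 * (C + C) * (C * ‖w‖)) * ‖w‖ * 1 := by
    refine (abs_ev_le _ _ _).trans ?_
    have b1 := pull_sub_le (J y) (J x) (D y)
    have b2 := hU.Jx x hx y hy
    have b3 := hU.Jx x hx x (by simp only [sub_self, norm_zero, one_div, inv_nonneg, Nat.ofNat_nonneg])
    have b4 := hU.lipJ x hx y hy
    have b5 := norm_eb j
    have b6 : ‖pull (J y) (D y) - pull (J x) (D y)‖ ≤ 16 * 1 * (C + C) * (C * ‖w‖) :=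
      b1.trans (by gcongr)
    gcongr
  have a3 : |∑ k, J x k j * gm (J x) w (app (Ga J k x) w)| ≤ 256 * C * C * C * ‖w‖ ^ 2 := by
    refine (Finset.abs_sum_le_sum_abs _ _).trans ?_
    have b : ∀ k ∈ (Finset.univ : Finset (Fin 4)), |J x k j * gm (J x) w (app (Ga J k x) w)| ≤
        C * (16 * C * ‖w‖ * (4 * C * ‖w‖)) := by
      intro k _
      rw [abs_mul]
      have b1 := abs_M4_le (J x) k j
      have b2 := hU.Jx x hx x (by simp only [sub_self, norm_zero, one_div, inv_nonneg, Nat.ofNat_nonneg])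
      have b3 := abs_gm_le (J x) w (app (Ga J k x) w)
      have b4 := hU.gx x hx
      have b5 := g1 k
      refine mul_le_mul (b1.trans b2) (b3.trans (by gcongr)) (abs_nonneg _) (by positivity)
    refine (Finset.sum_le_sum b).trans ?_
    simp only [Finset.sum_const, Finset.card_univ, Fintype.card_fin, nsmul_eq_mul, Nat.cast_ofNat]
    linarith only []
  have a4 : |ev (Fm (J x)) w (eb j) * Q (D y) (Fm (J y) - Fm (J x))| ≤ (16 * C * ‖w‖ * 1) * (6 * 1 * (C * ‖w‖)) := by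
    rw [abs_mul]
    have b1 := abs_ev_le (Fm (J x)) w (eb j)
    have b2 := abs_Q_le (D y) (Fm (J y) - Fm (J x))
    have b3 := hU.Fx x hx
    have b4 := hU.lipF x hx y hy
    have b5 := norm_eb j
    exact mul_le_mul (b1.trans (by gcongr)) (b2.trans (by gcongr)) (abs_nonneg _) (by positivity)
  have a5 := hU.Pf x hx
  have a6 : |Q (Fm (J x)) (Fm (J x)) / 2 * (ev (D y) w (app (Ga J j x) w) +
      ev (pull (J y) (D y) - pull (J x) (D y)) w (eb j))| ≤
      C * (16 * 1 * ‖w‖ * (4 * C * ‖w‖) + 16 * (16 * 1 * (C + C) * (C * ‖w‖)) * ‖w‖ * 1) := by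
    rw [abs_mul]
    exact mul_le_mul a5 ((abs_add_le _ _).trans (add_le_add a1 a2)) (abs_nonneg _) (by positivity)
  have b1 := abs_le.1 a6
  have b2 := abs_le.1 a3
  have b3 := abs_le.1 a4
  rw [abs_le]
  constructor <;> linarith only [b1.1, b2.1, b3.2, b1.2, b2.2, b3.1]

end main

end Vale.Agent.P204K.T4.EM
end

section
set_option linter.all false
/-! Properties (P1), (P2), the limit of `V`, and `exists_EMData`. -/
open MeasureTheory Set Filter Topology
open scoped ContDiff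

namespace Vale.Agent.P204K.T4.EM

section main
variable {J : V4 → M4} {r : Measure V4} {D : V4 → L2} {s : ℝ}

theorem abs_integral_ms (hJ : ContDiff ℝ ∞ J) (hs : 0 < s) [IsLocallyFiniteMeasure r] {K : Set V4}
    (hK : IsCompact K) {x : V4} (hx : x ∈ K) {k : V4 → ℝ} {C : ℝ} (hC : 0 ≤ C)
    (hk : ∀ y, |k y| ≤ C * ms J s x y) :
    |∫ y, k y ∂r| ≤ C * ((1 + (r (Metric.cthickening (1 / 2) K)).toReal) * (1 + Vp J r s x)) := by
  have h1 : ‖∫ y, k y ∂r‖ ≤ ∫ y, C * ms J s x y ∂r :=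
    norm_integral_le_of_norm_le ((int_ms hJ hs x).const_mul C) (Eventually.of_forall hk)
  rw [integral_const_mul] at h1
  refine h1.trans ?_
  have := integral_ms_le (r := r) hJ hs hK hx
  gcongr

theorem Vp_nonneg (hs : 0 < s) (x : V4) : 0 ≤ Vp J r s x :=
  integral_nonneg fun y => fk_nonneg hs (qd_nonneg J x y)

theorem bp_eq (x : V4) (j : Fin 4) :
    bp J r D s x j = ∫ y, ph s (qd J x y) * ev (D y) (y - x) (AA J j x y) ∂r := by
  rw [bp]
  congr 1; funext y
  rw [KB, Q_smul_right, Q_sw]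

theorem P1_main (hJ : ContDiff ℝ ∞ J) (hcx : ∀ y, IsCx (J y)) (hpos : ∀ y, Pos (J y)) (hs : 0 < s)
    (h : LCur J r D) (x : V4) (j : Fin 4) :
    Q (Fm (J x)) (Fm (J x)) / 2 * bp J r D s x j - ∑ k, J x k j * pd k (Vp J r s) x =
      ∫ y, ph s (qd J x y) * E1 J D j x y ∂r := by
  haveI := h.fin
  have hD := h.li hcx hpos
  have hK := isCompact_closedBall x (1 / 2 : ℝ)
  have i1 : Integrable (fun y => ph s (qd J x y) * ev (D y) (y - x) (AA J j x y)) r := by
    have := integrable_pi hD (cont_pi_y (cd_KB hJ hpos hs j) x) hK fun y hy => KB_far j x y (not_mem_ball hy)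
    refine this.congr (Eventually.of_forall fun y => ?_)
    show Q (D y) (KB J s j (x, y)) = _
    rw [KB, Q_smul_right, Q_sw]
  have cph : Continuous (fun y => ph s (qd J x y)) :=
    (cd_ph (cd_y (cd_qd hJ) x) fun y => qd_add_ne J hs x y).continuous
  have i2 : ∀ k, Integrable (fun y => ph s (qd J x y) * gm (J x) (y - x) (AA J k x y)) r := by
    intro k
    have c1 : Continuous (fun y => gm (J x) (y - x) (AA J k x y)) := by
      simp only [gm_eq_dp]
      exact (cd_dp (contDiff_id.sub contDiff_const) (cd_app contDiff_const (cd_y (cd_AA hJ hpos k) x))).continuous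
    exact (cph.mul c1).integrable_of_hasCompactSupport
      (HasCompactSupport.intro hK fun y hy => by
        show ph s (qd J x y) * gm (J x) (y - x) (AA J k x y) = 0
        rw [ph_zero (qd_far (not_mem_ball hy)), zero_mul])
  have i3 : Integrable (fun y => ph s (qd J x y) * Q (D y) (wd (low (J x) (y - x)) (low (J x) (eb j)))) r := by
    have c2 : Continuous (fun y => ph s (qd J x y) • wd (low (J x) (y - x)) (low (J x) (eb j))) := by
      refine cph.smul ?_
      exact (cd_wd (cd_app contDiff_const (contDiff_id.sub contDiff_const)) contDiff_const).continuous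
    have := integrable_pi hD c2 hK fun y hy => by rw [ph_zero (qd_far (not_mem_ball hy)), zero_smul]
    refine this.congr (Eventually.of_forall fun y => ?_)
    show Q (D y) (ph s (qd J x y) • wd (low (J x) (y - x)) (low (J x) (eb j))) = _
    rw [Q_smul_right]
  have e0 := closed2 hJ h hs x j
  have e1 : ∀ y, ph s (qd J x y) * E1 J D j x y =
      Q (Fm (J x)) (Fm (J x)) / 2 * (ph s (qd J x y) * ev (D y) (y - x) (AA J j x y)) +
      (∑ k, J x k j * (ph s (qd J x y) * gm (J x) (y - x) (AA J k x y))) +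
      ph s (qd J x y) * Q (D y) (wd (low (J x) (y - x)) (low (J x) (eb j))) := by
    intro y
    rw [Q_wd_low (hcx x), E1]
    have : ∑ k, J x k j * (ph s (qd J x y) * gm (J x) (y - x) (AA J k x y)) =
        ph s (qd J x y) * ∑ k, J x k j * gm (J x) (y - x) (AA J k x y) := by
      rw [Finset.mul_sum]
      apply Finset.sum_congr rfl; intro k _; ring
    rw [this]; ring
  simp only [e1]
  have i4 : Integrable (fun y => ∑ k, J x k j * (ph s (qd J x y) * gm (J x) (y - x) (AA J k x y))) r :=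
    integrable_finsetSum _ fun k _ => (i2 k).const_mul _
  have i5 : Integrable (fun y => Q (Fm (J x)) (Fm (J x)) / 2 * (ph s (qd J x y) * ev (D y) (y - x) (AA J j x y))) r :=
    i1.const_mul _
  have i6 : Integrable (fun y => Q (Fm (J x)) (Fm (J x)) / 2 * (ph s (qd J x y) * ev (D y) (y - x) (AA J j x y)) +
      ∑ k, J x k j * (ph s (qd J x y) * gm (J x) (y - x) (AA J k x y))) r := i5.add i4
  rw [integral_add i6 i3, integral_add i5 i4, e0, add_zero, integral_const_mul,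
    integral_finsetSum _ fun k _ => (i2 k).const_mul _, ← bp_eq, sub_eq_add_neg, ← Finset.sum_neg_distrib]
  congr 1
  apply Finset.sum_congr rfl
  intro k _
  rw [pd_Vp hJ hcx hpos hs, integral_const_mul]
  ring

theorem P1 (hJ : ContDiff ℝ ∞ J) (hcx : ∀ y, IsCx (J y)) (hpos : ∀ y, Pos (J y))
    (h : LCur J r D) {K : Set V4} (hK : IsCompact K) : ∃ C : ℝ, ∀ s, 0 < s → s ≤ 1 → ∀ x ∈ K,
    ‖bp J r D s x + (2 / Q (Fm (J x)) (Fm (J x))) • cc (J x) (grad (Vp J r s) x)‖ ≤ C * (1 + Vp J r s x) := by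
  haveI := h.fin
  obtain ⟨C, hU⟩ := exists_UB hJ hpos hK
  obtain ⟨C1, hC1, hph⟩ := exists_ph_ms
  have hC := hU.one_le
  set C2 := (64 * C * C + 512 * C * C * C + 256 * C * C * C + 96 * C * C) with hC2
  have hC2' : 0 ≤ C2 := by positivity
  refine ⟨C * (C2 * C1 * (1 + (r (Metric.cthickening (1 / 2) K)).toReal)), fun s hs hs1 x hx => ?_⟩
  have hV := Vp_nonneg (J := J) (r := r) hs x
  have hr : 0 ≤ (r (Metric.cthickening (1 / 2) K)).toReal := ENNReal.toReal_nonneg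
  rw [pi_norm_le_iff_of_nonneg (by (clear * - hC hC1 hV; positivity))]
  intro j
  have hp : Q (Fm (J x)) (Fm (J x)) ≠ 0 := ne_of_gt (hpos x)
  have e1 : (bp J r D s x + (2 / Q (Fm (J x)) (Fm (J x))) • cc (J x) (grad (Vp J r s) x)) j =
      (2 / Q (Fm (J x)) (Fm (J x))) * ∫ y, ph s (qd J x y) * E1 J D j x y ∂r := by
    rw [← P1_main hJ hcx hpos hs h x j]
    simp only [Pi.add_apply, Pi.smul_apply, smul_eq_mul, cc, Pi.neg_apply, copp, grad]
    have : ∑ i, pd i (Vp J r s) x * J x i j = ∑ k, J x k j * pd k (Vp J r s) x := by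
      apply Finset.sum_congr rfl; intro k _; ring
    rw [this]; field_simp; ring
  rw [e1, Real.norm_eq_abs, abs_mul]
  have hk : ∀ y, |ph s (qd J x y) * E1 J D j x y| ≤ C2 * C1 * ms J s x y := by
    intro y
    by_cases hy : ‖y - x‖ ≤ 1 / 2
    · rw [abs_mul]
      have a1 := E1_le hcx hpos h hU hx y hy j
      have a2 := hph J s x y hs
      calc |ph s (qd J x y)| * |E1 J D j x y| ≤ |ph s (qd J x y)| * (C2 * ‖y - x‖ ^ 2) := by gcongr
        _ = C2 * (|ph s (qd J x y)| * ‖y - x‖ ^ 2) := by ring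
        _ ≤ C2 * (C1 * ms J s x y) := by gcongr
        _ = C2 * C1 * ms J s x y := by ring
    · push Not at hy
      rw [ph_zero (qd_far (by rwa [norm_sub_rev])), zero_mul, abs_zero]
      have := ms_nonneg (J := J) hs x y
      (clear * - hC hC1 this; positivity)
  have a3 := abs_integral_ms (r := r) hJ hs hK hx (by positivity : 0 ≤ C2 * C1) hk
  have a4 := hU.Pf' x hx
  calc |2 / Q (Fm (J x)) (Fm (J x))| * |∫ y, ph s (qd J x y) * E1 J D j x y ∂r|
      ≤ C * (C2 * C1 * ((1 + (r (Metric.cthickening (1 / 2) K)).toReal) * (1 + Vp J r s x))) :=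
        mul_le_mul a4 a3 (abs_nonneg _) (by positivity)
    _ = C * (C2 * C1 * (1 + (r (Metric.cthickening (1 / 2) K)).toReal)) * (1 + Vp J r s x) := by ring

/-! (P2) -/

theorem cont_mainK (hJ : ContDiff ℝ ∞ J) (hcx : ∀ y, IsCx (J y)) (hpos : ∀ y, Pos (J y)) (hs : 0 < s)
    (l j : Fin 4) (x : V4) : Continuous (fun y => mainK J s l j x y) := by
  simp only [dB_sub']
  exact (((cont_dB hJ hcx hpos hs j l x).sub (cont_dB hJ hcx hpos hs l j x)).sub
    (cont_dX hJ hpos hs l j x)).sub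
    (((cont_pi_y (cd_KB hJ hpos hs j) x).const_smul (tr4 (Ga J l x))).sub
      ((cont_pi_y (cd_KB hJ hpos hs l) x).const_smul (tr4 (Ga J j x))))

theorem mainK_zero (l j : Fin 4) {x y : V4} (hy : 1 / 2 < ‖x - y‖) : mainK J s l j x y = 0 := by
  rw [dB_sub', dB_zero j l hy, dB_zero l j hy, dX_zero l j hy, KB_far j x y hy, KB_far l x y hy]
  simp

theorem Q_ofEnt (A : L2) (M : M4) : Q A (ofEnt M) =
    A 0 * M 2 3 - A 1 * M 1 3 + A 2 * M 1 2 + A 3 * M 0 3 - A 4 * M 0 2 + A 5 * M 0 1 := by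
  simp only [Q, ofEnt_0, ofEnt_1, ofEnt_2, ofEnt_3, ofEnt_4, ofEnt_5]

theorem integral_Q_ofEnt (A : L2) {M : V4 → M4} (hM : ∀ i j, Integrable (fun y => M y i j) r) :
    Q A (ofEnt fun i j => ∫ y, M y i j ∂r) = ∫ y, Q A (ofEnt (M y)) ∂r := by
  simp only [Q_ofEnt]
  have j0 := (hM 2 3).const_mul (A 0)
  have j1 := (hM 1 3).const_mul (A 1)
  have j2 := (hM 1 2).const_mul (A 2)
  have j3 := (hM 0 3).const_mul (A 3)
  have j4 := (hM 0 2).const_mul (A 4)
  have j5 := (hM 0 1).const_mul (A 5)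
  have k1 : Integrable (fun y => A 0 * M y 2 3 - A 1 * M y 1 3) r := j0.sub j1
  have k2 : Integrable (fun y => A 0 * M y 2 3 - A 1 * M y 1 3 + A 2 * M y 1 2) r := k1.add j2
  have k3 : Integrable (fun y => A 0 * M y 2 3 - A 1 * M y 1 3 + A 2 * M y 1 2 + A 3 * M y 0 3) r := k2.add j3
  have k4 : Integrable (fun y => A 0 * M y 2 3 - A 1 * M y 1 3 + A 2 * M y 1 2 + A 3 * M y 0 3 -
    A 4 * M y 0 2) r := k3.sub j4
  rw [integral_add k4 j5, integral_sub k3 j4, integral_add k2 j3, integral_add k1 j2, integral_sub j0 j1]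
  simp only [integral_const_mul]

theorem integrable_Q_ofEnt (A : L2) {M : V4 → M4} (hM : ∀ i j, Integrable (fun y => M y i j) r) :
    Integrable (fun y => Q A (ofEnt (M y))) r := by
  simp only [Q_ofEnt]
  exact ((((((hM 2 3).const_mul (A 0)).sub ((hM 1 3).const_mul (A 1))).add
    ((hM 1 2).const_mul (A 2))).add ((hM 0 3).const_mul (A 3))).sub
    ((hM 0 2).const_mul (A 4))).add ((hM 0 1).const_mul (A 5))

/-- pointwise lower bound of the main kernel -/
theorem exists_main_ge (hJ : ContDiff ℝ ∞ J) (hcx : ∀ y, IsCx (J y)) (hpos : ∀ y, Pos (J y))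
    (h : LCur J r D) {K : Set V4} (hK : IsCompact K) : ∃ C : ℝ, 0 ≤ C ∧ ∀ s, 0 < s → ∀ x ∈ K, ∀ A, Cone (J x) A →
    ∀ y, -(C * ‖A‖ * ms J s x y) ≤ Q A (ofEnt fun l j => Q (D y) (mainK J s l j x y)) := by
  obtain ⟨C, hU⟩ := exists_UB hJ hpos hK
  obtain ⟨C1, hC1, hph⟩ := exists_ph_ms
  obtain ⟨Cs, hCs, hsc⟩ := exists_scalar
  obtain ⟨Cg, hCg, hgain⟩ := exists_gain2 hJ hcx hpos hK
  have hC := hU.one_le
  set C3 : ℝ := 16 * (1 + 2 * C) * (1 + 2 * C) with hC3
  set C4 : ℝ := 16 * (8 * C + 32 * C * C) with hC4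
  refine ⟨16 * Cg + Cs * 6 * C3 + 6 * C4 * C1, by (clear * - hCg hCs hC hC1; positivity), fun s hs x hx A hA y => ?_⟩
  have hA0 := norm_nonneg A
  by_cases hy : ‖y - x‖ ≤ 1 / 2
  · have hD := h.norm_le hcx hpos y
    have e1 : (ofEnt fun l j => Q (D y) (mainK J s l j x y)) =
        (kap (ph s) (ph1 s) (qd J x y)) • pull (Nm J x y) (D y) +
        (ph s (qd J x y)) • ofEnt (fun l j => ev (D y) (y - x) (Rc J l j x (y - x))) := by
      rw [pull_Nm, ← ofEnt_smul, ← ofEnt_smul, ← ofEnt_add]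
      refine ofEnt_congr fun l j => ?_
      rw [mainK, Q_add_right, Q_smul_right, Q_smul_right, Q_sw, Q_sw]
    rw [e1, Q_add_right, Q_smul_right, Q_smul_right]
    set P := pull (Nm J x y) (D y) with hP
    set t := qd J x y with ht
    have ht0 : 0 ≤ t := qd_nonneg J x y
    have hPn : ‖P‖ ≤ C3 := by
      have a1 := pull_le (Nm J x y) (D y)
      have a2 := Nm_sub_le hU hx y
      have hI : ‖I4‖ ≤ 1 := by
        apply norm_M4_le zero_le_one
        intro i j
        simp only [I4]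
        split_ifs <;> simp
      have a3 : ‖Nm J x y‖ ≤ 1 + 2 * C := by
        have : ‖Nm J x y‖ ≤ ‖Nm J x y - I4‖ + ‖I4‖ := by simpa only [sub_add_cancel] using norm_add_le (Nm J x y - I4) I4
        nlinarith only [hy, a2, hI, this, hC]
      calc ‖P‖ ≤ 16 * ‖D y‖ * ‖Nm J x y‖ * ‖Nm J x y‖ := a1
        _ ≤ 16 * 1 * (1 + 2 * C) * (1 + 2 * C) := by gcongr
        _ = C3 := by rw [hC3]; ring
    have hg := hgain x hx y hy (D y) (h.cone y) (h.norm y) A hA
    rw [← hP] at hg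
    -- third term
    have h3 : |ph s t * Q A (ofEnt fun l j => ev (D y) (y - x) (Rc J l j x (y - x)))| ≤
        6 * C4 * C1 * ‖A‖ * ms J s x y := by
      rw [abs_mul]
      have b1 : ‖ofEnt fun l j => ev (D y) (y - x) (Rc J l j x (y - x))‖ ≤ C4 * ‖y - x‖ ^ 2 := by
        apply norm_ofEnt_le (by (clear * - hC; positivity))
        intro l j
        refine (abs_ev_le _ _ _).trans ?_
        have b2 := Rc_le hU hx l j (y - x)
        calc 16 * ‖D y‖ * ‖y - x‖ * ‖Rc J l j x (y - x)‖ ≤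
            16 * 1 * ‖y - x‖ * ((8 * C + 32 * C * C) * ‖y - x‖) := by gcongr
          _ = C4 * ‖y - x‖ ^ 2 := by rw [hC4]; ring
      have b3 := hph J s x y hs
      calc |ph s t| * |Q A (ofEnt fun l j => ev (D y) (y - x) (Rc J l j x (y - x)))|
          ≤ |ph s t| * (6 * ‖A‖ * (C4 * ‖y - x‖ ^ 2)) :=
            mul_le_mul_of_nonneg_left ((abs_Q_le _ _).trans (by gcongr)) (abs_nonneg _)
        _ = 6 * C4 * ‖A‖ * (|ph s t| * ‖y - x‖ ^ 2) := by ring
        _ ≤ 6 * C4 * ‖A‖ * (C1 * ms J s x y) := by gcongr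
        _ = 6 * C4 * C1 * ‖A‖ * ms J s x y := by ring
    have hms : ms J s x y = 1 + fk s t := by
      rw [ms, Set.indicator_of_mem]
      rw [Metric.mem_closedBall, dist_eq_norm]; exact hy
    have hf := fk_nonneg hs ht0
    -- first two terms
    have h12 : -((16 * Cg + Cs * 6 * C3) * ‖A‖ * ms J s x y) ≤ kap (ph s) (ph1 s) t * Q A P := by
      by_cases h8 : t ≤ 1 / 8
      · obtain ⟨c1, c2, c3⟩ := hsc s t hs ht0 h8
        set k0 := 8 * s * th t / (t + s) ^ 3 with hk0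
        have hk0p : 0 ≤ k0 := by have := th_nonneg t; (clear * - hs this ht0; positivity)
        have d1 : -(16 * Cg * ‖A‖ * fk s t) ≤ k0 * Q A P := by
          have d2 : k0 * (-(Cg * ‖A‖ * ‖y - x‖ ^ 2)) ≤ k0 * Q A P := mul_le_mul_of_nonneg_left hg hk0p
          have d3 : k0 * ‖y - x‖ ^ 2 ≤ 16 * fk s t := by
            have := qd_ge J x y
            have d4 : k0 * ‖y - x‖ ^ 2 ≤ k0 * (2 * t) := by gcongr; rw [ht]; linarith only [this]
            linarith only [c3, d4]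
          have d5 : Cg * ‖A‖ * (k0 * ‖y - x‖ ^ 2) ≤ Cg * ‖A‖ * (16 * fk s t) := by gcongr
          linarith only [d2, d5]
        have d6 : |(kap (ph s) (ph1 s) t - k0) * Q A P| ≤ Cs * (6 * ‖A‖ * C3) := by
          rw [abs_mul]
          exact mul_le_mul c2 ((abs_Q_le _ _).trans (by gcongr)) (abs_nonneg _) (by linarith only [hCs])
        have d7 := (abs_le.1 d6).1
        rw [hms]
        have d8 : kap (ph s) (ph1 s) t * Q A P = k0 * Q A P + (kap (ph s) (ph1 s) t - k0) * Q A P := by ring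
        rw [d8]
        have d9 : 0 ≤ 16 * Cg * ‖A‖ := by positivity
        have d10 : 0 ≤ Cs * 6 * C3 * ‖A‖ * fk s t := by positivity
        linarith only [d1, d7, d9, d10]
      · push Not at h8
        have : kap (ph s) (ph1 s) t = 0 := by rw [kap, ph_zero h8, ph1_zero h8]; ring
        rw [this, zero_mul, neg_nonpos, hms]
        positivity
    have h3' := (abs_le.1 h3).1
    have : (16 * Cg + Cs * 6 * C3 + 6 * C4 * C1) * ‖A‖ * ms J s x y =
      (16 * Cg + Cs * 6 * C3) * ‖A‖ * ms J s x y + 6 * C4 * C1 * ‖A‖ * ms J s x y := by ring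
    rw [this]
    linarith only [h12, h3']
  · push Not at hy
    have e1 : (ofEnt fun l j => Q (D y) (mainK J s l j x y)) = 0 := by
      have : (fun l j => Q (D y) (mainK J s l j x y)) = fun _ _ => 0 := by
        funext l j
        rw [mainK_zero l j (by rwa [norm_sub_rev])]; simp [Q]
      rw [this]
      funext i; fin_cases i <;> rfl
    rw [e1]
    have h2 : Q A 0 = 0 := by simp [Q]
    rw [h2, neg_nonpos]
    have := ms_nonneg (J := J) hs x y
    (clear * - hCg hCs hC hC1 this; positivity)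

theorem P2 (hJ : ContDiff ℝ ∞ J) (hcx : ∀ y, IsCx (J y)) (hpos : ∀ y, Pos (J y))
    (h : LCur J r D) {K : Set V4} (hK : IsCompact K) : ∃ C : ℝ, ∀ s, 0 < s → s ≤ 1 → ∀ x ∈ K, ∀ A, Cone (J x) A →
    Q A (wd (fun l => tr4 (Ga J l x)) (bp J r D s x)) - C * (1 + Vp J r s x) * ‖A‖ ≤ Q A (d1 (bp J r D s) x) := by
  haveI := h.fin
  obtain ⟨C, hC, hmain⟩ := exists_main_ge hJ hcx hpos h hK
  refine ⟨C * (1 + (r (Metric.cthickening (1 / 2) K)).toReal), fun s hs hs1 x hx A hA => ?_⟩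
  have hD := h.li hcx hpos
  have hM : ∀ l j, Integrable (fun y => Q (D y) (mainK J s l j x y)) r := fun l j =>
    integrable_pi hD (cont_mainK hJ hcx hpos hs l j x) (isCompact_closedBall x (1 / 2))
      fun y hy => mainK_zero l j (not_mem_ball hy)
  rw [d1_bp hJ hcx hpos hs h x, Q_add_right, integral_Q_ofEnt A (M := fun y l j => Q (D y) (mainK J s l j x y)) hM]
  have h1 : ∫ y, -(C * ‖A‖ * ms J s x y) ∂r ≤ ∫ y, Q A (ofEnt fun l j => Q (D y) (mainK J s l j x y)) ∂r :=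
    integral_mono ((int_ms hJ hs x).const_mul _).neg (integrable_Q_ofEnt A hM) (fun y => hmain s hs x hx A hA y)
  rw [integral_neg, integral_const_mul] at h1
  have h2 := integral_ms_le (r := r) hJ hs hK hx
  have h3 : C * ‖A‖ * ∫ y, ms J s x y ∂r ≤ C * ‖A‖ *
      ((1 + (r (Metric.cthickening (1 / 2) K)).toReal) * (1 + Vp J r s x)) := by gcongr
  have h4 : C * ‖A‖ * ((1 + (r (Metric.cthickening (1 / 2) K)).toReal) * (1 + Vp J r s x)) =
    C * (1 + (r (Metric.cthickening (1 / 2) K)).toReal) * (1 + Vp J r s x) * ‖A‖ := by ring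
  linarith only [h1, h3]

end main

end Vale.Agent.P204K.T4.EM
end

section
set_option linter.all false
/-! The limit of `V` and `exists_EMData`. -/
open MeasureTheory Set Filter Topology
open scoped ContDiff ENNReal

namespace Vale.Agent.P204K.T4.EM

section main
variable {J : V4 → M4} {r : Measure V4} {D : V4 → L2} {s : ℝ}

theorem fk_mono {s s' t : ℝ} (hs : 0 < s) (hss : s ≤ s') (ht : 0 ≤ t) : fk s' t ≤ fk s t := by
  rw [fk, fk]
  have := th_nonneg t
  gcongr

theorem Vp_mono (hJ : ContDiff ℝ ∞ J) [IsLocallyFiniteMeasure r] {s s' : ℝ} (hs : 0 < s) (hss : s ≤ s') (x : V4) :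
    Vp J r s' x ≤ Vp J r s x :=
  integral_mono (int_fk hJ (hs.trans_le hss) x) (int_fk hJ hs x) fun y => fk_mono hs hss (qd_nonneg J x y)

theorem ofReal_Vp (hJ : ContDiff ℝ ∞ J) [IsLocallyFiniteMeasure r] (hs : 0 < s) (x : V4) :
    ENNReal.ofReal (Vp J r s x) = ∫⁻ y, ENNReal.ofReal (fk s (qd J x y)) ∂r :=
  ofReal_integral_eq_lintegral_ofReal (int_fk hJ hs x) (Eventually.of_forall fun y => fk_nonneg hs (qd_nonneg J x y))

theorem inv_le_mul_inv {a b c : ℝ≥0∞} (hc0 : c ≠ 0) (hc : c ≠ ⊤) (h : a ≤ c * b) : b⁻¹ ≤ c * a⁻¹ := by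
  have h1 : (c * b)⁻¹ ≤ a⁻¹ := ENNReal.inv_le_inv.2 h
  rw [ENNReal.mul_inv (Or.inl hc0) (Or.inl hc)] at h1
  calc b⁻¹ = c * (c⁻¹ * b⁻¹) := by rw [← mul_assoc, ENNReal.mul_inv_cancel hc0 hc, one_mul]
    _ ≤ c * a⁻¹ := by gcongr

theorem Vp_le_of_pot (hJ : ContDiff ℝ ∞ J) [IsLocallyFiniteMeasure r] (x : V4) (h : pot r x < ⊤) (hs : 0 < s) :
    Vp J r s x ≤ (2 * pot r x).toReal := by
  rw [← ENNReal.ofReal_le_iff_le_toReal (ENNReal.mul_lt_top (by norm_num) h).ne, ofReal_Vp hJ hs, pot,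
    ← lintegral_const_mul' _ _ (by norm_num)]
  have e : ∫⁻ y, ENNReal.ofReal (fk s (qd J x y)) ∂r = ∫⁻ y in Metric.ball x 1, ENNReal.ofReal (fk s (qd J x y)) ∂r := by
    rw [← lintegral_indicator Metric.isOpen_ball.measurableSet]
    congr 1
    funext y
    by_cases hy : y ∈ Metric.ball x 1
    · rw [Set.indicator_of_mem hy]
    · rw [Set.indicator_of_notMem hy, fk_zero, ENNReal.ofReal_zero]
      apply qd_far
      rw [Metric.mem_ball, dist_eq_norm, not_lt] at hy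
      rw [norm_sub_rev]; linarith
  rw [e]
  apply lintegral_mono
  intro y
  show ENNReal.ofReal (fk s (qd J x y)) ≤ 2 * (ENNReal.ofReal (‖y - x‖ ^ 2))⁻¹
  have hq := qd_ge J x y
  have hq0 := qd_nonneg J x y
  rcases (norm_nonneg (y - x)).eq_or_lt with h0 | h0
  · rw [← h0]; simp only [ne_eq, OfNat.ofNat_ne_zero, not_false_eq_true, zero_pow, ENNReal.ofReal_zero, ENNReal.inv_zero, ENNReal.mul_top, le_top]
  · have h1 : fk s (qd J x y) ≤ 2 * (‖y - x‖ ^ 2)⁻¹ := by
      rw [fk]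
      have hth := th_le_one (qd J x y)
      have hth0 := th_nonneg (qd J x y)
      calc th (qd J x y) / (qd J x y + s) ≤ 1 / (‖y - x‖ ^ 2 / 2) := by
            apply div_le_div₀ zero_le_one hth (by positivity); linarith only [hs, hq]
        _ = 2 * (‖y - x‖ ^ 2)⁻¹ := by field_simp
    calc ENNReal.ofReal (fk s (qd J x y)) ≤ ENNReal.ofReal (2 * (‖y - x‖ ^ 2)⁻¹) := ENNReal.ofReal_le_ofReal h1
      _ = 2 * (ENNReal.ofReal (‖y - x‖ ^ 2))⁻¹ := by
        rw [ENNReal.ofReal_mul (by norm_num), ENNReal.ofReal_inv_of_pos (by positivity)]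
        norm_num

theorem qd_le (x y : V4) : qd J x y ≤ (16 * ‖gM (J x)‖ + 1) * ‖y - x‖ ^ 2 := by
  have := (abs_le.1 (abs_gm_le (J x) (y - x) (y - x))).2
  rw [qd]
  linarith only [this, sq_nonneg ‖y - x‖]

theorem pot_of_Vp (hJ : ContDiff ℝ ∞ J) [IsLocallyFiniteMeasure r] (x : V4) {C : ℝ}
    (hC : ∀ s, 0 < s → Vp J r s x ≤ C) : pot r x < ⊤ := by
  set q : V4 → ℝ := fun y => qd J x y with hq
  have hqc : Continuous q := (cd_y (cd_qd hJ) x).continuous
  set U : Set V4 := {y | q y ≤ 1 / 16} with hU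
  have hUm : MeasurableSet U := (isClosed_le hqc continuous_const).measurableSet
  -- monotone convergence
  have hmono : ∫⁻ y in U, (ENNReal.ofReal (q y))⁻¹ ∂r ≤ ENNReal.ofReal C := by
    set f : ℕ → V4 → ℝ≥0∞ := fun n y => (ENNReal.ofReal (q y + 1 / ((n : ℝ) + 1)))⁻¹ with hf
    have hlim : Tendsto (fun n => ∫⁻ y in U, f n y ∂r) atTop (𝓝 (∫⁻ y in U, (ENNReal.ofReal (q y))⁻¹ ∂r)) := by
      apply lintegral_tendsto_of_tendsto_of_monotone
      · intro n
        exact (ENNReal.measurable_ofReal.comp ((hqc.add continuous_const).measurable)).inv.aemeasurable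
      · refine Eventually.of_forall fun y => ?_
        intro n m hnm
        apply ENNReal.inv_le_inv.2
        apply ENNReal.ofReal_le_ofReal
        have : (1 : ℝ) / ((m : ℝ) + 1) ≤ 1 / ((n : ℝ) + 1) := by
          apply one_div_le_one_div_of_le (by positivity)
          have : (n : ℝ) ≤ m := by exact_mod_cast hnm
          linarith only [this]
        linarith only [this]
      · refine Eventually.of_forall fun y => ?_
        have h1 : Tendsto (fun n : ℕ => q y + 1 / ((n : ℝ) + 1)) atTop (𝓝 (q y + 0)) :=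
          tendsto_const_nhds.add tendsto_one_div_add_atTop_nhds_zero_nat
        rw [add_zero] at h1
        exact ((continuous_inv.tendsto _).comp ((ENNReal.continuous_ofReal.tendsto _).comp h1))
    refine le_of_tendsto hlim (Eventually.of_forall fun n => ?_)
    set s : ℝ := 1 / ((n : ℝ) + 1) with hs
    have hsp : 0 < s := by positivity
    calc ∫⁻ y in U, f n y ∂r ≤ ∫⁻ y in U, ENNReal.ofReal (fk s (qd J x y)) ∂r := by
          apply setLIntegral_mono' hUm
          intro y hy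
          have hy' : qd J x y ≤ 1 / 16 := hy
          have hq0 := qd_nonneg J x y
          rw [fk, th_one hy', one_div, ENNReal.ofReal_inv_of_pos (by linarith only [hsp, hq0])]
      _ ≤ ∫⁻ y, ENNReal.ofReal (fk s (qd J x y)) ∂r := setLIntegral_le_lintegral _ _
      _ = ENNReal.ofReal (Vp J r s x) := (ofReal_Vp hJ hsp x).symm
      _ ≤ ENNReal.ofReal C := ENNReal.ofReal_le_ofReal (hC s hsp)
  set c : ℝ := 16 * ‖gM (J x)‖ + 1 with hc
  have hcp : 0 < c := by positivity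
  have hpt : ∀ y, (ENNReal.ofReal (‖y - x‖ ^ 2))⁻¹ ≤ ENNReal.ofReal c * (ENNReal.ofReal (q y))⁻¹ := by
    intro y
    apply inv_le_mul_inv
    · simpa only [ne_eq, ENNReal.ofReal_eq_zero, not_le] using hcp
    · exact ENNReal.ofReal_ne_top
    · rw [← ENNReal.ofReal_mul hcp.le]
      exact ENNReal.ofReal_le_ofReal (qd_le x y)
  have h1 : pot r x ≤ ∫⁻ y in Metric.ball x 1, (ENNReal.ofReal c * (U.indicator (fun y => (ENNReal.ofReal (q y))⁻¹) y +
      ENNReal.ofReal 16)) ∂r := by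
    rw [pot]
    apply lintegral_mono
    intro y
    refine (hpt y).trans ?_
    refine mul_le_mul_right ?_ _
    by_cases hy : y ∈ U
    · rw [Set.indicator_of_mem hy]; exact le_self_add
    · rw [Set.indicator_of_notMem hy, zero_add]
      have hy' : 1 / 16 < q y := not_le.1 hy
      rw [← ENNReal.ofReal_inv_of_pos (by linarith only [hy'])]
      apply ENNReal.ofReal_le_ofReal
      rw [inv_le_comm₀ (by linarith) (by norm_num)]
      linarith
  refine h1.trans_lt ?_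
  have hm : Measurable (fun y => U.indicator (fun y => (ENNReal.ofReal (q y))⁻¹) y) :=
    (ENNReal.measurable_ofReal.comp hqc.measurable).inv.indicator hUm
  rw [lintegral_const_mul' _ _ ENNReal.ofReal_ne_top, lintegral_add_left hm]
  apply ENNReal.mul_lt_top ENNReal.ofReal_lt_top
  apply ENNReal.add_lt_top.2
  constructor
  · refine (setLIntegral_le_lintegral _ _).trans_lt ?_
    rw [lintegral_indicator hUm]
    exact hmono.trans_lt ENNReal.ofReal_lt_top
  · rw [lintegral_const]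
    apply ENNReal.mul_lt_top ENNReal.ofReal_lt_top
    rw [Measure.restrict_apply MeasurableSet.univ, univ_inter]
    exact (measure_mono Metric.ball_subset_closedBall).trans_lt (isCompact_closedBall x 1).measure_lt_top

/-- the local potential theory -/
theorem exists_EMData' (hJ : ContDiff ℝ ∞ J) (hcx : ∀ y, IsCx (J y)) (hpos : ∀ y, Pos (J y))
    (h : LCur J r D) : Nonempty (EMData J r) := by
  haveI := h.fin
  refine ⟨{
    V := Vp J r
    b := bp J r D
    ρ := fun x => 2 / Q (Fm (J x)) (Fm (J x))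
    τ := fun x l => tr4 (Ga J l x)
    V_smooth := fun s hs => Vp_smooth hJ hs
    b_smooth := fun s hs => bp_smooth hJ hpos hs (h.li hcx hpos)
    ρ_cont := continuous_const.div (cd_Q (cd_Fm hJ) (cd_Fm hJ)).continuous fun x => ne_of_gt (hpos x)
    ρ_pos := fun x => div_pos two_pos (hpos x)
    τ_cont := ?_
    V_nonneg := fun s x hs => Vp_nonneg hs x
    V_mono := fun s s' x hs hss => Vp_mono hJ hs hss x
    V_lim := fun x => ⟨fun hx => ⟨_, fun s hs => Vp_le_of_pot hJ x hx hs⟩, fun ⟨C, hC⟩ => pot_of_Vp hJ x hC⟩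
    P1 := fun K hK => P1 hJ hcx hpos h hK
    P2 := fun K hK => P2 hJ hcx hpos h hK }⟩
  refine continuous_pi fun l => ?_
  have hc := cd_Ga hJ hpos l
  exact ((((cd_comp2 hc 0 0).add (cd_comp2 hc 1 1)).add (cd_comp2 hc 2 2)).add (cd_comp2 hc 3 3)).continuous

end main

end Vale.Agent.P204K.T4.EM
end

section

/-!
Extension of the smoothing operators from smooth forms to `L2` forms: a system given on the
level of smooth forms (`Sys0`) yields a `SmSys`.
-/

set_option linter.all false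

open Filter
open scoped InnerProductSpace Topology BigOperators

namespace P204K.GX

/-- Smoothing system on the level of smooth forms. -/
structure Sys0 (H Om : Type) [NormedAddCommGroup H] [InnerProductSpace ℝ H] [CompleteSpace H]
    [AddCommGroup Om] [Module ℝ Om] where
  ι : Om →ₗ[ℝ] H
  ι_inj : Function.Injective ι
  ι_dense : DenseRange ι
  st : H →L[ℝ] H
  st_st : ∀ u, st (st u) = u
  st_symm : ∀ u v, ⟪st u, v⟫_ℝ = ⟪u, st v⟫_ℝ
  pm : Om →ₗ[ℝ] Om
  pmH : H →L[ℝ] H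
  pmH_ι : ∀ b, pmH (ι b) = ι (pm b)
  pmH_pmH : ∀ u, pmH (pmH u) = pmH u
  pmH_symm : ∀ u v, ⟪pmH u, v⟫_ℝ = ⟪u, pmH v⟫_ℝ
  st_pmH : ∀ u, st (pmH u) = pmH u
  Cl : Submodule ℝ Om
  Ex : Submodule ℝ Om
  Ex_le : Ex ≤ Cl
  stokes : ∀ e ∈ Ex, ∀ c ∈ Cl, ⟪ι e, st (ι c)⟫_ℝ = 0
  closed_of_weak : ∀ b, (∀ e ∈ Ex, ⟪ι e, st (ι b)⟫_ℝ = 0) → b ∈ Cl
  /- norms -/
  N : ℕ → ℝ → Om → ℝ
  M : ℕ → Om → ℝ
  K : ℕ → ℝ
  δ0 : ℝ
  one_le_K : ∀ m, 1 ≤ K m
  δ0_pos : 0 < δ0
  δ0_le : δ0 ≤ 1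
  N_nonneg : ∀ m δ b, 0 ≤ N m δ b
  N_add : ∀ m δ a b, N m δ (a + b) ≤ N m δ a + N m δ b
  N_smul : ∀ m δ (r : ℝ) b, N m δ (r • b) = |r| * N m δ b
  N_mono : ∀ m δ δ' b, 0 < δ → δ ≤ δ' → N m δ b ≤ N m δ' b
  N_succ : ∀ m δ b, 0 < δ → N m δ b ≤ N (m + 1) δ b
  N_scale : ∀ m δ b, 0 < δ → δ ≤ 1 → δ ^ m * N m 1 b ≤ N m δ b
  M_nonneg : ∀ m b, 0 ≤ M m b
  M_add : ∀ m a b, M m (a + b) ≤ M m a + M m b
  M_smul : ∀ m (r : ℝ) b, M m (r • b) = |r| * M m b
  M_succ : ∀ m b, M m b ≤ M (m + 1) b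
  norm_le_N : ∀ δ b, 0 < δ → ‖ι b‖ ≤ K 0 * N 0 δ b
  N_le_norm : ∀ δ b, 0 < δ → N 0 δ b ≤ K 0 * ‖ι b‖
  N_le_M : ∀ m δ b, 0 < δ → δ ≤ 1 → N m δ b ≤ K m * M m b
  M_pm : ∀ m b, M m (pm b) ≤ K m * M m b
  N_pm : ∀ m δ b, 0 < δ → δ ≤ 1 → N m δ (pm b) ≤ K m * N m δ b
  complete : ∀ b : ℕ → Om, (∀ m, Summable fun k => M m (b k)) →
    ∃ s : Om, ∀ m, Tendsto (fun n => M m (s - ∑ k ∈ Finset.range n, b k)) atTop (𝓝 0)
  /- smoothing of smooth forms -/
  S0 : ℝ → Om →ₗ[ℝ] Om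
  S_norm : ∀ δ b, 0 < δ → δ ≤ δ0 → ‖ι (S0 δ b)‖ ≤ K 0 * ‖ι b‖
  S_weak0 : ∀ δ, 0 < δ → δ ≤ δ0 → ∀ e ∈ Ex, ∃ C : ℝ, 0 ≤ C ∧ ∀ u : H,
    (∀ e' ∈ Ex, ⟪ι e', st u⟫_ℝ = 0) → ∀ b, |⟪ι e, st (ι (S0 δ b))⟫_ℝ| ≤ C * ‖u - ι b‖
  S_Ex : ∀ δ e, 0 < δ → δ ≤ δ0 → e ∈ Ex → S0 δ e ∈ Ex
  SS : ∀ m δ b, 0 < δ → δ ≤ δ0 → N m δ (S0 δ b) ≤ K m * ‖ι b‖
  SSM : ∀ m δ b, 0 < δ → δ ≤ δ0 → M m (S0 δ b) ≤ K m * (δ ^ (2 + m))⁻¹ * ‖ι b‖
  O1 : ∀ m δ δ' b, 0 < δ → δ ≤ δ0 → δ ≤ δ' → δ' ≤ 1 → N m δ' (S0 δ b) ≤ K m * N m δ' b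
  O2 : ∀ m δ δ' b, 0 < δ → δ ≤ δ0 → δ ≤ δ' → δ' ≤ 1 →
    N m δ' (b - S0 δ b) ≤ K m * (δ / δ') * N (m + 1) δ' b
  O1M : ∀ m δ b, 0 < δ → δ ≤ δ0 → M m (S0 δ b) ≤ K m * M m b
  O2M : ∀ m δ b, 0 < δ → δ ≤ δ0 → M m (b - S0 δ b) ≤ K m * δ * M (m + 1) b
  SC : ∀ m δ b, 0 < δ → δ ≤ δ0 → N m δ (pm (S0 δ b) - S0 δ (pm b)) ≤ K m * δ * ‖ι b‖

namespace Sys0

variable {H Om : Type} [NormedAddCommGroup H] [InnerProductSpace ℝ H] [CompleteSpace H]
  [AddCommGroup Om] [Module ℝ Om] (Z : Sys0 H Om)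

theorem M_neg (m : ℕ) (b : Om) : Z.M m (-b) = Z.M m b := by
  have := Z.M_smul m (-1) b
  simpa only [neg_smul, one_smul, abs_neg, abs_one, one_mul] using this

theorem M_sub (m : ℕ) (a b : Om) : Z.M m (a - b) ≤ Z.M m a + Z.M m b := by
  rw [sub_eq_add_neg]
  exact (Z.M_add m a (-b)).trans (by rw [M_neg])

theorem K_nonneg (m : ℕ) : 0 ≤ Z.K m := zero_le_one.trans (Z.one_le_K m)

theorem norm_le_M (b : Om) : ‖Z.ι b‖ ≤ Z.K 0 * Z.K 0 * Z.M 0 b := by
  have h1 := Z.norm_le_N 1 b one_pos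
  have h2 := Z.N_le_M 0 1 b one_pos le_rfl
  have h3 := Z.K_nonneg 0
  calc ‖Z.ι b‖ ≤ Z.K 0 * Z.N 0 1 b := h1
    _ ≤ Z.K 0 * (Z.K 0 * Z.M 0 b) := by gcongr
    _ = _ := by ring

theorem eq_zero_of_M {b : Om} (h : Z.M 0 b ≤ 0) : b = 0 := by
  have h1 := Z.norm_le_M b
  have h2 : ‖Z.ι b‖ ≤ 0 := h1.trans (by
    have := Z.K_nonneg 0
    exact mul_nonpos_of_nonneg_of_nonpos (by positivity) h)
  apply Z.ι_inj
  rw [map_zero]
  exact norm_le_zero_iff.1 h2

theorem exists_approx (u : H) {ε : ℝ} (hε : 0 < ε) : ∃ c : Om, ‖u - Z.ι c‖ < ε := by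
  obtain ⟨y, hy⟩ := Z.ι_dense.exists_dist_lt u hε
  exact ⟨y, by rwa [dist_eq_norm] at hy⟩

/-- `s` is the image of `u` under the extension of `T` -/
def Rel (T : Om →ₗ[ℝ] Om) (u : H) (s : Om) : Prop :=
  ∀ m (ε : ℝ), 0 < ε → ∃ c : Om, ‖u - Z.ι c‖ < ε ∧ Z.M m (s - T c) < ε

section ext
variable {T : Om →ₗ[ℝ] Om} {C : ℕ → ℝ} (hC : ∀ m, 0 ≤ C m)
  (hT : ∀ m b, Z.M m (T b) ≤ C m * ‖Z.ι b‖)

include hC hT

theorem Rel.unique {u : H} {s s' : Om} (h : Z.Rel T u s) (h' : Z.Rel T u s') : s = s' := by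
  rw [← sub_eq_zero]
  apply Z.eq_zero_of_M
  apply le_of_forall_pos_le_add
  intro ε hε
  set η := ε / (2 + 2 * C 0) with hη
  have hC0 := hC 0
  have hη0 : 0 < η := by positivity
  obtain ⟨c, h1, h2⟩ := h 0 η hη0
  obtain ⟨c', h3, h4⟩ := h' 0 η hη0
  have h5 : s - s' = (s - T c) + T (c - c') - (s' - T c') := by rw [map_sub]; abel
  have h6 : ‖Z.ι (c - c')‖ ≤ 2 * η := by
    have : Z.ι (c - c') = (u - Z.ι c') - (u - Z.ι c) := by rw [map_sub]; abel
    rw [this]
    exact (norm_sub_le _ _).trans (by linarith)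
  calc Z.M 0 (s - s') ≤ Z.M 0 ((s - T c) + T (c - c')) + Z.M 0 (s' - T c') := by
        rw [h5]; exact Z.M_sub 0 _ _
    _ ≤ Z.M 0 (s - T c) + Z.M 0 (T (c - c')) + Z.M 0 (s' - T c') := by
        gcongr; exact Z.M_add 0 _ _
    _ ≤ η + C 0 * (2 * η) + η := by
        have := hT 0 (c - c')
        have h7 : C 0 * ‖Z.ι (c - c')‖ ≤ C 0 * (2 * η) := by gcongr
        linarith
    _ = η * (2 + 2 * C 0) := by ring
    _ = 0 + ε := by rw [hη]; field_simp; ring

theorem exists_Rel (u : H) : ∃ s, Z.Rel T u s ∧ ∀ m c, Z.M m (s - T c) ≤ C m * ‖u - Z.ι c‖ := by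
  have h1 : ∀ n : ℕ, ∃ c : Om, ‖u - Z.ι c‖ < (1 / 2 : ℝ) ^ n := fun n =>
    Z.exists_approx u (by positivity)
  choose c hc using h1
  set b : ℕ → Om := fun k => T (c (k + 1)) - T (c k) with hb
  have hbM : ∀ m k, Z.M m (b k) ≤ C m * (2 * (1 / 2 : ℝ) ^ k) := by
    intro m k
    simp only [hb]
    rw [← map_sub]
    refine (hT m _).trans ?_
    apply mul_le_mul_of_nonneg_left _ (hC m)
    have h2 : Z.ι (c (k + 1) - c k) = (u - Z.ι (c k)) - (u - Z.ι (c (k + 1))) := by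
      rw [map_sub]; abel
    rw [h2]
    refine (norm_sub_le _ _).trans ?_
    have h3 := hc k
    have h4 := hc (k + 1)
    have h5 : (1 / 2 : ℝ) ^ (k + 1) ≤ (1 / 2) ^ k :=
      pow_le_pow_of_le_one (by norm_num) (by norm_num) (Nat.le_succ k)
    linarith
  obtain ⟨s₀, hs₀⟩ := Z.complete b (fun m => by
    refine Summable.of_nonneg_of_le (fun k => Z.M_nonneg _ _) (fun k => hbM m k) ?_
    exact ((summable_geometric_of_lt_one (by norm_num) (by norm_num)).mul_left 2).mul_left _)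
  set s := s₀ + T (c 0) with hs
  have hsum : ∀ n, ∑ k ∈ Finset.range n, b k = T (c n) - T (c 0) := fun n =>
    Finset.sum_range_sub (fun k => T (c k)) n
  have hlim : ∀ m, Tendsto (fun n => Z.M m (s - T (c n))) atTop (𝓝 0) := by
    intro m
    refine (hs₀ m).congr fun n => ?_
    rw [hsum, hs]
    congr 1
    abel
  have hcl : Tendsto (fun n => ‖u - Z.ι (c n)‖) atTop (𝓝 0) :=
    squeeze_zero (fun n => norm_nonneg _) (fun n => (hc n).le)
      (tendsto_pow_atTop_nhds_zero_of_lt_one (by norm_num) (by norm_num))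
  refine ⟨s, ?_, ?_⟩
  · intro m ε hε
    obtain ⟨n, h2, h3⟩ := (((hcl.eventually (gt_mem_nhds hε)).and
      ((hlim m).eventually (gt_mem_nhds hε)))).exists
    exact ⟨c n, h2, h3⟩
  · intro m c'
    have h2 : ∀ n, Z.M m (s - T c') ≤ Z.M m (s - T (c n)) + C m * (‖u - Z.ι c'‖ + ‖u - Z.ι (c n)‖) := by
      intro n
      have h3 : s - T c' = (s - T (c n)) + T (c n - c') := by rw [map_sub]; abel
      rw [h3]
      refine (Z.M_add m _ _).trans ?_
      gcongr
      refine (hT m _).trans ?_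
      apply mul_le_mul_of_nonneg_left _ (hC m)
      have h4 : Z.ι (c n - c') = (u - Z.ι c') - (u - Z.ι (c n)) := by rw [map_sub]; abel
      rw [h4]
      exact norm_sub_le _ _
    have h3 : Tendsto (fun n => Z.M m (s - T (c n)) + C m * (‖u - Z.ι c'‖ + ‖u - Z.ι (c n)‖)) atTop
        (𝓝 (0 + C m * (‖u - Z.ι c'‖ + 0))) :=
      (hlim m).add ((hcl.const_add _).const_mul _)
    have h4 := ge_of_tendsto' h3 h2
    simpa only [ge_iff_le, add_zero, zero_add] using h4

/-- extension of a smoothing operator to `H` -/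
theorem exists_extension : ∃ S : H →ₗ[ℝ] Om, (∀ b, S (Z.ι b) = T b) ∧
    ∀ m u c, Z.M m (S u - T c) ≤ C m * ‖u - Z.ι c‖ := by
  choose s hs1 hs2 using fun u => Z.exists_Rel hC hT u
  have huniq : ∀ u s', Z.Rel T u s' → s u = s' := fun u s' h => Rel.unique Z hC hT (hs1 u) h
  refine ⟨{ toFun := s, map_add' := ?_, map_smul' := ?_ }, ?_, fun m u c => hs2 u m c⟩
  · intro u v
    apply huniq
    intro m ε hε
    obtain ⟨c, hc⟩ := Z.exists_approx u (ε := ε / (2 * (1 + C m))) (by have := hC m; positivity)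
    obtain ⟨c', hc'⟩ := Z.exists_approx v (ε := ε / (2 * (1 + C m))) (by have := hC m; positivity)
    have hCm := hC m
    have hle : ε / (2 * (1 + C m)) ≤ ε / 2 := by
      apply div_le_div_of_nonneg_left hε.le (by norm_num)
      linarith only [hCm]
    refine ⟨c + c', ?_, ?_⟩
    · have h1 : u + v - Z.ι (c + c') = (u - Z.ι c) + (v - Z.ι c') := by rw [map_add]; abel
      rw [h1]
      refine (norm_add_le _ _).trans_lt ?_
      linarith
    · have h1 : s u + s v - T (c + c') = (s u - T c) + (s v - T c') := by rw [map_add]; abel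
      rw [h1]
      refine (Z.M_add m _ _).trans_lt ?_
      have h2 := hs2 u m c
      have h3 := hs2 v m c'
      have h4 : C m * ‖u - Z.ι c‖ ≤ (1 + C m) * ‖u - Z.ι c‖ := by
        have := norm_nonneg (u - Z.ι c); linarith only [this]
      have h5 : C m * ‖v - Z.ι c'‖ ≤ (1 + C m) * ‖v - Z.ι c'‖ := by
        have := norm_nonneg (v - Z.ι c'); linarith only [this]
      have h6 : (1 + C m) * ‖u - Z.ι c‖ < ε / 2 := by
        calc (1 + C m) * ‖u - Z.ι c‖ < (1 + C m) * (ε / (2 * (1 + C m))) := by gcongr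
          _ = ε / 2 := by field_simp
      have h7 : (1 + C m) * ‖v - Z.ι c'‖ < ε / 2 := by
        calc (1 + C m) * ‖v - Z.ι c'‖ < (1 + C m) * (ε / (2 * (1 + C m))) := by gcongr
          _ = ε / 2 := by field_simp
      linarith
  · intro r u
    apply huniq
    intro m ε hε
    have hCm := hC m
    obtain ⟨c, hc⟩ := Z.exists_approx u (ε := ε / ((1 + |r|) * (1 + C m))) (by positivity)
    have h6 : (1 + |r|) * (1 + C m) * ‖u - Z.ι c‖ < ε := by
      calc (1 + |r|) * (1 + C m) * ‖u - Z.ι c‖ <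
          (1 + |r|) * (1 + C m) * (ε / ((1 + |r|) * (1 + C m))) := by gcongr
        _ = ε := by field_simp
    have hn := norm_nonneg (u - Z.ι c)
    have hr := abs_nonneg r
    refine ⟨r • c, ?_, ?_⟩
    · have h1 : r • u - Z.ι (r • c) = r • (u - Z.ι c) := by rw [map_smul, smul_sub]
      rw [h1, norm_smul, Real.norm_eq_abs]
      refine lt_of_le_of_lt ?_ h6
      apply mul_le_mul_of_nonneg_right _ hn
      nlinarith only [hCm, hr]
    · simp only [RingHom.id_apply]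
      have h1 : r • s u - T (r • c) = r • (s u - T c) := by rw [map_smul, smul_sub]
      rw [h1, Z.M_smul]
      have h2 := hs2 u m c
      refine lt_of_le_of_lt ?_ h6
      calc |r| * Z.M m (s u - T c) ≤ |r| * (C m * ‖u - Z.ι c‖) := by gcongr
        _ = |r| * C m * ‖u - Z.ι c‖ := by ring
        _ ≤ (1 + |r|) * (1 + C m) * ‖u - Z.ι c‖ := by
          apply mul_le_mul_of_nonneg_right _ hn
          linarith only [hCm, hr]
  · intro b
    apply huniq
    intro m ε hε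
    refine ⟨b, by simpa only [sub_self, norm_zero] using hε, ?_⟩
    have h1 : T b - T b = (0 : ℝ) • (0 : Om) := by simp
    rw [h1, Z.M_smul]
    simpa using hε

end ext

theorem exists_Sop (δ : ℝ) : ∃ S : H →ₗ[ℝ] Om, 0 < δ → δ ≤ Z.δ0 →
    (∀ b, S (Z.ι b) = Z.S0 δ b) ∧
    ∀ m u c, Z.M m (S u - Z.S0 δ c) ≤ Z.K m * (δ ^ (2 + m))⁻¹ * ‖u - Z.ι c‖ := by
  by_cases h : 0 < δ ∧ δ ≤ Z.δ0
  · obtain ⟨S, h1, h2⟩ := Z.exists_extension (T := Z.S0 δ)
      (C := fun m => Z.K m * (δ ^ (2 + m))⁻¹)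
      (fun m => by have := Z.K_nonneg m; have := h.1; positivity)
      (fun m b => Z.SSM m δ b h.1 h.2)
    exact ⟨S, fun _ _ => ⟨h1, h2⟩⟩
  · exact ⟨0, fun h1 h2 => absurd ⟨h1, h2⟩ h⟩

/-- the extended smoothing operators -/
noncomputable def S (δ : ℝ) : H →ₗ[ℝ] Om := (Z.exists_Sop δ).choose

theorem S_ι {δ : ℝ} (h0 : 0 < δ) (h1 : δ ≤ Z.δ0) (b : Om) : Z.S δ (Z.ι b) = Z.S0 δ b :=
  ((Z.exists_Sop δ).choose_spec h0 h1).1 b

theorem S_approx {δ : ℝ} (h0 : 0 < δ) (h1 : δ ≤ Z.δ0) (m : ℕ) (u : H) (c : Om) :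
    Z.M m (Z.S δ u - Z.S0 δ c) ≤ Z.K m * (δ ^ (2 + m))⁻¹ * ‖u - Z.ι c‖ :=
  ((Z.exists_Sop δ).choose_spec h0 h1).2 m u c

/-- a continuity argument -/
theorem le_of_approx {f : H → ℝ} {u : H} {A B : ℝ} (hB : 0 ≤ B)
    (h : ∀ c : Om, f u ≤ A * ‖Z.ι c‖ + B * ‖u - Z.ι c‖) (hA : 0 ≤ A) : f u ≤ A * ‖u‖ := by
  apply le_of_forall_pos_le_add
  intro ε hε
  obtain ⟨c, hc⟩ := Z.exists_approx u (ε := ε / (1 + A + B)) (by positivity)
  have h1 := h c
  have h2 : ‖Z.ι c‖ ≤ ‖u‖ + ‖u - Z.ι c‖ := by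
    have : Z.ι c = u - (u - Z.ι c) := by abel
    calc ‖Z.ι c‖ = ‖u - (u - Z.ι c)‖ := by rw [← this]
      _ ≤ _ := norm_sub_le _ _
  have h3 : (1 + A + B) * ‖u - Z.ι c‖ < ε := by
    calc (1 + A + B) * ‖u - Z.ι c‖ < (1 + A + B) * (ε / (1 + A + B)) := by gcongr
      _ = ε := by field_simp
  have hn := norm_nonneg (u - Z.ι c)
  have h4 : A * ‖Z.ι c‖ ≤ A * (‖u‖ + ‖u - Z.ι c‖) := by gcongr
  linarith only [h4, hn, h3, h1]

theorem N_neg (m : ℕ) (δ : ℝ) (b : Om) : Z.N m δ (-b) = Z.N m δ b := by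
  have := Z.N_smul m δ (-1) b
  simpa only [neg_smul, one_smul, abs_neg, abs_one, one_mul] using this

theorem N_sub (m : ℕ) (δ : ℝ) (a b : Om) : Z.N m δ (a - b) ≤ Z.N m δ a + Z.N m δ b := by
  rw [sub_eq_add_neg]
  exact (Z.N_add m δ a (-b)).trans (by rw [N_neg])

/-- the smoothing system -/
noncomputable def toSmSys : SmSys H Om where
  ι := Z.ι
  ι_inj := Z.ι_inj
  ι_dense := Z.ι_dense
  st := Z.st
  st_st := Z.st_st
  st_symm := Z.st_symm
  pm := Z.pm
  pmH := Z.pmH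
  pmH_ι := Z.pmH_ι
  pmH_pmH := Z.pmH_pmH
  pmH_symm := Z.pmH_symm
  st_pmH := Z.st_pmH
  Cl := Z.Cl
  Ex := Z.Ex
  Ex_le := Z.Ex_le
  stokes := Z.stokes
  closed_of_weak := Z.closed_of_weak
  N := Z.N
  M := Z.M
  K := Z.K
  δ0 := Z.δ0
  one_le_K := Z.one_le_K
  δ0_pos := Z.δ0_pos
  δ0_le := Z.δ0_le
  N_nonneg := Z.N_nonneg
  N_add := Z.N_add
  N_smul := Z.N_smul
  N_mono := Z.N_mono
  N_succ := Z.N_succ
  N_scale := Z.N_scale
  M_nonneg := Z.M_nonneg
  M_add := Z.M_add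
  M_smul := Z.M_smul
  M_succ := Z.M_succ
  norm_le_N := Z.norm_le_N
  N_le_norm := Z.N_le_norm
  N_le_M := Z.N_le_M
  M_pm := Z.M_pm
  N_pm := Z.N_pm
  complete := Z.complete
  S := Z.S
  S_norm := by
    intro δ u h0 h1
    have hK := Z.K_nonneg 0
    refine Z.le_of_approx (f := fun u => ‖Z.ι (Z.S δ u)‖)
      (B := Z.K 0 * Z.K 0 * (Z.K 0 * (δ ^ (2 + 0))⁻¹)) (by positivity) (fun c => ?_) hK
    have e1 : Z.ι (Z.S δ u) = Z.ι (Z.S0 δ c) + Z.ι (Z.S δ u - Z.S0 δ c) := by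
      rw [map_sub]; abel
    have e2 := Z.S_norm δ c h0 h1
    have e3 := Z.norm_le_M (Z.S δ u - Z.S0 δ c)
    have e4 := Z.S_approx h0 h1 0 u c
    calc ‖Z.ι (Z.S δ u)‖ ≤ ‖Z.ι (Z.S0 δ c)‖ + ‖Z.ι (Z.S δ u - Z.S0 δ c)‖ := by
          rw [e1]; exact norm_add_le _ _
      _ ≤ Z.K 0 * ‖Z.ι c‖ + Z.K 0 * Z.K 0 * (Z.K 0 * (δ ^ (2 + 0))⁻¹ * ‖u - Z.ι c‖) := by
          gcongr
          exact e3.trans (by gcongr)
      _ = _ := by ring
  S_tendsto := by
    intro u
    rw [Metric.tendsto_nhds]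
    intro ε hε
    have hK := Z.K_nonneg 0
    have hK1 := Z.K_nonneg 0
    set η := ε / (3 * (1 + Z.K 0)) with hη
    have hη0 : 0 < η := by positivity
    obtain ⟨c, hc⟩ := Z.exists_approx u hη0
    have hM := Z.M_nonneg 1 c
    set δ₁ := min Z.δ0 (η / (1 + Z.K 0 * Z.K 0 * Z.K 0 * Z.M 1 c)) with hδ₁
    have hδ₁0 : 0 < δ₁ := lt_min Z.δ0_pos (by positivity)
    filter_upwards [Ioo_mem_nhdsGT hδ₁0] with δ hδ
    have h0 := hδ.1
    have h1 : δ ≤ Z.δ0 := hδ.2.le.trans (min_le_left _ _)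
    have h2 : δ ≤ η / (1 + Z.K 0 * Z.K 0 * Z.K 0 * Z.M 1 c) := hδ.2.le.trans (min_le_right _ _)
    rw [dist_eq_norm]
    have hSn : ‖Z.ι (Z.S δ (u - Z.ι c))‖ ≤ Z.K 0 * ‖u - Z.ι c‖ := by
      refine Z.le_of_approx (f := fun u => ‖Z.ι (Z.S δ u)‖)
        (B := Z.K 0 * Z.K 0 * (Z.K 0 * (δ ^ (2 + 0))⁻¹)) (by positivity) (fun c' => ?_) hK
      have e1 : Z.ι (Z.S δ (u - Z.ι c)) = Z.ι (Z.S0 δ c') + Z.ι (Z.S δ (u - Z.ι c) - Z.S0 δ c') := by
        rw [map_sub (Z.ι) (Z.S δ (u - Z.ι c))]; abel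
      have e2 := Z.S_norm δ c' h0 h1
      have e3 := Z.norm_le_M (Z.S δ (u - Z.ι c) - Z.S0 δ c')
      have e4 := Z.S_approx h0 h1 0 (u - Z.ι c) c'
      calc ‖Z.ι (Z.S δ (u - Z.ι c))‖ ≤ ‖Z.ι (Z.S0 δ c')‖ + ‖Z.ι (Z.S δ (u - Z.ι c) - Z.S0 δ c')‖ := by
            rw [e1]; exact norm_add_le _ _
        _ ≤ Z.K 0 * ‖Z.ι c'‖ + Z.K 0 * Z.K 0 * (Z.K 0 * (δ ^ (2 + 0))⁻¹ * ‖u - Z.ι c - Z.ι c'‖) := by
            gcongr
            exact e3.trans (by gcongr)
        _ = _ := by ring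
    have hO : ‖Z.ι (c - Z.S0 δ c)‖ ≤ η := by
      have e3 := Z.norm_le_M (c - Z.S0 δ c)
      have e4 := Z.O2M 0 δ c h0 h1
      calc ‖Z.ι (c - Z.S0 δ c)‖ ≤ Z.K 0 * Z.K 0 * Z.M 0 (c - Z.S0 δ c) := e3
        _ ≤ Z.K 0 * Z.K 0 * (Z.K 0 * δ * Z.M (0 + 1) c) := by gcongr
        _ = (Z.K 0 * Z.K 0 * Z.K 0 * Z.M 1 c) * δ := by ring
        _ ≤ (1 + Z.K 0 * Z.K 0 * Z.K 0 * Z.M 1 c) * (η / (1 + Z.K 0 * Z.K 0 * Z.K 0 * Z.M 1 c)) := by
            have : 0 ≤ Z.K 0 * Z.K 0 * Z.K 0 * Z.M 1 c := by positivity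
            gcongr
            linarith
        _ = η := by field_simp
    have e1 : Z.ι (Z.S δ u) - u = Z.ι (Z.S δ (u - Z.ι c)) - Z.ι (c - Z.S0 δ c) - (u - Z.ι c) := by
      rw [map_sub (Z.S δ), Z.S_ι h0 h1, map_sub Z.ι, map_sub Z.ι]
      abel
    rw [e1]
    calc ‖Z.ι (Z.S δ (u - Z.ι c)) - Z.ι (c - Z.S0 δ c) - (u - Z.ι c)‖
        ≤ ‖Z.ι (Z.S δ (u - Z.ι c))‖ + ‖Z.ι (c - Z.S0 δ c)‖ + ‖u - Z.ι c‖ :=
          (norm_sub_le _ _).trans (by gcongr; exact norm_sub_le _ _)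
      _ ≤ Z.K 0 * η + η + η := by
          have : Z.K 0 * ‖u - Z.ι c‖ ≤ Z.K 0 * η := by gcongr
          linarith
      _ ≤ 2 * (1 + Z.K 0) * η := by linarith only [mul_nonneg (sub_nonneg.2 hK1) (le_of_lt (sub_pos.2 hη0))]
      _ < ε := by
          rw [hη]
          have : 2 * (1 + Z.K 0) * (ε / (3 * (1 + Z.K 0))) = 2 / 3 * ε := by field_simp
          rw [this]; linarith only [hε]
  S_weak := by
    intro δ u h0 h1 hu e he
    obtain ⟨C, hC, hadj⟩ := Z.S_weak0 δ h0 h1 e he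
    have hK := Z.K_nonneg 0
    have hst : ∃ Cs : ℝ, 0 ≤ Cs ∧ ∀ v, ‖Z.st v‖ ≤ Cs * ‖v‖ :=
      ⟨‖Z.st‖, norm_nonneg _, fun v => Z.st.le_opNorm v⟩
    obtain ⟨Cs, hCs, hs⟩ := hst
    have hkey : |⟪Z.ι e, Z.st (Z.ι (Z.S δ u))⟫_ℝ| ≤ 0 * ‖u‖ := by
      refine Z.le_of_approx (f := fun v => |⟪Z.ι e, Z.st (Z.ι (Z.S δ u))⟫_ℝ|) (u := u)
        (B := C + ‖Z.ι e‖ * (Cs * (Z.K 0 * Z.K 0 * (Z.K 0 * (δ ^ (2 + 0))⁻¹))))
        (by positivity) (fun c => ?_) le_rfl
      have e1 : Z.ι (Z.S δ u) = Z.ι (Z.S0 δ c) + Z.ι (Z.S δ u - Z.S0 δ c) := by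
        rw [map_sub]; abel
      have e2 := hadj u hu c
      have e3 := Z.norm_le_M (Z.S δ u - Z.S0 δ c)
      have e4 := Z.S_approx h0 h1 0 u c
      have e5 : |⟪Z.ι e, Z.st (Z.ι (Z.S δ u - Z.S0 δ c))⟫_ℝ| ≤
          ‖Z.ι e‖ * (Cs * (Z.K 0 * Z.K 0 * (Z.K 0 * (δ ^ (2 + 0))⁻¹ * ‖u - Z.ι c‖))) := by
        refine (abs_real_inner_le_norm _ _).trans ?_
        gcongr
        refine (hs _).trans ?_
        gcongr
        exact e3.trans (by gcongr)
      show |⟪Z.ι e, Z.st (Z.ι (Z.S δ u))⟫_ℝ| ≤ _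
      rw [e1, map_add, inner_add_right]
      refine (abs_add_le _ _).trans ?_
      calc |⟪Z.ι e, Z.st (Z.ι (Z.S0 δ c))⟫_ℝ| + |⟪Z.ι e, Z.st (Z.ι (Z.S δ u - Z.S0 δ c))⟫_ℝ|
          ≤ C * ‖u - Z.ι c‖ +
          ‖Z.ι e‖ * (Cs * (Z.K 0 * Z.K 0 * (Z.K 0 * (δ ^ (2 + 0))⁻¹ * ‖u - Z.ι c‖))) :=
            add_le_add e2 e5
        _ = _ := by ring
    rw [zero_mul] at hkey
    exact abs_eq_zero.1 (le_antisymm hkey (abs_nonneg _))
  S_Ex := by
    intro δ e h0 h1 he
    rw [Z.S_ι h0 h1]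
    exact Z.S_Ex δ e h0 h1 he
  SS := by
    intro m δ u h0 h1
    have hK := Z.K_nonneg m
    refine Z.le_of_approx (f := fun u => Z.N m δ (Z.S δ u))
      (B := Z.K m * (Z.K m * (δ ^ (2 + m))⁻¹)) (by positivity) (fun c => ?_) hK
    have e1 : Z.S δ u = Z.S0 δ c + (Z.S δ u - Z.S0 δ c) := by abel
    have e2 := Z.SS m δ c h0 h1
    have e3 := Z.N_le_M m δ (Z.S δ u - Z.S0 δ c) h0 (h1.trans Z.δ0_le)
    have e4 := Z.S_approx h0 h1 m u c
    calc Z.N m δ (Z.S δ u) ≤ Z.N m δ (Z.S0 δ c) + Z.N m δ (Z.S δ u - Z.S0 δ c) := by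
          conv_lhs => rw [e1]
          exact Z.N_add _ _ _ _
      _ ≤ Z.K m * ‖Z.ι c‖ + Z.K m * (Z.K m * (δ ^ (2 + m))⁻¹ * ‖u - Z.ι c‖) := by
          gcongr
          exact e3.trans (by gcongr)
      _ = _ := by ring
  SSM := by
    intro m δ u h0 h1
    have e4 := Z.S_approx h0 h1 m u 0
    simpa only [map_zero, sub_zero] using e4
  O1 := by
    intro m δ δ' b h0 h1 h2 h3
    rw [Z.S_ι h0 h1]
    exact Z.O1 m δ δ' b h0 h1 h2 h3
  O2 := by
    intro m δ δ' b h0 h1 h2 h3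
    rw [Z.S_ι h0 h1]
    exact Z.O2 m δ δ' b h0 h1 h2 h3
  O1M := by
    intro m δ b h0 h1
    rw [Z.S_ι h0 h1]
    exact Z.O1M m δ b h0 h1
  O2M := by
    intro m δ b h0 h1
    rw [Z.S_ι h0 h1]
    exact Z.O2M m δ b h0 h1
  SC := by
    intro m δ u h0 h1
    have hK := Z.K_nonneg m
    have hpn : ∃ Cp : ℝ, 0 ≤ Cp ∧ ∀ v, ‖Z.pmH v‖ ≤ Cp * ‖v‖ :=
      ⟨‖Z.pmH‖, norm_nonneg _, fun v => Z.pmH.le_opNorm v⟩
    obtain ⟨Cp, hCp, hp⟩ := hpn
    refine Z.le_of_approx (f := fun u => Z.N m δ (Z.pm (Z.S δ u) - Z.S δ (Z.pmH u)))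
      (A := Z.K m * δ)
      (B := Z.K m * (Z.K m * (Z.K m * (δ ^ (2 + m))⁻¹)) + Z.K m * (Z.K m * (δ ^ (2 + m))⁻¹) * Cp)
      (by positivity) (fun c => ?_) (by positivity)
    have h1' : δ ≤ 1 := h1.trans Z.δ0_le
    set r := Z.S δ u - Z.S0 δ c with hr
    set r' := Z.S δ (Z.pmH u) - Z.S0 δ (Z.pm c) with hr'
    have e1 : Z.pm (Z.S δ u) - Z.S δ (Z.pmH u) =
        (Z.pm (Z.S0 δ c) - Z.S0 δ (Z.pm c)) + Z.pm r - r' := by
      rw [hr, hr', map_sub]; abel
    have e2 := Z.SC m δ c h0 h1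
    have e3 : Z.N m δ (Z.pm r) ≤ Z.K m * (Z.K m * (Z.K m * (δ ^ (2 + m))⁻¹ * ‖u - Z.ι c‖)) := by
      calc Z.N m δ (Z.pm r) ≤ Z.K m * Z.N m δ r := Z.N_pm m δ r h0 h1'
        _ ≤ Z.K m * (Z.K m * Z.M m r) := by gcongr; exact Z.N_le_M m δ r h0 h1'
        _ ≤ _ := by gcongr; exact Z.S_approx h0 h1 m u c
    have e4 : Z.N m δ r' ≤ Z.K m * (Z.K m * (δ ^ (2 + m))⁻¹ * (Cp * ‖u - Z.ι c‖)) := by
      have e5 := Z.S_approx h0 h1 m (Z.pmH u) (Z.pm c)
      have e6 : Z.pmH u - Z.ι (Z.pm c) = Z.pmH (u - Z.ι c) := by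
        rw [map_sub, Z.pmH_ι]
      rw [e6] at e5
      calc Z.N m δ r' ≤ Z.K m * Z.M m r' := Z.N_le_M m δ r' h0 h1'
        _ ≤ Z.K m * (Z.K m * (δ ^ (2 + m))⁻¹ * ‖Z.pmH (u - Z.ι c)‖) := by gcongr
        _ ≤ _ := by gcongr; exact hp _
    calc Z.N m δ (Z.pm (Z.S δ u) - Z.S δ (Z.pmH u))
        ≤ Z.N m δ ((Z.pm (Z.S0 δ c) - Z.S0 δ (Z.pm c)) + Z.pm r) + Z.N m δ r' := by
          rw [e1]; exact Z.N_sub _ _ _ _
      _ ≤ Z.N m δ (Z.pm (Z.S0 δ c) - Z.S0 δ (Z.pm c)) + Z.N m δ (Z.pm r) + Z.N m δ r' := by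
          gcongr; exact Z.N_add _ _ _ _
      _ ≤ Z.K m * δ * ‖Z.ι c‖ + Z.K m * (Z.K m * (Z.K m * (δ ^ (2 + m))⁻¹ * ‖u - Z.ι c‖)) +
          Z.K m * (Z.K m * (δ ^ (2 + m))⁻¹ * (Cp * ‖u - Z.ι c‖)) := by
          linarith only [e4, e3, e2]
      _ = _ := by ring

end Sys0

end P204K.GX
end
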