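import Vale.Agent.P204.KC.K1
import Vale.Agent.P204.KC.K2

set_option linter.all false

section
/-! Module A1: basic facts about weakly closed forms. -/
open scoped InnerProductSpace
open Filter Topology
namespace P204K.GX

variable {H Om : Type} [NormedAddCommGroup H] [InnerProductSpace ℝ H] [CompleteSpace H]
  [AddCommGroup Om] [Module ℝ Om]

namespace SmSys
variable (Y : SmSys H Om)

theorem isClosed_Zw : IsClosed (Y.Zw : Set H) := by
  have h : (Y.Zw : Set H) = ⋂ e ∈ Y.Ex, {u : H | ⟪Y.ι e, Y.st u⟫_ℝ = 0} := by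
    ext u
    simp only [Set.mem_iInter, SetLike.mem_coe, mem_Zw]
    rfl
  rw [h]
  refine isClosed_biInter fun e _ => ?_
  exact isClosed_eq (continuous_const.inner Y.st.continuous) continuous_const

theorem S_mem_Cl (δ : ℝ) (h0 : 0 < δ) (h1 : δ ≤ Y.δ0) {u : H} (hu : u ∈ Y.Zw) :
    Y.S δ u ∈ Y.Cl :=
  Y.closed_of_weak _ (Y.S_weak δ u h0 h1 hu)

/-- smooth closed forms are dense in the weakly closed forms -/
theorem Zw_le_closure {u : H} (hu : u ∈ Y.Zw) : u ∈ closure (Y.ι '' (Y.Cl : Set Om)) := by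
  refine mem_closure_of_tendsto (Y.S_tendsto u) ?_
  have h1 : Set.Ioc (0 : ℝ) Y.δ0 ∈ 𝓝[>] (0 : ℝ) :=
    Ioc_mem_nhdsGT Y.δ0_pos
  filter_upwards [h1] with δ hδ
  exact ⟨_, Y.S_mem_Cl δ hδ.1 hδ.2 hu, rfl⟩

/-- two functionals, one killing `Cl`, the other killing `Ex`: representing vectors have zero
pairing -/
theorem pair_zero {e r : H} (he : ∀ c ∈ Y.Cl, ⟪e, Y.st (Y.ι c)⟫_ℝ = 0) (hr : r ∈ Y.Zw) :
    ⟪e, Y.st r⟫_ℝ = 0 := by
  have hc : IsClosed {u : H | ⟪e, Y.st u⟫_ℝ = 0} :=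
    isClosed_eq (continuous_const.inner Y.st.continuous) continuous_const
  have hsub : Y.ι '' (Y.Cl : Set Om) ⊆ {u : H | ⟪e, Y.st u⟫_ℝ = 0} := by
    rintro _ ⟨c, hc, rfl⟩
    exact he c hc
  exact closure_minimal hsub hc (Y.Zw_le_closure hr)

/-- smooth closed forms are weakly closed -/
theorem ι_mem_Zw {c : Om} (hc : c ∈ Y.Cl) : Y.ι c ∈ Y.Zw :=
  fun e he => Y.stokes e he c hc

theorem mem_Zw_of_kill {e : H} (he : ∀ c ∈ Y.Ex, ⟪e, Y.st (Y.ι c)⟫_ℝ = 0) : e ∈ Y.Zw := by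
  intro c hc
  have := he c hc
  rwa [real_inner_comm, Y.st_symm] at this

/-- `st` is an isometry -/
theorem norm_st (u : H) : ‖Y.st u‖ = ‖u‖ := by
  have h : ‖Y.st u‖ ^ 2 = ‖u‖ ^ 2 := by
    rw [← real_inner_self_eq_norm_sq, Y.st_symm, Y.st_st, real_inner_self_eq_norm_sq]
  exact (pow_left_inj₀ (norm_nonneg _) (norm_nonneg _) two_ne_zero).1 h

theorem pmH_st (u : H) : Y.pmH (Y.st u) = Y.pmH u := by
  refine ext_inner_right ℝ fun v => ?_
  rw [Y.pmH_symm, Y.st_symm, Y.st_pmH, ← Y.pmH_symm]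

/-- `pmH` is a contraction -/
theorem norm_pmH_le (u : H) : ‖Y.pmH u‖ ≤ ‖u‖ := by
  have h : ‖Y.pmH u‖ ^ 2 ≤ ‖u‖ * ‖Y.pmH u‖ := by
    rw [← real_inner_self_eq_norm_sq, Y.pmH_symm, Y.pmH_pmH]
    exact real_inner_le_norm _ _
  by_contra hlt
  push Not at hlt
  have h0 : 0 < ‖Y.pmH u‖ := (norm_nonneg u).trans_lt hlt
  linarith only [mul_pos (sub_pos.2 hlt) (sub_pos.2 h0), h]

theorem inner_pm_compl (u v : H) : ⟪Y.pmH u, v - Y.pmH v⟫_ℝ = 0 := by
  rw [inner_sub_right, Y.pmH_symm u (Y.pmH v), Y.pmH_pmH, ← Y.pmH_symm, sub_self]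

theorem norm_sq_split (u : H) : ‖u‖ ^ 2 = ‖Y.pmH u‖ ^ 2 + ‖u - Y.pmH u‖ ^ 2 := by
  have h : ⟪Y.pmH u, u - Y.pmH u⟫_ℝ = 0 := Y.inner_pm_compl u u
  have e : ‖u‖ ^ 2 = ‖Y.pmH u + (u - Y.pmH u)‖ ^ 2 := by rw [add_sub_cancel]
  rw [e, @norm_add_sq_real, h]
  ring

theorem norm_compl_le (u : H) : ‖u - Y.pmH u‖ ≤ ‖u‖ := by
  have h := Y.norm_sq_split u
  have h2 : 0 ≤ ‖Y.pmH u‖ ^ 2 := by positivity
  exact le_of_sq_le_sq (by linarith) (norm_nonneg _)

end SmSys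
end P204K.GX
end

section
/-! Module A2: `L²` solvability of `z⁻ = v` by Lax-Milgram. -/
open scoped InnerProductSpace
open Filter Topology
namespace P204K.GX

variable {H Om : Type} [NormedAddCommGroup H] [InnerProductSpace ℝ H] [CompleteSpace H]
  [AddCommGroup Om] [Module ℝ Om]

namespace SmSys
variable (Y : SmSys H Om)

theorem perp_null {n : H} (hn : n ∈ Y.Zwᗮ) : ⟪n, Y.st n⟫_ℝ = 0 := by
  set E : Submodule ℝ H := Y.Ex.map ((Y.st : H →ₗ[ℝ] H) ∘ₗ Y.ι) with hE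
  have hZ : Y.Zw = Eᗮ := by
    ext u
    rw [Submodule.mem_orthogonal, mem_Zw]
    constructor
    · rintro h _ ⟨e, he, rfl⟩
      have := h e he
      simpa only [LinearMap.coe_comp, ContinuousLinearMap.coe_coe, Function.comp_apply, Y.st_symm] using this
    · intro h e he
      have := h _ (Submodule.mem_map_of_mem he)
      simpa only [LinearMap.coe_comp, ContinuousLinearMap.coe_coe, Function.comp_apply, Y.st_symm] using this
  rw [hZ, Submodule.orthogonal_orthogonal_eq_closure] at hn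
  have hn' : n ∈ closure (E : Set H) := hn
  have hnp : n ∈ Y.Zwᗮ := by
    rw [hZ, Submodule.orthogonal_orthogonal_eq_closure]; exact hn
  have hc : IsClosed {x : H | ⟪x, Y.st n⟫_ℝ = 0} :=
    isClosed_eq (continuous_id.inner continuous_const) continuous_const
  have hsub : (E : Set H) ⊆ {x : H | ⟪x, Y.st n⟫_ℝ = 0} := by
    rintro _ ⟨e, he, rfl⟩
    change ⟪Y.st (Y.ι e), Y.st n⟫_ℝ = 0
    rw [Y.st_symm, Y.st_st]
    exact (Submodule.mem_orthogonal _ _).1 hnp _ (Y.ι_mem_Zw (Y.Ex_le he))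
  exact closure_minimal hsub hc hn'

/-- every anti-invariant L^2 form is the anti-invariant part of a weakly closed form -/
theorem exists_L2 : ∃ C : ℝ, 0 ≤ C ∧ ∀ v : H, Y.pmH v = v →
    ∃ z ∈ Y.Zw, Y.pmH z = v ∧ ‖z‖ ≤ C * ‖v‖ := by
  have : CompleteSpace Y.Zw := Y.isClosed_Zw.completeSpace_coe
  set P : H →L[ℝ] H := Y.Zw.starProjection with hP
  have hPmem : ∀ u, P u ∈ Y.Zw := fun u => Submodule.starProjection_apply_mem _ _
  have hPsub : ∀ u, u - P u ∈ Y.Zwᗮ := fun u => Submodule.sub_starProjection_mem_orthogonal _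
  have hPP : ∀ u, ⟪P u, u⟫_ℝ = ‖P u‖ ^ 2 := by
    intro u
    have h : ⟪P u, u - P u⟫_ℝ = 0 := (Submodule.mem_orthogonal _ _).1 (hPsub u) _ (hPmem u)
    rw [inner_sub_right, real_inner_self_eq_norm_sq] at h
    linarith only [h]
  -- coercivity
  have hco : ∀ φ : H, Y.pmH φ = φ → ‖φ‖ ^ 2 ≤ 3 * ‖P φ‖ ^ 2 := by
    intro φ hφ
    have hst : Y.st φ = φ := by rw [← hφ, Y.st_pmH]
    have h0 := Y.perp_null (hPsub φ)
    rw [map_sub, hst, inner_sub_left, inner_sub_right, inner_sub_right,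
      real_inner_self_eq_norm_sq, hPP] at h0
    have h1 : ⟪φ, Y.st (P φ)⟫_ℝ = ‖P φ‖ ^ 2 := by
      rw [← Y.st_symm, hst, real_inner_comm, hPP]
    rw [h1] at h0
    have h2 : ⟪P φ, Y.st (P φ)⟫_ℝ ≤ ‖P φ‖ ^ 2 := by
      refine (real_inner_le_norm _ _).trans ?_
      rw [Y.norm_st, pow_two]
    have h3 : -‖P φ‖ ^ 2 ≤ ⟪P φ, Y.st (P φ)⟫_ℝ := by
      have := neg_le_of_abs_le (abs_real_inner_le_norm (P φ) (Y.st (P φ)))
      rw [Y.norm_st] at this
      linarith only [this]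
    linarith only [h3, h0]
  set T : H →L[ℝ] H := Y.pmH ∘L P ∘L Y.pmH + (ContinuousLinearMap.id ℝ H - Y.pmH) with hT
  have hTa : ∀ u, T u = Y.pmH (P (Y.pmH u)) + (u - Y.pmH u) := fun u => by simp [hT]
  set B : H →L[ℝ] H →L[ℝ] ℝ := (innerSL ℝ).comp T with hB
  have hBa : ∀ u w, B u w = ⟪T u, w⟫_ℝ := fun u w => by simp only [hB, ContinuousLinearMap.comp_apply, coe_innerSL_apply]
  have hTT : ∀ u, ⟪T u, u⟫_ℝ = ‖P (Y.pmH u)‖ ^ 2 + ‖u - Y.pmH u‖ ^ 2 := by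
    intro u
    rw [hTa, inner_add_left, Y.pmH_symm, hPP]
    congr 1
    have h1 : ⟪u - Y.pmH u, Y.pmH u⟫_ℝ = 0 := by
      rw [real_inner_comm]; exact Y.inner_pm_compl u u
    have h2 : ⟪u - Y.pmH u, u - Y.pmH u⟫_ℝ = ‖u - Y.pmH u‖ ^ 2 := real_inner_self_eq_norm_sq _
    rw [inner_sub_right, h1, sub_zero] at h2
    exact h2
  have hBc : IsCoercive B := by
    refine ⟨1 / 3, by norm_num, fun u => ?_⟩
    rw [hBa, hTT]
    have h1 := hco (Y.pmH u) (Y.pmH_pmH u)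
    have h2 := Y.norm_sq_split u
    have h3 : 0 ≤ ‖u - Y.pmH u‖ ^ 2 := by positivity
    linarith only [h3, h2, h1]
  refine ⟨3, by norm_num, fun v hv => ?_⟩
  obtain ⟨u, hu⟩ := hBc.continuousLinearEquivOfBilin.surjective v
  have hTu : T u = v := by
    rw [← hu]
    refine ext_inner_right ℝ fun w => ?_
    rw [hBc.continuousLinearEquivOfBilin_apply, hBa]
  have hz : Y.pmH (P (Y.pmH u)) = v := by
    have h := congrArg Y.pmH hTu
    rw [hTa, map_add, Y.pmH_pmH, map_sub, Y.pmH_pmH, sub_self, add_zero, hv] at h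
    exact h
  refine ⟨P (Y.pmH u), hPmem _, hz, ?_⟩
  set φ := Y.pmH u with hφ
  have h1 := hco φ (Y.pmH_pmH u)
  have h2 : ‖P φ‖ ^ 2 ≤ ‖v‖ * ‖φ‖ := by
    rw [← hPP, ← hz]
    have h3 : ⟪P φ, φ⟫_ℝ = ⟪Y.pmH (P φ), φ⟫_ℝ := by
      rw [Y.pmH_symm, hφ, Y.pmH_pmH]
    rw [h3]
    exact real_inner_le_norm _ _
  have h4 : ‖φ‖ ≤ 3 * ‖v‖ := by
    by_contra hlt
    push Not at hlt
    have h0 : 0 < ‖φ‖ := lt_of_le_of_lt (by positivity) hlt
    linarith only [mul_pos (sub_pos.2 hlt) (sub_pos.2 h0), h2, h1]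
  have h5 : ‖P φ‖ ≤ ‖φ‖ := by
    have h6 : ‖P φ‖ ^ 2 ≤ ‖P φ‖ * ‖φ‖ := by
      rw [← hPP]; exact real_inner_le_norm _ _
    by_contra hlt
    push Not at hlt
    have h0 : 0 < ‖P φ‖ := (norm_nonneg φ).trans_lt hlt
    nlinarith only [h6, hlt, h0]
  linarith only [h4, h5]

end SmSys
end P204K.GX
end

section

open scoped InnerProductSpace BigOperators Topology
open Filter Finset

namespace P204K.GX.SmSys

variable {H Om : Type} [NormedAddCommGroup H] [InnerProductSpace ℝ H] [CompleteSpace H]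
  [AddCommGroup Om] [Module ℝ Om] (Y : SmSys H Om)

theorem pm_pm (b : Om) : Y.pm (Y.pm b) = Y.pm b := by
  apply Y.ι_inj
  rw [← Y.pmH_ι, ← Y.pmH_ι, Y.pmH_pmH]

theorem N_neg (m : ℕ) (δ : ℝ) (b : Om) : Y.N m δ (-b) = Y.N m δ b := by
  have := Y.N_smul m δ (-1) b
  simpa only [neg_smul, one_smul, abs_neg, abs_one, one_mul] using this

theorem N_sub (m : ℕ) (δ : ℝ) (a b : Om) : Y.N m δ (a - b) ≤ Y.N m δ a + Y.N m δ b := by
  rw [sub_eq_add_neg]
  exact (Y.N_add m δ a (-b)).trans (by rw [N_neg])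

theorem N_mono_m {m n : ℕ} (h : m ≤ n) {δ : ℝ} (hδ : 0 < δ) (b : Om) :
    Y.N m δ b ≤ Y.N n δ b := by
  induction n, h using Nat.le_induction with
  | base => exact le_rfl
  | succ n _ ih => exact ih.trans (Y.N_succ n δ b hδ)

theorem M_zero (m : ℕ) : Y.M m 0 = 0 := by
  have := Y.M_smul m 0 (0 : Om)
  simpa using this

theorem M_sum (m : ℕ) (b : ℕ → Om) (n : ℕ) :
    Y.M m (∑ k ∈ range n, b k) ≤ ∑ k ∈ range n, Y.M m (b k) := by
  induction n with
  | zero => simp only [range_zero, sum_empty, M_zero, Std.le_refl]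
  | succ n ih =>
    rw [sum_range_succ, sum_range_succ]
    exact (Y.M_add m _ _).trans (by gcongr)

/-- the L2 norm is bounded by the sup norm -/
theorem norm_le_M (b : Om) : ‖Y.ι b‖ ≤ Y.K 0 * Y.K 0 * Y.M 0 b := by
  have h1 := Y.norm_le_N 1 b one_pos
  have h2 := Y.N_le_M 0 1 b one_pos le_rfl
  have h3 : 0 ≤ Y.K 0 := zero_le_one.trans (Y.one_le_K 0)
  calc ‖Y.ι b‖ ≤ Y.K 0 * Y.N 0 1 b := h1
    _ ≤ Y.K 0 * (Y.K 0 * Y.M 0 b) := by gcongr
    _ = _ := by ring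

section series
variable (zf : Om → H) (v : Om)

/-- the remainders of the smoothing series -/
noncomputable def vs : ℕ → Om
  | 0 => v
  | k + 1 => vs k - Y.pm (Y.S (dk Y.δ0 k) (zf (vs k)))

variable {zf v} {C₂ : ℝ} (hC₂ : 0 ≤ C₂) (hv : Y.pm v = v)
  (hzf : ∀ w : Om, Y.pm w = w → zf w ∈ Y.Zw ∧ Y.pmH (zf w) = Y.ι w ∧ ‖zf w‖ ≤ C₂ * ‖Y.ι w‖)

include hv in
theorem pm_vs (k : ℕ) : Y.pm (vs Y zf v k) = vs Y zf v k := by
  induction k with
  | zero => exact hv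
  | succ k ih => simp only [vs, map_sub, ih, pm_pm]

include hC₂ hv hzf in
theorem commutator_le (j k : ℕ) :
    Y.N j 1 (Y.pm (Y.S (dk Y.δ0 k) (zf (vs Y zf v k))) -
      Y.S (dk Y.δ0 k) (Y.pmH (zf (vs Y zf v k)))) ≤
      (Y.K j * C₂ * Y.K 0) * (dk Y.δ0 k * (dk Y.δ0 k ^ j)⁻¹ * Y.N 0 1 (vs Y zf v k)) := by
  have hd := dk_pos Y.δ0_pos k
  have hd0 := dk_le Y.δ0_pos k
  have hd1 := dk_le_one Y.δ0_pos Y.δ0_le k
  set c := Y.pm (Y.S (dk Y.δ0 k) (zf (vs Y zf v k))) -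
    Y.S (dk Y.δ0 k) (Y.pmH (zf (vs Y zf v k))) with hc
  have h1 := Y.N_scale j (dk Y.δ0 k) c hd hd1
  have h2 := Y.SC j (dk Y.δ0 k) (zf (vs Y zf v k)) hd hd0
  have h3 := (hzf _ (pm_vs (zf := zf) Y hv k)).2.2
  have h4 := Y.norm_le_N 1 (vs Y zf v k) one_pos
  have hKj : 0 ≤ Y.K j := zero_le_one.trans (Y.one_le_K j)
  have hK0 : 0 ≤ Y.K 0 := zero_le_one.trans (Y.one_le_K 0)
  have h5 : dk Y.δ0 k ^ j * Y.N j 1 c ≤
      Y.K j * dk Y.δ0 k * (C₂ * (Y.K 0 * Y.N 0 1 (vs Y zf v k))) := by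
    calc dk Y.δ0 k ^ j * Y.N j 1 c ≤ Y.K j * dk Y.δ0 k * ‖zf (vs Y zf v k)‖ := h1.trans h2
      _ ≤ Y.K j * dk Y.δ0 k * (C₂ * ‖Y.ι (vs Y zf v k)‖) := by gcongr
      _ ≤ _ := by gcongr
  have hp : 0 < dk Y.δ0 k ^ j := by positivity
  calc Y.N j 1 c = (dk Y.δ0 k ^ j)⁻¹ * (dk Y.δ0 k ^ j * Y.N j 1 c) := by field_simp
    _ ≤ (dk Y.δ0 k ^ j)⁻¹ * (Y.K j * dk Y.δ0 k * (C₂ * (Y.K 0 * Y.N 0 1 (vs Y zf v k)))) := by
        gcongr
    _ = _ := by ring

include hv hzf in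
theorem vs_succ (k : ℕ) : vs Y zf v (k + 1) =
    (vs Y zf v k - Y.S (dk Y.δ0 k) (Y.ι (vs Y zf v k))) -
      (Y.pm (Y.S (dk Y.δ0 k) (zf (vs Y zf v k))) -
        Y.S (dk Y.δ0 k) (Y.pmH (zf (vs Y zf v k)))) := by
  rw [(hzf _ (pm_vs (zf := zf) Y hv k)).2.1]
  simp only [vs]
  abel

include hC₂ hzf in
/-- rapid decay of the remainders -/
theorem exists_decay (q : ℕ) : ∃ A : ℝ, 0 ≤ A ∧ ∀ (w : Om), Y.pm w = w → ∀ k,
    Y.N 0 1 (vs Y zf w k) ≤ A * dk Y.δ0 k ^ q * (1 / 2) ^ k * Y.N (q + 1) 1 w := by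
  set Ks := ∑ j ∈ range (q + 2), Y.K j with hKs
  have hK0 : 0 ≤ Y.K 0 := zero_le_one.trans (Y.one_le_K 0)
  have hKj : ∀ j, j ≤ q + 1 → Y.K j ≤ Ks := fun j hj =>
    single_le_sum (f := Y.K) (fun i _ => zero_le_one.trans (Y.one_le_K i))
      (mem_range.2 (by omega))
  have hKs1 : 1 ≤ Ks := (Y.one_le_K 0).trans (hKj 0 (Nat.zero_le _))
  set C := (1 + Ks) * (1 + C₂ * Y.K 0) with hC
  have hCK : 0 ≤ C₂ * Y.K 0 := mul_nonneg hC₂ hK0
  have hC1 : 1 + Ks ≤ C := by linarith only [mul_nonneg (sub_nonneg.2 hKs1) (sub_nonneg.2 hCK), mul_nonneg (sub_nonneg.2 hC₂) (sub_nonneg.2 hK0)]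
  have hC2 : ∀ j, j ≤ q + 1 → Y.K j * C₂ * Y.K 0 ≤ C := by
    intro j hj
    have := hKj j hj
    have h2 : Y.K j * (C₂ * Y.K 0) ≤ Ks * (C₂ * Y.K 0) := by gcongr
    linarith only [h2, hCK, hKs1]
  obtain ⟨A, hA0, hA⟩ := super_decay Y.δ0_pos Y.δ0_le q C (by linarith)
  refine ⟨A, hA0, fun w hw k => ?_⟩
  refine hA (fun j k => Y.N j 1 (vs Y zf w k)) (fun j k => Y.N_nonneg _ _ _)
    (fun j k hj => N_mono_m Y hj one_pos _) ?_ ?_ k
  · intro j k hj
    have hd := dk_pos Y.δ0_pos k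
    have hd0 := dk_le Y.δ0_pos k
    have hd1 := dk_le_one Y.δ0_pos Y.δ0_le k
    have h1 := commutator_le Y hC₂ hw hzf j k
    have h2 := Y.O2 j (dk Y.δ0 k) 1 (vs Y zf w k) hd hd0 hd1 le_rfl
    have hn0 := Y.N_nonneg 0 1 (vs Y zf w k)
    have hn1 := Y.N_nonneg (j + 1) 1 (vs Y zf w k)
    have hKle := hKj j hj.le
    have hC2j := hC2 j hj.le
    rw [div_one] at h2
    rw [vs_succ Y hw hzf]
    refine (N_sub Y _ _ _ _).trans ?_
    have h3 : Y.K j * dk Y.δ0 k * Y.N (j + 1) 1 (vs Y zf w k) ≤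
        C * (dk Y.δ0 k * Y.N (j + 1) 1 (vs Y zf w k)) := by
      rw [mul_assoc]
      apply mul_le_mul_of_nonneg_right _ (by positivity)
      linarith
    have h4 : (Y.K j * C₂ * Y.K 0) * (dk Y.δ0 k * (dk Y.δ0 k ^ j)⁻¹ * Y.N 0 1 (vs Y zf w k)) ≤
        C * (dk Y.δ0 k * (dk Y.δ0 k ^ j)⁻¹ * Y.N 0 1 (vs Y zf w k)) :=
      mul_le_mul_of_nonneg_right hC2j (by positivity)
    calc _ ≤ _ := add_le_add h2 h1
      _ ≤ _ := add_le_add h3 h4
      _ = _ := by ring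
  · intro k
    have hd := dk_pos Y.δ0_pos k
    have hd0 := dk_le Y.δ0_pos k
    have hd1 := dk_le_one Y.δ0_pos Y.δ0_le k
    have h1 := commutator_le Y hC₂ hw hzf (q + 1) k
    have h2 := Y.O1 (q + 1) (dk Y.δ0 k) 1 (vs Y zf w k) hd hd0 hd1 le_rfl
    have hn0 := Y.N_nonneg 0 1 (vs Y zf w k)
    have hn1 := Y.N_nonneg (q + 1) 1 (vs Y zf w k)
    have hKle := hKj (q + 1) le_rfl
    have hC2j := hC2 (q + 1) le_rfl
    rw [vs_succ Y hw hzf]
    refine (N_sub Y _ _ _ _).trans ?_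
    have h3 : Y.N (q + 1) 1 (vs Y zf w k - Y.S (dk Y.δ0 k) (Y.ι (vs Y zf w k))) ≤
        C * Y.N (q + 1) 1 (vs Y zf w k) := by
      refine (N_sub Y _ _ _ _).trans ?_
      (by_contra nlg; linarith only [nlg, mul_nonneg (sub_nonneg.2 hn1) (sub_nonneg.2 hKle), mul_nonneg (sub_nonneg.2 hd1) (sub_nonneg.2 h2), mul_nonneg (le_of_lt (sub_pos.2 hd)) (sub_nonneg.2 h2), mul_nonneg (sub_nonneg.2 hC1) (sub_nonneg.2 hn1), mul_nonneg (le_of_lt (sub_pos.2 (not_le.1 nlg))) (sub_nonneg.2 hd1), mul_pos (sub_pos.2 (not_le.1 nlg)) (sub_pos.2 hd)])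
    have h4 : (Y.K (q + 1) * C₂ * Y.K 0) *
        (dk Y.δ0 k * (dk Y.δ0 k ^ (q + 1))⁻¹ * Y.N 0 1 (vs Y zf w k)) ≤
        C * (dk Y.δ0 k * (dk Y.δ0 k ^ (q + 1))⁻¹ * Y.N 0 1 (vs Y zf w k)) :=
      mul_le_mul_of_nonneg_right hC2j (by positivity)
    calc _ ≤ _ := add_le_add h3 (h1.trans h4)
      _ = _ := by ring

end series

/-- smooth solvability -/
theorem exists_ER : ∃ (k : ℕ) (C : ℝ), 0 ≤ C ∧ ∀ v : Om, Y.pm v = v →
    ∃ z ∈ Y.Cl, Y.pm z = v ∧ Y.M 0 z ≤ C * Y.M k v := by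
  classical
  obtain ⟨C₂, hC₂, hL2⟩ := Y.exists_L2
  have hex : ∀ w : Om, ∃ z : H, Y.pm w = w →
      z ∈ Y.Zw ∧ Y.pmH z = Y.ι w ∧ ‖z‖ ≤ C₂ * ‖Y.ι w‖ := by
    intro w
    by_cases h : Y.pm w = w
    · obtain ⟨z, h1, h2, h3⟩ := hL2 (Y.ι w) (by rw [Y.pmH_ι, h])
      exact ⟨z, fun _ => ⟨h1, h2, h3⟩⟩
    · exact ⟨0, fun h' => absurd h' h⟩
  choose zf hzf using hex
  have hK0 : 0 ≤ Y.K 0 := zero_le_one.trans (Y.one_le_K 0)
  -- bounds for the terms
  have hterm : ∀ m : ℕ, ∃ A : ℝ, 0 ≤ A ∧ ∀ v : Om, Y.pm v = v → ∀ k,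
      Y.M m (Y.S (dk Y.δ0 k) (zf (vs Y zf v k))) ≤ A * Y.M (m + 3) v * (1 / 2) ^ k := by
    intro m
    obtain ⟨A, hA0, hA⟩ := exists_decay Y hC₂ hzf (m + 2)
    have hKm : 0 ≤ Y.K m := zero_le_one.trans (Y.one_le_K m)
    have hKm3 : 0 ≤ Y.K (m + 3) := zero_le_one.trans (Y.one_le_K (m + 3))
    refine ⟨Y.K m * (C₂ * (Y.K 0 * (A * Y.K (m + 3)))), by positivity, ?_⟩
    intro v hv k
    have hd := dk_pos Y.δ0_pos k
    have hd0 := dk_le Y.δ0_pos k
    have h1 := Y.SSM m (dk Y.δ0 k) (zf (vs Y zf v k)) hd hd0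
    have h2 := (hzf _ (pm_vs (zf := zf) Y hv k)).2.2
    have h3 := Y.norm_le_N 1 (vs Y zf v k) one_pos
    have h4 := hA v hv k
    have h5 := Y.N_le_M (m + 3) 1 v one_pos le_rfl
    have hp : 0 < dk Y.δ0 k ^ (2 + m) := by positivity
    have hMv := Y.M_nonneg (m + 3) v
    calc Y.M m (Y.S (dk Y.δ0 k) (zf (vs Y zf v k)))
        ≤ Y.K m * (dk Y.δ0 k ^ (2 + m))⁻¹ * ‖zf (vs Y zf v k)‖ := h1
      _ ≤ Y.K m * (dk Y.δ0 k ^ (2 + m))⁻¹ * (C₂ * ‖Y.ι (vs Y zf v k)‖) := by gcongr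
      _ ≤ Y.K m * (dk Y.δ0 k ^ (2 + m))⁻¹ * (C₂ * (Y.K 0 * Y.N 0 1 (vs Y zf v k))) := by gcongr
      _ ≤ Y.K m * (dk Y.δ0 k ^ (2 + m))⁻¹ * (C₂ * (Y.K 0 *
          (A * dk Y.δ0 k ^ (m + 2) * (1 / 2) ^ k * Y.N (m + 2 + 1) 1 v))) := by gcongr
      _ ≤ Y.K m * (dk Y.δ0 k ^ (2 + m))⁻¹ * (C₂ * (Y.K 0 *
          (A * dk Y.δ0 k ^ (m + 2) * (1 / 2) ^ k * (Y.K (m + 3) * Y.M (m + 3) v)))) := by gcongr
      _ = _ := by
        rw [add_comm m 2]
        field_simp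
  obtain ⟨A₀, hA₀, hT₀⟩ := hterm 0
  refine ⟨3, 2 * A₀, by positivity, ?_⟩
  intro v hv
  set b : ℕ → Om := fun k => Y.S (dk Y.δ0 k) (zf (vs Y zf v k)) with hb
  have hsum : ∀ m, Summable fun k => Y.M m (b k) := by
    intro m
    obtain ⟨A, hA0, hA⟩ := hterm m
    refine Summable.of_nonneg_of_le (fun k => Y.M_nonneg _ _) (fun k => hA v hv k) ?_
    exact (summable_geometric_of_lt_one (by norm_num1) (by norm_num1)).mul_left _
  obtain ⟨s, hs⟩ := Y.complete b hsum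
  have hbCl : ∀ k, b k ∈ Y.Cl := fun k =>
    Y.S_mem_Cl _ (dk_pos Y.δ0_pos k) (dk_le Y.δ0_pos k) (hzf _ (pm_vs (zf := zf) Y hv k)).1
  -- convergence in `H`
  have hH : Tendsto (fun n => Y.ι (s - ∑ k ∈ range n, b k)) atTop (𝓝 0) := by
    rw [tendsto_zero_iff_norm_tendsto_zero]
    refine squeeze_zero (fun n => norm_nonneg _) (fun n => norm_le_M Y _) ?_
    simpa only [mul_zero] using (hs 0).const_mul (Y.K 0 * Y.K 0)
  refine ⟨s, ?_, ?_, ?_⟩
  · apply Y.closed_of_weak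
    intro e he
    have h1 : Tendsto (fun n => ⟪Y.ι e, Y.st (Y.ι (s - ∑ k ∈ range n, b k))⟫_ℝ) atTop
        (𝓝 ⟪Y.ι e, Y.st 0⟫_ℝ) :=
      (tendsto_const_nhds).inner ((Y.st.continuous.tendsto 0).comp hH)
    have h2 : ∀ n, ⟪Y.ι e, Y.st (Y.ι (s - ∑ k ∈ range n, b k))⟫_ℝ = ⟪Y.ι e, Y.st (Y.ι s)⟫_ℝ := by
      intro n
      rw [map_sub, map_sub, inner_sub_right]
      have : ⟪Y.ι e, Y.st (Y.ι (∑ k ∈ range n, b k))⟫_ℝ = 0 :=
        Y.stokes e he _ (Submodule.sum_mem _ fun k _ => hbCl k)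
      rw [this, sub_zero]
    simp only [h2] at h1
    rw [map_zero, inner_zero_right] at h1
    exact tendsto_nhds_unique tendsto_const_nhds h1
  · apply Y.ι_inj
    have hpsum : ∀ n, Y.pm (∑ k ∈ range n, b k) = v - vs Y zf v n := by
      intro n
      induction n with
      | zero => simp only [range_zero, sum_empty, map_zero, vs, sub_self]
      | succ n ih =>
        rw [sum_range_succ, map_add, ih]
        simp only [vs, hb]
        abel
    have h1 : Tendsto (fun n => Y.pmH (Y.ι (s - ∑ k ∈ range n, b k))) atTop (𝓝 (Y.pmH 0)) :=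
      (Y.pmH.continuous.tendsto 0).comp hH
    have h2 : ∀ n, Y.pmH (Y.ι (s - ∑ k ∈ range n, b k)) =
        Y.ι (Y.pm s) - Y.ι v + Y.ι (vs Y zf v n) := by
      intro n
      rw [Y.pmH_ι, map_sub, hpsum, map_sub, map_sub]
      abel
    obtain ⟨A, hA0, hA⟩ := exists_decay Y hC₂ hzf 0
    have h3 : Tendsto (fun n => Y.ι (vs Y zf v n)) atTop (𝓝 0) := by
      rw [tendsto_zero_iff_norm_tendsto_zero]
      refine squeeze_zero (fun n => norm_nonneg _)
        (g := fun n => Y.K 0 * (A * Y.N 1 1 v) * (1 / 2) ^ n) (fun n => ?_) ?_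
      · have e1 := Y.norm_le_N 1 (vs Y zf v n) one_pos
        have e2 := hA v hv n
        calc ‖Y.ι (vs Y zf v n)‖ ≤ Y.K 0 * Y.N 0 1 (vs Y zf v n) := e1
          _ ≤ Y.K 0 * (A * dk Y.δ0 n ^ 0 * (1 / 2) ^ n * Y.N (0 + 1) 1 v) := by gcongr
          _ = _ := by simp only [pow_zero, mul_one, one_div, inv_pow, zero_add]; ring
      · have := (tendsto_pow_atTop_nhds_zero_of_lt_one (by norm_num : (0:ℝ) ≤ 1/2)
          (by norm_num)).const_mul (Y.K 0 * (A * Y.N 1 1 v))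
        simpa only [one_div, inv_pow, mul_zero] using this
    simp only [h2] at h1
    rw [map_zero] at h1
    have h4 : Tendsto (fun n => Y.ι (Y.pm s) - Y.ι v + Y.ι (vs Y zf v n)) atTop
        (𝓝 (Y.ι (Y.pm s) - Y.ι v + 0)) := tendsto_const_nhds.add h3
    have h5 := tendsto_nhds_unique h4 h1
    rw [add_zero, sub_eq_zero] at h5
    exact h5
  · have hbound : ∀ n, Y.M 0 s ≤ Y.M 0 (s - ∑ k ∈ range n, b k) + 2 * A₀ * Y.M 3 v := by
      intro n
      have e1 : s = (s - ∑ k ∈ range n, b k) + ∑ k ∈ range n, b k := by abel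
      have e2 : Y.M 0 s ≤ Y.M 0 (s - ∑ k ∈ range n, b k) + Y.M 0 (∑ k ∈ range n, b k) := by
        conv_lhs => rw [e1]
        exact Y.M_add 0 _ _
      have e3 : Y.M 0 (∑ k ∈ range n, b k) ≤ 2 * A₀ * Y.M 3 v := by
        calc Y.M 0 (∑ k ∈ range n, b k) ≤ ∑ k ∈ range n, Y.M 0 (b k) := M_sum Y 0 b n
          _ ≤ ∑ k ∈ range n, A₀ * Y.M (0 + 3) v * (1 / 2) ^ k := by
              apply sum_le_sum
              intro k _
              exact hT₀ v hv k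
          _ = A₀ * Y.M 3 v * ∑ k ∈ range n, (1 / 2 : ℝ) ^ k := by
              rw [mul_sum]
          _ ≤ A₀ * Y.M 3 v * 2 := by
              apply mul_le_mul_of_nonneg_left _ (mul_nonneg hA₀ (Y.M_nonneg _ _))
              have := (summable_geometric_of_lt_one (by norm_num1 : (0:ℝ) ≤ 1/2)
                (by norm_num)).sum_le_tsum (range n) (fun i _ => by positivity)
              refine this.trans ?_
              rw [tsum_geometric_of_lt_one (by norm_num) (by norm_num)]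
              norm_num1
          _ = _ := by ring
      linarith
    have h1 : Tendsto (fun n => Y.M 0 (s - ∑ k ∈ range n, b k) + 2 * A₀ * Y.M 3 v) atTop
        (𝓝 (0 + 2 * A₀ * Y.M 3 v)) := (hs 0).add_const _
    rw [zero_add] at h1
    exact ge_of_tendsto' h1 hbound

/-- the functional phi -/
theorem exists_phi (T : Om →ₗ[ℝ] ℝ) (CT : ℝ) (hT : ∀ b, |T b| ≤ CT * Y.M 0 b)
    (hT' : ∀ b, T (Y.pm b) = 0) (hT'' : ∀ c ∈ Y.Cl, Y.pm c = 0 → T c = 0) :
    ∃ (φ : Om →ₗ[ℝ] ℝ) (k : ℕ) (C : ℝ), 0 ≤ C ∧ (∀ b, φ (Y.pm b) = φ b) ∧ (∀ b, |φ b| ≤ C * Y.M k b) ∧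
      ∀ c ∈ Y.Cl, T c + φ c = 0 := by
  obtain ⟨k, C, hC, hER⟩ := exists_ER Y
  have hex : ∀ b : Om, ∃ z ∈ Y.Cl, Y.pm z = Y.pm b ∧ Y.M 0 z ≤ C * Y.M k (Y.pm b) :=
    fun b => hER (Y.pm b) (pm_pm Y b)
  choose zf hzf1 hzf2 hzf3 using hex
  have huniq : ∀ z ∈ Y.Cl, ∀ b, Y.pm z = Y.pm b → T z = T (zf b) := by
    intro z hz b hzb
    have h1 := hT'' (z - zf b) (Submodule.sub_mem _ hz (hzf1 b)) (by
      rw [map_sub, hzb, hzf2, sub_self])
    rw [map_sub] at h1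
    linarith only [h1]
  let φ : Om →ₗ[ℝ] ℝ :=
    { toFun := fun b => -T (zf b)
      map_add' := by
        intro a b
        have h1 := huniq (zf a + zf b) (Submodule.add_mem _ (hzf1 a) (hzf1 b)) (a + b) (by
          rw [map_add, map_add, hzf2, hzf2])
        rw [map_add] at h1
        linarith only [h1]
      map_smul' := by
        intro r b
        have h1 := huniq (r • zf b) (Submodule.smul_mem _ r (hzf1 b)) (r • b) (by
          rw [map_smul, map_smul, hzf2])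
        rw [map_smul] at h1
        simp only [smul_eq_mul, RingHom.id_apply] at h1 ⊢
        linarith only [h1] }
  have hK : 0 ≤ Y.K k := zero_le_one.trans (Y.one_le_K k)
  refine ⟨φ, k, |CT| * (C * Y.K k), by positivity, ?_, ?_, ?_⟩
  · intro b
    have h1 := huniq (zf b) (hzf1 b) (Y.pm b) (by rw [hzf2, pm_pm])
    change -T (zf (Y.pm b)) = -T (zf b)
    rw [h1]
  · intro b
    change |(-T (zf b))| ≤ _
    rw [abs_neg]
    have hM := Y.M_nonneg 0 (zf b)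
    have hMk := Y.M_nonneg k b
    calc |T (zf b)| ≤ CT * Y.M 0 (zf b) := hT _
      _ ≤ |CT| * Y.M 0 (zf b) := by gcongr; exact le_abs_self _
      _ ≤ |CT| * (C * Y.M k (Y.pm b)) := by gcongr; exact hzf3 b
      _ ≤ |CT| * (C * (Y.K k * Y.M k b)) := by gcongr; exact Y.M_pm k b
      _ = _ := by ring
  · intro c hc
    have h1 := huniq c hc c rfl
    change T c + -T (zf c) = 0
    rw [h1]; ring

end P204K.GX.SmSys
end

section
/-! Module A4: the decomposition (D). -/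
open scoped InnerProductSpace
open Filter Topology
namespace P204K.GX

variable {H Om : Type} [NormedAddCommGroup H] [InnerProductSpace ℝ H] [CompleteSpace H]
  [AddCommGroup Om] [Module ℝ Om]

namespace SmSys
variable (Y : SmSys H Om)

theorem w_zero (δ lam : ℝ) (v : Om) : Y.w δ lam v 0 = v := rfl

theorem w_succ (δ lam : ℝ) (v : Om) (l : ℕ) :
    Y.w δ lam v (l + 1) = Y.w δ lam v l - Y.S (δ * lam⁻¹ ^ l) (Y.ι (Y.w δ lam v l)) := rfl

theorem sum_w (δ lam : ℝ) (v : Om) (n : ℕ) :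
    v = ∑ l ∈ Finset.range n, Y.S (δ * lam⁻¹ ^ l) (Y.ι (Y.w δ lam v l)) + Y.w δ lam v n := by
  induction n with
  | zero => simp only [Finset.range_zero, inv_pow, Finset.sum_empty, w_zero, zero_add]
  | succ n ih =>
    rw [Finset.sum_range_succ, w_succ]
    conv_lhs => rw [ih]
    abel

theorem N_sub_le (m : ℕ) (δ : ℝ) (a b : Om) : Y.N m δ (a - b) ≤ Y.N m δ a + Y.N m δ b := by
  have h := Y.N_add m δ a ((-1 : ℝ) • b)
  rw [Y.N_smul, neg_one_smul, ← sub_eq_add_neg] at h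
  simpa only [ge_iff_le, abs_neg, abs_one, one_mul] using h

theorem M_sub_le (m : ℕ) (a b : Om) : Y.M m (a - b) ≤ Y.M m a + Y.M m b := by
  have h := Y.M_add m a ((-1 : ℝ) • b)
  rw [Y.M_smul, neg_one_smul, ← sub_eq_add_neg] at h
  simpa only [ge_iff_le, abs_neg, abs_one, one_mul] using h

theorem N_le_N {m n : ℕ} (h : m ≤ n) (δ : ℝ) (hδ : 0 < δ) (b : Om) : Y.N m δ b ≤ Y.N n δ b := by
  induction n, h using Nat.le_induction with
  | base => exact le_rfl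
  | succ n _ ih => exact ih.trans (Y.N_succ n δ b hδ)

/-- the geometric scales are admissible -/
theorem scale_ok {δ lam : ℝ} (hδ : 0 < δ) (hlam : 1 ≤ lam) (l : ℕ) :
    0 < δ * lam⁻¹ ^ l ∧ δ * lam⁻¹ ^ l ≤ δ := by
  have h0 : 0 < lam := by linarith only [hlam]
  refine ⟨by positivity, ?_⟩
  have : lam⁻¹ ^ l ≤ 1 := pow_le_one₀ (by positivity) (inv_le_one_of_one_le₀ hlam)
  nlinarith only [hδ, this]

/-- The constants in the double induction. -/
noncomputable def cst (A lam : ℝ) : ℕ → ℝ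
  | 0 => 1
  | p + 1 => A * lam ^ (p + 1) * cst A lam p

theorem cst_one_le {A lam : ℝ} (hA : 1 ≤ A) (hl : 1 ≤ lam) (p : ℕ) : 1 ≤ cst A lam p := by
  induction p with
  | zero => exact le_rfl
  | succ p ih =>
    rw [cst]
    have h1 : 1 ≤ lam ^ (p + 1) := one_le_pow₀ hl
    have h2 : 1 ≤ A * lam ^ (p + 1) := by nlinarith only [hA, h1]
    nlinarith only [ih, h2]

/-- The double induction. -/
theorem w_bound_N {A lam δ : ℝ} (q : ℕ) (hA : ∀ m ≤ q, 1 + Y.K m ≤ A) (hl : 1 ≤ lam)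
    (hδ : 0 < δ) (hδ1 : δ ≤ Y.δ0) (v : Om) (p : ℕ) (hp : p ≤ q) (l : ℕ) :
    Y.N (q - p) δ (Y.w δ lam v l) ≤ cst A lam p * (A * lam⁻¹ ^ p) ^ l * Y.N q δ v := by
  have hA1 : 1 ≤ A := by
    have := hA 0 (Nat.zero_le _)
    have h2 := Y.one_le_K 0
    linarith
  have hlam0 : 0 < lam := by linarith only [hl]
  induction p generalizing l with
  | zero =>
    simp only [Nat.sub_zero, cst, pow_zero, mul_one, one_mul]
    induction l with
    | zero => simp [w_zero]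
    | succ l ih =>
      rw [w_succ]
      obtain ⟨s1, s2⟩ := scale_ok hδ hl l
      have h1 := Y.N_sub_le q δ (Y.w δ lam v l) (Y.S (δ * lam⁻¹ ^ l) (Y.ι (Y.w δ lam v l)))
      have h2 := Y.O1 q (δ * lam⁻¹ ^ l) δ (Y.w δ lam v l) s1 (s2.trans hδ1) s2
        (hδ1.trans Y.δ0_le)
      have h3 := hA q le_rfl
      have h4 := Y.N_nonneg q δ (Y.w δ lam v l)
      calc _ ≤ (1 + Y.K q) * Y.N q δ (Y.w δ lam v l) := by linarith
        _ ≤ A * Y.N q δ (Y.w δ lam v l) := by gcongr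
        _ ≤ A * (A ^ l * Y.N q δ v) := by gcongr
        _ = _ := by ring
  | succ p ihp =>
    have hpq : p ≤ q := by omega
    have e1 : q - p = (q - (p + 1)) + 1 := by omega
    have hc := cst_one_le hA1 hl (p + 1)
    have hc' := cst_one_le hA1 hl p
    have hN := Y.N_nonneg q δ v
    cases l with
    | zero =>
      rw [w_zero, pow_zero, mul_one]
      have h1 := Y.N_le_N (Nat.sub_le q (p + 1)) δ hδ v
      linarith only [mul_nonneg (sub_nonneg.2 hc) (sub_nonneg.2 hN), h1]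
    | succ l =>
      rw [w_succ]
      obtain ⟨s1, s2⟩ := scale_ok hδ hl l
      have h1 := Y.O2 (q - (p + 1)) (δ * lam⁻¹ ^ l) δ (Y.w δ lam v l) s1 (s2.trans hδ1) s2
        (hδ1.trans Y.δ0_le)
      rw [← e1] at h1
      have h2 := ihp hpq l
      have h3 : Y.K (q - (p + 1)) ≤ A := by
        have := hA (q - (p + 1)) (Nat.sub_le _ _)
        linarith only [this]
      have h4 : δ * lam⁻¹ ^ l / δ = lam⁻¹ ^ l := by field_simp
      rw [h4] at h1
      have hK : 0 ≤ Y.K (q - (p + 1)) := by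
        have := Y.one_le_K (q - (p + 1))
        linarith only [this]
      have h8 := Y.N_nonneg (q - p) δ (Y.w δ lam v l)
      calc _ ≤ Y.K (q - (p + 1)) * lam⁻¹ ^ l * Y.N (q - p) δ (Y.w δ lam v l) := h1
        _ ≤ A * lam⁻¹ ^ l * (cst A lam p * (A * lam⁻¹ ^ p) ^ l * Y.N q δ v) := by
            gcongr
        _ = A * cst A lam p * (A ^ l * lam⁻¹ ^ ((p + 1) * l)) * Y.N q δ v := by
            rw [mul_pow, ← pow_mul]
            ring
        _ ≤ A * cst A lam p * (A * (A ^ l * lam⁻¹ ^ ((p + 1) * l))) * Y.N q δ v := by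
            have h5 : 0 ≤ A ^ l * lam⁻¹ ^ ((p + 1) * l) := by positivity
            have h7 : A ^ l * lam⁻¹ ^ ((p + 1) * l) ≤ A * (A ^ l * lam⁻¹ ^ ((p + 1) * l)) := by
              linarith only [mul_nonneg (sub_nonneg.2 hA1) (sub_nonneg.2 h5)]
            exact mul_le_mul_of_nonneg_right (mul_le_mul_of_nonneg_left h7 (by positivity)) hN
        _ = cst A lam (p + 1) * (A * lam⁻¹ ^ (p + 1)) ^ (l + 1) * Y.N q δ v := by
            rw [cst, mul_pow, ← pow_mul]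
            have h6 : lam ^ (p + 1) * lam⁻¹ ^ ((p + 1) * (l + 1)) = lam⁻¹ ^ ((p + 1) * l) := by
              rw [mul_add, mul_one, pow_add (lam⁻¹) ((p + 1) * l) (p + 1),
                mul_comm (lam ^ (p + 1)), mul_assoc, ← mul_pow,
                inv_mul_cancel₀ hlam0.ne', one_pow, mul_one]
            rw [← h6]
            ring

theorem w_bound_M {A lam δ : ℝ} (q : ℕ) (hA : 1 + Y.K q ≤ A) (hl : 1 ≤ lam)
    (hδ : 0 < δ) (hδ1 : δ ≤ Y.δ0) (v : Om) (l : ℕ) :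
    Y.M q (Y.w δ lam v l) ≤ A ^ l * Y.M q v := by
  have hA1 : 1 ≤ A := by
    have h2 := Y.one_le_K q
    linarith
  induction l with
  | zero => simp [w_zero]
  | succ l ih =>
    rw [w_succ]
    obtain ⟨s1, s2⟩ := scale_ok hδ hl l
    have h1 := Y.M_sub_le q (Y.w δ lam v l) (Y.S (δ * lam⁻¹ ^ l) (Y.ι (Y.w δ lam v l)))
    have h2 := Y.O1M q (δ * lam⁻¹ ^ l) (Y.w δ lam v l) s1 (s2.trans hδ1)
    have h4 := Y.M_nonneg q (Y.w δ lam v l)
    calc _ ≤ (1 + Y.K q) * Y.M q (Y.w δ lam v l) := by linarith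
      _ ≤ A * Y.M q (Y.w δ lam v l) := by gcongr
      _ ≤ A * (A ^ l * Y.M q v) := by gcongr
      _ = _ := by ring

theorem w_tendsto_M {A lam δ : ℝ} (q : ℕ) (hA : ∀ m ≤ q + 1, 1 + Y.K m ≤ A) (hl : A < lam)
    (hδ : 0 < δ) (hδ1 : δ ≤ Y.δ0) (v : Om) :
    Tendsto (fun l => Y.M q (Y.w δ lam v l)) atTop (𝓝 0) := by
  have hA1 : 1 ≤ A := by
    have := hA 0 (Nat.zero_le _)
    have h2 := Y.one_le_K 0
    linarith
  have hlam0 : 0 < lam := by linarith only [hl, hA1]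
  rw [← tendsto_add_atTop_iff_nat 1]
  have hlim : Tendsto (fun l : ℕ => (A * δ * Y.M (q + 1) v) * (A * lam⁻¹) ^ l) atTop (𝓝 0) := by
    have h1 : Tendsto (fun l : ℕ => (A * lam⁻¹) ^ l) atTop (𝓝 0) := by
      refine tendsto_pow_atTop_nhds_zero_of_lt_one (by positivity) ?_
      rw [← div_eq_mul_inv, div_lt_one hlam0]
      exact hl
    simpa only [mul_zero] using h1.const_mul (A * δ * Y.M (q + 1) v)
  refine squeeze_zero (fun l => Y.M_nonneg _ _) (fun l => ?_) hlim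
  rw [w_succ]
  obtain ⟨s1, s2⟩ := scale_ok (lam := lam) hδ (by linarith only [hl, hA1]) l
  have h1 := Y.O2M q (δ * lam⁻¹ ^ l) (Y.w δ lam v l) s1 (s2.trans hδ1)
  have h2 := Y.w_bound_M (q + 1) (hA (q + 1) le_rfl) (show 1 ≤ lam by linarith only [hl, hA1]) hδ hδ1 v l
  have h3 : Y.K q ≤ A := by
    have := hA q (Nat.le_succ _)
    linarith
  have hK : 0 ≤ Y.K q := by
    have := Y.one_le_K q
    linarith
  have h4 := Y.M_nonneg (q + 1) v
  have h5 := Y.M_nonneg (q + 1) (Y.w δ lam v l)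
  calc _ ≤ Y.K q * (δ * lam⁻¹ ^ l) * Y.M (q + 1) (Y.w δ lam v l) := h1
    _ ≤ A * (δ * lam⁻¹ ^ l) * (A ^ l * Y.M (q + 1) v) := by gcongr
    _ = _ := by rw [mul_pow]; ring

/-- Decomposition (D) -/
theorem exists_D (κ k : ℕ) : ∃ lam : ℝ, 2 ≤ lam ∧ ∃ C : ℝ, 0 ≤ C ∧
    ∀ δ, 0 < δ → δ ≤ Y.δ0 → ∀ v : Om,
    (∀ l, ‖Y.ι (Y.w δ lam v l)‖ ≤ C * (lam⁻¹ ^ l) ^ κ * Y.N (κ + 1) δ v) ∧
    (∀ j ≤ k, Tendsto (fun l => Y.M j (Y.w δ lam v l)) atTop (𝓝 0)) := by
  set A : ℝ := 1 + ∑ m ∈ Finset.range (κ + k + 2), Y.K m with hA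
  have hAm : ∀ m, m < κ + k + 2 → 1 + Y.K m ≤ A := by
    intro m hm
    rw [hA]
    have : Y.K m ≤ ∑ m ∈ Finset.range (κ + k + 2), Y.K m :=
      Finset.single_le_sum (f := Y.K) (fun i _ => by have := Y.one_le_K i; linarith)
        (Finset.mem_range.2 hm)
    linarith
  have hA2 : 2 ≤ A := by
    have h1 := hAm 0 (by omega)
    have h2 := Y.one_le_K 0
    linarith
  have hK0 := Y.one_le_K 0
  refine ⟨2 * A, by linarith, Y.K 0 * cst A (2 * A) (κ + 1), ?_, fun δ hδ hδ1 v => ⟨fun l => ?_,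
    fun j hj => ?_⟩⟩
  · have := cst_one_le (A := A) (lam := 2 * A) (by linarith) (by linarith) (κ + 1)
    linarith only [mul_nonneg (sub_nonneg.2 hK0) (sub_nonneg.2 this), this, hK0]
  · have h1 := Y.w_bound_N (A := A) (lam := 2 * A) (κ + 1) (fun m hm => hAm m (by omega))
      (by linarith) hδ hδ1 v (κ + 1) le_rfl l
    rw [Nat.sub_self] at h1
    have h2 := Y.norm_le_N δ (Y.w δ (2 * A) v l) hδ
    have hc := cst_one_le (A := A) (lam := 2 * A) (by linarith) (by linarith) (κ + 1)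
    have hN := Y.N_nonneg (κ + 1) δ v
    have h3 : (A * (2 * A)⁻¹ ^ (κ + 1)) ^ l ≤ ((2 * A)⁻¹ ^ l) ^ κ := by
      have e1 : A * (2 * A)⁻¹ ^ (κ + 1) ≤ (2 * A)⁻¹ ^ κ := by
        rw [pow_succ]
        have : A * (2 * A)⁻¹ ≤ 1 := by
          rw [← div_eq_mul_inv, div_le_one (by linarith)]
          linarith
        have h5 : 0 ≤ (2 * A)⁻¹ ^ κ := by positivity
        linarith only [mul_nonneg (sub_nonneg.2 this) (sub_nonneg.2 h5)]
      calc (A * (2 * A)⁻¹ ^ (κ + 1)) ^ l ≤ ((2 * A)⁻¹ ^ κ) ^ l := by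
            gcongr
        _ = _ := by rw [← pow_mul, ← pow_mul, Nat.mul_comm κ l]
    calc ‖Y.ι (Y.w δ (2 * A) v l)‖ ≤ Y.K 0 * Y.N 0 δ (Y.w δ (2 * A) v l) := h2
      _ ≤ Y.K 0 * (cst A (2 * A) (κ + 1) * (A * (2 * A)⁻¹ ^ (κ + 1)) ^ l * Y.N (κ + 1) δ v) := by
          gcongr
      _ ≤ Y.K 0 * (cst A (2 * A) (κ + 1) * ((2 * A)⁻¹ ^ l) ^ κ * Y.N (κ + 1) δ v) := by
          gcongr
      _ = _ := by ring
  · exact Y.w_tendsto_M j (fun m hm => hAm m (by omega)) (by linarith) hδ hδ1 v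

end SmSys
end P204K.GX
end

section
/-! Module A5: the energy estimate. -/
open scoped InnerProductSpace
open Filter Topology
namespace P204K.GX

variable {H Om : Type} [NormedAddCommGroup H] [InnerProductSpace ℝ H] [CompleteSpace H]
  [AddCommGroup Om] [Module ℝ Om]

namespace SmSys
variable (Y : SmSys H Om)

/-- Riesz representation with respect to the pairing `⟪·, st ·⟫`. -/
theorem exists_rep (f : H →ₗ[ℝ] ℝ) (c : ℝ) (hf : ∀ u, |f u| ≤ c * ‖u‖) :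
    ∃ w : H, ∀ u, ⟪w, Y.st u⟫_ℝ = f u := by
  set g : H →L[ℝ] ℝ := f.mkContinuous c (fun u => by rw [Real.norm_eq_abs]; exact hf u) with hg
  refine ⟨Y.st ((InnerProductSpace.toDual ℝ H).symm g), fun u => ?_⟩
  rw [Y.st_symm, Y.st_st, InnerProductSpace.toDual_symm_apply]
  rfl

theorem norm_le_of_rep {w : H} {c : ℝ} (hc : 0 ≤ c) (h : ∀ u, |⟪w, Y.st u⟫_ℝ| ≤ c * ‖u‖) :
    ‖w‖ ≤ c := by
  have h1 := h (Y.st w)
  rw [Y.st_st, real_inner_self_eq_norm_sq, Y.norm_st, abs_of_nonneg (by positivity)] at h1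
  by_contra hlt
  push Not at hlt
  nlinarith only [h1, hc, hlt]

theorem abs_rep_le (w u : H) : |⟪w, Y.st u⟫_ℝ| ≤ ‖w‖ * ‖u‖ := by
  have h := abs_real_inner_le_norm w (Y.st u)
  rwa [Y.norm_st] at h

/-- For a functional bounded by `M k`, the composition with `S δ` is bounded. -/
theorem abs_comp_S_le {φ : Om →ₗ[ℝ] ℝ} {k : ℕ} {C : ℝ} (hC : 0 ≤ C)
    (hφ : ∀ b, |φ b| ≤ C * Y.M k b) {δ : ℝ} (h0 : 0 < δ) (h1 : δ ≤ Y.δ0) (u : H) :
    |φ (Y.S δ u)| ≤ C * (Y.K k * (δ ^ (2 + k))⁻¹) * ‖u‖ := by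
  calc |φ (Y.S δ u)| ≤ C * Y.M k (Y.S δ u) := hφ _
    _ ≤ C * (Y.K k * (δ ^ (2 + k))⁻¹ * ‖u‖) := by
        have := Y.SSM k δ u h0 h1
        gcongr
    _ = _ := by ring

/-- `φ` through the decomposition (D). -/
theorem abs_le_of_D {φ : Om →ₗ[ℝ] ℝ} {k : ℕ} {C : ℝ} (hφ : ∀ b, |φ b| ≤ C * Y.M k b)
    {δ lam CD : ℝ} {κ : ℕ} {v : Om} (_hδ : 0 < δ) (_hδ1 : δ ≤ Y.δ0) (hlam : 1 ≤ lam)
    (hCD : 0 ≤ CD)
    (hw : ∀ l, ‖Y.ι (Y.w δ lam v l)‖ ≤ CD * (lam⁻¹ ^ l) ^ κ * Y.N (κ + 1) δ v)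
    (hlim : Tendsto (fun l => Y.M k (Y.w δ lam v l)) atTop (𝓝 0))
    {a : ℕ → ℝ} {A : ℝ} (ha : ∀ j, 0 ≤ a j)
    (hphi : ∀ l u, |φ (Y.S (δ * lam⁻¹ ^ l) u)| ≤ a l * ‖u‖)
    (hA : HasSum (fun l => lam⁻¹ ^ (κ * l) * a l) A) :
    |φ v| ≤ CD * A * Y.N (κ + 1) δ v := by
  have hN := Y.N_nonneg (κ + 1) δ v
  have hbd : ∀ n, |φ v| ≤ CD * A * Y.N (κ + 1) δ v + C * Y.M k (Y.w δ lam v n) := by
    intro n
    have h1 := Y.sum_w δ lam v n
    have h2 : φ v = ∑ l ∈ Finset.range n, φ (Y.S (δ * lam⁻¹ ^ l) (Y.ι (Y.w δ lam v l))) +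
        φ (Y.w δ lam v n) := by
      conv_lhs => rw [h1]
      rw [map_add, map_sum]
    rw [h2]
    refine (abs_add_le _ _).trans (add_le_add ?_ (hφ _))
    refine (Finset.abs_sum_le_sum_abs _ _).trans ?_
    have h3 : ∀ l ∈ Finset.range n, |φ (Y.S (δ * lam⁻¹ ^ l) (Y.ι (Y.w δ lam v l)))| ≤
        CD * Y.N (κ + 1) δ v * (lam⁻¹ ^ (κ * l) * a l) := by
      intro l _
      calc _ ≤ a l * ‖Y.ι (Y.w δ lam v l)‖ := hphi l _
        _ ≤ a l * (CD * (lam⁻¹ ^ l) ^ κ * Y.N (κ + 1) δ v) := by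
            have := hw l
            have := ha l
            gcongr
        _ = _ := by rw [← pow_mul, Nat.mul_comm l κ]; ring
    refine (Finset.sum_le_sum h3).trans ?_
    rw [← Finset.mul_sum]
    have h4 : ∑ l ∈ Finset.range n, lam⁻¹ ^ (κ * l) * a l ≤ A :=
      sum_le_hasSum _ (fun l _ => mul_nonneg (by positivity) (ha l)) hA
    calc CD * Y.N (κ + 1) δ v * ∑ l ∈ Finset.range n, lam⁻¹ ^ (κ * l) * a l
        ≤ CD * Y.N (κ + 1) δ v * A := by gcongr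
      _ = _ := by ring
  have hlim2 : Tendsto (fun n => CD * A * Y.N (κ + 1) δ v + C * Y.M k (Y.w δ lam v n)) atTop
      (𝓝 (CD * A * Y.N (κ + 1) δ v + C * 0)) := (hlim.const_mul C).const_add _
  rw [mul_zero, add_zero] at hlim2
  exact ge_of_tendsto' hlim2 hbd

/-- (SC): the invariant part of `φ ∘ S δ` gains a factor `δ`. -/
theorem abs_comp_S_compl_le {φ : Om →ₗ[ℝ] ℝ} (hpm : ∀ b, φ (Y.pm b) = φ b) {δ c : ℝ} {q : ℕ}
    (h0 : 0 < δ) (h1 : δ ≤ Y.δ0) (hc : 0 ≤ c) (hφ : ∀ v, |φ v| ≤ c * Y.N q δ v) (u : H) :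
    |φ (Y.S δ (u - Y.pmH u))| ≤ c * (Y.K q * δ) * ‖u‖ := by
  have h2 : Y.pmH (u - Y.pmH u) = 0 := by rw [map_sub, Y.pmH_pmH, sub_self]
  have h3 : φ (Y.S δ (u - Y.pmH u)) =
      φ (Y.pm (Y.S δ (u - Y.pmH u)) - Y.S δ (Y.pmH (u - Y.pmH u))) := by
    rw [h2, map_zero, sub_zero, hpm]
  rw [h3]
  have h4 := Y.SC q δ (u - Y.pmH u) h0 h1
  have h5 := Y.norm_compl_le u
  have h6 := Y.one_le_K q
  calc _ ≤ c * Y.N q δ (Y.pm (Y.S δ (u - Y.pmH u)) - Y.S δ (Y.pmH (u - Y.pmH u))) := hφ _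
    _ ≤ c * (Y.K q * δ * ‖u - Y.pmH u‖) := by gcongr
    _ ≤ c * (Y.K q * δ * ‖u‖) := by gcongr
    _ = _ := by ring

/-- The energy identity at one scale. -/
theorem energy_step {T φ : Om →ₗ[ℝ] ℝ} (B : Y.TBound T φ) {δ : ℝ} (h0 : 0 < δ) (h1 : δ ≤ Y.δ0)
    {fr : H} (hfr : ∀ u, ⟪fr, Y.st u⟫_ℝ = φ (Y.S δ u)) {g : ℝ} (hg : 0 ≤ g)
    (hpl : ∀ u, |φ (Y.S δ (u - Y.pmH u))| ≤ g * δ * ‖u‖) :
    ‖fr‖ ^ 2 ≤ B.C * B.NT δ + 2 * (B.C * Real.sqrt (B.NT δ)) * (‖fr‖ + g) + 2 * g ^ 2 * δ ^ 2 := by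
  have hC := B.C_nonneg
  have hs := Real.sqrt_nonneg (B.NT δ)
  -- representing vector of `T ∘ S δ`
  obtain ⟨tr, htr⟩ := Y.exists_rep (T ∘ₗ Y.S δ) (B.C * Real.sqrt (B.NT δ) / δ) (fun u => by
    have := B.t1 δ u h0 h1
    rw [LinearMap.comp_apply, div_mul_eq_mul_div, le_div_iff₀ h0]
    linarith)
  have htr' : ∀ u, ⟪tr, Y.st u⟫_ℝ = T (Y.S δ u) := htr
  -- the invariant part of `fr`
  set fp := fr - Y.pmH fr with hfp
  have hfprep : ∀ u, ⟪fp, Y.st u⟫_ℝ = φ (Y.S δ (u - Y.pmH u)) := by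
    intro u
    rw [hfp, inner_sub_left, hfr, Y.pmH_symm, Y.pmH_st, map_sub, map_sub, ← hfr (Y.pmH u),
      Y.st_pmH]
  have hfpn : ‖fp‖ ≤ g * δ := Y.norm_le_of_rep (by positivity) (fun u => by
    rw [hfprep]; exact hpl u)
  -- the sum has zero self pairing
  have hkill : ∀ c ∈ Y.Cl, ⟪tr + fr, Y.st (Y.ι c)⟫_ℝ = 0 := by
    intro c hc
    rw [inner_add_left, htr', hfr]
    exact B.kill _ (Y.S_mem_Cl δ h0 h1 (Y.ι_mem_Zw hc))
  have hZ : tr + fr ∈ Y.Zw := Y.mem_Zw_of_kill fun c hc => hkill c (Y.Ex_le hc)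
  have hpair := Y.pair_zero hkill hZ
  have hexp : ⟪tr + fr, Y.st (tr + fr)⟫_ℝ =
      ⟪tr, Y.st tr⟫_ℝ + 2 * ⟪tr, Y.st fr⟫_ℝ + ⟪fr, Y.st fr⟫_ℝ := by
    rw [map_add, inner_add_left, inner_add_right, inner_add_right]
    have : ⟪fr, Y.st tr⟫_ℝ = ⟪tr, Y.st fr⟫_ℝ := by rw [real_inner_comm, Y.st_symm]
    rw [this]; ring
  rw [hexp] at hpair
  -- `pr φ φ`
  have hff : ‖fr‖ ^ 2 - 2 * ‖fp‖ ^ 2 ≤ ⟪fr, Y.st fr⟫_ℝ := by
    have e1 : fr = Y.pmH fr + fp := by rw [hfp]; abel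
    have e2 : Y.st fr = Y.pmH fr + Y.st fp := by
      conv_lhs => rw [e1]
      rw [map_add, Y.st_pmH]
    have e3 : ⟪fr, Y.pmH fr⟫_ℝ = ‖Y.pmH fr‖ ^ 2 := by
      rw [← real_inner_self_eq_norm_sq, Y.pmH_symm, Y.pmH_pmH]
    have e4 : ⟪fr, Y.st fp⟫_ℝ = ⟪fp, Y.st fp⟫_ℝ := by
      conv_lhs => rw [e1]
      rw [inner_add_left]
      have : ⟪Y.pmH fr, Y.st fp⟫_ℝ = 0 := by
        rw [← Y.st_symm, Y.st_pmH, hfp]; exact Y.inner_pm_compl fr fr
      rw [this, zero_add]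
    have e5 : -‖fp‖ ^ 2 ≤ ⟪fp, Y.st fp⟫_ℝ := by
      have := neg_le_of_abs_le (Y.abs_rep_le fp fp)
      linarith only [this]
    have e6 := Y.norm_sq_split fr
    rw [e2, inner_add_right, e3, e4]
    rw [← hfp] at e6
    linarith
  -- `pr T T`
  have htt := B.t3 δ tr h0 h1 htr'
  -- `pr T φ`
  have htf : |⟪tr, Y.st fr⟫_ℝ| ≤ B.C * Real.sqrt (B.NT δ) * (‖fr‖ + g) := by
    have e1 : ⟪tr, Y.st fr⟫_ℝ = T (Y.S δ (Y.pmH fr)) + T (Y.S δ fp) := by
      rw [htr', ← map_add, ← map_add, hfp, add_sub_cancel]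
    have e2 := B.t2 δ fr h0 h1
    have e3 := B.t1 δ fp h0 h1
    have e4 : |T (Y.S δ fp)| ≤ B.C * Real.sqrt (B.NT δ) * g := by
      have h5 : δ * |T (Y.S δ fp)| ≤ δ * (B.C * Real.sqrt (B.NT δ) * g) := by
        calc _ ≤ B.C * Real.sqrt (B.NT δ) * ‖fp‖ := e3
          _ ≤ B.C * Real.sqrt (B.NT δ) * (g * δ) := by gcongr
          _ = _ := by ring
      exact le_of_mul_le_mul_left h5 h0
    rw [e1]
    calc _ ≤ |T (Y.S δ (Y.pmH fr))| + |T (Y.S δ fp)| := abs_add_le _ _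
      _ ≤ B.C * Real.sqrt (B.NT δ) * ‖fr‖ + B.C * Real.sqrt (B.NT δ) * g := add_le_add e2 e4
      _ = _ := by ring
  have htf' := neg_le_of_abs_le htf
  have hfp2 : ‖fp‖ ^ 2 ≤ (g * δ) ^ 2 := pow_le_pow_left₀ (norm_nonneg _) hfpn 2
  linarith only [hfp2, htf', htt, hff, hpair]

theorem energy {T φ : Om →ₗ[ℝ] ℝ} (B : Y.TBound T φ) : ∃ C δ1 : ℝ, 0 ≤ C ∧ 0 < δ1 ∧ δ1 ≤ Y.δ0 ∧
    ∀ δ, 0 < δ → δ ≤ δ1 → B.NT δ ≤ C ∧ (∀ u, |φ (Y.S δ u)| ≤ C * ‖u‖) ∧
      (∀ u, |φ (Y.S δ (u - Y.pmH u))| ≤ C * δ * ‖u‖) := by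
  classical
  set k := B.k with hk
  have hC := B.C_nonneg
  -- the decomposition
  obtain ⟨lam, hlam, CD, hCD, hD⟩ := Y.exists_D (k + 3) k
  have hlam0 : 0 < lam := by linarith only [hlam]
  set x : ℝ := lam⁻¹ with hx
  have hx0 : 0 < x := inv_pos.2 hlam0
  have hx2 : x ≤ 1 / 2 := by
    rw [hx, inv_le_comm₀ hlam0 (by norm_num)]; linarith only [hlam]
  -- representing vectors
  have hrep : ∀ δ : ℝ, ∃ fr : H, 0 < δ → δ ≤ Y.δ0 → ∀ u, ⟪fr, Y.st u⟫_ℝ = φ (Y.S δ u) := by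
    intro δ
    by_cases h : 0 < δ ∧ δ ≤ Y.δ0
    · obtain ⟨fr, hfr⟩ := Y.exists_rep (φ ∘ₗ Y.S δ) _
        (fun u => Y.abs_comp_S_le hC B.φ_bd h.1 h.2 u)
      exact ⟨fr, fun _ _ => hfr⟩
    · exact ⟨0, fun h1 h2 => absurd ⟨h1, h2⟩ h⟩
  choose fr hfr using hrep
  have hfrn : ∀ δ, 0 < δ → δ ≤ Y.δ0 → ‖fr δ‖ ≤ B.C * (Y.K k * (δ ^ (2 + k))⁻¹) := by
    intro δ h0 h1
    have hK := Y.one_le_K k
    refine Y.norm_le_of_rep (by positivity) fun u => ?_
    rw [hfr δ h0 h1]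
    exact Y.abs_comp_S_le hC B.φ_bd h0 h1 u
  have hphi : ∀ δ, 0 < δ → δ ≤ Y.δ0 → ∀ u, |φ (Y.S δ u)| ≤ ‖fr δ‖ * ‖u‖ := by
    intro δ h0 h1 u
    rw [← hfr δ h0 h1]
    exact Y.abs_rep_le _ _
  set q := k + 4 with hq
  set G : ℝ := CD * Y.K q with hG
  have hKq := Y.one_le_K q
  have hG0 : 0 ≤ G := by positivity
  set Dq : ℝ := max (B.D q) 0 with hDq
  have hDq0 : 0 ≤ Dq := le_max_right _ _
  -- the constant of the sequence lemma
  set C1 : ℝ := B.C * (1 + CD * Dq) + 2 * B.C * (1 + G) + 2 * G ^ 2 with hC1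
  have hC10 : 0 ≤ C1 := by (clear * - hC hCD hKq; positivity)
  obtain ⟨C', ε0, hε0, hC', hseq⟩ := Vale.Agent.P204K.GX.seq_energy hC10
  refine ⟨C' + G * C', min ε0 Y.δ0, by positivity, lt_min hε0 Y.δ0_pos, min_le_right _ _, ?_⟩
  intro δ hδ hδ1
  have hδε : δ ≤ ε0 := hδ1.trans (min_le_left _ _)
  have hδ0 : δ ≤ Y.δ0 := hδ1.trans (min_le_right _ _)
  have hsc : ∀ j, 0 < δ * x ^ j ∧ δ * x ^ j ≤ δ := fun j => scale_ok hδ (by linarith only [hlam]) j
  have hsc0 : ∀ j, δ * x ^ j ≤ Y.δ0 := fun j => (hsc j).2.trans hδ0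
  set a : ℕ → ℝ := fun j => ‖fr (δ * x ^ j)‖ with ha
  set n : ℕ → ℝ := fun j => B.NT (δ * x ^ j) with hn
  have ha0 : ∀ j, 0 ≤ a j := fun j => norm_nonneg _
  have hn0 : ∀ j, 0 ≤ n j := fun j => B.NT_nonneg _
  set Kb : ℝ := B.C * (Y.K k * (δ ^ (2 + k))⁻¹) with hKb
  have hgrow : ∀ j, x ^ ((k + 2) * j) * a j ≤ Kb := by
    intro j
    have h1 := hfrn _ (hsc j).1 (hsc0 j)
    have hxp : 0 < x ^ ((k + 2) * j) := by positivity
    calc x ^ ((k + 2) * j) * a j ≤ x ^ ((k + 2) * j) *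
          (B.C * (Y.K k * ((δ * x ^ j) ^ (2 + k))⁻¹)) := by gcongr
      _ = Kb * (x ^ ((k + 2) * j) * (x ^ ((k + 2) * j))⁻¹) := by
          rw [mul_pow, ← pow_mul, Nat.mul_comm j (2 + k), Nat.add_comm 2 k, mul_inv, hKb,
            Nat.add_comm 2 k]
          ring
      _ = Kb := by rw [mul_inv_cancel₀ hxp.ne', mul_one]
  have hsum : ∀ j, Summable fun l => x ^ ((k + 2 + 1) * l) * a (j + l) := by
    intro j
    have hxj : 0 < x ^ ((k + 2) * j) := by positivity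
    refine Summable.of_nonneg_of_le (fun l => mul_nonneg (by positivity) (ha0 _)) (fun l => ?_)
      ((summable_geometric_of_lt_one hx0.le (by linarith only [hx2])).mul_left
        ((x ^ ((k + 2) * j))⁻¹ * Kb))
    have h1 := hgrow (j + l)
    have e1 : x ^ ((k + 2 + 1) * l) * a (j + l) =
        (x ^ ((k + 2) * j))⁻¹ * (x ^ l * (x ^ ((k + 2) * (j + l)) * a (j + l))) := by
      have : x ^ ((k + 2 + 1) * l) = (x ^ ((k + 2) * j))⁻¹ * (x ^ l * x ^ ((k + 2) * (j + l))) := by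
        rw [mul_add, pow_add, add_mul, one_mul, pow_add]
        field_simp
      rw [this]; ring
    rw [e1]
    calc _ ≤ (x ^ ((k + 2) * j))⁻¹ * (x ^ l * Kb) := by gcongr
      _ = _ := by ring
  choose A hA using fun j => (hsum j)
  have hA0 : ∀ j, 0 ≤ A j := fun j =>
    (hA j).nonneg (fun l => mul_nonneg (by positivity) (ha0 _))
  -- `φ` at scale `j`
  have hphiN : ∀ j v, |φ v| ≤ CD * A j * Y.N q (δ * x ^ j) v := by
    intro j v
    obtain ⟨h1, h2⟩ := hD (δ * x ^ j) (hsc j).1 (hsc0 j) v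
    refine Y.abs_le_of_D B.φ_bd (hsc j).1 (hsc0 j) (by linarith only [hlam]) hCD h1 (h2 k le_rfl)
      (a := fun l => a (j + l)) (fun l => ha0 _) (fun l u => ?_) (hA j)
    have e1 : δ * x ^ j * lam⁻¹ ^ l = δ * x ^ (j + l) := by rw [pow_add, ← hx]; ring
    rw [e1]
    exact hphi _ (hsc _).1 (hsc0 _) u
  have hpl : ∀ j u, |φ (Y.S (δ * x ^ j) (u - Y.pmH u))| ≤ G * A j * (δ * x ^ j) * ‖u‖ := by
    intro j u
    have := Y.abs_comp_S_compl_le B.φ_pm (hsc j).1 (hsc0 j) (by have := hA0 j; positivity)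
      (hphiN j) u
    calc _ ≤ CD * A j * (Y.K q * (δ * x ^ j)) * ‖u‖ := this
      _ = _ := by rw [hG]; ring
  have hgr : ∀ j, n j ≤ C1 * (1 + A j) := by
    intro j
    obtain ⟨v, hv1, hv2⟩ := B.t4 (δ * x ^ j) (hsc j).1 (hsc0 j)
    have h1 : |φ v| ≤ CD * A j * Dq := (hphiN j v).trans (by
      have := hA0 j
      have h3 := hv1 q
      have h4 : Y.N q (δ * x ^ j) v ≤ Dq := h3.trans (le_max_left _ _)
      gcongr)
    have hAj := hA0 j
    calc n j ≤ B.C * (1 + |φ v|) := hv2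
      _ ≤ B.C * (1 + CD * A j * Dq) := by gcongr
      _ ≤ B.C * (1 + CD * Dq) * (1 + A j) := by
          have h5 : 1 + CD * A j * Dq ≤ (1 + CD * Dq) * (1 + A j) := by
            have : 0 ≤ CD * Dq := by (clear * - hCD; positivity)
            linarith only [hAj, this]
          calc _ ≤ B.C * ((1 + CD * Dq) * (1 + A j)) := by gcongr
            _ = _ := by ring
      _ ≤ C1 * (1 + A j) := by
          have h6 : B.C * (1 + CD * Dq) ≤ C1 := by
            rw [hC1]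
            have : 0 ≤ 2 * B.C * (1 + G) + 2 * G ^ 2 := by (clear * - hC hCD hKq; positivity)
            linarith only [this]
          gcongr
  have hen : ∀ j, a j ^ 2 ≤ C1 * n j + C1 * Real.sqrt (n j) * (a j + A j) +
      C1 * δ ^ 2 * A j ^ 2 := by
    intro j
    have hAj := hA0 j
    have h1 := Y.energy_step B (hsc j).1 (hsc0 j) (hfr _ (hsc j).1 (hsc0 j))
      (g := G * A j) (by (clear * - hCD hKq hAj; positivity)) (hpl j)
    have hs := Real.sqrt_nonneg (n j)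
    have haj := ha0 j
    have hnj := hn0 j
    have t1 : B.C * n j ≤ C1 * n j := by
      have : B.C ≤ C1 := by
        rw [hC1]
        have e1 : 0 ≤ B.C * (CD * Dq) + 2 * B.C * (1 + G) + 2 * G ^ 2 := by (clear * - hC hCD hKq; positivity)
        linarith only [e1]
      gcongr
    have t2 : 2 * (B.C * Real.sqrt (n j)) * (a j + G * A j) ≤
        C1 * Real.sqrt (n j) * (a j + A j) := by
      have e1 : 2 * (a j + G * A j) ≤ 2 * (1 + G) * (a j + A j) := by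
        have : 0 ≤ G * a j := by (clear * - hCD hKq; positivity)
        linarith only [this, hAj]
      have e2 : 2 * B.C * (1 + G) ≤ C1 := by
        rw [hC1]
        have : 0 ≤ B.C * (1 + CD * Dq) + 2 * G ^ 2 := by (clear * - hC hCD; positivity)
        linarith only [this]
      calc _ = B.C * Real.sqrt (n j) * (2 * (a j + G * A j)) := by ring
        _ ≤ B.C * Real.sqrt (n j) * (2 * (1 + G) * (a j + A j)) := by gcongr
        _ = 2 * B.C * (1 + G) * Real.sqrt (n j) * (a j + A j) := by ring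
        _ ≤ _ := by gcongr
    have t3 : 2 * (G * A j) ^ 2 * (δ * x ^ j) ^ 2 ≤ C1 * δ ^ 2 * A j ^ 2 := by
      have e1 : (δ * x ^ j) ^ 2 ≤ δ ^ 2 := pow_le_pow_left₀ (hsc j).1.le (hsc j).2 2
      have e2 : 2 * G ^ 2 ≤ C1 := by
        rw [hC1]
        have : 0 ≤ B.C * (1 + CD * Dq) + 2 * B.C * (1 + G) := by (clear * - hC hCD hKq; positivity)
        linarith only [this]
      calc _ = 2 * G ^ 2 * (δ * x ^ j) ^ 2 * A j ^ 2 := by ring
        _ ≤ 2 * G ^ 2 * δ ^ 2 * A j ^ 2 := by gcongr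
        _ ≤ _ := by gcongr
    change ‖fr (δ * x ^ j)‖ ^ 2 ≤ _
    calc _ ≤ _ := h1
      _ ≤ _ := by
        change B.C * n j + 2 * (B.C * Real.sqrt (n j)) * (a j + G * A j) +
          2 * (G * A j) ^ 2 * (δ * x ^ j) ^ 2 ≤ _
        linarith only [t3, t2, t1]
  obtain ⟨r1, r2, r3⟩ := hseq x Kb δ (k + 2) a A n hx0 hx2 hδ hδε ha0 hn0 hgrow hA hgr hen
  have e0 : δ * x ^ 0 = δ := by rw [pow_zero, mul_one]
  have hGC : 0 ≤ G * C' := by (clear * - hCD hKq hC'; positivity)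
  refine ⟨?_, fun u => ?_, fun u => ?_⟩
  · have : n 0 = B.NT δ := by simp only [hn, e0]
    rw [← this]; linarith only [hGC, r3]
  · have h1 := hphi δ hδ hδ0 u
    have h2 : a 0 = ‖fr δ‖ := by simp only [ha, e0]
    rw [← h2] at h1
    refine h1.trans ?_
    gcongr
    linarith only [hGC, r1]
  · have h1 := hpl 0 u
    rw [e0] at h1
    refine h1.trans ?_
    gcongr
    (by_contra nlg; linarith only [nlg, mul_nonneg (sub_nonneg.2 hG0) (sub_nonneg.2 r2), mul_nonneg (sub_nonneg.2 hx2) (sub_nonneg.2 hC'), mul_nonneg (le_of_lt (sub_pos.2 hx0)) (sub_nonneg.2 hC'), mul_nonneg (le_of_lt (sub_pos.2 (not_le.1 nlg))) (sub_nonneg.2 hx2), mul_pos (sub_pos.2 (not_le.1 nlg)) (sub_pos.2 hx0)])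

end SmSys
end P204K.GX
end

section
/-! Module A6: the final contradiction. -/
open scoped InnerProductSpace
open Filter Topology
namespace P204K.GX

variable {H Om : Type} [NormedAddCommGroup H] [InnerProductSpace ℝ H] [CompleteSpace H]
  [AddCommGroup Om] [Module ℝ Om]

namespace SmSys
variable (Y : SmSys H Om)

/-- `F` the positive form, `P` the positive part of the Kaehler current `R = F + P`, `nP δ → 0`
its scaled size -/
theorem contradiction {T φ : Om →ₗ[ℝ] ℝ} (B : Y.TBound T φ) (F : Om) (hFpm : Y.pm F = 0)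
    (P : Om →ₗ[ℝ] ℝ) (CP : ℝ) (hP : ∀ b, |P b| ≤ CP * Y.M 0 b)
    (hR : ∀ e ∈ Y.Ex, ⟪Y.ι F, Y.st (Y.ι e)⟫_ℝ + P e = 0)
    (nP : ℝ → ℝ) (nP0 : ∀ δ, 0 ≤ nP δ) (nPlim : Tendsto nP (𝓝[>] 0) (𝓝 0))
    (p1 : ∀ δ u, 0 < δ → δ ≤ Y.δ0 → δ * |P (Y.S δ u)| ≤ nP δ * ‖u‖)
    (p2 : ∀ δ u, 0 < δ → δ ≤ Y.δ0 → |P (Y.S δ (Y.pmH u))| ≤ nP δ * ‖u‖)
    (C : ℝ)
    (p3 : ∀ δ (wT wP : H), 0 < δ → δ ≤ Y.δ0 → (∀ u, ⟪wT, Y.st u⟫_ℝ = T (Y.S δ u)) →
      (∀ u, ⟪wP, Y.st u⟫_ℝ = P (Y.S δ u)) → -(C * Real.sqrt (B.NT δ) * nP δ) ≤ ⟪wT, Y.st wP⟫_ℝ)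
    (δ1 : ℝ) (hδ1 : 0 < δ1)
    (pF : ∀ δ (wT wF : H), 0 < δ → δ ≤ δ1 → (∀ u, ⟪wT, Y.st u⟫_ℝ = T (Y.S δ u)) →
      (∀ u, ⟪wF, Y.st u⟫_ℝ = ⟪Y.ι F, Y.st (Y.ι (Y.S δ u))⟫_ℝ) →
      1 / 2 ≤ ⟪wT, Y.st wF⟫_ℝ) : False := by
  obtain ⟨Ce, δe, hCe, hδe, hδe0, hen⟩ := Y.energy B
  set f : ℝ := ‖Y.ι F‖ with hf
  have hf0 : 0 ≤ f := norm_nonneg _
  have hK0 := Y.one_le_K 0
  have hCB := B.C_nonneg
  set G : ℝ := f * (Y.K 0 * Y.K 0) with hG
  have hG0 : 0 ≤ G := by positivity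
  -- the key inequality at every small scale
  have key : ∀ δ, 0 < δ → δ ≤ δ1 → δ ≤ δe →
      1 / 2 ≤ |C| * Real.sqrt Ce * nP δ + Ce * (G * δ + nP δ) +
        Ce * (f * Y.K 0 * δ + nP δ) := by
    intro δ h0 h1 h2
    have h3 : δ ≤ Y.δ0 := h2.trans hδe0
    obtain ⟨e1, e2, e3⟩ := hen δ h0 h2
    have hn := nP0 δ
    have hNT := B.NT_nonneg δ
    -- representing vectors
    obtain ⟨tr, htr⟩ := Y.exists_rep (T ∘ₗ Y.S δ) (B.C * Real.sqrt (B.NT δ) / δ) (fun u => by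
      have := B.t1 δ u h0 h3
      rw [LinearMap.comp_apply, div_mul_eq_mul_div, le_div_iff₀ h0]
      linarith)
    have htr' : ∀ u, ⟪tr, Y.st u⟫_ℝ = T (Y.S δ u) := htr
    obtain ⟨fr, hfr⟩ := Y.exists_rep (φ ∘ₗ Y.S δ) Ce e2
    have hfr' : ∀ u, ⟪fr, Y.st u⟫_ℝ = φ (Y.S δ u) := hfr
    obtain ⟨pr, hpr⟩ := Y.exists_rep (P ∘ₗ Y.S δ) (nP δ / δ) (fun u => by
      have := p1 δ u h0 h3
      rw [LinearMap.comp_apply, div_mul_eq_mul_div, le_div_iff₀ h0]
      linarith)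
    have hpr' : ∀ u, ⟪pr, Y.st u⟫_ℝ = P (Y.S δ u) := hpr
    set LF : H →ₗ[ℝ] ℝ := (innerₗ H (Y.ι F)) ∘ₗ (Y.st : H →ₗ[ℝ] H) ∘ₗ Y.ι ∘ₗ Y.S δ with hLF
    have hLFa : ∀ u, LF u = ⟪Y.ι F, Y.st (Y.ι (Y.S δ u))⟫_ℝ := fun u => rfl
    have hLFb : ∀ u, |LF u| ≤ f * Y.K 0 * ‖u‖ := by
      intro u
      rw [hLFa]
      refine (Y.abs_rep_le _ _).trans ?_
      have := Y.S_norm δ u h0 h3
      calc _ ≤ f * (Y.K 0 * ‖u‖) := by gcongr
        _ = _ := by ring
    obtain ⟨wF, hwF⟩ := Y.exists_rep LF _ hLFb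
    -- `r`
    set r := wF + pr with hr
    have hrrep : ∀ u, ⟪r, Y.st u⟫_ℝ =
        ⟪Y.ι F, Y.st (Y.ι (Y.S δ u))⟫_ℝ + P (Y.S δ u) := by
      intro u
      rw [hr, inner_add_left, hwF, hpr', hLFa]
    have hkill : ∀ c ∈ Y.Cl, ⟪tr + fr, Y.st (Y.ι c)⟫_ℝ = 0 := by
      intro c hc
      rw [inner_add_left, htr', hfr']
      exact B.kill _ (Y.S_mem_Cl δ h0 h3 (Y.ι_mem_Zw hc))
    have hrZ : r ∈ Y.Zw := Y.mem_Zw_of_kill fun c hc => by
      rw [hrrep]; exact hR _ (Y.S_Ex δ c h0 h3 hc)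
    have hpair := Y.pair_zero hkill hrZ
    rw [hr, map_add, inner_add_left, inner_add_right, ← map_add, ← hr] at hpair
    have q1 := pF δ tr wF h0 h1 htr' hwF
    have q2 : -(|C| * Real.sqrt Ce * nP δ) ≤ ⟪tr, Y.st pr⟫_ℝ := by
      refine le_trans ?_ (p3 δ tr pr h0 h3 htr' hpr')
      have s1 : Real.sqrt (B.NT δ) ≤ Real.sqrt Ce := Real.sqrt_le_sqrt e1
      have s2 : C * Real.sqrt (B.NT δ) * nP δ ≤ |C| * Real.sqrt Ce * nP δ := by
        calc C * Real.sqrt (B.NT δ) * nP δ ≤ |C| * Real.sqrt (B.NT δ) * nP δ := by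
              gcongr
              exact le_abs_self C
          _ ≤ _ := by gcongr
      linarith
    -- `pr φ r`
    have hfrn : ‖fr‖ ≤ Ce := Y.norm_le_of_rep hCe fun u => by rw [hfr']; exact e2 u
    set fp := fr - Y.pmH fr with hfp
    have hfprep : ∀ u, ⟪fp, Y.st u⟫_ℝ = φ (Y.S δ (u - Y.pmH u)) := by
      intro u
      rw [hfp, inner_sub_left, hfr', Y.pmH_symm, Y.pmH_st, map_sub, map_sub, ← hfr' (Y.pmH u),
        Y.st_pmH]
    have hfpn : ‖fp‖ ≤ Ce * δ := Y.norm_le_of_rep (by positivity) (fun u => by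
      rw [hfprep]; exact e3 u)
    have hrn : ‖r‖ ≤ f * Y.K 0 + nP δ / δ := by
      refine (norm_add_le _ _).trans (add_le_add ?_ ?_)
      · exact Y.norm_le_of_rep (by positivity) fun u => by rw [hwF]; exact hLFb u
      · refine Y.norm_le_of_rep (by positivity) fun u => ?_
        rw [hpr', div_mul_eq_mul_div, le_div_iff₀ h0]
        have := p1 δ u h0 h3
        linarith only [this]
    have hrpm : ‖Y.pmH r‖ ≤ G * δ + nP δ := by
      refine Y.norm_le_of_rep (by (clear * - hK0 h0 hn; positivity)) fun u => ?_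
      have s1 : ⟪Y.pmH r, Y.st u⟫_ℝ =
          ⟪Y.ι F, Y.st (Y.ι (Y.S δ (Y.pmH u)))⟫_ℝ + P (Y.S δ (Y.pmH u)) := by
        rw [← hrrep, Y.pmH_symm, Y.pmH_st, Y.st_pmH]
      rw [s1]
      have s2 := p2 δ u h0 h3
      have s3 : |⟪Y.ι F, Y.st (Y.ι (Y.S δ (Y.pmH u)))⟫_ℝ| ≤ G * δ * ‖u‖ := by
        set b := Y.S δ (Y.pmH u) with hb
        have t1 : Y.pmH (Y.ι F) = 0 := by rw [Y.pmH_ι, hFpm, map_zero]
        have t2 : ⟪Y.ι F, Y.st (Y.ι (Y.pm b))⟫_ℝ = 0 := by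
          rw [← Y.pmH_ι, Y.st_pmH, ← Y.pmH_symm, t1, inner_zero_left]
        have t3 : ⟪Y.ι F, Y.st (Y.ι b)⟫_ℝ = -⟪Y.ι F, Y.st (Y.ι (Y.pm b - b))⟫_ℝ := by
          rw [map_sub, map_sub, inner_sub_right, t2]; ring
        rw [t3, abs_neg]
        have t4 := Y.SC 0 δ (Y.pmH u) h0 h3
        rw [Y.pmH_pmH, ← hb] at t4
        have t5 := Y.norm_le_N δ (Y.pm b - b) h0
        have t6 := Y.norm_pmH_le u
        calc _ ≤ ‖Y.ι F‖ * ‖Y.ι (Y.pm b - b)‖ := Y.abs_rep_le _ _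
          _ ≤ f * (Y.K 0 * (Y.K 0 * δ * ‖Y.pmH u‖)) := by
              rw [← hf]
              gcongr
              exact t5.trans (by gcongr)
          _ ≤ f * (Y.K 0 * (Y.K 0 * δ * ‖u‖)) := by gcongr
          _ = _ := by rw [hG]; ring
      calc _ ≤ |⟪Y.ι F, Y.st (Y.ι (Y.S δ (Y.pmH u)))⟫_ℝ| + |P (Y.S δ (Y.pmH u))| :=
            abs_add_le _ _
        _ ≤ G * δ * ‖u‖ + nP δ * ‖u‖ := add_le_add s3 s2
        _ = _ := by ring
    have q3 : |⟪fr, Y.st r⟫_ℝ| ≤ Ce * (G * δ + nP δ) + Ce * (f * Y.K 0 * δ + nP δ) := by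
      have s1 : ⟪fr, Y.st r⟫_ℝ = ⟪fr, Y.pmH r⟫_ℝ + ⟪fp, Y.st r⟫_ℝ := by
        have : ⟪Y.pmH fr, Y.st r⟫_ℝ = ⟪fr, Y.pmH r⟫_ℝ := by
          rw [Y.pmH_symm, Y.pmH_st]
        rw [hfp, inner_sub_left, this]
        ring
      rw [s1]
      refine (abs_add_le _ _).trans (add_le_add ?_ ?_)
      · calc _ ≤ ‖fr‖ * ‖Y.pmH r‖ := abs_real_inner_le_norm _ _
          _ ≤ _ := by gcongr
      · calc _ ≤ ‖fp‖ * ‖r‖ := Y.abs_rep_le _ _
          _ ≤ (Ce * δ) * (f * Y.K 0 + nP δ / δ) := by gcongr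
          _ = _ := by field_simp
    have q3' := neg_le_of_abs_le q3
    linarith
  -- limit
  have hlim : Tendsto (fun δ => |C| * Real.sqrt Ce * nP δ + Ce * (G * δ + nP δ) +
      Ce * (f * Y.K 0 * δ + nP δ)) (𝓝[>] 0) (𝓝 (|C| * Real.sqrt Ce * 0 + Ce * (G * 0 + 0) +
      Ce * (f * Y.K 0 * 0 + 0))) := by
    have hid : Tendsto (fun δ : ℝ => δ) (𝓝[>] 0) (𝓝 0) := tendsto_id.mono_left nhdsWithin_le_nhds
    exact ((nPlim.const_mul _).add (((hid.const_mul _).add nPlim).const_mul _)).add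
      (((hid.const_mul _).add nPlim).const_mul _)
  have hev : ∀ᶠ δ in 𝓝[>] (0 : ℝ), 1 / 2 ≤ |C| * Real.sqrt Ce * nP δ + Ce * (G * δ + nP δ) +
      Ce * (f * Y.K 0 * δ + nP δ) := by
    have h1 : Set.Ioc (0 : ℝ) (min δ1 δe) ∈ 𝓝[>] (0 : ℝ) := Ioc_mem_nhdsGT (lt_min hδ1 hδe)
    filter_upwards [h1] with δ hδ
    exact key δ hδ.1 (hδ.2.trans (min_le_left _ _)) (hδ.2.trans (min_le_right _ _))
  have := ge_of_tendsto hlim hev
  norm_num at this

end SmSys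
end P204K.GX
end

section
set_option linter.all false
/-!
El Mir step on `V4`: the energy estimate and the cutoff argument.
-/
open MeasureTheory Set Filter Topology
open scoped ContDiff

namespace Vale.Agent.P204K.T4

namespace EMF

theorem pd_mul {f g : V4 → ℝ} {x : V4} (hf : DifferentiableAt ℝ f x) (hg : DifferentiableAt ℝ g x)
    (i : Fin 4) : pd i (fun y => f y * g y) x = f x * pd i g x + g x * pd i f x := by
  unfold pd
  rw [fderiv_fun_mul hf hg]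
  simp only [add_apply, smul_apply, smul_eq_mul]

theorem pd_comp {h : ℝ → ℝ} {f : V4 → ℝ} {x : V4} (hh : DifferentiableAt ℝ h (f x))
    (hf : DifferentiableAt ℝ f x) (i : Fin 4) :
    pd i (fun y => h (f y)) x = deriv h (f x) * pd i f x := by
  unfold pd
  have := (hh.hasDerivAt.comp_hasFDerivAt x hf.hasFDerivAt).fderiv
  rw [show (fun y => h (f y)) = h ∘ f from rfl, this]
  simp

theorem grad_mul {f g : V4 → ℝ} {x : V4} (hf : DifferentiableAt ℝ f x)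
    (hg : DifferentiableAt ℝ g x) :
    grad (fun y => f y * g y) x = f x • grad g x + g x • grad f x := by
  funext i
  simp only [grad, Pi.add_apply, Pi.smul_apply, smul_eq_mul]
  exact pd_mul hf hg i

theorem grad_comp {h : ℝ → ℝ} {f : V4 → ℝ} {x : V4} (hh : DifferentiableAt ℝ h (f x))
    (hf : DifferentiableAt ℝ f x) :
    grad (fun y => h (f y)) x = deriv h (f x) • grad f x := by
  funext i
  simp only [grad, Pi.smul_apply, smul_eq_mul]
  exact pd_comp hh hf i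

theorem d1_smul {u : V4 → ℝ} {b : V4 → V4} {x : V4} (hu : DifferentiableAt ℝ u x)
    (hb : DifferentiableAt ℝ b x) :
    d1 (fun y => u y • b y) x = wd (grad u x) (b x) + u x • d1 b x := by
  have hbj : ∀ j, DifferentiableAt ℝ (fun y => b y j) x := fun j => by fun_prop
  have key : ∀ i j, pd i (fun y => u y * b y j) x
      = u x * pd i (fun y => b y j) x + b x j * pd i u x := by
    intro i j
    exact pd_mul hu (hbj j) i
  funext m
  simp only [d1, Pi.add_apply, Pi.smul_apply, smul_eq_mul]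
  fin_cases m
  all_goals
    simp only [ofEnt, wd, grad, key]
    simp only [Fin.isValue, Fin.zero_eta, Matrix.cons_val_zero, Fin.mk_one, Matrix.cons_val_one, Fin.reduceFinMk, Matrix.cons_val]
    ring

theorem continuous_pd {f : V4 → ℝ} (hf : ContDiff ℝ ∞ f) (i : Fin 4) : Continuous (pd i f) := by
  unfold pd
  have := hf.continuous_fderiv (by simp)
  continuity

theorem continuous_grad {f : V4 → ℝ} (hf : ContDiff ℝ ∞ f) : Continuous (grad f) :=
  continuous_pi fun i => continuous_pd hf i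

theorem continuous_ofEnt {X : Type*} [TopologicalSpace X] {M : X → M4} (h : ∀ i j, Continuous fun x => M x i j) :
    Continuous fun x => ofEnt (M x) := by
  apply continuous_pi
  intro i
  fin_cases i
  · exact h 0 1
  · exact h 0 2
  · exact h 0 3
  · exact h 1 2
  · exact h 1 3
  · exact h 2 3

theorem continuous_d1 {a : V4 → V4} (ha : ContDiff ℝ ∞ a) : Continuous (d1 a) := by
  unfold d1
  apply continuous_ofEnt
  intro i j
  have h : ∀ j, ContDiff ℝ ∞ (fun y => a y j) := fun j => contDiff_pi.1 ha j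
  exact (continuous_pd (h j) i).sub (continuous_pd (h i) j)

theorem continuous_wd : Continuous (fun p : V4 × V4 => wd p.1 p.2) := by
  apply continuous_pi
  intro i
  fin_cases i
  · show Continuous (fun p : V4 × V4 => p.1 0 * p.2 1 - p.1 1 * p.2 0); fun_prop
  · show Continuous (fun p : V4 × V4 => p.1 0 * p.2 2 - p.1 2 * p.2 0); fun_prop
  · show Continuous (fun p : V4 × V4 => p.1 0 * p.2 3 - p.1 3 * p.2 0); fun_prop
  · show Continuous (fun p : V4 × V4 => p.1 1 * p.2 2 - p.1 2 * p.2 1); fun_prop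
  · show Continuous (fun p : V4 × V4 => p.1 1 * p.2 3 - p.1 3 * p.2 1); fun_prop
  · show Continuous (fun p : V4 × V4 => p.1 2 * p.2 3 - p.1 3 * p.2 2); fun_prop

theorem continuous_cc : Continuous (fun p : M4 × V4 => cc p.1 p.2) := by
  apply continuous_pi
  intro i
  simp only [cc, Pi.neg_apply, copp_eq]
  fun_prop

theorem pd_zero_of_notMem {f : V4 → ℝ} {x : V4} (hx : x ∉ tsupport f) (i : Fin 4) :
    pd i f x = 0 := by
  unfold pd
  rw [fderiv_of_notMem_tsupport (𝕜 := ℝ) hx]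
  rfl

theorem d1_zero_of_notMem {a : V4 → V4} {x : V4} (hx : x ∉ tsupport a) : d1 a x = 0 := by
  have h : ∀ j, x ∉ tsupport (fun y => a y j) := by
    intro j hj
    apply hx
    refine closure_mono ?_ hj
    intro y hy
    simp only [Function.mem_support] at hy ⊢
    intro h0
    apply hy
    rw [h0]; rfl
  funext m
  simp only [d1]
  fin_cases m
  all_goals
    simp only [ofEnt, Fin.isValue, pd_zero_of_notMem (h _), sub_self, Fin.zero_eta, Matrix.cons_val_zero, Pi.zero_apply, Fin.mk_one, Matrix.cons_val_one, Fin.reduceFinMk, Matrix.cons_val]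

/-! Bounds -/

theorem norm_wd_le (a b : V4) : ‖wd a b‖ ≤ 2 * ‖a‖ * ‖b‖ := by
  have h : ∀ i j : Fin 4, |a i * b j| ≤ ‖a‖ * ‖b‖ := by
    intro i j
    rw [abs_mul]
    exact mul_le_mul (norm_le_pi_norm a i) (norm_le_pi_norm b j) (abs_nonneg _) (norm_nonneg _)
  have hs : ∀ i j : Fin 4, |a i * b j - a j * b i| ≤ 2 * ‖a‖ * ‖b‖ := by
    intro i j
    have h1 := abs_le.1 (h i j)
    have h2 := abs_le.1 (h j i)
    rw [abs_le]; constructor <;> linarith only [h1, h2]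
  rw [pi_norm_le_iff_of_nonneg (by positivity)]
  intro m
  rw [Real.norm_eq_abs]
  fin_cases m
  · exact hs 0 1
  · exact hs 0 2
  · exact hs 0 3
  · exact hs 1 2
  · exact hs 1 3
  · exact hs 2 3

theorem norm_cc_le (J : M4) (a : V4) : ‖cc J a‖ ≤ 4 * ‖J‖ * ‖a‖ := by
  rw [pi_norm_le_iff_of_nonneg (by positivity)]
  intro j
  rw [Real.norm_eq_abs]
  simp only [cc, Pi.neg_apply, copp_eq, abs_neg]
  have h : ∀ i : Fin 4, |a i * J i j| ≤ ‖J‖ * ‖a‖ := by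
    intro i
    rw [abs_mul, mul_comm]
    refine mul_le_mul ?_ (norm_le_pi_norm a i) (abs_nonneg _) (norm_nonneg _)
    exact (norm_le_pi_norm (J i) j).trans (norm_le_pi_norm J i)
  have h0 := abs_le.1 (h 0)
  have h1 := abs_le.1 (h 1)
  have h2 := abs_le.1 (h 2)
  have h3 := abs_le.1 (h 3)
  rw [abs_le]; constructor <;> linarith only [h0, h1, h2, h3]

theorem cs1 {J : M4} (hJ : IsCx J) (hpos : Pos J) {A : L2} (hA : Cone J A) {a b : V4} {α β : ℝ}
    (hα : 0 ≤ α) (hβ : 0 ≤ β) (ha : Q A (wd a (cc J a)) ≤ α ^ 2) (hb : Q A (wd b (cc J b)) ≤ β ^ 2) :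
    |Q A (wd a b)| ≤ α * β := by
  apply abs_le_of_sq_le_sq _ (mul_nonneg hα hβ)
  refine (Q_cs' hJ hpos hA a b).trans ?_
  rw [mul_pow]
  exact mul_le_mul ha hb (Q_wd_nonneg hJ hpos hA b) (sq_nonneg _)

theorem cs2 {J : M4} (hJ : IsCx J) (hpos : Pos J) {A : L2} (hA : Cone J A) {a b : V4} {α β : ℝ}
    (hα : 0 ≤ α) (hβ : 0 ≤ β) (ha : Q A (wd a (cc J a)) ≤ α ^ 2) (hb : Q A (wd b (cc J b)) ≤ β ^ 2) :
    |Q A (wd a (cc J b))| ≤ α * β := by
  apply abs_le_of_sq_le_sq _ (mul_nonneg hα hβ)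
  refine (Q_cs hJ hpos hA a b).trans ?_
  rw [mul_pow]
  exact mul_le_mul ha hb (Q_wd_nonneg hJ hpos hA b) (sq_nonneg _)

variable {J : V4 → M4} {r : Measure V4} {D : V4 → L2}

/-- `D` is bounded on compact sets and controls covectors. -/
theorem exists_bounds (hJ : ContDiff ℝ ∞ J) (hcx : ∀ y, IsCx (J y)) (hpos : ∀ y, Pos (J y))
    (h : LCur J r D) {S : Set V4} (hS : IsCompact S) :
    ∃ M k : ℝ, 0 ≤ M ∧ 0 ≤ k ∧ (∀ x ∈ S, ‖D x‖ ≤ M) ∧
      ∀ x ∈ S, ∀ a, Q (D x) (wd a (cc (J x) a)) ≤ (k * ‖a‖) ^ 2 := by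
  have hG : Good (J '' S) := by
    refine ⟨hS.image hJ.continuous, ?_, ?_⟩
    · rintro _ ⟨y, _, rfl⟩; exact hcx y
    · rintro _ ⟨y, _, rfl⟩; exact hpos y
  obtain ⟨c, hc, hc'⟩ := hG.exists_Q_Fm
  obtain ⟨N, hN⟩ := hS.exists_bound_of_continuousOn hJ.continuous.continuousOn
  set N' := max N 0 with hN'
  have hM : ∀ x ∈ S, ‖D x‖ ≤ c⁻¹ := by
    intro x hx
    have := hc' (J x) ⟨x, hx, rfl⟩ (D x) (h.cone x)
    rw [h.norm x] at this
    rw [le_inv_comm₀ (by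
      by_contra h0
      have h1 : ‖D x‖ = 0 := le_antisymm (not_lt.1 h0) (norm_nonneg _)
      have h2 : D x = 0 := norm_eq_zero.1 h1
      have h3 := h.norm x
      rw [h2] at h3
      simp at h3) hc]
    rw [le_inv_comm₀ hc (by
      by_contra h0
      have h1 : ‖D x‖ = 0 := le_antisymm (not_lt.1 h0) (norm_nonneg _)
      have h2 : D x = 0 := norm_eq_zero.1 h1
      have h3 := h.norm x
      rw [h2] at h3
      simp only [Q_zero_left, zero_ne_one] at h3)]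
    rw [← one_div, le_div_iff₀ hc]
    linarith only [this]
  refine ⟨c⁻¹, Real.sqrt (48 * c⁻¹ * N'), by positivity, Real.sqrt_nonneg _, hM, ?_⟩
  intro x hx a
  have hNx : ‖J x‖ ≤ N' := (hN x hx).trans (le_max_left _ _)
  have hN0 : 0 ≤ N' := le_max_right _ _
  rw [mul_pow, Real.sq_sqrt (by positivity)]
  have h1 := (abs_le.1 (abs_Q_le (D x) (wd a (cc (J x) a)))).2
  have h2 := norm_wd_le a (cc (J x) a)
  have h3 := norm_cc_le (J x) a
  have h4 := hM x hx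
  have h5 : ‖wd a (cc (J x) a)‖ ≤ 8 * N' * ‖a‖ ^ 2 := by
    refine h2.trans ?_
    have : 2 * ‖a‖ * ‖cc (J x) a‖ ≤ 2 * ‖a‖ * (4 * N' * ‖a‖) := by
      apply mul_le_mul_of_nonneg_left _ (by positivity)
      refine h3.trans ?_
      gcongr
    refine this.trans (le_of_eq (by ring))
  calc Q (D x) (wd a (cc (J x) a)) ≤ 6 * ‖D x‖ * ‖wd a (cc (J x) a)‖ := h1
    _ ≤ 6 * c⁻¹ * (8 * N' * ‖a‖ ^ 2) := by gcongr
    _ = 48 * c⁻¹ * N' * ‖a‖ ^ 2 := by ring

/-- integrability of bounded functions with compact support -/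
theorem integrable_of_bdd [IsLocallyFiniteMeasure r] {S : Set V4} (hS : IsCompact S) {f : V4 → ℝ}
    (hf : Measurable f) {C : ℝ} (hb : ∀ x ∈ S, |f x| ≤ C) (h0 : ∀ x, x ∉ S → f x = 0) :
    Integrable f r := by
  have h1 : f = S.indicator f := by
    funext x
    by_cases hx : x ∈ S
    · rw [indicator_of_mem hx]
    · rw [indicator_of_notMem hx, h0 x hx]
  rw [h1, integrable_indicator_iff hS.measurableSet]
  refine Measure.integrableOn_of_bounded (M := C) hS.measure_lt_top.ne hf.aestronglyMeasurable ?_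
  filter_upwards [ae_restrict_mem hS.measurableSet] with x hx
  exact hb x hx

theorem measurable_Q {f g : V4 → L2} (hf : Measurable f) (hg : Measurable g) :
    Measurable fun x => Q (f x) (g x) := by
  unfold Q
  have h1 : ∀ i, Measurable fun x => f x i := fun i => (measurable_pi_apply i).comp hf
  have h2 : ∀ i, Measurable fun x => g x i := fun i => (measurable_pi_apply i).comp hg
  exact (((((h1 0).mul (h2 5)).sub ((h1 1).mul (h2 4))).add ((h1 2).mul (h2 3))).add ((h1 3).mul (h2 2))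
    |>.sub ((h1 4).mul (h2 1))).add ((h1 5).mul (h2 0))

/-- pairing with a smooth compactly supported one-form is integrable -/
theorem integrable_d1 (hJ : ContDiff ℝ ∞ J) (hcx : ∀ y, IsCx (J y)) (hpos : ∀ y, Pos (J y))
    (h : LCur J r D) {η : V4 → V4} (hη : TF η) : Integrable (fun x => Q (D x) (d1 η x)) r := by
  haveI := h.fin
  obtain ⟨M, k, hM, hk, hD, -⟩ := exists_bounds hJ hcx hpos h (S := tsupport η) hη.2
  obtain ⟨N, hN⟩ := IsCompact.exists_bound_of_continuousOn (s := tsupport η) hη.2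
    (continuous_d1 hη.1).continuousOn
  refine integrable_of_bdd (S := tsupport η) hη.2 (measurable_Q h.meas (continuous_d1 hη.1).measurable)
    (C := 6 * M * N) ?_ ?_
  · intro x hx
    refine (abs_Q_le _ _).trans ?_
    have := hD x hx
    have h2 := hN x hx
    gcongr
  · intro x hx
    rw [d1_zero_of_notMem hx, Q_zero_right]

/-- the pointwise inequality behind the energy estimate: real number part -/
theorem pw1 {χ y W ρ ρ1 k Cχ C1 qe qv : ℝ} (hW : 1 ≤ W) (hy : 0 ≤ y) (hχ0 : 0 ≤ χ) (hχ1 : χ ≤ 1)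
    (hk : 0 ≤ k) (hρ : 0 < ρ) (hρ1 : ρ ≤ ρ1) (hC1 : 0 ≤ C1) (hCχ : 0 ≤ Cχ)
    (e1 : -(k * Cχ * (k * (C1 * W))) ≤ qe) (e2 : qv ≤ k * Cχ * (y * W)) :
    -(2 * (k ^ 2 * Cχ * C1)) - 2 * ρ1 * k * Cχ * (χ * y) ≤ (2 * χ / W) * (qe - ρ * qv) := by
  have hW0 : 0 < W := by linarith only [hW]
  have e3 : ρ * qv ≤ ρ1 * (k * Cχ * (y * W)) := by
    calc ρ * qv ≤ ρ * (k * Cχ * (y * W)) := mul_le_mul_of_nonneg_left e2 hρ.le
      _ ≤ ρ1 * (k * Cχ * (y * W)) := by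
          apply mul_le_mul_of_nonneg_right hρ1; positivity
  have c1 : -(k ^ 2 * Cχ * C1 * W) - ρ1 * (k * Cχ * (y * W)) ≤ qe - ρ * qv := by
    linarith only [e1, e3]
  have c2 : 0 ≤ 2 * χ / W := by positivity
  have c3 := mul_le_mul_of_nonneg_left c1 c2
  refine le_trans ?_ c3
  have c4 : 2 * χ / W * (-(k ^ 2 * Cχ * C1 * W) - ρ1 * (k * Cχ * (y * W)))
      = -(2 * (k ^ 2 * Cχ * C1)) * χ - 2 * ρ1 * k * Cχ * (χ * y) := by
    field_simp
  rw [c4]
  have c5 : 0 ≤ 2 * (k ^ 2 * Cχ * C1) := by positivity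
  have c6 := mul_nonneg c5 (sub_nonneg.2 hχ1)
  linarith only [c6]

theorem pw2 {χ y W ρ k C1 qe : ℝ} (hW : 1 ≤ W) (hy : 0 ≤ y) (hχ0 : 0 ≤ χ) (hχ1 : χ ≤ 1)
    (hk : 0 ≤ k) (hC1 : 0 ≤ C1) (e1 : qe ≤ y * W * (k * (C1 * W))) :
    ρ * (χ * y) ^ 2 - k * C1 * (χ * y) ≤ (χ ^ 2 / W ^ 2) * (- (qe - ρ * (y * W) ^ 2)) := by
  have hW0 : 0 < W := by linarith only [hW]
  have c1 : ρ * (y * W) ^ 2 - y * W * (k * (C1 * W)) ≤ - (qe - ρ * (y * W) ^ 2) := by
    linarith only [e1]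
  have c2 : 0 ≤ χ ^ 2 / W ^ 2 := by positivity
  have c3 := mul_le_mul_of_nonneg_left c1 c2
  refine le_trans ?_ c3
  have c4 : χ ^ 2 / W ^ 2 * (ρ * (y * W) ^ 2 - y * W * (k * (C1 * W)))
      = ρ * (χ * y) ^ 2 - k * C1 * (χ ^ 2 * y) := by
    field_simp
  rw [c4]
  have hχ2 : χ ^ 2 ≤ χ := by linarith only [mul_nonneg (sub_nonneg.2 hχ0) (sub_nonneg.2 hχ1)]
  have c5 : χ ^ 2 * y ≤ χ * y := mul_le_mul_of_nonneg_right hχ2 hy
  have c6 : 0 ≤ k * C1 := by positivity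
  have c7 := mul_le_mul_of_nonneg_left c5 c6
  linarith only [c7]

theorem pw3 {χ y W ρ ρ1 k T C1 C2 M nA qe qv qd : ℝ} (hW : 1 ≤ W) (hy : 0 ≤ y) (hχ0 : 0 ≤ χ)
    (hχ1 : χ ≤ 1) (hk : 0 ≤ k) (hρ : 0 < ρ) (hρ1 : ρ ≤ ρ1) (hC1 : 0 ≤ C1) (hT : 0 ≤ T)
    (hC2 : 0 ≤ C2) (hM0 : 0 ≤ nA) (hM : nA ≤ M)
    (e1 : -(k * T * (k * (C1 * W))) ≤ qe) (e2 : qv ≤ k * T * (y * W))
    (e3 : qe - ρ * qv - C2 * W * nA ≤ qd) :
    -(k ^ 2 * T * C1) - ρ1 * k * T * (χ * y) - C2 * M ≤ (χ ^ 2 / W) * qd := by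
  have hW0 : 0 < W := by linarith only [hW]
  have e4 : ρ * qv ≤ ρ1 * (k * T * (y * W)) := by
    calc ρ * qv ≤ ρ * (k * T * (y * W)) := mul_le_mul_of_nonneg_left e2 hρ.le
      _ ≤ ρ1 * (k * T * (y * W)) := by
          apply mul_le_mul_of_nonneg_right hρ1; positivity
  have e5 : C2 * W * nA ≤ C2 * W * M := by gcongr
  have c1 : -(k ^ 2 * T * C1 * W) - ρ1 * (k * T * (y * W)) - C2 * W * M ≤ qd := by
    linarith [show -(k * T * (k * (C1 * W))) = -(k ^ 2 * T * C1 * W) by ring]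
  have c2 : 0 ≤ χ ^ 2 / W := by positivity
  have c3 := mul_le_mul_of_nonneg_left c1 c2
  refine le_trans ?_ c3
  have c4 : χ ^ 2 / W * (-(k ^ 2 * T * C1 * W) - ρ1 * (k * T * (y * W)) - C2 * W * M)
      = -(k ^ 2 * T * C1 + C2 * M) * χ ^ 2 - ρ1 * k * T * (χ ^ 2 * y) := by
    field_simp
    ring
  rw [c4]
  have hM1 : 0 ≤ M := hM0.trans hM
  have hρ10 : 0 ≤ ρ1 := hρ.le.trans hρ1
  have hχ2 : χ ^ 2 ≤ χ := by linarith only [mul_nonneg (sub_nonneg.2 hχ0) (sub_nonneg.2 hχ1)]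
  have hχ21 : χ ^ 2 ≤ 1 := by linarith only [hχ1, hχ2]
  have c5 : χ ^ 2 * y ≤ χ * y := mul_le_mul_of_nonneg_right hχ2 hy
  have c6 : 0 ≤ ρ1 * k * T := by positivity
  have c7 : 0 ≤ k ^ 2 * T * C1 + C2 * M := by positivity
  have c8 := mul_nonneg c7 (sub_nonneg.2 hχ21)
  have c9 := mul_le_mul_of_nonneg_left c5 c6
  linarith only [c8, c9]

/-- the pointwise inequality behind the energy estimate -/
theorem pointwise {J : M4} (hJ : IsCx J) (hpos : Pos J) {A : L2} (hA : Cone J A)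
    {v b τ gχ : V4} {χ V ρ k C1 C2 Cχ T M ρ1 : ℝ} {db : L2}
    (hV : 0 ≤ V) (hχ0 : 0 ≤ χ) (hχ1 : χ ≤ 1)
    (hk : 0 ≤ k) (hQ : ∀ a, Q A (wd a (cc J a)) ≤ (k * ‖a‖) ^ 2)
    (hρ : 0 < ρ) (hρ1 : ρ ≤ ρ1)
    (hC1 : 0 ≤ C1) (hb : ‖b + ρ • cc J v‖ ≤ C1 * (1 + V))
    (hC2 : 0 ≤ C2) (hdb : Q A (wd τ b) - C2 * (1 + V) * ‖A‖ ≤ Q A db)
    (hgχ : ‖gχ‖ ≤ Cχ) (hτ : ‖τ‖ ≤ T) (hM : ‖A‖ ≤ M) :
    ρ * (χ * (Real.sqrt (Q A (wd v (cc J v))) / (1 + V))) ^ 2 -
      (k * C1 + 2 * ρ1 * k * Cχ + ρ1 * k * T) *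
        (χ * (Real.sqrt (Q A (wd v (cc J v))) / (1 + V))) -
        (2 * (k ^ 2 * Cχ * C1) + k ^ 2 * T * C1 + C2 * M)
     ≤ Q A (wd ((2 * χ / (1 + V)) • gχ - (χ ^ 2 / (1 + V) ^ 2) • v) b
        + (χ ^ 2 / (1 + V)) • db) := by
  have hG0 : 0 ≤ Q A (wd v (cc J v)) := Q_wd_nonneg hJ hpos hA v
  obtain ⟨e, he⟩ : ∃ e, e = b + ρ • cc J v := ⟨_, rfl⟩
  have hbe : b = e - ρ • cc J v := by rw [he]; abel
  rw [← he] at hb
  obtain ⟨g, hg⟩ : ∃ g, g = Real.sqrt (Q A (wd v (cc J v))) := ⟨_, rfl⟩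
  have hg0 : 0 ≤ g := hg ▸ Real.sqrt_nonneg _
  have hgg : Q A (wd v (cc J v)) = g ^ 2 := by rw [hg, Real.sq_sqrt hG0]
  rw [← hg]
  obtain ⟨W, hW⟩ : ∃ W, W = 1 + V := ⟨_, rfl⟩
  rw [← hW] at hb hdb ⊢
  have hW1 : 1 ≤ W := by linarith only [hV, hW]
  have hW0 : 0 < W := by linarith only [hV, hW]
  have hCχ : 0 ≤ Cχ := (norm_nonneg _).trans hgχ
  have hT : 0 ≤ T := (norm_nonneg _).trans hτ
  have hQe : Q A (wd e (cc J e)) ≤ (k * (C1 * W)) ^ 2 := by
    refine (hQ e).trans ?_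
    gcongr
  have hQχ : Q A (wd gχ (cc J gχ)) ≤ (k * Cχ) ^ 2 := by
    refine (hQ _).trans ?_
    gcongr
  have hQτ : Q A (wd τ (cc J τ)) ≤ (k * T) ^ 2 := by
    refine (hQ _).trans ?_
    gcongr
  have hke : 0 ≤ k * (C1 * W) := by positivity
  have hkχ : 0 ≤ k * Cχ := by positivity
  have hkτ : 0 ≤ k * T := by positivity
  have a1 := (abs_le.1 (cs1 hJ hpos hA hkχ hke hQχ hQe)).1
  have a2 := (abs_le.1 (cs2 hJ hpos hA hkχ hg0 hQχ hgg.le)).2
  have a3 := (abs_le.1 (cs1 hJ hpos hA hg0 hke hgg.le hQe)).2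
  have a4 := (abs_le.1 (cs1 hJ hpos hA hkτ hke hQτ hQe)).1
  have a5 := (abs_le.1 (cs2 hJ hpos hA hkτ hg0 hQτ hgg.le)).2
  have hwb : ∀ a, Q A (wd a b) = Q A (wd a e) - ρ * Q A (wd a (cc J v)) := by
    intro a
    rw [hbe, sub_eq_add_neg, wd_add_right, wd_neg_right, wd_smul_right, Q_add_right, Q_neg_right,
      Q_smul_right]
    ring
  have hsplit : Q A (wd ((2 * χ / W) • gχ - (χ ^ 2 / W ^ 2) • v) b + (χ ^ 2 / W) • db)
      = (2 * χ / W) * Q A (wd gχ b) + (χ ^ 2 / W ^ 2) * (- Q A (wd v b)) + (χ ^ 2 / W) * Q A db := by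
    rw [sub_eq_add_neg, wd_add_left, wd_neg_left, wd_smul_left, wd_smul_left, Q_add_right,
      Q_add_right, Q_neg_right, Q_smul_right, Q_smul_right, Q_smul_right]
    ring
  rw [hsplit]
  have y0 : 0 ≤ g / W := by positivity
  have hgy : g = (g / W) * W := by field_simp
  obtain ⟨y, hy⟩ : ∃ y, y = g / W := ⟨_, rfl⟩
  rw [← hy] at y0 hgy ⊢
  rw [hgy] at a2 a3 a5 hgg
  have b1 := pw1 hW1 y0 hχ0 hχ1 hk hρ hρ1 hC1 hCχ a1 a2
  have b2 := pw2 (ρ := ρ) hW1 y0 hχ0 hχ1 hk hC1 a3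
  have b3 := pw3 (qd := Q A db) hW1 y0 hχ0 hχ1 hk hρ hρ1 hC1 hT hC2 (norm_nonneg A) hM a4 a5
    (by rw [← hwb]; exact hdb)
  rw [← hwb] at b1
  rw [← hgg, ← hwb] at b2
  linarith only [b1, b2, b3]

theorem exists_lower {ρ : V4 → ℝ} (hρ : Continuous ρ) (hpos : ∀ x, 0 < ρ x) {S : Set V4}
    (hS : IsCompact S) : ∃ ρ0 ρ1 : ℝ, 0 < ρ0 ∧ ∀ x ∈ S, ρ0 ≤ ρ x ∧ ρ x ≤ ρ1 := by
  obtain ⟨N, hN⟩ := hS.exists_bound_of_continuousOn
    (hρ.inv₀ (fun x => (hpos x).ne')).continuousOn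
  obtain ⟨N1, hN1⟩ := hS.exists_bound_of_continuousOn hρ.continuousOn
  refine ⟨(max N 1)⁻¹, N1, by positivity, fun x hx => ⟨?_, ?_⟩⟩
  · have h1 := hN x hx
    rw [Real.norm_eq_abs, Pi.inv_apply, abs_of_pos (inv_pos.2 (hpos x))] at h1
    rw [inv_le_comm₀ (by positivity) (hpos x)]
    exact h1.trans (le_max_left _ _)
  · have h1 := hN1 x hx
    rwa [Real.norm_eq_abs, abs_of_pos (hpos x)] at h1

theorem grad_test {χ V : V4 → ℝ} {x : V4} (hχ : DifferentiableAt ℝ χ x)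
    (hV : DifferentiableAt ℝ V x) (h0 : 0 ≤ V x) :
    grad (fun y => χ y ^ 2 / (1 + V y)) x
      = (2 * χ x / (1 + V x)) • grad χ x - (χ x ^ 2 / (1 + V x) ^ 2) • grad V x := by
  have hne : (1 + V x) ≠ 0 := by positivity
  have e : (fun y => χ y ^ 2 / (1 + V y)) = fun y => (χ y * χ y) * (fun t : ℝ => (1 + t)⁻¹) (V y) := by
    funext y; simp only; rw [div_eq_mul_inv, sq]
  have hd : HasDerivAt (fun t : ℝ => (1 + t)⁻¹) (-1 / (1 + V x) ^ 2) (V x) :=
    ((hasDerivAt_id (V x)).const_add 1).fun_inv hne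
  rw [e, grad_mul (f := fun y => χ y * χ y) (g := fun y => (fun t : ℝ => (1 + t)⁻¹) (V y))
    (hχ.mul hχ) (hd.differentiableAt.comp x hV),
    grad_comp hd.differentiableAt hV, hd.deriv, grad_mul hχ hχ]
  funext i
  simp only [Pi.add_apply, Pi.sub_apply, Pi.smul_apply, smul_eq_mul]
  field_simp
  ring

end EMF

open EMF in
theorem EMData.energy' {J : V4 → M4} (hJ : ContDiff ℝ ∞ J) (hcx : ∀ y, IsCx (J y))
    (hpos : ∀ y, Pos (J y))
    {r : Measure V4} {D : V4 → L2} (h : LCur J r D) (E : EMData J r) (K : Set V4)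
    (hK : IsCompact K) :
    ∃ C : ℝ, ∀ s, 0 < s → s ≤ 1 →
      ∫ x in K, Q (D x) (wd (grad (E.V s) x) (cc (J x) (grad (E.V s) x))) / (1 + E.V s x) ^ 2 ∂r
        ≤ C := by
  haveI := h.fin
  obtain ⟨R, hR⟩ := hK.isBounded.subset_closedBall (0 : V4)
  let χ : ContDiffBump (0 : V4) := ⟨max R 0 + 1, max R 0 + 2, by positivity, by linarith⟩
  have hχK : ∀ x ∈ K, χ x = 1 := by
    intro x hx
    apply χ.one_of_mem_closedBall
    refine Metric.closedBall_subset_closedBall ?_ (hR hx)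
    show R ≤ max R 0 + 1
    linarith [le_max_left R 0]
  have hχs : ContDiff ℝ ∞ (χ : V4 → ℝ) := χ.contDiff
  obtain ⟨S, hSdef⟩ : ∃ S, S = tsupport (χ : V4 → ℝ) := ⟨_, rfl⟩
  have hS : IsCompact S := hSdef ▸ χ.hasCompactSupport
  obtain ⟨M, k, hM, hk, hD, hQ⟩ := exists_bounds hJ hcx hpos h hS
  obtain ⟨ρ0, ρ1, hρ0, hρ⟩ := exists_lower E.ρ_cont E.ρ_pos hS
  obtain ⟨T, hT⟩ := hS.exists_bound_of_continuousOn E.τ_cont.continuousOn
  obtain ⟨Cχ, hCχ⟩ := hS.exists_bound_of_continuousOn (continuous_grad hχs).continuousOn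
  obtain ⟨C1, hC1⟩ := E.P1 S hS
  obtain ⟨C2, hC2⟩ := E.P2 S hS
  obtain ⟨A, hA⟩ : ∃ A, A = k * max C1 0 + 2 * ρ1 * k * Cχ + ρ1 * k * T := ⟨_, rfl⟩
  obtain ⟨B, hB⟩ : ∃ B, B = 2 * (k ^ 2 * Cχ * max C1 0) + k ^ 2 * T * max C1 0 + max C2 0 * M :=
    ⟨_, rfl⟩
  refine ⟨2 / ρ0 * ((B + A ^ 2 / (2 * ρ0)) * (r S).toReal), ?_⟩
  intro s hs hs1
  have hVs := E.V_smooth s hs
  have hbs := E.b_smooth s hs
  have hV0 : ∀ x, 0 ≤ E.V s x := fun x => E.V_nonneg s x hs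
  have hne : ∀ x, 1 + E.V s x ≠ 0 := fun x => by have := hV0 x; positivity
  obtain ⟨G, hG⟩ : ∃ G : V4 → ℝ, G = fun x =>
      Q (D x) (wd (grad (E.V s) x) (cc (J x) (grad (E.V s) x))) := ⟨_, rfl⟩
  have hG0 : ∀ x, 0 ≤ G x := fun x => by
    rw [hG]; exact Q_wd_nonneg (hcx x) (hpos x) (h.cone x) _
  obtain ⟨Y2, hY2⟩ : ∃ Y2 : V4 → ℝ, Y2 = fun x => χ x ^ 2 * (G x / (1 + E.V s x) ^ 2) := ⟨_, rfl⟩
  have hY20 : ∀ x, 0 ≤ Y2 x := fun x => by
    rw [hY2]; have := hG0 x; (clear * - this; positivity)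
  -- the test form
  obtain ⟨u, hu⟩ : ∃ u : V4 → ℝ, u = fun x => χ x ^ 2 / (1 + E.V s x) := ⟨_, rfl⟩
  have hus : ContDiff ℝ ∞ u := by
    rw [hu]
    exact (hχs.pow 2).div (contDiff_const.add hVs) hne
  have hsupp : tsupport (fun x => u x • E.b s x) ⊆ S := by
    rw [hSdef]
    apply closure_mono
    intro x hx
    simp only [Function.mem_support] at hx ⊢
    intro h0
    apply hx
    rw [hu]
    simp [h0]
  have hTF : TF (fun x => u x • E.b s x) :=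
    ⟨hus.smul hbs, HasCompactSupport.of_support_subset_isCompact hS
      (subset_closure.trans hsupp)⟩
  have hclosed := h.closed _ hTF
  have hint := integrable_d1 hJ hcx hpos h hTF
  have hd1 : ∀ x, d1 (fun x => u x • E.b s x) x =
      wd ((2 * χ x / (1 + E.V s x)) • grad χ x - (χ x ^ 2 / (1 + E.V s x) ^ 2) • grad (E.V s) x)
        (E.b s x) + (χ x ^ 2 / (1 + E.V s x)) • d1 (E.b s) x := by
    intro x
    rw [d1_smul (hus.differentiable (by simp) x) (hbs.differentiable (by simp only [ne_eq, WithTop.coe_eq_zero, ENat.top_ne_zero, not_false_eq_true]) x), hu,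
      grad_test (hχs.differentiable (by simp) x) (hVs.differentiable (by simp only [ne_eq, WithTop.coe_eq_zero, ENat.top_ne_zero, not_false_eq_true]) x) (hV0 x)]
  have hkey : ∀ x, (ρ0 / 2) * Y2 x ≤ Q (D x) (d1 (fun x => u x • E.b s x) x)
      + S.indicator (fun _ => B + A ^ 2 / (2 * ρ0)) x := by
    intro x
    by_cases hx : x ∈ S
    · rw [indicator_of_mem hx, hd1]
      have hW : 0 < 1 + E.V s x := by have := hV0 x; positivity
      have p := pointwise (J := J x) (A := D x) (v := grad (E.V s) x) (b := E.b s x)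
        (τ := E.τ x) (gχ := grad χ x) (χ := χ x) (V := E.V s x) (ρ := E.ρ x) (k := k)
        (C1 := max C1 0) (C2 := max C2 0) (Cχ := Cχ) (T := T) (M := M) (ρ1 := ρ1)
        (db := d1 (E.b s) x)
        (hcx x) (hpos x) (h.cone x) (hV0 x) χ.nonneg χ.le_one hk (hQ x hx) (E.ρ_pos x)
        (hρ x hx).2 (le_max_right _ _)
        ((hC1 s hs hs1 x hx).trans (mul_le_mul_of_nonneg_right (le_max_left _ _) hW.le))
        (le_max_right _ _)
        (by
          refine le_trans ?_ (hC2 s hs hs1 x hx (D x) (h.cone x))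
          have : C2 * (1 + E.V s x) * ‖D x‖ ≤ max C2 0 * (1 + E.V s x) * ‖D x‖ := by
            gcongr
            exact le_max_left _ _
          linarith only [this])
        (hCχ x hx) (hT x hx) (hD x hx)
      rw [← hA, ← hB] at p
      refine le_trans ?_ (add_le_add_left p _)
      have hGx : Q (D x) (wd (grad (E.V s) x) (cc (J x) (grad (E.V s) x))) = G x := by rw [hG]
      rw [hGx]
      obtain ⟨y, hy⟩ : ∃ y, y = χ x * (Real.sqrt (G x) / (1 + E.V s x)) := ⟨_, rfl⟩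
      have hyy : Y2 x = y ^ 2 := by
        rw [hY2, hy, mul_pow, div_pow, Real.sq_sqrt (hG0 x)]
      rw [← hy, hyy]
      have h1 := (hρ x hx).1
      have h2 : 0 ≤ y ^ 2 := sq_nonneg y
      have h3 : ρ0 * y ^ 2 ≤ E.ρ x * y ^ 2 := mul_le_mul_of_nonneg_right h1 h2
      have h4 : 0 ≤ ρ0 / 2 * (y - A / ρ0) ^ 2 := by (clear * - hρ0; positivity)
      have h5 : ρ0 / 2 * (y - A / ρ0) ^ 2 = ρ0 / 2 * y ^ 2 - A * y + A ^ 2 / (2 * ρ0) := by
        field_simp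
        ring
      linarith only [h3, h4, h5]
    · rw [indicator_of_notMem hx, d1_zero_of_notMem (fun h' => hx (hsupp h')), Q_zero_right]
      have h0 : χ x = 0 := by
        rw [hSdef] at hx
        exact image_eq_zero_of_notMem_tsupport hx
      rw [hY2]
      simp [h0]
  have hindint : Integrable (S.indicator (fun _ => B + A ^ 2 / (2 * ρ0)) : V4 → ℝ) r := by
    rw [integrable_indicator_iff hS.measurableSet]
    exact integrableOn_const hS.measure_lt_top.ne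
  have hY2int : Integrable (fun x => (ρ0 / 2) * Y2 x) r := by
    refine (hint.add hindint).mono' ?_ ?_
    · apply Measurable.aestronglyMeasurable
      have m1 : Measurable G := by
        rw [hG]
        refine measurable_Q h.meas (Continuous.measurable ?_)
        have c1 := continuous_grad hVs
        exact continuous_wd.comp (c1.prodMk (continuous_cc.comp (hJ.continuous.prodMk c1)))
      rw [hY2]
      have m2 : Measurable (χ : V4 → ℝ) := hχs.continuous.measurable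
      have m3 : Measurable (E.V s) := hVs.continuous.measurable
      exact measurable_const.mul ((m2.pow_const 2).mul
        (m1.div ((measurable_const.add m3).pow_const 2)))
    · refine ae_of_all _ fun x => ?_
      have h0 := hY20 x
      rw [Real.norm_eq_abs, abs_of_nonneg (by positivity)]
      exact hkey x
  have hY2int' : Integrable Y2 r := by
    have := hY2int.const_mul (2 / ρ0)
    refine this.congr (ae_of_all _ fun x => ?_)
    field_simp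
  have h1 : ∫ x, (ρ0 / 2) * Y2 x ∂r ≤ (B + A ^ 2 / (2 * ρ0)) * (r S).toReal := by
    refine (integral_mono hY2int (hint.add hindint) hkey).trans ?_
    simp only [Pi.add_apply]
    rw [integral_add hint hindint, hclosed, zero_add, integral_indicator hS.measurableSet,
      setIntegral_const, smul_eq_mul, mul_comm]
    exact le_of_eq rfl
  rw [integral_const_mul] at h1
  have h2 : ∫ x, Y2 x ∂r ≤ 2 / ρ0 * ((B + A ^ 2 / (2 * ρ0)) * (r S).toReal) := by
    rw [div_mul_eq_mul_div, le_div_iff₀ hρ0]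
    linarith only [h1]
  refine le_trans ?_ h2
  have h3 : ∫ x in K, Q (D x) (wd (grad (E.V s) x) (cc (J x) (grad (E.V s) x)))
      / (1 + E.V s x) ^ 2 ∂r = ∫ x in K, Y2 x ∂r := by
    refine setIntegral_congr_fun hK.measurableSet fun x hx => ?_
    simp only [hY2, hG, hχK x hx, one_pow, one_mul]
  rw [h3]
  exact setIntegral_le_integral hY2int' (ae_of_all _ hY20)

namespace EMF

/-- the cutoff function on the line -/
noncomputable def hb : ContDiffBump (0 : ℝ) := ⟨1, 2, by norm_num, by norm_num⟩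

theorem exists_deriv_hb : ∃ H : ℝ, 0 ≤ H ∧ ∀ t, |deriv (hb : ℝ → ℝ) t| ≤ H := by
  have h1 : ContDiff ℝ ∞ (hb : ℝ → ℝ) := hb.contDiff
  have h2 : Continuous (deriv (hb : ℝ → ℝ)) := h1.continuous_deriv (by simp only [WithTop.one_le_coe, le_top])
  have h3 : HasCompactSupport (deriv (hb : ℝ → ℝ)) := hb.hasCompactSupport.deriv
  obtain ⟨C, hC⟩ := h2.bounded_above_of_compact_support h3
  exact ⟨C, (norm_nonneg _).trans (hC 0), hC⟩

theorem hasDerivAt_cut {c t : ℝ} (ht : 0 ≤ t) :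
    HasDerivAt (fun t : ℝ => hb (c * Real.log (1 + t)))
      (deriv (hb : ℝ → ℝ) (c * Real.log (1 + t)) * (c * (1 / (1 + t)))) t := by
  have hne : 1 + t ≠ 0 := by positivity
  have h1 : HasDerivAt (fun t : ℝ => c * Real.log (1 + t)) (c * (1 / (1 + t))) t :=
    (((hasDerivAt_id t).const_add 1).log hne).const_mul c
  have h2 : ContDiff ℝ ∞ (hb : ℝ → ℝ) := hb.contDiff
  exact ((h2.differentiable (by simp only [ne_eq, WithTop.coe_eq_zero, ENat.top_ne_zero, not_false_eq_true]) _).hasDerivAt.comp t h1)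

variable {J : V4 → M4} {r : Measure V4} {D : V4 → L2}

theorem cutoff_bound (hJ : ContDiff ℝ ∞ J) (hcx : ∀ y, IsCx (J y))
    (hpos : ∀ y, Pos (J y)) (h : LCur J r D) (E : EMData J r) (η : V4 → V4) (hη : TF η) :
    ∃ C : ℝ, ∀ s, 0 < s → s ≤ 1 → ∀ c : ℝ, 0 < c →
      |∫ x, hb (c * Real.log (1 + E.V s x)) * Q (D x) (d1 η x) ∂r| ≤ C * c := by
  haveI := h.fin
  obtain ⟨S, hSdef⟩ : ∃ S, S = tsupport η := ⟨_, rfl⟩
  have hS : IsCompact S := hSdef ▸ hη.2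
  obtain ⟨H, hH0, hH⟩ := exists_deriv_hb
  obtain ⟨M, k, hM, hk, hD, hQ⟩ := exists_bounds hJ hcx hpos h hS
  obtain ⟨Cη', hCη'⟩ := hS.exists_bound_of_continuousOn hη.1.continuous.continuousOn
  obtain ⟨Cη, hCη⟩ : ∃ Cη, Cη = max Cη' 0 := ⟨_, rfl⟩
  have hη0 : ∀ x ∈ S, ‖η x‖ ≤ Cη := fun x hx => (hCη' x hx).trans (hCη ▸ le_max_left _ _)
  have hCη0 : 0 ≤ Cη := hCη ▸ le_max_right _ _
  obtain ⟨Ce, hCe⟩ := EMData.energy' hJ hcx hpos h E S hS
  refine ⟨H * (k * Cη) * ((r S).toReal + Ce) / 2, ?_⟩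
  intro s hs hs1 c hc
  have hVs := E.V_smooth s hs
  have hV0 : ∀ x, 0 ≤ E.V s x := fun x => E.V_nonneg s x hs
  have hW0 : ∀ x, 0 < 1 + E.V s x := fun x => by have := hV0 x; positivity
  have hne : ∀ x, 1 + E.V s x ≠ 0 := fun x => (hW0 x).ne'
  obtain ⟨G, hG⟩ : ∃ G : V4 → ℝ, G = fun x =>
      Q (D x) (wd (grad (E.V s) x) (cc (J x) (grad (E.V s) x))) := ⟨_, rfl⟩
  have hG0 : ∀ x, 0 ≤ G x := fun x => by
    rw [hG]; exact Q_wd_nonneg (hcx x) (hpos x) (h.cone x) _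
  have mG : Measurable G := by
    rw [hG]
    refine measurable_Q h.meas (Continuous.measurable ?_)
    have c1 := continuous_grad hVs
    exact continuous_wd.comp (c1.prodMk (continuous_cc.comp (hJ.continuous.prodMk c1)))
  have mV : Measurable (E.V s) := hVs.continuous.measurable
  obtain ⟨u, hu⟩ : ∃ u : V4 → ℝ, u = fun x => hb (c * Real.log (1 + E.V s x)) := ⟨_, rfl⟩
  have hbs : ContDiff ℝ ∞ (hb : ℝ → ℝ) := hb.contDiff
  have hus : ContDiff ℝ ∞ u := by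
    rw [hu]
    exact hbs.comp (contDiff_const.mul ((contDiff_const.add hVs).log hne))
  have hsupp : tsupport (fun x => u x • η x) ⊆ S := by
    rw [hSdef]
    apply closure_mono
    intro x hx
    simp only [Function.mem_support] at hx ⊢
    intro h0
    apply hx
    simp [h0]
  have hTF : TF (fun x => u x • η x) :=
    ⟨hus.smul hη.1, HasCompactSupport.of_support_subset_isCompact hS
      (subset_closure.trans hsupp)⟩
  have hclosed := h.closed _ hTF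
  have hint := integrable_d1 hJ hcx hpos h hTF
  have hintη := integrable_d1 hJ hcx hpos h hη
  have hd1 : ∀ x, d1 (fun x => u x • η x) x = wd (grad u x) (η x) + u x • d1 η x := fun x =>
    d1_smul (hus.differentiable (by simp) x) (hη.1.differentiable (by simp) x)
  have hgu : ∀ x, grad u x = (deriv (hb : ℝ → ℝ) (c * Real.log (1 + E.V s x))
      * (c * (1 / (1 + E.V s x)))) • grad (E.V s) x := by
    intro x
    have hd := hasDerivAt_cut (c := c) (hV0 x)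
    rw [hu, grad_comp (h := fun t : ℝ => hb (c * Real.log (1 + t))) hd.differentiableAt
      (hVs.differentiable (by simp) x), hd.deriv]
  have mu : Measurable u := hus.continuous.measurable
  have hintu : Integrable (fun x => u x * Q (D x) (d1 η x)) r := by
    refine hintη.norm.mono' ?_ ?_
    · exact (mu.mul (measurable_Q h.meas (continuous_d1 hη.1).measurable)).aestronglyMeasurable
    · refine ae_of_all _ fun x => ?_
      rw [norm_mul]
      have h1 : ‖u x‖ ≤ 1 := by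
        rw [hu, Real.norm_eq_abs, abs_of_nonneg hb.nonneg]; exact hb.le_one
      exact mul_le_of_le_one_left (norm_nonneg _) h1
  have heq : ∀ x, u x * Q (D x) (d1 η x) = Q (D x) (d1 (fun x => u x • η x) x)
      - Q (D x) (wd (grad u x) (η x)) := by
    intro x
    rw [hd1, Q_add_right, Q_smul_right]; ring
  have hintw : Integrable (fun x => Q (D x) (wd (grad u x) (η x))) r := by
    have := hint.sub hintu
    refine this.congr (ae_of_all _ fun x => ?_)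
    simp only [Pi.sub_apply]
    rw [heq]; ring
  have hmain : ∫ x, u x * Q (D x) (d1 η x) ∂r = - ∫ x, Q (D x) (wd (grad u x) (η x)) ∂r := by
    rw [integral_congr_ae (ae_of_all _ heq), integral_sub hint hintw, hclosed, zero_sub]
  have hgoal : ∫ x, hb (c * Real.log (1 + E.V s x)) * Q (D x) (d1 η x) ∂r
      = ∫ x, u x * Q (D x) (d1 η x) ∂r := by rw [hu]
  rw [hgoal, hmain, abs_neg]
  -- pointwise bound
  obtain ⟨P, hP⟩ : ∃ P : V4 → ℝ, P = fun x => G x / (1 + E.V s x) ^ 2 := ⟨_, rfl⟩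
  have hP0 : ∀ x, 0 ≤ P x := fun x => by rw [hP]; have := hG0 x; have := hW0 x; positivity
  have hpt : ∀ x, |Q (D x) (wd (grad u x) (η x))| ≤
      S.indicator (fun x => (H * (k * Cη) * c / 2) * (1 + P x)) x := by
    intro x
    by_cases hx : x ∈ S
    · rw [indicator_of_mem hx, hgu, wd_smul_left, Q_smul_right, abs_mul]
      have hGx : Q (D x) (wd (grad (E.V s) x) (cc (J x) (grad (E.V s) x))) = G x := by rw [hG]
      have e1 : Q (D x) (wd (grad (E.V s) x) (cc (J x) (grad (E.V s) x)))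
          ≤ (Real.sqrt (G x)) ^ 2 := by rw [hGx, Real.sq_sqrt (hG0 x)]
      have e2 : Q (D x) (wd (η x) (cc (J x) (η x))) ≤ (k * Cη) ^ 2 := by
        refine (hQ x hx _).trans ?_
        have := hη0 x hx
        gcongr
      have e3 := cs1 (hcx x) (hpos x) (h.cone x) (Real.sqrt_nonneg _) (by (clear * - hk hCη0; positivity)) e1 e2
      have e4 : |deriv (hb : ℝ → ℝ) (c * Real.log (1 + E.V s x)) * (c * (1 / (1 + E.V s x)))|
          ≤ H * (c * (1 / (1 + E.V s x))) := by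
        have hw := hW0 x
        rw [abs_mul, abs_of_pos (show 0 < c * (1 / (1 + E.V s x)) by (clear * - hc hw; positivity))]
        exact mul_le_mul_of_nonneg_right (hH _) (by (clear * - hc hw; positivity))
      have hw := hW0 x
      calc _ ≤ H * (c * (1 / (1 + E.V s x))) * (Real.sqrt (G x) * (k * Cη)) := by
            gcongr
        _ = (H * (k * Cη) * c) * (Real.sqrt (G x) / (1 + E.V s x)) := by
            field_simp
        _ ≤ (H * (k * Cη) * c) * ((1 + P x) / 2) := by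
            apply mul_le_mul_of_nonneg_left _ (by (clear * - hH0 hk hCη0 hc; positivity))
            have e5 : P x = (Real.sqrt (G x) / (1 + E.V s x)) ^ 2 := by
              rw [hP, div_pow, Real.sq_sqrt (hG0 x)]
            rw [e5]
            linarith only [sq_nonneg (Real.sqrt (G x) / (1 + E.V s x) - 1)]
        _ = H * (k * Cη) * c / 2 * (1 + P x) := by ring
    · rw [indicator_of_notMem hx]
      have h0 : η x = 0 := by
        rw [hSdef] at hx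
        exact image_eq_zero_of_notMem_tsupport hx
      have h1 : wd (grad u x) (0 : V4) = 0 := by
        have := wd_smul_right 0 (grad u x) 0
        rwa [zero_smul, zero_smul] at this
      rw [h0, h1, Q_zero_right, abs_zero]
  have mP : Measurable P := by
    rw [hP]; exact mG.div ((measurable_const.add mV).pow_const 2)
  have hPint : IntegrableOn P S r := by
    obtain ⟨Cv, hCv⟩ := hS.exists_bound_of_continuousOn (continuous_grad hVs).continuousOn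
    refine Measure.integrableOn_of_bounded (M := (k * Cv) ^ 2) hS.measure_lt_top.ne
      mP.aestronglyMeasurable ?_
    filter_upwards [ae_restrict_mem hS.measurableSet] with x hx
    rw [Real.norm_eq_abs, abs_of_nonneg (hP0 x), hP]
    have hw : 1 ≤ (1 + E.V s x) ^ 2 := by have := hV0 x; (by_contra nlg; linarith [mul_nonneg (sub_nonneg.2 this) (sub_nonneg.2 this), mul_nonneg (le_of_lt (sub_pos.2 (not_le.1 nlg))) (sub_nonneg.2 this), mul_pos (sub_pos.2 (not_le.1 nlg)) (sub_pos.2 (not_le.1 nlg)), mul_nonneg (sq_nonneg (1 + E.V s x : ℝ)) (sub_nonneg.2 this), mul_nonneg (sq_nonneg (1 + E.V s x : ℝ)) (le_of_lt (sub_pos.2 (not_le.1 nlg)))])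
    refine (div_le_self (hG0 x) hw).trans ?_
    rw [hG]
    refine (hQ x hx _).trans ?_
    have := hCv x hx
    gcongr
  have hPle : ∫ x in S, P x ∂r ≤ Ce := by
    have := hCe s hs hs1
    rw [hP, hG]
    exact this
  have hindint : IntegrableOn (fun x => (H * (k * Cη) * c / 2) * (1 + P x)) S r :=
    ((integrableOn_const hS.measure_lt_top.ne).add hPint).const_mul _
  calc |∫ x, Q (D x) (wd (grad u x) (η x)) ∂r| ≤ ∫ x, |Q (D x) (wd (grad u x) (η x))| ∂r :=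
        abs_integral_le_integral_abs
    _ ≤ ∫ x, S.indicator (fun x => (H * (k * Cη) * c / 2) * (1 + P x)) x ∂r :=
        integral_mono hintw.abs (hindint.integrable_indicator hS.measurableSet) hpt
    _ = (H * (k * Cη) * c / 2) * ((r S).toReal + ∫ x in S, P x ∂r) := by
        have hone : Integrable (fun _ : V4 => (1 : ℝ)) (r.restrict S) :=
          integrableOn_const hS.measure_lt_top.ne
        rw [integral_indicator hS.measurableSet, integral_const_mul,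
          integral_add hone hPint.integrable, setIntegral_const, smul_eq_mul, mul_one]
        rfl
    _ ≤ (H * (k * Cη) * c / 2) * ((r S).toReal + Ce) := by
        apply mul_le_mul_of_nonneg_left _ (by (clear * - hH0 hk hCη0 hc; positivity))
        linarith only [hPle]
    _ = H * (k * Cη) * ((r S).toReal + Ce) / 2 * c := by ring

/-- discretised potentials -/
theorem sm_pos (m : ℕ) : (0 : ℝ) < 1 / ((m : ℝ) + 1) := by positivity

theorem sm_le (m : ℕ) : 1 / ((m : ℝ) + 1) ≤ 1 := by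
  rw [div_le_one (by positivity)]
  have : (0 : ℝ) ≤ m := Nat.cast_nonneg m
  linarith

theorem pot_iff (E : EMData J r) (x : V4) :
    pot r x < ⊤ ↔ ∃ N : ℕ, ∀ m : ℕ, E.V (1 / ((m : ℝ) + 1)) x ≤ N := by
  rw [E.V_lim x]
  constructor
  · rintro ⟨C, hC⟩
    obtain ⟨N, hN⟩ := exists_nat_ge C
    exact ⟨N, fun m => (hC _ (sm_pos m)).trans hN⟩
  · rintro ⟨N, hN⟩
    refine ⟨N, fun s hs => ?_⟩
    obtain ⟨m, hm⟩ := exists_nat_one_div_lt hs
    exact (E.V_mono _ _ x (sm_pos m) hm.le).trans (hN m)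

theorem measurableSet_pot (E : EMData J r) : MeasurableSet {x | pot r x < ⊤} := by
  have h1 : {x | pot r x < ⊤} = ⋃ N : ℕ, ⋂ m : ℕ, {x | E.V (1 / ((m : ℝ) + 1)) x ≤ N} := by
    ext x
    simp only [mem_setOf_eq, mem_iUnion, mem_iInter]
    exact pot_iff E x
  rw [h1]
  refine MeasurableSet.iUnion fun N => MeasurableSet.iInter fun m => ?_
  exact measurableSet_le (E.V_smooth _ (sm_pos m)).continuous.measurable measurable_const

theorem V_monotone (E : EMData J r) (x : V4) : Monotone fun m : ℕ => E.V (1 / ((m : ℝ) + 1)) x := by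
  intro m n hmn
  refine E.V_mono _ _ x (sm_pos n) ?_
  have : (m : ℝ) ≤ n := by exact_mod_cast hmn
  apply one_div_le_one_div_of_le (by positivity)
  linarith only [this]

open Classical in
/-- limit of the cutoffs -/
noncomputable def U (E : EMData J r) (c : ℝ) (x : V4) : ℝ :=
  if pot r x < ⊤ then hb (c * Real.log (1 + ⨆ m : ℕ, E.V (1 / ((m : ℝ) + 1)) x)) else 0

theorem tendsto_U (E : EMData J r) {c : ℝ} (hc : 0 < c) (x : V4) :
    Tendsto (fun m : ℕ => hb (c * Real.log (1 + E.V (1 / ((m : ℝ) + 1)) x))) atTop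
      (𝓝 (U E c x)) := by
  have hbs : Continuous (hb : ℝ → ℝ) := hb.continuous
  by_cases hx : pot r x < ⊤
  · rw [U, if_pos hx]
    obtain ⟨N, hN⟩ := (pot_iff E x).1 hx
    have hbdd : BddAbove (range fun m : ℕ => E.V (1 / ((m : ℝ) + 1)) x) :=
      ⟨N, by rintro _ ⟨m, rfl⟩; exact hN m⟩
    have h1 := tendsto_atTop_ciSup (V_monotone E x) hbdd
    have h0 : 0 ≤ ⨆ m : ℕ, E.V (1 / ((m : ℝ) + 1)) x :=
      (E.V_nonneg _ x (sm_pos 0)).trans (le_ciSup hbdd 0)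
    have h2 : Tendsto (fun m : ℕ => Real.log (1 + E.V (1 / ((m : ℝ) + 1)) x)) atTop
        (𝓝 (Real.log (1 + ⨆ m : ℕ, E.V (1 / ((m : ℝ) + 1)) x))) :=
      (h1.const_add 1).log (by positivity)
    exact (hbs.tendsto _).comp (h2.const_mul c)
  · rw [U, if_neg hx]
    have h1 : Tendsto (fun m : ℕ => E.V (1 / ((m : ℝ) + 1)) x) atTop atTop := by
      refine tendsto_atTop_atTop_of_monotone (V_monotone E x) fun b => ?_
      by_contra hcon
      push Not at hcon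
      apply hx
      rw [pot_iff E x]
      obtain ⟨N, hN⟩ := exists_nat_ge b
      exact ⟨N, fun m => (hcon m).le.trans hN⟩
    have h2 : Tendsto (fun m : ℕ => c * Real.log (1 + E.V (1 / ((m : ℝ) + 1)) x)) atTop atTop :=
      (Real.tendsto_log_atTop.comp (tendsto_atTop_add_const_left _ 1 h1)).const_mul_atTop hc
    refine Tendsto.congr' ?_ tendsto_const_nhds
    filter_upwards [h2.eventually_ge_atTop 2] with m hm
    symm
    apply hb.zero_of_le_dist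
    rw [Real.dist_eq, sub_zero]
    exact hm.trans (le_abs_self _)

theorem tendsto_U_one (E : EMData J r) (x : V4) :
    Tendsto (fun n : ℕ => U E (1 / ((n : ℝ) + 1)) x) atTop
      (𝓝 ({x | pot r x < ⊤}.indicator (fun _ => (1 : ℝ)) x)) := by
  by_cases hx : pot r x < ⊤
  · rw [indicator_of_mem (show x ∈ {x | pot r x < ⊤} from hx)]
    simp only [U, if_pos hx]
    have hbs : Continuous (hb : ℝ → ℝ) := hb.continuous
    have h1 : hb 0 = 1 := hb.one_of_mem_closedBall (by simp only [hb, Metric.mem_closedBall, dist_self, zero_le_one])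
    have h2 := tendsto_one_div_add_atTop_nhds_zero_nat (𝕜 := ℝ)
    have h3 := h2.mul_const (Real.log (1 + ⨆ m : ℕ, E.V (1 / ((m : ℝ) + 1)) x))
    rw [zero_mul] at h3
    have h4 := (hbs.tendsto 0).comp h3
    rw [h1] at h4
    exact h4
  · rw [indicator_of_notMem (show x ∉ {x | pot r x < ⊤} from hx)]
    simp only [U, if_neg hx]
    exact tendsto_const_nhds

end EMF

open EMF in
theorem EMData.elmir' {J : V4 → M4} (hJ : ContDiff ℝ ∞ J) (hcx : ∀ y, IsCx (J y))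
    (hpos : ∀ y, Pos (J y))
    {r : Measure V4} {D : V4 → L2} (h : LCur J r D) (E : EMData J r) (η : V4 → V4) (hη : TF η) :
    ∫ x in {x | pot r x < ⊤}, Q (D x) (d1 η x) ∂r = 0 := by
  haveI := h.fin
  obtain ⟨C, hC⟩ := cutoff_bound hJ hcx hpos h E η hη
  have hint := integrable_d1 hJ hcx hpos h hη
  obtain ⟨f, hf⟩ : ∃ f : V4 → ℝ, f = fun x => Q (D x) (d1 η x) := ⟨_, rfl⟩
  have hint' : Integrable f r := by rw [hf]; exact hint
  have mf : Measurable f := by rw [hf]; exact measurable_Q h.meas (continuous_d1 hη.1).measurable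
  have hU1 : ∀ c x, |U E c x| ≤ 1 := by
    intro c x
    unfold U
    split_ifs
    · rw [abs_of_nonneg hb.nonneg]; exact hb.le_one
    · simp only [abs_zero, zero_le_one]
  have mcut : ∀ (c : ℝ) (m : ℕ),
      Measurable fun x => hb (c * Real.log (1 + E.V (1 / ((m : ℝ) + 1)) x)) := by
    intro c m
    have m1 := (E.V_smooth _ (sm_pos m)).continuous.measurable
    exact hb.continuous.measurable.comp (measurable_const.mul (Real.measurable_log.comp
      (measurable_const.add m1)))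
  have mU : ∀ c, 0 < c → Measurable (U E c) := fun c hc =>
    measurable_of_tendsto_metrizable (mcut c) (tendsto_pi_nhds.2 fun x => tendsto_U E hc x)
  -- first limit
  have step1 : ∀ c, 0 < c → |∫ x, U E c x * f x ∂r| ≤ C * c := by
    intro c hc
    have hlim : Tendsto (fun m : ℕ =>
        ∫ x, hb (c * Real.log (1 + E.V (1 / ((m : ℝ) + 1)) x)) * f x ∂r) atTop
        (𝓝 (∫ x, U E c x * f x ∂r)) := by
      refine tendsto_integral_of_dominated_convergence (fun x => |f x|) ?_ hint'.abs ?_ ?_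
      · intro m
        exact ((mcut c m).mul mf).aestronglyMeasurable
      · intro m
        refine ae_of_all _ fun x => ?_
        rw [norm_mul, Real.norm_eq_abs, Real.norm_eq_abs, abs_of_nonneg hb.nonneg]
        exact mul_le_of_le_one_left (abs_nonneg _) hb.le_one
      · exact ae_of_all _ fun x => (tendsto_U E hc x).mul_const _
    refine le_of_tendsto hlim.abs (Eventually.of_forall fun m => ?_)
    rw [hf]
    exact hC _ (sm_pos m) (sm_le m) c hc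
  -- second limit
  have hlim2 : Tendsto (fun n : ℕ => ∫ x, U E (1 / ((n : ℝ) + 1)) x * f x ∂r) atTop
      (𝓝 (∫ x, {x | pot r x < ⊤}.indicator (fun _ => (1 : ℝ)) x * f x ∂r)) := by
    refine tendsto_integral_of_dominated_convergence (fun x => |f x|) ?_ hint'.abs ?_ ?_
    · intro m
      exact ((mU _ (sm_pos m)).mul mf).aestronglyMeasurable
    · intro m
      refine ae_of_all _ fun x => ?_
      rw [norm_mul, Real.norm_eq_abs, Real.norm_eq_abs]
      exact mul_le_of_le_one_left (abs_nonneg _) (hU1 _ _)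
    · exact ae_of_all _ fun x => (tendsto_U_one E x).mul_const _
  have hlim3 : Tendsto (fun n : ℕ => ∫ x, U E (1 / ((n : ℝ) + 1)) x * f x ∂r) atTop (𝓝 0) := by
    have h2 := (tendsto_one_div_add_atTop_nhds_zero_nat (𝕜 := ℝ)).const_mul C
    rw [mul_zero] at h2
    exact squeeze_zero_norm (fun n => step1 _ (sm_pos n)) h2
  have h0 := tendsto_nhds_unique hlim2 hlim3
  have h1 : (fun x => {x | pot r x < ⊤}.indicator (fun _ => (1 : ℝ)) x * f x)
      = {x | pot r x < ⊤}.indicator f := by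
    funext x
    by_cases hx : x ∈ {x | pot r x < ⊤}
    · rw [indicator_of_mem hx, indicator_of_mem hx, one_mul]
    · rw [indicator_of_notMem hx, indicator_of_notMem hx, zero_mul]
  rw [h1, integral_indicator (measurableSet_pot E), hf] at h0
  exact h0

end Vale.Agent.P204K.T4
end

section
set_option linter.all false
/-!
Kernel bound: `∫_{‖z‖≤1} f (H (δ z) y) dz ≤ c δ^{-4} ∫_{ball y (c δ)} f`, by averaging over translations
and the Hausdorff measure estimate for antilipschitz maps. Hadamard lemma.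
-/
open MeasureTheory Set Metric Filter
open scoped ContDiff ENNReal NNReal Topology

namespace Vale.Agent.P204K.GX
open Vale.Agent.P204K.T4

namespace KK

/-- measure estimate for antilipschitz maps on a set -/
theorem lintegral_antilip {s : Set V4} (hs : MeasurableSet s) {φ : V4 → V4} (hφ : Continuous φ) {K : ℝ≥0}
    (hK : ∀ w ∈ s, ∀ w' ∈ s, edist w w' ≤ K * edist (φ w) (φ w')) {B : Set V4} (hB : MeasurableSet B)
    (hmap : ∀ w ∈ s, φ w ∈ B) {f : V4 → ℝ≥0∞} (hf : Measurable f) :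
    ∫⁻ w in s, f (φ w) ≤ (K : ℝ≥0∞) ^ 4 * ∫⁻ w in B, f w := by
  have hvol : (volume : Measure V4) = μH[4] := by
    have := (hausdorffMeasure_pi_real (ι := Fin 4)).symm
    simpa only [Fintype.card_fin, Nat.cast_ofNat] using this
  have key : ∀ E : Set V4, volume (s ∩ φ ⁻¹' E) ≤ (K : ℝ≥0∞) ^ 4 * volume E := by
    intro E
    have hanti : AntilipschitzWith K (fun w : s => φ w) := fun w w' => hK w w.2 w' w'.2
    have h1 := hanti.hausdorffMeasure_preimage_le (d := 4) (by norm_num) E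
    have h2 := (isometry_subtype_coe (s := s)).hausdorffMeasure_image (d := (4 : ℝ)) (Or.inl (by norm_num))
      ((fun w : s => φ w) ⁻¹' E)
    have e : (Subtype.val '' ((fun w : s => φ w) ⁻¹' E)) = s ∩ φ ⁻¹' E := by
      ext w
      constructor
      · rintro ⟨w, hw, rfl⟩; exact ⟨w.2, hw⟩
      · rintro ⟨h1, h2⟩; exact ⟨⟨w, h1⟩, h2, rfl⟩
    rw [e] at h2
    rw [hvol, h2]
    refine h1.trans (le_of_eq ?_)
    norm_num
  have hle : Measure.map φ (volume.restrict s) ≤ ((K : ℝ≥0∞) ^ 4) • (volume.restrict B) := by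
    refine Measure.le_iff.2 fun E hE => ?_
    rw [Measure.map_apply hφ.measurable hE, Measure.restrict_apply (hE.preimage hφ.measurable),
      Measure.smul_apply, smul_eq_mul, Measure.restrict_apply hE]
    have e : φ ⁻¹' E ∩ s = s ∩ φ ⁻¹' (E ∩ B) := by
      ext w
      constructor
      · rintro ⟨h1, h2⟩; exact ⟨h2, h1, hmap w h2⟩
      · rintro ⟨h1, h2⟩; exact ⟨h2.1, h1⟩
    rw [e]
    exact key _
  calc ∫⁻ w in s, f (φ w) = ∫⁻ w, f w ∂(Measure.map φ (volume.restrict s)) :=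
        (lintegral_map hf hφ.measurable).symm
    _ ≤ ∫⁻ w, f w ∂(((K : ℝ≥0∞) ^ 4) • (volume.restrict B)) := lintegral_mono' hle le_rfl
    _ = (K : ℝ≥0∞) ^ 4 * ∫⁻ w in B, f w := by rw [lintegral_smul_measure, smul_eq_mul]

section
variable {Z : Type} [NormedAddCommGroup Z] [NormedSpace ℝ Z] [FiniteDimensional ℝ Z]

omit [FiniteDimensional ℝ Z] in
theorem contDiff_Dz {E : Type} [NormedAddCommGroup E] [NormedSpace ℝ E] {H : Z → V4 → E}
    (hs : ContDiff ℝ ∞ (Function.uncurry H)) :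
    ContDiff ℝ ∞ (fun p : Z × V4 => fderiv ℝ (fun z' => H z' p.2) p.1) := by
  refine ContDiff.fderiv (f := fun (p : Z × V4) (z : Z) => H z p.2) (g := fun p : Z × V4 => p.1)
    (n := ∞) (m := ∞) ?_ contDiff_fst (by norm_num)
  exact hs.comp (contDiff_snd.prodMk (contDiff_snd.comp contDiff_fst))

omit [FiniteDimensional ℝ Z] in
theorem Dz_comp_e {H : Z → V4 → V4} (hs : ContDiff ℝ ∞ (Function.uncurry H)) (e : V4 →L[ℝ] Z)
    {y : V4} (he : ∀ᶠ w in 𝓝 (0 : V4), H (e w) y = y + w) :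
    (fderiv ℝ (fun z' => H z' y) 0).comp e = ContinuousLinearMap.id ℝ V4 := by
  have hcd : ContDiff ℝ ∞ (fun z' => H z' y) := hs.comp (contDiff_id.prodMk contDiff_const)
  have hd : DifferentiableAt ℝ (fun z' => H z' y) (e 0) := hcd.differentiable (by norm_num) _
  have h1 : HasFDerivAt (fun w => H (e w) y) ((fderiv ℝ (fun z' => H z' y) (e 0)).comp e) 0 :=
    HasFDerivAt.comp (g := fun z' => H z' y) (f := fun w => e w) (0 : V4) hd.hasFDerivAt e.hasFDerivAt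
  have h3 : HasFDerivAt (fun w : V4 => y + w) (ContinuousLinearMap.id ℝ V4) 0 :=
    (hasFDerivAt_id _).const_add y
  have h2 : HasFDerivAt (fun w => H (e w) y) (ContinuousLinearMap.id ℝ V4) 0 :=
    h3.congr_of_eventuallyEq he
  have h4 := h1.unique h2
  rwa [map_zero] at h4

omit [FiniteDimensional ℝ Z] in
theorem continuous_near {H : Z → V4 → V4} (hs : ContDiff ℝ ∞ (Function.uncurry H)) (e : V4 →L[ℝ] Z) :
    Continuous (fun p : Z × V4 =>
      ‖(fderiv ℝ (fun z' => H z' p.2) p.1).comp e - ContinuousLinearMap.id ℝ V4‖) := by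
  have hD := (contDiff_Dz hs).continuous
  have h1 : Continuous (fun p : Z × V4 => (fderiv ℝ (fun z' => H z' p.2) p.1).comp e) :=
    hD.clm_comp continuous_const
  exact (h1.sub continuous_const).norm

omit [NormedSpace ℝ Z] [FiniteDimensional ℝ Z] in
theorem tube {g : Z × V4 → ℝ} (hc : Continuous g) {c r : ℝ} (h0 : ∀ y : V4, ‖y‖ ≤ r → g (0, y) < c) :
    ∃ ε : ℝ, 0 < ε ∧ ∀ ζ : Z, ‖ζ‖ ≤ ε → ∀ y : V4, ‖y‖ ≤ r → g (ζ, y) < c := by
  have hopen : IsOpen {p : Z × V4 | g p < c} := isOpen_lt hc continuous_const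
  have hsub : ({(0 : Z)} : Set Z) ×ˢ closedBall (0 : V4) r ⊆ {p : Z × V4 | g p < c} := by
    rintro ⟨z, y⟩ ⟨hz, hy⟩
    have hz' : z = 0 := hz
    have hy' : ‖y‖ ≤ r := mem_closedBall_zero_iff.1 hy
    rw [hz']
    exact h0 y hy'
  obtain ⟨u, v, hu, -, h0u, hv, huv⟩ := generalized_tube_lemma (isCompact_singleton (x := (0 : Z)))
    (isCompact_closedBall (0 : V4) r) hopen hsub
  obtain ⟨ε, hε, hεu⟩ := Metric.isOpen_iff.1 hu 0 (h0u rfl)
  refine ⟨ε / 2, by positivity, fun ζ hζ y hy => ?_⟩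
  have h2 : (ζ, y) ∈ u ×ˢ v :=
    ⟨hεu (by rw [mem_ball_zero_iff]; linarith only [hε, hζ]), hv (mem_closedBall_zero_iff.2 hy)⟩
  exact huv h2

omit [FiniteDimensional ℝ Z] in
theorem near_zero {H : Z → V4 → V4} (hs : ContDiff ℝ ∞ (Function.uncurry H)) (e : V4 →L[ℝ] Z)
    {y : V4} (he : ∀ᶠ w in 𝓝 (0 : V4), H (e w) y = y + w) :
    ‖(fderiv ℝ (fun z' => H z' y) 0).comp e - ContinuousLinearMap.id ℝ V4‖ < 1 / 2 := by
  rw [Dz_comp_e hs e he, sub_self, norm_zero]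
  norm_num

omit [FiniteDimensional ℝ Z] in
theorem exists_near {H : Z → V4 → V4} (hs : ContDiff ℝ ∞ (Function.uncurry H)) (e : V4 →L[ℝ] Z)
    {r r' : ℝ} (hr : r < r') (he : ∀ y, ‖y‖ ≤ r' → ∀ᶠ w in 𝓝 (0 : V4), H (e w) y = y + w) :
    ∃ ε : ℝ, 0 < ε ∧ ∀ ζ : Z, ‖ζ‖ ≤ ε → ∀ y : V4, ‖y‖ ≤ r →
      ‖(fderiv ℝ (fun z' => H z' y) ζ).comp e - ContinuousLinearMap.id ℝ V4‖ < 1 / 2 :=
  tube (continuous_near hs e) fun y hy => near_zero hs e (he y (hy.trans hr.le))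

/-- Lipschitz bound in the parameter -/
theorem exists_lip {E : Type} [NormedAddCommGroup E] [NormedSpace ℝ E] {H : Z → V4 → E}
    (hs : ContDiff ℝ ∞ (Function.uncurry H)) (r R : ℝ) :
    ∃ C : ℝ, 0 ≤ C ∧ ∀ ζ : Z, ‖ζ‖ ≤ R → ∀ y : V4, ‖y‖ ≤ r → ‖H ζ y - H 0 y‖ ≤ C * ‖ζ‖ := by
  obtain ⟨C, hC⟩ := ((isCompact_closedBall (0 : Z) R).prod
    (isCompact_closedBall (0 : V4) r)).exists_bound_of_continuousOn (contDiff_Dz hs).continuous.continuousOn
  refine ⟨max C 0, le_max_right _ _, fun ζ hζ y hy => ?_⟩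
  have h1 : ContDiff ℝ ∞ (fun z' => H z' y) := hs.comp (contDiff_id.prodMk contDiff_const)
  have hR : 0 ≤ R := (norm_nonneg _).trans hζ
  have h2 := (convex_closedBall (0 : Z) R).norm_image_sub_le_of_norm_fderiv_le (𝕜 := ℝ)
    (f := fun z' => H z' y) (C := max C 0) (x := 0) (y := ζ)
    (fun z _ => h1.differentiable (by norm_num) z)
    (fun z hz => (hC (z, y) ⟨hz, mem_closedBall_zero_iff.2 hy⟩).trans (le_max_left _ _))
    (mem_closedBall_self hR) (mem_closedBall_zero_iff.2 hζ)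
  rwa [sub_zero] at h2

omit [FiniteDimensional ℝ Z] in
/-- the slices `w ↦ H (δ (z - e w)) y` are antilipschitz -/
theorem slice_anti {H : Z → V4 → V4} (hs : ContDiff ℝ ∞ (Function.uncurry H)) (e : V4 →L[ℝ] Z)
    {ε r : ℝ} (hn : ∀ ζ : Z, ‖ζ‖ ≤ ε → ∀ y : V4, ‖y‖ ≤ r →
      ‖(fderiv ℝ (fun z' => H z' y) ζ).comp e - ContinuousLinearMap.id ℝ V4‖ < 1 / 2)
    {δ : ℝ} (hδ : 0 < δ) {z : Z} {y : V4} (hy : ‖y‖ ≤ r)
    (hz : ∀ w : V4, ‖w‖ ≤ 1 → ‖δ • (z - e w)‖ ≤ ε) {w w' : V4} (hw : ‖w‖ ≤ 1) (hw' : ‖w'‖ ≤ 1) :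
    ‖w - w'‖ ≤ 2 / δ * ‖H (δ • (z - e w)) y - H (δ • (z - e w')) y‖ := by
  have hcd : ContDiff ℝ ∞ (fun z' => H z' y) := hs.comp (contDiff_id.prodMk contDiff_const)
  have hder : ∀ w ∈ closedBall (0 : V4) 1, HasFDerivWithinAt
      (fun w => H (δ • (z - e w)) y + δ • w)
      ((fderiv ℝ (fun z' => H z' y) (δ • (z - e w))).comp (δ • (-e)) + δ • ContinuousLinearMap.id ℝ V4)
      (closedBall (0 : V4) 1) w := by
    intro w _
    have h1 : HasFDerivAt (fun w => δ • (z - e w)) (δ • (-e)) w := (e.hasFDerivAt.const_sub z).const_smul δ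
    have h2 : HasFDerivAt (fun w => H (δ • (z - e w)) y)
        ((fderiv ℝ (fun z' => H z' y) (δ • (z - e w))).comp (δ • (-e))) w :=
      HasFDerivAt.comp (g := fun z' => H z' y) (f := fun w => δ • (z - e w)) w
        ((hcd.differentiable (by norm_num) _).hasFDerivAt) h1
    exact (h2.add ((hasFDerivAt_id w).const_smul δ)).hasFDerivWithinAt
  have hbd : ∀ w ∈ closedBall (0 : V4) 1,
      ‖(fderiv ℝ (fun z' => H z' y) (δ • (z - e w))).comp (δ • (-e)) + δ • ContinuousLinearMap.id ℝ V4‖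
        ≤ δ / 2 := by
    intro w hw
    have hw1 : ‖w‖ ≤ 1 := mem_closedBall_zero_iff.1 hw
    have e1 : (fderiv ℝ (fun z' => H z' y) (δ • (z - e w))).comp (δ • (-e)) + δ • ContinuousLinearMap.id ℝ V4
        = (-δ) • ((fderiv ℝ (fun z' => H z' y) (δ • (z - e w))).comp e - ContinuousLinearMap.id ℝ V4) := by
      ext v
      simp only [ContinuousLinearMap.add_apply, ContinuousLinearMap.comp_apply,
        ContinuousLinearMap.smul_apply, ContinuousLinearMap.neg_apply, map_smul, map_neg,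
        ContinuousLinearMap.sub_apply, smul_sub, smul_neg, neg_smul]
      simp only [ContinuousLinearMap.id_apply, Pi.add_apply, Pi.neg_apply, Pi.smul_apply, smul_eq_mul, Pi.sub_apply, sub_neg_eq_add]
    rw [e1, norm_smul, Real.norm_eq_abs, abs_neg, abs_of_pos hδ]
    have := hn (δ • (z - e w)) (hz w hw1) y hy
    nlinarith only [hδ, this]
  have hlip := (convex_closedBall (0 : V4) 1).norm_image_sub_le_of_norm_hasFDerivWithin_le
    (𝕜 := ℝ) hder hbd (mem_closedBall_zero_iff.2 hw') (mem_closedBall_zero_iff.2 hw)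
  have e2 : δ • (w - w') = (H (δ • (z - e w)) y + δ • w - (H (δ • (z - e w')) y + δ • w'))
      - (H (δ • (z - e w)) y - H (δ • (z - e w')) y) := by rw [smul_sub]; abel
  have e3 : δ * ‖w - w'‖ ≤ δ / 2 * ‖w - w'‖ + ‖H (δ • (z - e w)) y - H (δ • (z - e w')) y‖ := by
    have : δ * ‖w - w'‖ = ‖δ • (w - w')‖ := by rw [norm_smul, Real.norm_eq_abs, abs_of_pos hδ]
    rw [this, e2]
    refine (norm_sub_le _ _).trans ?_
    exact add_le_add hlip le_rfl
  rw [div_mul_eq_mul_div, le_div_iff₀ hδ]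
  linarith only [e3]

variable [MeasureSpace Z] [BorelSpace Z] [(volume : Measure Z).IsAddHaarMeasure]

/-- averaging over translations -/
theorem avg (e : V4 →L[ℝ] Z) {F : Z → ℝ≥0∞} (hF : Measurable F) {A : ℝ≥0∞}
    (hA : ∀ z : Z, ‖z‖ ≤ 1 + ‖e‖ → ∫⁻ w in closedBall (0 : V4) 1, F (z - e w) ≤ A) :
    volume (closedBall (0 : V4) 1) * ∫⁻ z in closedBall (0 : Z) 1, F z
      ≤ volume (closedBall (0 : Z) (1 + ‖e‖)) * A := by
  have h1 : ∀ w ∈ closedBall (0 : V4) 1, ∫⁻ z in closedBall (0 : Z) 1, F z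
      ≤ ∫⁻ z in closedBall (0 : Z) (1 + ‖e‖), F (z - e w) := by
    intro w hw
    have hw1 : ‖w‖ ≤ 1 := mem_closedBall_zero_iff.1 hw
    rw [← lintegral_indicator isClosed_closedBall.measurableSet,
      ← lintegral_indicator isClosed_closedBall.measurableSet,
      ← lintegral_sub_right_eq_self _ (e w)]
    apply lintegral_mono
    intro z
    show (closedBall (0 : Z) 1).indicator F (z - e w)
      ≤ (closedBall (0 : Z) (1 + ‖e‖)).indicator (fun z => F (z - e w)) z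
    by_cases hz : z - e w ∈ closedBall (0 : Z) 1
    · rw [Set.indicator_of_mem hz, Set.indicator_of_mem]
      rw [mem_closedBall_zero_iff] at hz ⊢
      have h2 : ‖e w‖ ≤ ‖e‖ := by
        have := e.le_opNorm w
        have h3 := mul_le_mul_of_nonneg_left hw1 (norm_nonneg e)
        linarith
      calc ‖z‖ = ‖(z - e w) + e w‖ := by rw [sub_add_cancel]
        _ ≤ ‖z - e w‖ + ‖e w‖ := norm_add_le _ _
        _ ≤ 1 + ‖e‖ := by linarith only [hz, h2]
    · rw [Set.indicator_of_notMem hz]; exact zero_le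
  have hFm : Measurable (Function.uncurry fun (w : V4) (z : Z) => F (z - e w)) :=
    hF.comp (measurable_snd.sub (e.continuous.measurable.comp measurable_fst))
  calc volume (closedBall (0 : V4) 1) * ∫⁻ z in closedBall (0 : Z) 1, F z
      = ∫⁻ w in closedBall (0 : V4) 1, ∫⁻ z in closedBall (0 : Z) 1, F z := by
        rw [setLIntegral_const, mul_comm]
    _ ≤ ∫⁻ w in closedBall (0 : V4) 1, ∫⁻ z in closedBall (0 : Z) (1 + ‖e‖), F (z - e w) :=
        setLIntegral_mono' isClosed_closedBall.measurableSet h1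
    _ = ∫⁻ z in closedBall (0 : Z) (1 + ‖e‖), ∫⁻ w in closedBall (0 : V4) 1, F (z - e w) :=
        lintegral_lintegral_swap hFm.aemeasurable
    _ ≤ ∫⁻ z in closedBall (0 : Z) (1 + ‖e‖), A :=
        setLIntegral_mono' isClosed_closedBall.measurableSet
          fun z hz => hA z (mem_closedBall_zero_iff.1 hz)
    _ = volume (closedBall (0 : Z) (1 + ‖e‖)) * A := by rw [setLIntegral_const, mul_comm]

/-- (K) scalar kernel bound -/
theorem kernel_le {H : Z → V4 → V4} (hs : ContDiff ℝ ∞ (Function.uncurry H))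
    (h0 : ∀ y, H 0 y = y) (e : V4 →L[ℝ] Z)
    {r r' : ℝ} (hr : r < r') (he : ∀ y, ‖y‖ ≤ r' → ∀ᶠ w in 𝓝 (0 : V4), H (e w) y = y + w) :
    ∃ (δ0 c : ℝ), 0 < δ0 ∧ 0 < c ∧ c * δ0 ≤ r' - r ∧ ∀ δ : ℝ, 0 < δ → δ ≤ δ0 → ∀ y, ‖y‖ < r →
      ∀ f : V4 → ℝ≥0∞, Measurable f → ∫⁻ z in closedBall (0 : Z) 1, f (H (δ • z) y) ≤
        ENNReal.ofReal (c * (δ ^ 4)⁻¹) * ∫⁻ w in ball y (c * δ), f w := by
  obtain ⟨ε, hε, hn⟩ := exists_near hs e hr he
  obtain ⟨C, hC0, hC⟩ := exists_lip (r := r) (R := 1) hs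
  set R : ℝ := 1 + 2 * ‖e‖ with hR
  have hR0 : 0 < R := by have := norm_nonneg e; rw [hR]; linarith only [this]
  set vβ := volume (closedBall (0 : V4) 1) with hvβ
  set vB := volume (closedBall (0 : Z) (1 + ‖e‖)) with hvB
  have hβ0 : vβ ≠ 0 := (measure_closedBall_pos volume (0 : V4) one_pos).ne'
  have hβt : vβ ≠ ⊤ := (isCompact_closedBall (0 : V4) 1).measure_lt_top.ne
  have hBt : vB ≠ ⊤ := (isCompact_closedBall (0 : Z) (1 + ‖e‖)).measure_lt_top.ne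
  set κ : ℝ := (vβ⁻¹ * vB).toReal with hκ
  have hκt : vβ⁻¹ * vB ≠ ⊤ := ENNReal.mul_ne_top (ENNReal.inv_ne_top.2 hβ0) hBt
  have hκ0 : 0 ≤ κ := ENNReal.toReal_nonneg
  set c : ℝ := 1 + C * R + 16 * κ with hc
  have hc0 : 0 < c := by (clear * - hC0; positivity)
  have hrr : 0 < r' - r := by linarith only [hr]
  refine ⟨min (min (ε / R) (1 / R)) ((r' - r) / c), c, by (clear * - hε hr hC0; positivity), hc0, ?_, ?_⟩
  · calc c * min (min (ε / R) (1 / R)) ((r' - r) / c) ≤ c * ((r' - r) / c) := by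
          gcongr; exact min_le_right _ _
      _ = r' - r := by field_simp
  intro δ hδ hδ1 y hy f hf
  have hδε : δ * R ≤ ε := by
    have : δ ≤ ε / R := hδ1.trans ((min_le_left _ _).trans (min_le_left _ _))
    rwa [le_div_iff₀ hR0] at this
  have hδ1' : δ * R ≤ 1 := by
    have : δ ≤ 1 / R := hδ1.trans ((min_le_left _ _).trans (min_le_right _ _))
    rwa [le_div_iff₀ hR0] at this
  have hsmall : ∀ z : Z, ‖z‖ ≤ 1 + ‖e‖ → ∀ w : V4, ‖w‖ ≤ 1 → ‖δ • (z - e w)‖ ≤ δ * R := by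
    intro z hz w hw
    rw [norm_smul, Real.norm_eq_abs, abs_of_pos hδ]
    have h1 : ‖e w‖ ≤ ‖e‖ := by
      have := e.le_opNorm w
      have h3 := mul_le_mul_of_nonneg_left hw (norm_nonneg e)
      linarith only [this, h3]
    have h2 := norm_sub_le z (e w)
    exact mul_le_mul_of_nonneg_left (by rw [hR]; linarith only [hz, h1, h2]) hδ.le
  have hHc : Continuous (fun z : Z => H (δ • z) y) :=
    hs.continuous.comp ((continuous_const_smul δ).prodMk continuous_const)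
  have hFm : Measurable (fun z : Z => f (H (δ • z) y)) := hf.comp hHc.measurable
  have hA : ∀ z : Z, ‖z‖ ≤ 1 + ‖e‖ → ∫⁻ w in closedBall (0 : V4) 1, f (H (δ • (z - e w)) y)
      ≤ ENNReal.ofReal (2 / δ) ^ 4 * ∫⁻ w in ball y (c * δ), f w := by
    intro z hz
    have hφ : Continuous (fun w : V4 => H (δ • (z - e w)) y) :=
      hHc.comp (continuous_const.sub e.continuous)
    refine lintegral_antilip (K := (2 / δ).toNNReal) isClosed_closedBall.measurableSet hφ ?_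
      isOpen_ball.measurableSet ?_ hf
    · intro w hw w' hw'
      have h1 := slice_anti hs e hn hδ hy.le (fun w hw => (hsmall z hz w hw).trans hδε)
        (mem_closedBall_zero_iff.1 hw) (mem_closedBall_zero_iff.1 hw')
      rw [edist_dist, edist_dist, dist_eq_norm, dist_eq_norm]
      have h2 : ((2 / δ).toNNReal : ℝ≥0∞) = ENNReal.ofReal (2 / δ) := rfl
      rw [h2, ← ENNReal.ofReal_mul (by positivity)]
      exact ENNReal.ofReal_le_ofReal h1
    · intro w hw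
      have h1 := hsmall z hz w (mem_closedBall_zero_iff.1 hw)
      have h2 := hC (δ • (z - e w)) (h1.trans hδ1') y hy.le
      rw [h0] at h2
      rw [mem_ball, dist_eq_norm]
      calc ‖H (δ • (z - e w)) y - y‖ ≤ C * ‖δ • (z - e w)‖ := h2
        _ ≤ C * (δ * R) := by gcongr
        _ < c * δ := by
          have : 0 ≤ 16 * κ * δ := by (clear * - hδ; positivity)
          rw [hc]; linarith only [hδ, this]
  have h1 := avg e hFm hA
  have h2 : ∫⁻ z in closedBall (0 : Z) 1, f (H (δ • z) y)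
      ≤ (vβ⁻¹ * vB) * (ENNReal.ofReal (2 / δ) ^ 4 * ∫⁻ w in ball y (c * δ), f w) := by
    calc ∫⁻ z in closedBall (0 : Z) 1, f (H (δ • z) y)
        = vβ⁻¹ * (vβ * ∫⁻ z in closedBall (0 : Z) 1, f (H (δ • z) y)) := by
          rw [← mul_assoc, ENNReal.inv_mul_cancel hβ0 hβt, one_mul]
      _ ≤ vβ⁻¹ * (vB * (ENNReal.ofReal (2 / δ) ^ 4 * ∫⁻ w in ball y (c * δ), f w)) :=
          mul_le_mul_right h1 _
      _ = _ := by rw [mul_assoc]
  refine h2.trans ?_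
  rw [← mul_assoc]
  apply mul_le_mul_left
  rw [← ENNReal.ofReal_toReal hκt, ← ENNReal.ofReal_pow (by positivity),
    ← ENNReal.ofReal_mul hκ0]
  apply ENNReal.ofReal_le_ofReal
  have e5 : κ * (2 / δ) ^ 4 = 16 * κ * (δ ^ 4)⁻¹ := by
    rw [div_pow]; ring
  rw [e5]
  have h6 : 0 ≤ (δ ^ 4)⁻¹ := by positivity
  apply mul_le_mul_of_nonneg_right _ h6
  rw [hc]
  have : 0 ≤ C * R := by (clear * - hC0; positivity)
  linarith only [this]

end
end KK
end Vale.Agent.P204K.GX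
end
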