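import Vale.Agent.P204.KC.K1

set_option linter.all false

section

/-!
# P204: components of alternating bilinear forms on `ℝ⁴`, and exterior derivatives
-/

open scoped Manifold ContDiff Topology
open Set

namespace Vale.Agent.P204K.Mfd

open Vale.Agent.P204K.T4

/-- Alternating bilinear forms on coordinate space. -/
abbrev Alt2 := V4 [⋀^Fin 2]→L[ℝ] ℝ

theorem upd0 {α : Type*} (a b c : α) : Function.update ![a, b] 0 c = ![c, b] := by
  funext i; fin_cases i <;> rfl

theorem upd1 {α : Type*} (a b c : α) : Function.update ![a, b] 1 c = ![a, c] := by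
  funext i; fin_cases i <;> rfl

section

variable {E : Type*} [NormedAddCommGroup E] [NormedSpace ℝ E]

theorem alt_add_left (A : E [⋀^Fin 2]→L[ℝ] ℝ) (v v' w : E) :
    A ![v + v', w] = A ![v, w] + A ![v', w] := by
  have := A.map_update_add ![v, w] 0 v v'
  simpa only [upd0] using this

theorem alt_smul_left (A : E [⋀^Fin 2]→L[ℝ] ℝ) (c : ℝ) (v w : E) :
    A ![c • v, w] = c * A ![v, w] := by
  have := A.map_update_smul ![v, w] 0 c v
  simpa only [upd0, smul_eq_mul] using this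

theorem alt_add_right (A : E [⋀^Fin 2]→L[ℝ] ℝ) (v w w' : E) :
    A ![v, w + w'] = A ![v, w] + A ![v, w'] := by
  have := A.map_update_add ![v, w] 1 w w'
  simpa only [upd1] using this

theorem alt_smul_right (A : E [⋀^Fin 2]→L[ℝ] ℝ) (c : ℝ) (v w : E) :
    A ![v, c • w] = c * A ![v, w] := by
  have := A.map_update_smul ![v, w] 1 c w
  simpa only [upd1, smul_eq_mul] using this

theorem alt_self (A : E [⋀^Fin 2]→L[ℝ] ℝ) (v : E) : A ![v, v] = 0 :=
  A.map_eq_zero_of_eq ![v, v] (i := 0) (j := 1) rfl (by decide)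

theorem alt_swap (A : E [⋀^Fin 2]→L[ℝ] ℝ) (v w : E) : A ![v, w] = - A ![w, v] := by
  have h := alt_self A (v + w)
  rw [alt_add_left, alt_add_right, alt_add_right, alt_self, alt_self] at h
  linarith only [h]

end

/-- The associated bilinear map. -/
noncomputable def bil (A : Alt2) : V4 →ₗ[ℝ] V4 →ₗ[ℝ] ℝ :=
  LinearMap.mk₂ ℝ (fun v w => A ![v, w]) (alt_add_left A)
    (fun c v w => by rw [alt_smul_left, smul_eq_mul]) (alt_add_right A)
    (fun c v w => by rw [alt_smul_right, smul_eq_mul])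

/-- The six components of an alternating form. -/
noncomputable def compL : Alt2 →L[ℝ] L2 :=
  ContinuousLinearMap.pi fun k : Fin 6 =>
    ContinuousAlternatingMap.apply ℝ V4 ℝ
      ((![![eb 0, eb 1], ![eb 0, eb 2], ![eb 0, eb 3], ![eb 1, eb 2], ![eb 1, eb 3],
        ![eb 2, eb 3]] : Fin 6 → Fin 2 → V4) k)

theorem vec_eq (v : V4) : v = v 0 • eb 0 + v 1 • eb 1 + v 2 • eb 2 + v 3 • eb 3 := by
  funext i
  fin_cases i <;> simp only [Fin.zero_eta, Fin.isValue, eb, Pi.add_apply, Pi.smul_apply, Pi.single_eq_same, smul_eq_mul, mul_one, ne_eq, zero_ne_one, not_false_eq_true, Pi.single_eq_of_ne, mul_zero, add_zero, Fin.reduceEq, Fin.mk_one, one_ne_zero, zero_add, Fin.reduceFinMk]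

theorem ev_compL (A : Alt2) (v w : V4) : ev (compL A) v w = A ![v, w] := by
  have hA : A ![v, w] = bil A v w := rfl
  have h0 : compL A 0 = A ![eb 0, eb 1] := rfl
  have h1 : compL A 1 = A ![eb 0, eb 2] := rfl
  have h2 : compL A 2 = A ![eb 0, eb 3] := rfl
  have h3 : compL A 3 = A ![eb 1, eb 2] := rfl
  have h4 : compL A 4 = A ![eb 1, eb 3] := rfl
  have h5 : compL A 5 = A ![eb 2, eb 3] := rfl
  have hb : ∀ v w, bil A v w = A ![v, w] := fun v w => rfl
  rw [hA, ev_eq, h0, h1, h2, h3, h4, h5]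
  conv_rhs => rw [vec_eq v, vec_eq w]
  simp only [map_add, map_smul, LinearMap.add_apply, LinearMap.smul_apply, smul_eq_mul, hb,
    alt_self]
  rw [alt_swap A (eb 1) (eb 0), alt_swap A (eb 2) (eb 0), alt_swap A (eb 3) (eb 0),
    alt_swap A (eb 2) (eb 1), alt_swap A (eb 3) (eb 1), alt_swap A (eb 3) (eb 2)]
  ring

/-- The alternating form with given components. -/
noncomputable def toAlt (B : L2) : Alt2 where
  toFun v := ev B (v 0) (v 1)
  map_update_add' := by
    intro _ m i x y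
    fin_cases i
    · simp [ev_add_left]
    · simp [ev_add_right]
  map_update_smul' := by
    intro _ m i c x
    fin_cases i
    · simp [ev_smul_left]
    · simp [ev_smul_right]
  cont := by
    simp only [ev_eq]
    fun_prop
  map_eq_zero_of_eq' := by
    intro v i j h hij
    have : v 0 = v 1 := by
      fin_cases i <;> fin_cases j
      · exact absurd rfl hij
      · exact h
      · exact h.symm
      · exact absurd rfl hij
    simp only [this]
    exact ev_self B _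

theorem toAlt_apply (B : L2) (v w : V4) : toAlt B ![v, w] = ev B v w := rfl

theorem alt_ext {A B : Alt2} (h : ∀ v w, A ![v, w] = B ![v, w]) : A = B := by
  ext m
  have : m = ![m 0, m 1] := by funext i; fin_cases i <;> rfl
  rw [this]; exact h _ _

theorem compL_toAlt (B : L2) : compL (toAlt B) = B := by
  apply ext_ev
  intro v w
  rw [ev_compL, toAlt_apply]

theorem toAlt_compL (A : Alt2) : toAlt (compL A) = A := by
  apply alt_ext
  intro v w
  rw [toAlt_apply, ev_compL]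

/-- `toAlt` as a continuous linear map. -/
noncomputable def toAltL : L2 →L[ℝ] Alt2 :=
  LinearMap.toContinuousLinearMap
    { toFun := toAlt
      map_add' := fun A B => alt_ext fun v w => by
        rw [toAlt_apply, ev_add]; rfl
      map_smul' := fun c A => alt_ext fun v w => by
        rw [toAlt_apply, ev_smul]; rfl }

theorem toAltL_apply (B : L2) : toAltL B = toAlt B := rfl

/-- The matrix of a linear map. -/
noncomputable def matL : (V4 →L[ℝ] V4) →L[ℝ] M4 :=
  ContinuousLinearMap.pi fun i => ContinuousLinearMap.pi fun j =>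
    (ContinuousLinearMap.proj (R := ℝ) (φ := fun _ : Fin 4 => ℝ) i).comp
      (ContinuousLinearMap.apply ℝ V4 (eb j))

theorem matL_apply (L : V4 →L[ℝ] V4) (i j : Fin 4) : matL L i j = L (eb j) i := rfl

theorem app_matL (L : V4 →L[ℝ] V4) (v : V4) : app (matL L) v = L v := by
  funext i
  conv_rhs => rw [vec_eq v]
  rw [app_eq]
  simp only [matL_apply, map_add, map_smul, Pi.add_apply, Pi.smul_apply, smul_eq_mul]
  ring

theorem compL_comp (A : Alt2) (L : V4 →L[ℝ] V4) :
    compL (A.compContinuousLinearMap L) = pull (matL L) (compL A) := by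
  apply ext_ev
  intro v w
  rw [ev_compL, ev_pull, ev_compL, app_matL, app_matL]
  show A (L ∘ ![v, w]) = _
  congr 1
  funext i; fin_cases i <;> rfl

theorem comp_apply2 {E F : Type*} [NormedAddCommGroup E] [NormedSpace ℝ E]
    [NormedAddCommGroup F] [NormedSpace ℝ F] (A : F [⋀^Fin 2]→L[ℝ] ℝ) (L : E →L[ℝ] F) (v w : E) :
    A.compContinuousLinearMap L ![v, w] = A ![L v, L w] := by
  show A (L ∘ ![v, w]) = _
  congr 1
  funext i; fin_cases i <;> rfl

end Vale.Agent.P204K.Mfd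
end

section

/-!
# P204: the coordinate closedness condition is the vanishing of Mathlib's exterior derivative
-/

open scoped Manifold ContDiff Topology
open Set

namespace Vale.Agent.P204K.Mfd

open Vale.Agent.P204K.T4

theorem ent_compL (A : Alt2) (j k : Fin 4) : ent (compL A) j k = A ![eb j, eb k] := by
  rw [← ev_compL, ev_eq]
  fin_cases j <;> fin_cases k <;> simp only [ent, Fin.isValue, Fin.zero_eta, Matrix.cons_val', Matrix.cons_val_zero, Matrix.cons_val_fin_one, eb, Pi.single_eq_same, ne_eq, one_ne_zero, not_false_eq_true, Pi.single_eq_of_ne, mul_zero, mul_one, sub_self, Fin.reduceEq, add_zero, Fin.mk_one, Matrix.cons_val_one, zero_ne_one, sub_zero, Fin.reduceFinMk, Matrix.cons_val, zero_add, zero_sub, mul_neg]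

theorem pd_alt (α : V4 → Alt2) (x : V4) (i j k : Fin 4) :
    pd i (fun y => ent (compL (α y)) j k) x = fderiv ℝ (fun y => α y ![eb j, eb k]) x (eb i) := by
  simp only [ent_compL]; rfl

theorem extDeriv_eb {α : V4 → Alt2} {x : V4} (hα : DifferentiableAt ℝ α x) (i j k : Fin 4) :
    extDeriv α x ![eb i, eb j, eb k] =
      pd i (fun y => ent (compL (α y)) j k) x + pd j (fun y => ent (compL (α y)) k i) x
        + pd k (fun y => ent (compL (α y)) i j) x := by
  rw [pd_alt, pd_alt, pd_alt, extDeriv_apply hα, Fin.sum_univ_three]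
  have e0 : (0 : Fin 3).removeNth ![eb i, eb j, eb k] = ![eb j, eb k] := by
    funext l; fin_cases l <;> rfl
  have e1 : (1 : Fin 3).removeNth ![eb i, eb j, eb k] = ![eb i, eb k] := by
    funext l; fin_cases l <;> rfl
  have e2 : (2 : Fin 3).removeNth ![eb i, eb j, eb k] = ![eb i, eb j] := by
    funext l; fin_cases l <;> rfl
  rw [e0, e1, e2]
  have h1 : (fun y => α y ![eb k, eb i]) = fun y => - α y ![eb i, eb k] := by
    funext y; rw [alt_swap]
  rw [h1, fderiv_fun_neg]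
  simp only [Int.reduceNeg, Nat.reduceAdd, Fin.isValue, Fin.coe_ofNat_eq_mod, Nat.zero_mod, pow_zero, Nat.succ_eq_add_one, Matrix.cons_val_zero, one_smul, Nat.one_mod, pow_one, Matrix.cons_val_one, neg_smul, Nat.mod_succ, even_two, Even.neg_pow, one_pow, Matrix.cons_val, neg_apply]

theorem closed_iff {α : V4 → Alt2} (hα : Differentiable ℝ α) :
    Closed (fun y => compL (α y)) ↔ ∀ y, extDeriv α y = 0 := by
  constructor
  · intro h y
    apply ContinuousAlternatingMap.toAlternatingMap_injective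
    apply AlternatingMap.coe_multilinearMap_injective
    refine Module.Basis.ext_multilinear (fun _ => Pi.basisFun ℝ (Fin 4)) ?_
    intro v
    have := extDeriv_eb (hα y) (v 0) (v 1) (v 2)
    rw [h y (v 0) (v 1) (v 2)] at this
    have hv : (fun i => (Pi.basisFun ℝ (Fin 4)) (v i)) = ![eb (v 0), eb (v 1), eb (v 2)] := by
      funext i; fin_cases i <;> simp only [Nat.reduceAdd, Fin.zero_eta, Fin.isValue, Pi.basisFun_apply, Nat.succ_eq_add_one, eb, Matrix.cons_val_zero, Fin.mk_one, Matrix.cons_val_one, Fin.reduceFinMk, Matrix.cons_val]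
    show extDeriv α y (fun i => (Pi.basisFun ℝ (Fin 4)) (v i)) = 0
    rw [hv, this]
  · intro h y i j k
    rw [← extDeriv_eb (hα y), h y]
    rfl

end Vale.Agent.P204K.Mfd
end

section

/-!
# P204: smooth parametrisations `ℝ⁴ → X` of pieces of a smooth four-manifold
-/

open scoped Manifold ContDiff Topology
open Set

namespace Vale.Agent.P204K.Mfd

open Vale.Agent.P204K.T4 (V4 L2 M4)

/-- The linear identification of coordinate space with the model space. -/
noncomputable def toE : V4 ≃L[ℝ] E4 := (EuclideanSpace.equiv (Fin 4) ℝ).symm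

/-- Every open neighbourhood of a point of `ℝ⁴` contains the image of an open smooth embedding of
`ℝ⁴`, centred at the point and starting with a prescribed linear change of coordinates. -/
theorem exists_embed {c : E4} {s : Set E4} (hs : IsOpen s) (hc : c ∈ s) (L : V4 ≃L[ℝ] V4) :
    ∃ (g : V4 → E4) (gi : E4 → V4), ContDiff ℝ ∞ g ∧ Topology.IsOpenEmbedding g ∧
      range g ⊆ s ∧ g 0 = c ∧ ContDiffOn ℝ ∞ gi (range g) ∧ ∀ y, gi (g y) = y := by
  obtain ⟨r, hr, hrs⟩ := Metric.isOpen_iff.1 hs c hc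
  let u := OpenPartialHomeomorph.univBall c r
  have hus : u.source = univ := OpenPartialHomeomorph.univBall_source c r
  have hut : u.target = Metric.ball c r := OpenPartialHomeomorph.univBall_target c hr
  have hu : Topology.IsOpenEmbedding (u : E4 → E4) := u.isOpenEmbedding hus
  have hru : range (u : E4 → E4) = Metric.ball c r := by
    rw [← hut, ← u.image_source_eq_target, hus, image_univ]
  have hemb : Topology.IsOpenEmbedding (fun y : V4 => u (toE (L y))) :=
    hu.comp ((toE.toHomeomorph.isOpenEmbedding).comp L.toHomeomorph.isOpenEmbedding)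
  have hrange : range (fun y : V4 => u (toE (L y))) = Metric.ball c r := by
    rw [← hru]
    apply Subset.antisymm
    · rintro _ ⟨y, rfl⟩; exact ⟨_, rfl⟩
    · rintro _ ⟨y, rfl⟩; exact ⟨L.symm (toE.symm y), by simp⟩
  refine ⟨fun y => u (toE (L y)), fun z => L.symm (toE.symm (u.symm z)), ?_, hemb, ?_, ?_, ?_, ?_⟩
  · exact (OpenPartialHomeomorph.contDiff_univBall (n := (⊤ : ℕ∞))).comp
      (toE.contDiff.comp L.contDiff)
  · rw [hrange]; exact hrs
  · simp only [map_zero]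
    exact OpenPartialHomeomorph.univBall_apply_zero c r
  · rw [hrange]
    exact L.symm.contDiff.comp_contDiffOn (toE.symm.contDiff.comp_contDiffOn
      (OpenPartialHomeomorph.contDiffOn_univBall_symm (n := (⊤ : ℕ∞))))
  · intro y
    have : u.symm (u (toE (L y))) = toE (L y) := u.left_inv (by rw [hus]; trivial)
    simp [this]

variable {X : Type*} [TopologicalSpace X] [ChartedSpace E4 X]

/-- A smooth parametrisation of an open subset of `X` by `ℝ⁴`. -/
structure Par (X : Type*) [TopologicalSpace X] [ChartedSpace E4 X] where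
  /-- the chart -/
  e : OpenPartialHomeomorph X E4
  he : e ∈ atlas E4 X
  /-- the embedding into the target of the chart -/
  g : V4 → E4
  /-- its inverse -/
  gi : E4 → V4
  g_smooth : ContDiff ℝ ∞ g
  gi_smooth : ContDiffOn ℝ ∞ gi (range g)
  emb : Topology.IsOpenEmbedding g
  rng : range g ⊆ e.target
  left_inv : ∀ y, gi (g y) = y

namespace Par

/-- The parametrisation as a map. -/
def psi (p : Par X) (y : V4) : X := p.e.symm (p.g y)

/-- The inverse of the parametrisation. -/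
def inv (p : Par X) (x : X) : V4 := p.gi (p.e x)

theorem g_mem (p : Par X) (y : V4) : p.g y ∈ p.e.target := p.rng (mem_range_self y)

theorem e_psi (p : Par X) (y : V4) : p.e (p.psi y) = p.g y := p.e.right_inv (p.g_mem y)

theorem inv_psi (p : Par X) (y : V4) : p.inv (p.psi y) = y := by
  rw [inv, e_psi, p.left_inv]

theorem psi_mem_source (p : Par X) (y : V4) : p.psi y ∈ p.e.source :=
  p.e.map_target (p.g_mem y)

theorem range_psi (p : Par X) : range p.psi = p.e.source ∩ p.e ⁻¹' range p.g := by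
  ext x
  constructor
  · rintro ⟨y, rfl⟩
    exact ⟨p.psi_mem_source y, by rw [mem_preimage, e_psi]; exact mem_range_self y⟩
  · rintro ⟨h1, y, hy⟩
    exact ⟨y, by rw [psi, hy, p.e.left_inv h1]⟩

theorem isOpen_range (p : Par X) : IsOpen (range p.psi) := by
  rw [range_psi]
  exact p.e.isOpen_inter_preimage p.emb.isOpen_range

theorem psi_inv (p : Par X) {x : X} (hx : x ∈ range p.psi) : p.psi (p.inv x) = x := by
  obtain ⟨y, rfl⟩ := hx
  rw [inv_psi]

theorem isOpenEmbedding (p : Par X) : Topology.IsOpenEmbedding p.psi := by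
  have hcont : Continuous p.psi :=
    (p.e.continuousOn_symm.comp_continuous p.g_smooth.continuous fun y => p.g_mem y)
  have hinj : Function.Injective p.psi := fun y z h => by
    rw [← p.inv_psi y, h, p.inv_psi]
  refine Topology.IsOpenEmbedding.of_continuous_injective_isOpenMap hcont hinj ?_
  intro U hU
  have : p.psi '' U = p.e.source ∩ p.e ⁻¹' (p.g '' U) := by
    ext x
    constructor
    · rintro ⟨y, hy, rfl⟩
      exact ⟨p.psi_mem_source y, by rw [mem_preimage, e_psi]; exact mem_image_of_mem _ hy⟩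
    · rintro ⟨h1, y, hyU, hy⟩
      exact ⟨y, hyU, by rw [psi, hy, p.e.left_inv h1]⟩
  rw [this]
  exact p.e.isOpen_inter_preimage (p.emb.isOpenMap U hU)

/-- The transition map between two parametrisations. -/
def tau (p q : Par X) (y : V4) : V4 := q.inv (p.psi y)

/-- The domain of the transition map. -/
def dom (p q : Par X) : Set V4 := p.psi ⁻¹' range q.psi

theorem isOpen_dom (p q : Par X) : IsOpen (dom p q) :=
  q.isOpen_range.preimage p.isOpenEmbedding.continuous

theorem psi_tau {p q : Par X} {y : V4} (hy : y ∈ dom p q) : q.psi (tau p q y) = p.psi y :=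
  q.psi_inv hy

theorem contMDiff_psi [IsManifold (𝓡 4) ∞ X] (p : Par X) : ContMDiff 𝓘(ℝ, V4) (𝓡 4) ∞ p.psi := by
  have h1 : ContMDiffOn (𝓡 4) (𝓡 4) ∞ p.e.symm p.e.target :=
    contMDiffOn_symm_of_mem_maximalAtlas (IsManifold.subset_maximalAtlas p.he)
  have h2 : ContMDiff 𝓘(ℝ, V4) (𝓡 4) ∞ p.g := p.g_smooth.contMDiff
  intro y
  exact ((h1 _ (p.g_mem y)).contMDiffAt (p.e.open_target.mem_nhds (p.g_mem y))).comp y (h2 y)

theorem contMDiffOn_inv [IsManifold (𝓡 4) ∞ X] (p : Par X) :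
    ContMDiffOn (𝓡 4) 𝓘(ℝ, V4) ∞ p.inv (range p.psi) := by
  have h1 : ContMDiffOn (𝓡 4) (𝓡 4) ∞ p.e p.e.source :=
    contMDiffOn_of_mem_maximalAtlas (IsManifold.subset_maximalAtlas p.he)
  have h2 : ContMDiffOn (𝓡 4) 𝓘(ℝ, V4) ∞ p.gi (range p.g) := p.gi_smooth.contMDiffOn
  refine h2.comp (h1.mono ?_) ?_
  · rw [range_psi]; exact inter_subset_left
  · rw [range_psi]; exact fun x hx => hx.2

theorem tau_smooth [IsManifold (𝓡 4) ∞ X] (p q : Par X) : ContDiffOn ℝ ∞ (tau p q) (dom p q) := by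
  rw [← contMDiffOn_iff_contDiffOn]
  exact q.contMDiffOn_inv.comp p.contMDiff_psi.contMDiffOn (fun y hy => hy)

end Par

/-- Parametrisations around every point. -/
theorem exists_par (x : X) (L : V4 ≃L[ℝ] V4) :
    ∃ p : Par X, p.psi 0 = x ∧ p.e = chartAt E4 x := by
  obtain ⟨g, gi, h1, h2, h3, h4, h5, h6⟩ :=
    exists_embed (chartAt E4 x).open_target (mem_chart_target E4 x) L
  refine ⟨⟨chartAt E4 x, chart_mem_atlas E4 x, g, gi, h1, h5, h2, h3, h6⟩, ?_, rfl⟩
  simp only [Par.psi, h4]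
  exact (chartAt E4 x).left_inv (mem_chart_source E4 x)

end Vale.Agent.P204K.Mfd
end

section

/-!
# P204: smoothness of pullbacks of forms, in coordinates
-/

open scoped Manifold ContDiff Topology
open Set

namespace Vale.Agent.P204K.Mfd

open Vale.Agent.P204K.T4

/-- Components as a continuous linear equivalence (coordinate space). -/
noncomputable def cV : Alt2 ≃L[ℝ] L2 :=
  ContinuousLinearEquiv.equivOfInverse compL toAltL toAlt_compL compL_toAlt

/-- Pullback of forms along the identification `V4 → E4`, a linear equivalence. -/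
noncomputable def cE : (E4 [⋀^Fin 2]→L[ℝ] ℝ) ≃L[ℝ] L2 :=
  ContinuousLinearEquiv.equivOfInverse
    (compL.comp (ContinuousAlternatingMap.compContinuousLinearMapCLM (toE : V4 →L[ℝ] E4)))
    ((ContinuousAlternatingMap.compContinuousLinearMapCLM (toE.symm : E4 →L[ℝ] V4)).comp toAltL)
    (fun A => by
      ext m
      simp [toAltL_apply, toAlt_compL, Function.comp_def])
    (fun B => by
      simp only [ContinuousLinearMap.comp_apply, toAltL_apply,
        ContinuousAlternatingMap.compContinuousLinearMapCLM_apply]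
      rw [show ((toAlt B).compContinuousLinearMap (toE.symm : E4 →L[ℝ] V4)).compContinuousLinearMap
        (toE : V4 →L[ℝ] E4) = toAlt B from by
          ext m; simp [Function.comp_def]]
      exact compL_toAlt B)

theorem cV_apply (A : Alt2) : cV A = compL A := rfl

theorem cE_apply (A : E4 [⋀^Fin 2]→L[ℝ] ℝ) :
    cE A = compL (A.compContinuousLinearMap (toE : V4 →L[ℝ] E4)) := rfl

theorem cV_comp_E (A : E4 [⋀^Fin 2]→L[ℝ] ℝ) (L : V4 →L[ℝ] E4) :
    cV (A.compContinuousLinearMap L) = pull (matL ((toE.symm : E4 →L[ℝ] V4).comp L)) (cE A) := by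
  rw [cV_apply, cE_apply, ← compL_comp]
  congr 1

theorem cE_comp_V (B : Alt2) (L : E4 →L[ℝ] V4) :
    cE (B.compContinuousLinearMap L) = pull (matL (L.comp (toE : V4 →L[ℝ] E4))) (cV B) := by
  rw [cV_apply, cE_apply, ← compL_comp]
  congr 1

section

variable {Y : Type*} [NormedAddCommGroup Y] [NormedSpace ℝ Y]

theorem contDiffAt_pull {n : ℕ∞ω} {f : Y → M4} {A : Y → L2} {y : Y}
    (hf : ContDiffAt ℝ n f y) (hA : ContDiffAt ℝ n A y) :
    ContDiffAt ℝ n (fun y => pull (f y) (A y)) y := by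
  have hf' : ∀ i j, ContDiffAt ℝ n (fun y => f y i j) y := fun i j =>
    contDiffAt_pi.1 (contDiffAt_pi.1 hf i) j
  have hA' : ∀ i, ContDiffAt ℝ n (fun y => A y i) y := fun i => contDiffAt_pi.1 hA i
  have key : ∀ i j, ContDiffAt ℝ n (fun y => pent (f y) (A y) i j) y := by
    intro i j
    simp only [pent, mn]
    fun_prop (disch := assumption)
  rw [contDiffAt_pi]
  intro k
  simp only [pull_eq]
  fin_cases k
  · exact key 0 1
  · exact key 0 2
  · exact key 0 3
  · exact key 1 2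
  · exact key 1 3
  · exact key 2 3

end

end Vale.Agent.P204K.Mfd
end

section

/-!
# P204: derivatives of parametrisations and pullbacks of forms
-/

open scoped Manifold ContDiff Topology
open Set

namespace Vale.Agent.P204K.Mfd

open Vale.Agent.P204K.T4

variable {X : Type*} [TopologicalSpace X] [ChartedSpace E4 X] [IsManifold (𝓡 4) ∞ X]

namespace Par

/-- The derivative of the parametrisation. -/
noncomputable def dpsi (p : Par X) (y : V4) : V4 →L[ℝ] E4 := mfderiv 𝓘(ℝ, V4) (𝓡 4) p.psi y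

/-- The derivative of the inverse of the parametrisation. -/
noncomputable def dinv (p : Par X) (x : X) : E4 →L[ℝ] V4 := mfderiv (𝓡 4) 𝓘(ℝ, V4) p.inv x

theorem mdiff_psi (p : Par X) (y : V4) : MDifferentiableAt 𝓘(ℝ, V4) (𝓡 4) p.psi y :=
  (p.contMDiff_psi y).mdifferentiableAt (by simp)

theorem mdiff_inv (p : Par X) (y : V4) : MDifferentiableAt (𝓡 4) 𝓘(ℝ, V4) p.inv (p.psi y) :=
  ((p.contMDiffOn_inv _ (mem_range_self y)).contMDiffAt
    (p.isOpen_range.mem_nhds (mem_range_self y))).mdifferentiableAt (by simp)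

theorem dinv_comp_dpsi (p : Par X) (y : V4) :
    (p.dinv (p.psi y)).comp (p.dpsi y) = ContinuousLinearMap.id ℝ V4 := by
  have h1 := mfderiv_comp (I := 𝓘(ℝ, V4)) (I' := 𝓡 4) (I'' := 𝓘(ℝ, V4)) y (p.mdiff_inv y)
    (p.mdiff_psi y)
  have h2 : p.inv ∘ p.psi = id := by funext z; exact p.inv_psi z
  rw [h2, mfderiv_id] at h1
  exact h1.symm

theorem dpsi_comp_dinv (p : Par X) (y : V4) :
    (p.dpsi y).comp (p.dinv (p.psi y)) = ContinuousLinearMap.id ℝ E4 := by
  have h1 := mfderiv_comp_of_eq (I := 𝓡 4) (I' := 𝓘(ℝ, V4)) (I'' := 𝓡 4) (x := p.psi y) (y := y)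
    (g := p.psi) (f := p.inv) (p.mdiff_psi y) (p.mdiff_inv y) (p.inv_psi y)
  have h2 : p.psi ∘ p.inv =ᶠ[𝓝 (p.psi y)] id := by
    filter_upwards [p.isOpen_range.mem_nhds (mem_range_self y)] with z hz
    exact p.psi_inv hz
  rw [h2.mfderiv_eq, mfderiv_id] at h1
  have h3 : p.dpsi (p.inv (p.psi y)) = p.dpsi y := by rw [p.inv_psi]
  have h4 : (p.dpsi (p.inv (p.psi y))).comp (p.dinv (p.psi y)) =
    ContinuousLinearMap.id ℝ E4 := h1.symm
  rw [← h3]
  exact h4

theorem dpsi_dinv (p : Par X) (y : V4) (v : E4) : p.dpsi y (p.dinv (p.psi y) v) = v :=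
  DFunLike.congr_fun (p.dpsi_comp_dinv y) v

theorem dinv_dpsi (p : Par X) (y : V4) (v : V4) : p.dinv (p.psi y) (p.dpsi y v) = v :=
  DFunLike.congr_fun (p.dinv_comp_dpsi y) v

theorem tau_diff (p q : Par X) {y : V4} (hy : y ∈ dom p q) : DifferentiableAt ℝ (tau p q) y :=
  ((tau_smooth p q _ hy).contDiffAt ((isOpen_dom p q).mem_nhds hy)).differentiableAt (by simp)

theorem dpsi_tau {p q : Par X} {y : V4} (hy : y ∈ dom p q) :
    p.dpsi y = (q.dpsi (tau p q y)).comp (fderiv ℝ (tau p q) y) := by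
  have h1 := mfderiv_comp (I := 𝓘(ℝ, V4)) (I' := 𝓘(ℝ, V4)) (I'' := 𝓡 4) y
    (q.mdiff_psi (tau p q y)) (tau_diff p q hy).mdifferentiableAt
  have h2 : q.psi ∘ (tau p q) =ᶠ[𝓝 y] p.psi := by
    filter_upwards [(isOpen_dom p q).mem_nhds hy] with z hz
    exact psi_tau hz
  rw [h2.mfderiv_eq, mfderiv_eq_fderiv] at h1
  exact h1

/-- The expression of a two-form in a parametrisation. -/
noncomputable def form (p : Par X) (om : TwoForm X) (y : V4) : Alt2 :=
  (om (p.psi y)).compContinuousLinearMap (p.dpsi y)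

/-- The expression of an endomorphism field in a parametrisation. -/
noncomputable def endo (p : Par X) (J : EndField X) (y : V4) : V4 →L[ℝ] V4 :=
  (p.dinv (p.psi y)).comp ((J (p.psi y)).comp (p.dpsi y))

theorem form_apply (p : Par X) (om : TwoForm X) (y v w : V4) :
    p.form om y ![v, w] = om (p.psi y) ![p.dpsi y v, p.dpsi y w] :=
  comp_apply2 (E := V4) (F := E4) (om (p.psi y)) (p.dpsi y) v w

end Par

end Vale.Agent.P204K.Mfd
end

section

/-!
# P204: passing between atlas charts and parametrisations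
-/

open scoped Manifold ContDiff Topology
open Set

namespace Vale.Agent.P204K.Mfd

open Vale.Agent.P204K.T4

variable {X : Type*} [TopologicalSpace X] [ChartedSpace E4 X] [IsManifold (𝓡 4) ∞ X]

theorem om_congr (om : TwoForm X) {x x' : X} (h : x = x') (a b : E4) :
    om x ![a, b] = om x' ![a, b] := by
  subst h; rfl

theorem mdiff_symm {e : OpenPartialHomeomorph X E4} (he : e ∈ atlas E4 X) {z : E4}
    (hz : z ∈ e.target) : MDifferentiableAt (𝓡 4) (𝓡 4) e.symm z :=
  mdifferentiableAt_atlas_symm he hz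

theorem mdiff_chart {e : OpenPartialHomeomorph X E4} (he : e ∈ atlas E4 X) {x : X}
    (hx : x ∈ e.source) : MDifferentiableAt (𝓡 4) (𝓡 4) e x :=
  mdifferentiableAt_atlas he hx

/-- the derivative of the inverse chart -/
noncomputable def dsym (e : OpenPartialHomeomorph X E4) (z : E4) : E4 →L[ℝ] E4 :=
  mfderiv (𝓡 4) (𝓡 4) e.symm z

/-- the derivative of the chart -/
noncomputable def dch (e : OpenPartialHomeomorph X E4) (x : X) : E4 →L[ℝ] E4 :=
  mfderiv (𝓡 4) (𝓡 4) e x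

namespace Par

theorem dpsi_eq (p : Par X) (y : V4) :
    p.dpsi y = (dsym p.e (p.g y)).comp (fderiv ℝ p.g y) := by
  have h1 := mfderiv_comp (I := 𝓘(ℝ, V4)) (I' := 𝓡 4) (I'' := 𝓡 4) y
    (mdiff_symm p.he (p.g_mem y))
    ((p.g_smooth.differentiable (by simp)) y).mdifferentiableAt
  rw [mfderiv_eq_fderiv] at h1
  exact h1

theorem form_eq (p : Par X) (om : TwoForm X) (y : V4) :
    p.form om y =
      (pullForm p.e.symm om (p.g y)).compContinuousLinearMap (fderiv ℝ p.g y) := by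
  apply alt_ext
  intro v w
  rw [form_apply, comp_apply2, dpsi_eq]
  exact (comp_apply2 (E := E4) (F := E4) (om (p.e.symm (p.g y))) (dsym p.e (p.g y)) _ _).symm

/-- change of coordinates from an atlas chart to a parametrisation -/
def cc (p : Par X) (e : OpenPartialHomeomorph X E4) (z : E4) : V4 := p.inv (e.symm z)

/-- the domain of the change of coordinates -/
def cdom (p : Par X) (e : OpenPartialHomeomorph X E4) : Set E4 :=
  e.target ∩ e.symm ⁻¹' range p.psi

theorem isOpen_cdom (p : Par X) (e : OpenPartialHomeomorph X E4) : IsOpen (p.cdom e) :=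
  e.isOpen_inter_preimage_symm p.isOpen_range

theorem psi_cc (p : Par X) (e : OpenPartialHomeomorph X E4) {z : E4} (hz : z ∈ p.cdom e) :
    p.psi (p.cc e z) = e.symm z := p.psi_inv hz.2

theorem cc_smooth (p : Par X) {e : OpenPartialHomeomorph X E4} (he : e ∈ atlas E4 X) :
    ContDiffOn ℝ ∞ (p.cc e) (p.cdom e) := by
  rw [← contMDiffOn_iff_contDiffOn]
  have h1 : ContMDiffOn (𝓡 4) (𝓡 4) ∞ e.symm e.target :=
    contMDiffOn_symm_of_mem_maximalAtlas (IsManifold.subset_maximalAtlas he)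
  exact p.contMDiffOn_inv.comp (h1.mono inter_subset_left) (fun z hz => hz.2)

theorem cc_smoothAt (p : Par X) {e : OpenPartialHomeomorph X E4} (he : e ∈ atlas E4 X) {z : E4}
    (hz : z ∈ p.cdom e) : ContDiffAt ℝ ∞ (p.cc e) z :=
  (p.cc_smooth he _ hz).contDiffAt ((p.isOpen_cdom e).mem_nhds hz)

theorem dsym_eq (p : Par X) {e : OpenPartialHomeomorph X E4} (he : e ∈ atlas E4 X) {z : E4}
    (hz : z ∈ p.cdom e) :
    dsym e z = (p.dpsi (p.cc e z)).comp (fderiv ℝ (p.cc e) z) := by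
  have h1 := mfderiv_comp (I := 𝓡 4) (I' := 𝓘(ℝ, V4)) (I'' := 𝓡 4) z
    (p.mdiff_psi (p.cc e z))
    ((p.cc_smoothAt he hz).differentiableAt (by simp)).mdifferentiableAt
  have h2 : p.psi ∘ (p.cc e) =ᶠ[𝓝 z] e.symm := by
    filter_upwards [(p.isOpen_cdom e).mem_nhds hz] with w hw
    exact p.psi_cc e hw
  rw [h2.mfderiv_eq, mfderiv_eq_fderiv] at h1
  exact h1

theorem pullForm_eq (p : Par X) (om : TwoForm X) {e : OpenPartialHomeomorph X E4}
    (he : e ∈ atlas E4 X) {z : E4} (hz : z ∈ p.cdom e) :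
    pullForm e.symm om z =
      (p.form om (p.cc e z)).compContinuousLinearMap (fderiv ℝ (p.cc e) z) := by
  have hE : ∀ {A B : E4 [⋀^Fin 2]→L[ℝ] ℝ}, (∀ v w, A ![v, w] = B ![v, w]) → A = B := by
    intro A B h
    ext m
    have : m = ![m 0, m 1] := by funext i; fin_cases i <;> rfl
    rw [this]; exact h _ _
  apply hE
  intro v w
  rw [comp_apply2, form_apply]
  have h1 : pullForm e.symm om z ![v, w] = om (e.symm z) ![dsym e z v, dsym e z w] :=
    comp_apply2 (E := E4) (F := E4) (om (e.symm z)) (dsym e z) v w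
  rw [h1, dsym_eq p he hz]
  exact om_congr om (p.psi_cc e hz).symm _ _

end Par

end Vale.Agent.P204K.Mfd
end

section

/-!
# P204: transfer of smoothness and closedness between atlas charts and parametrisations
-/

open scoped Manifold ContDiff Topology
open Set

namespace Vale.Agent.P204K.Mfd

open Vale.Agent.P204K.T4

variable {X : Type*} [TopologicalSpace X] [ChartedSpace E4 X] [IsManifold (𝓡 4) ∞ X]

theorem minS : minSmoothness ℝ 2 ≤ (∞ : ℕ∞ω) := by
  rw [minSmoothness_of_isRCLikeNormedField]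
  exact ENat.LEInfty.out

theorem contDiffAt_cV_iff {Y : Type*} [NormedAddCommGroup Y] [NormedSpace ℝ Y] {n : ℕ∞ω}
    {f : Y → Alt2} {y : Y} : ContDiffAt ℝ n (fun y => cV (f y)) y ↔ ContDiffAt ℝ n f y :=
  cV.comp_contDiffAt_iff

theorem contDiffAt_cE_iff {Y : Type*} [NormedAddCommGroup Y] [NormedSpace ℝ Y] {n : ℕ∞ω}
    {f : Y → E4 [⋀^Fin 2]→L[ℝ] ℝ} {y : Y} :
    ContDiffAt ℝ n (fun y => cE (f y)) y ↔ ContDiffAt ℝ n f y :=
  cE.comp_contDiffAt_iff

theorem smoothAt_pullform {c : V4 → E4} {α : E4 → E4 [⋀^Fin 2]→L[ℝ] ℝ} {y : V4}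
    (hc : ContDiffAt ℝ ∞ c y) (hα : ContDiffAt ℝ ∞ α (c y)) :
    ContDiffAt ℝ ∞ (fun y => (α (c y)).compContinuousLinearMap (fderiv ℝ c y)) y := by
  rw [← contDiffAt_cV_iff]
  simp only [cV_comp_E]
  apply contDiffAt_pull
  · have h1 : ContDiffAt ℝ ∞ (fderiv ℝ c) y := hc.fderiv_right (m := ∞) (by simp)
    exact matL.contDiff.contDiffAt.comp y
      ((contDiffAt_const (c := (toE.symm : E4 →L[ℝ] V4))).clm_comp h1)
  · exact cE.contDiff.contDiffAt.comp y (hα.comp y hc)

theorem smoothAt_pullform' {c : E4 → V4} {α : V4 → Alt2} {y : E4}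
    (hc : ContDiffAt ℝ ∞ c y) (hα : ContDiffAt ℝ ∞ α (c y)) :
    ContDiffAt ℝ ∞ (fun y => (α (c y)).compContinuousLinearMap (fderiv ℝ c y)) y := by
  rw [← contDiffAt_cE_iff]
  simp only [cE_comp_V]
  apply contDiffAt_pull
  · have h1 : ContDiffAt ℝ ∞ (fderiv ℝ c) y := hc.fderiv_right (m := ∞) (by simp)
    exact matL.contDiff.contDiffAt.comp y
      (h1.clm_comp (contDiffAt_const (c := (toE : V4 →L[ℝ] E4))))
  · exact cV.contDiff.contDiffAt.comp y (hα.comp y hc)

namespace Par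

theorem form_smooth (p : Par X) {om : TwoForm X} (h : SmoothForm om) :
    ContDiff ℝ ∞ (p.form om) := by
  rw [contDiff_iff_contDiffAt]
  intro y
  have h1 : (p.form om) = fun y =>
      (pullForm p.e.symm om (p.g y)).compContinuousLinearMap (fderiv ℝ p.g y) := by
    funext y; exact p.form_eq om y
  rw [h1]
  exact smoothAt_pullform p.g_smooth.contDiffAt
    ((h p.e p.he _ (p.g_mem y)).contDiffAt (p.e.open_target.mem_nhds (p.g_mem y)))

theorem form_closed (p : Par X) {om : TwoForm X} (h : SmoothForm om) (hc : ClosedForm om)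
    (y : V4) : extDeriv (p.form om) y = 0 := by
  have h1 : (p.form om) = fun y =>
      (pullForm p.e.symm om (p.g y)).compContinuousLinearMap (fderiv ℝ p.g y) := by
    funext y; exact p.form_eq om y
  rw [h1, extDeriv_pullback (r := ∞) _ p.g_smooth.contDiffAt minS]
  · rw [hc p.e p.he _ (p.g_mem y)]
    ext m; rfl
  · exact ((h p.e p.he _ (p.g_mem y)).contDiffAt
      (p.e.open_target.mem_nhds (p.g_mem y))).differentiableAt (by simp)

end Par

theorem smoothForm_of_pars {ι : Type*} (P : ι → Par X) (hcov : ∀ x, ∃ i, x ∈ range (P i).psi)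
    {om : TwoForm X} (h : ∀ i, ContDiff ℝ ∞ ((P i).form om)) : SmoothForm om := by
  intro e he z hz
  obtain ⟨i, hi⟩ := hcov (e.symm z)
  have hzc : z ∈ (P i).cdom e := ⟨hz, hi⟩
  have h1 : pullForm e.symm om =ᶠ[𝓝 z] fun z =>
      ((P i).form om ((P i).cc e z)).compContinuousLinearMap (fderiv ℝ ((P i).cc e) z) := by
    filter_upwards [((P i).isOpen_cdom e).mem_nhds hzc] with w hw
    exact (P i).pullForm_eq om he hw
  refine ContDiffAt.contDiffWithinAt ?_
  refine ContDiffAt.congr_of_eventuallyEq ?_ h1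
  exact smoothAt_pullform' ((P i).cc_smoothAt he hzc) (h i).contDiffAt

theorem closedForm_of_pars {ι : Type*} (P : ι → Par X) (hcov : ∀ x, ∃ i, x ∈ range (P i).psi)
    {om : TwoForm X} (h : ∀ i, ContDiff ℝ ∞ ((P i).form om))
    (hc : ∀ i y, extDeriv ((P i).form om) y = 0) : ClosedForm om := by
  intro e he z hz
  obtain ⟨i, hi⟩ := hcov (e.symm z)
  have hzc : z ∈ (P i).cdom e := ⟨hz, hi⟩
  have h1 : pullForm e.symm om =ᶠ[𝓝 z] fun z =>
      ((P i).form om ((P i).cc e z)).compContinuousLinearMap (fderiv ℝ ((P i).cc e) z) := by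
    filter_upwards [((P i).isOpen_cdom e).mem_nhds hzc] with w hw
    exact (P i).pullForm_eq om he hw
  rw [h1.extDeriv_eq, extDeriv_pullback (r := ∞) ((h i).differentiable (by simp only [ne_eq, WithTop.coe_eq_zero, ENat.top_ne_zero, not_false_eq_true]) _)
    ((P i).cc_smoothAt he hzc) minS, hc i]
  ext m; rfl

end Vale.Agent.P204K.Mfd
end

section

/-!
# P204: the almost complex structure in parametrisations, and orientation
-/

open scoped Manifold ContDiff Topology
open Set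

namespace Vale.Agent.P204K.Mfd

open Vale.Agent.P204K.T4

/-! ### Linear algebra -/

theorem ker_of_Q_zero {A : L2} (h : Q A A = 0) :
    ∃ v : V4, v ≠ 0 ∧ ∀ w, ev A v w = 0 := by
  have hP : A 0 * A 5 - A 1 * A 4 + A 2 * A 3 = 0 := by
    have : Q A A = 2 * (A 0 * A 5 - A 1 * A 4 + A 2 * A 3) := by simp only [Q]; ring
    rw [this] at h; linarith
  by_cases h1 : A 5 = 0 ∧ A 4 = 0 ∧ A 3 = 0
  · by_cases h2 : A 2 = 0 ∧ A 1 = 0
    · refine ⟨![0, 0, 1, 0], ?_, ?_⟩
      · intro h; have := congrFun h 2; simp at this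
      · intro w
        rw [ev_eq]
        simp only [Fin.isValue, Matrix.cons_val_zero, zero_mul, Matrix.cons_val_one, sub_self, mul_zero, h2.2, Matrix.cons_val, one_mul, zero_sub, mul_neg, neg_zero, add_zero, h2.1, h1.2.2, h1.2.1, h1.1, sub_zero]
    · refine ⟨![0, 0, A 2, -A 1], ?_, ?_⟩
      · intro h
        apply h2
        have e1 := congrFun h 2
        have e2 := congrFun h 3
        simp only [Fin.isValue, Matrix.cons_val, Pi.zero_apply, neg_eq_zero] at e1 e2
        exact ⟨e1, e2⟩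
      · intro w
        rw [ev_eq]
        simp only [Fin.isValue, Matrix.cons_val_zero, zero_mul, Matrix.cons_val_one, sub_self, mul_zero, Matrix.cons_val, zero_sub, mul_neg, zero_add, neg_mul, sub_neg_eq_add, h1.2.2, neg_zero, add_zero, h1.2.1, h1.1]
        ring
  · refine ⟨![0, A 5, -A 4, A 3], ?_, ?_⟩
    · intro h
      apply h1
      have e1 := congrFun h 1
      have e2 := congrFun h 2
      have e3 := congrFun h 3
      simp only [Fin.isValue, Matrix.cons_val_one, Matrix.cons_val_zero, Pi.zero_apply, Matrix.cons_val, neg_eq_zero] at e1 e2 e3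
      exact ⟨e1, e2, e3⟩
    · intro w
      rw [ev_eq]
      simp only [Fin.isValue, Matrix.cons_val_zero, zero_mul, Matrix.cons_val_one, zero_sub, mul_neg, Matrix.cons_val, neg_mul, sub_neg_eq_add, zero_add]
      linear_combination (-(w 0)) * hP

theorem Q_Fm_ne {J : M4} (hJ : IsCx J) : Q (Fm J) (Fm J) ≠ 0 := by
  intro h
  obtain ⟨v, hv, hw⟩ := ker_of_Q_zero h
  have := (posDef_Fm hJ).2 v hv
  rw [hw] at this
  exact lt_irrefl _ this

/-- The reflection in the first coordinate. -/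
noncomputable def refl0 : V4 →L[ℝ] V4 :=
  ContinuousLinearMap.pi fun i : Fin 4 =>
    ((![-1, 1, 1, 1] : Fin 4 → ℝ) i) • ContinuousLinearMap.proj (R := ℝ) (φ := fun _ => ℝ) i

theorem refl0_apply (v : V4) : refl0 v = ![-v 0, v 1, v 2, v 3] := by
  funext i
  fin_cases i <;> simp only [refl0, Fin.zero_eta, Fin.isValue, ContinuousLinearMap.coe_pi', Matrix.cons_val_zero, smul_apply, ContinuousLinearMap.proj_apply, smul_eq_mul, neg_mul, one_mul, Nat.succ_eq_add_one, Nat.reduceAdd, Fin.mk_one, Matrix.cons_val_one, one_smul, Fin.reduceFinMk, Matrix.cons_val]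

theorem refl0_refl0 (v : V4) : refl0 (refl0 v) = v := by
  rw [refl0_apply, refl0_apply]
  funext i
  fin_cases i <;> simp only [Nat.succ_eq_add_one, Nat.reduceAdd, Fin.isValue, Matrix.cons_val_zero, neg_neg, Matrix.cons_val_one, Matrix.cons_val, Fin.zero_eta, Fin.mk_one, Fin.reduceFinMk]

/-- The reflection as an equivalence. -/
noncomputable def reflE : V4 ≃L[ℝ] V4 :=
  ContinuousLinearEquiv.equivOfInverse refl0 refl0 refl0_refl0 refl0_refl0

theorem Q_Fm_refl (L : V4 →L[ℝ] V4) :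
    Q (Fm (matL (refl0.comp (L.comp refl0)))) (Fm (matL (refl0.comp (L.comp refl0)))) =
      - Q (Fm (matL L)) (Fm (matL L)) := by
  have h : ∀ i j, matL (refl0.comp (L.comp refl0)) i j =
      (![-1, 1, 1, 1] : Fin 4 → ℝ) i * (![-1, 1, 1, 1] : Fin 4 → ℝ) j * matL L i j := by
    intro i j
    have hj : refl0 (eb j) = (![-1, 1, 1, 1] : Fin 4 → ℝ) j • eb j := by
      funext k
      fin_cases j <;> fin_cases k <;> simp only [refl0, eb, Fin.zero_eta, Fin.isValue, ContinuousLinearMap.coe_pi', Matrix.cons_val_zero, smul_apply, ContinuousLinearMap.proj_apply, Pi.single_eq_same, smul_eq_mul, mul_one, Pi.smul_apply, Fin.mk_one, Matrix.cons_val_one, one_smul, ne_eq, one_ne_zero, not_false_eq_true, Pi.single_eq_of_ne, mul_zero, Fin.reduceFinMk, Matrix.cons_val, Fin.reduceEq, zero_ne_one]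
    simp only [matL_apply, ContinuousLinearMap.comp_apply]
    rw [hj, map_smul, map_smul]
    simp only [Pi.smul_apply, smul_eq_mul, refl0, ContinuousLinearMap.pi_apply,
      ContinuousLinearMap.smul_apply, ContinuousLinearMap.proj_apply]
    ring
  simp only [Q, Fm, ofEnt_0, ofEnt_1, ofEnt_2, ofEnt_3, ofEnt_4, ofEnt_5, h]
  simp only [Fin.isValue, Matrix.cons_val_one, Matrix.cons_val_zero, mul_neg, mul_one, neg_mul, one_mul, sub_neg_eq_add, Matrix.cons_val, neg_add_rev, neg_sub]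
  ring

theorem continuous_Q_Fm : Continuous fun J : M4 => Q (Fm J) (Fm J) := by
  simp only [Q, Fm, ofEnt_0, ofEnt_1, ofEnt_2, ofEnt_3, ofEnt_4, ofEnt_5]
  fun_prop

theorem pos_of_connected {J : V4 → M4} (hc : Continuous J) (hcx : ∀ y, IsCx (J y)) {y0 : V4}
    (h0 : Pos (J y0)) (y : V4) : Pos (J y) := by
  by_contra hneg
  have hcont : Continuous fun y => Q (Fm (J y)) (Fm (J y)) := continuous_Q_Fm.comp hc
  have hle : Q (Fm (J y)) (Fm (J y)) ≤ 0 := not_lt.1 hneg
  have h0' : 0 ≤ Q (Fm (J y0)) (Fm (J y0)) := le_of_lt h0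
  obtain ⟨z, hz⟩ := mem_range_of_exists_le_of_exists_ge hcont ⟨y, hle⟩ ⟨y0, h0'⟩
  exact Q_Fm_ne (hcx z) hz

variable {X : Type*} [TopologicalSpace X] [ChartedSpace E4 X]

/-- Precompose a parametrisation with a linear automorphism. -/
noncomputable def Par.precomp (p : Par X) (L : V4 ≃L[ℝ] V4) : Par X where
  e := p.e
  he := p.he
  g := fun y => p.g (L y)
  gi := fun z => L.symm (p.gi z)
  g_smooth := p.g_smooth.comp L.contDiff
  gi_smooth := by
    have : range (fun y => p.g (L y)) = range p.g := by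
      apply Subset.antisymm
      · rintro _ ⟨y, rfl⟩; exact ⟨_, rfl⟩
      · rintro _ ⟨y, rfl⟩; exact ⟨L.symm y, by simp⟩
    rw [this]
    exact L.symm.contDiff.comp_contDiffOn p.gi_smooth
  emb := p.emb.comp L.toHomeomorph.isOpenEmbedding
  rng := by
    rintro _ ⟨y, rfl⟩
    exact p.g_mem _
  left_inv := by
    intro y
    simp only [p.left_inv, ContinuousLinearEquiv.symm_apply_apply]

theorem Par.precomp_psi (p : Par X) (L : V4 ≃L[ℝ] V4) (y : V4) :
    (p.precomp L).psi y = p.psi (L y) := rfl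

/-- The endomorphism at a point, with the tangent space identified with the model space. -/
def Jat (J : EndField X) (x : X) : E4 →L[ℝ] E4 := J x

variable [IsManifold (𝓡 4) ∞ X]

namespace Par

theorem precomp_dpsi (p : Par X) (L : V4 ≃L[ℝ] V4) (y : V4) :
    (p.precomp L).dpsi y = (p.dpsi (L y)).comp (L : V4 →L[ℝ] V4) := by
  have h1 := mfderiv_comp (I := 𝓘(ℝ, V4)) (I' := 𝓘(ℝ, V4)) (I'' := 𝓡 4) (g := p.psi) (f := L) y
    (p.mdiff_psi (L y)) L.differentiableAt.mdifferentiableAt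
  rw [mfderiv_eq_fderiv, L.fderiv] at h1
  exact h1

theorem precomp_dinv (p : Par X) (L : V4 ≃L[ℝ] V4) (y : V4) :
    (p.precomp L).dinv ((p.precomp L).psi y) =
      (L.symm : V4 →L[ℝ] V4).comp (p.dinv (p.psi (L y))) := by
  have h1 := (p.precomp L).dinv_comp_dpsi y
  ext v i
  have h2 : v = p.dpsi (L y) (L (L.symm (p.dinv (p.psi (L y)) v))) := by
    simp [p.dpsi_dinv]
  have h3 : (p.precomp L).dinv ((p.precomp L).psi y)
      ((p.precomp L).dpsi y (L.symm (p.dinv (p.psi (L y)) v))) =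
      L.symm (p.dinv (p.psi (L y)) v) := (p.precomp L).dinv_dpsi y _
  rw [precomp_dpsi] at h3
  have h4 : ((p.dpsi (L y)).comp (L : V4 →L[ℝ] V4)) (L.symm (p.dinv (p.psi (L y)) v)) = v :=
    h2.symm
  rw [h4] at h3
  rw [h3]
  rfl

theorem precomp_endo (p : Par X) (L : V4 ≃L[ℝ] V4) (J : EndField X) (y : V4) :
    (p.precomp L).endo J y =
      (L.symm : V4 →L[ℝ] V4).comp ((p.endo J (L y)).comp (L : V4 →L[ℝ] V4)) := by
  unfold endo
  rw [precomp_dinv, precomp_dpsi]
  rfl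

theorem endo_smooth (p : Par X) {J : EndField X} (h : SmoothEnd J) :
    ContDiff ℝ ∞ (p.endo J) := by
  have hgi : ∀ y, ContDiffAt ℝ ∞ p.gi (p.g y) := fun y =>
    (p.gi_smooth _ (mem_range_self y)).contDiffAt (p.emb.isOpen_range.mem_nhds (mem_range_self y))
  have hinv : ∀ y, p.dinv (p.psi y) = (fderiv ℝ p.gi (p.g y)).comp (dch p.e (p.psi y)) := by
    intro y
    have h1 := mfderiv_comp_of_eq (I := 𝓡 4) (I' := 𝓡 4) (I'' := 𝓘(ℝ, V4)) (x := p.psi y)
      (y := p.g y) (g := p.gi) (f := p.e)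
      ((hgi y).differentiableAt (by simp)).mdifferentiableAt
      (mdiff_chart p.he (p.psi_mem_source y)) (p.e_psi y)
    rw [mfderiv_eq_fderiv, p.e_psi] at h1
    exact h1
  have h1 : p.endo J = fun y =>
      (fderiv ℝ p.gi (p.g y)).comp ((endRep p.e J (p.g y)).comp (fderiv ℝ p.g y)) := by
    funext y
    ext v i
    unfold endo
    rw [hinv, dpsi_eq]
    rfl
  rw [h1, contDiff_iff_contDiffAt]
  intro y
  have a1 : ContDiffAt ℝ ∞ (fderiv ℝ p.gi) (p.g y) := (hgi y).fderiv_right (m := ∞) (by simp)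
  have a2 : ContDiffAt ℝ ∞ (fderiv ℝ p.g) y :=
    p.g_smooth.contDiffAt.fderiv_right (m := ∞) (by simp)
  have a3 : ContDiffAt ℝ ∞ (endRep p.e J) (p.g y) :=
    (h p.e p.he _ (p.g_mem y)).contDiffAt (p.e.open_target.mem_nhds (p.g_mem y))
  exact (a1.comp y p.g_smooth.contDiffAt).clm_comp
    ((a3.comp y p.g_smooth.contDiffAt).clm_comp a2)

theorem endo_apply (p : Par X) (J : EndField X) (y v : V4) :
    p.endo J y v = p.dinv (p.psi y) (Jat J (p.psi y) (p.dpsi y v)) := rfl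

theorem isCx_endo (p : Par X) {J : EndField X}
    (h : ∀ x (v : TangentSpace (𝓡 4) x), J x (J x v) = -v) (y : V4) :
    IsCx (matL (p.endo J y)) := by
  intro v
  rw [app_matL, app_matL, endo_apply, endo_apply, p.dpsi_dinv]
  have h2 : Jat J (p.psi y) (Jat J (p.psi y) (p.dpsi y v)) = - p.dpsi y v := h (p.psi y) _
  rw [h2, map_neg, p.dinv_dpsi]

end Par

/-- Positively oriented parametrisation around every point. -/
theorem exists_par_pos {J : EndField X} (hJ : AlmostComplex J) (x : X) :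
    ∃ p : Par X, p.psi 0 = x ∧ ∀ y, Pos (matL (p.endo J y)) := by
  obtain ⟨p, hp, -⟩ := exists_par x (ContinuousLinearEquiv.refl ℝ V4)
  have hc : ∀ q : Par X, Continuous fun y => matL (q.endo J y) := fun q =>
    matL.continuous.comp (q.endo_smooth hJ.smooth).continuous
  rcases lt_or_gt_of_ne (Q_Fm_ne (p.isCx_endo hJ.sq 0)) with h | h
  · refine ⟨p.precomp reflE, ?_, ?_⟩
    · rw [Par.precomp_psi, map_zero, hp]
    · apply pos_of_connected (hc _) (fun y => (p.precomp reflE).isCx_endo hJ.sq y) (y0 := 0)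
      have h1 : (p.precomp reflE).endo J 0 = refl0.comp ((p.endo J 0).comp refl0) := by
        rw [Par.precomp_endo, map_zero]
        rfl
      unfold Pos
      rw [h1, Q_Fm_refl]
      linarith
  · exact ⟨p, hp, pos_of_connected (hc _) (fun y => p.isCx_endo hJ.sq y) h⟩

end Vale.Agent.P204K.Mfd
end

section

/-!
# P204: finite atlas by positively oriented parametrisations, and extension by zero
-/

open scoped Manifold ContDiff Topology
open Set

namespace Vale.Agent.P204K.Mfd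

open Vale.Agent.P204K.T4

variable {X : Type*} [TopologicalSpace X] [ChartedSpace E4 X]

/-- A finite atlas of positively oriented parametrisations. -/
structure FinAtlas (X : Type*) [TopologicalSpace X] [ChartedSpace E4 X]
    [IsManifold (𝓡 4) ∞ X] (J : EndField X) where
  n : ℕ
  P : Fin n → Par X
  cov : ∀ x, ∃ a y, ‖y‖ < 1 ∧ (P a).psi y = x
  pos : ∀ a y, Pos (matL ((P a).endo J y))

theorem exists_finAtlas [IsManifold (𝓡 4) ∞ X] [CompactSpace X] {J : EndField X}
    (hJ : AlmostComplex J) : Nonempty (FinAtlas X J) := by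
  choose p hp hpos using fun x : X => exists_par_pos hJ x
  have hop : ∀ x, IsOpen ((p x).psi '' Metric.ball 0 1) := fun x =>
    (p x).isOpenEmbedding.isOpenMap _ Metric.isOpen_ball
  have hcov : (univ : Set X) ⊆ ⋃ x, (p x).psi '' Metric.ball 0 1 := by
    intro x _
    exact mem_iUnion.2 ⟨x, 0, by simp only [Metric.mem_ball, dist_self, zero_lt_one], hp x⟩
  obtain ⟨t, ht⟩ := isCompact_univ.elim_finite_subcover _ hop hcov
  refine ⟨⟨t.card, fun i => p (t.equivFin.symm i : X), ?_, fun a y => hpos _ y⟩⟩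
  intro x
  obtain ⟨z, hz, y, hy, hyx⟩ := mem_iUnion₂.1 (ht (mem_univ x))
  refine ⟨t.equivFin ⟨z, hz⟩, y, by simpa only [Metric.mem_ball, dist_zero_right] using hy, ?_⟩
  simpa only [Equiv.symm_apply_apply] using hyx

/-- Extension by zero of a function on coordinate space. -/
noncomputable def extZ {F : Type*} [Zero F] (p : Par X) (h : V4 → F) (x : X) : F :=
  open Classical in if x ∈ range p.psi then h (p.inv x) else 0

set_option linter.unusedSectionVars false

section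

variable {F : Type*} [NormedAddCommGroup F] [NormedSpace ℝ F]

theorem extZ_psi (p : Par X) (h : V4 → F) (y : V4) : extZ p h (p.psi y) = h y := by
  unfold extZ
  rw [if_pos (mem_range_self y), p.inv_psi]

theorem extZ_off (p : Par X) (h : V4 → F) {x : X} (hx : x ∉ p.psi '' tsupport h) :
    extZ p h x = 0 := by
  unfold extZ
  split_ifs with hr
  · obtain ⟨y, rfl⟩ := hr
    rw [p.inv_psi]
    by_contra hne
    exact hx ⟨y, subset_tsupport _ hne, rfl⟩
  · rfl

variable [IsManifold (𝓡 4) ∞ X] [T2Space X]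

theorem extZ_smooth (p q : Par X) {h : V4 → F} (hs : ContDiff ℝ ∞ h) (hc : HasCompactSupport h) :
    ContDiff ℝ ∞ fun y => extZ p h (q.psi y) := by
  rw [contDiff_iff_contDiffAt]
  intro y
  by_cases hy : q.psi y ∈ range p.psi
  · have hy' : y ∈ Par.dom q p := hy
    have h1 : (fun y => extZ p h (q.psi y)) =ᶠ[𝓝 y] fun y => h (Par.tau q p y) := by
      filter_upwards [(Par.isOpen_dom q p).mem_nhds hy'] with z hz
      unfold extZ
      rw [if_pos (show q.psi z ∈ range p.psi from hz)]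
      rfl
    refine ContDiffAt.congr_of_eventuallyEq ?_ h1
    exact hs.contDiffAt.comp y
      ((Par.tau_smooth q p _ hy').contDiffAt ((Par.isOpen_dom q p).mem_nhds hy'))
  · have hcl : IsClosed (p.psi '' tsupport h) :=
      (hc.isCompact.image p.isOpenEmbedding.continuous).isClosed
    have hop : IsOpen (q.psi ⁻¹' (p.psi '' tsupport h)ᶜ) :=
      hcl.isOpen_compl.preimage q.isOpenEmbedding.continuous
    have hmem : y ∈ q.psi ⁻¹' (p.psi '' tsupport h)ᶜ := by
      intro hh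
      obtain ⟨w, _, hw⟩ := hh
      exact hy ⟨w, hw⟩
    have h1 : (fun y => extZ p h (q.psi y)) =ᶠ[𝓝 y] fun _ => 0 := by
      filter_upwards [hop.mem_nhds hmem] with z hz
      exact extZ_off p h hz
    exact contDiffAt_const.congr_of_eventuallyEq h1

theorem extZ_continuous (p : Par X) {h : V4 → F} (hs : Continuous h) (hc : HasCompactSupport h) :
    Continuous (extZ p h) := by
  rw [continuous_iff_continuousAt]
  intro x
  by_cases hx : x ∈ range p.psi
  · have h1 : extZ p h =ᶠ[𝓝 x] fun x => h (p.inv x) := by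
      filter_upwards [p.isOpen_range.mem_nhds hx] with z hz
      unfold extZ
      rw [if_pos hz]
    refine ContinuousAt.congr ?_ h1.symm
    exact hs.continuousAt.comp
      ((p.contMDiffOn_inv.continuousOn _ hx).continuousAt (p.isOpen_range.mem_nhds hx))
  · have hcl : IsClosed (p.psi '' tsupport h) :=
      (hc.isCompact.image p.isOpenEmbedding.continuous).isClosed
    have hmem : x ∈ (p.psi '' tsupport h)ᶜ := by
      intro hh
      obtain ⟨w, _, hw⟩ := hh
      exact hx ⟨w, hw⟩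
    have h1 : extZ p h =ᶠ[𝓝 x] fun _ => 0 := by
      filter_upwards [hcl.isOpen_compl.mem_nhds hmem] with z hz
      exact extZ_off p h hz
    exact continuousAt_const.congr h1.symm

end

end Vale.Agent.P204K.Mfd
end

section

/-!
# P204: a metric on `X` for which the parametrisations are bi-Lipschitz on compact sets
-/

open scoped Manifold ContDiff Topology
open Set

namespace Vale.Agent.P204K.Mfd

open Vale.Agent.P204K.T4

set_option linter.unusedSectionVars false

/-- bump function, equal to `1` on the unit ball -/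
noncomputable def bmp : ContDiffBump (0 : V4) := ⟨1, 2, one_pos, one_lt_two⟩

/-- the building block of the embedding -/
noncomputable def hz (y : V4) : ℝ × V4 := (bmp y, bmp y • y)

theorem hz_smooth : ContDiff ℝ ∞ hz :=
  bmp.contDiff.prodMk (bmp.contDiff.smul contDiff_id)

theorem hz_support : HasCompactSupport hz := by
  refine HasCompactSupport.mono bmp.hasCompactSupport ?_
  intro y hy hy'
  apply hy
  have h0 : bmp y = 0 := hy'
  simp [hz, h0]

theorem hz_ball {y : V4} (hy : ‖y‖ < 1) : hz y = (1, y) := by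
  have h1 : bmp y = 1 := bmp.one_of_mem_closedBall (by
    rw [mem_closedBall_zero_iff]; exact hy.le)
  simp [hz, h1]

variable {X : Type*} [TopologicalSpace X] [ChartedSpace E4 X] [IsManifold (𝓡 4) ∞ X]
  {J : EndField X} [CompactSpace X] [T2Space X]

namespace FinAtlas

/-- The embedding into Euclidean space. -/
noncomputable def Φ (A : FinAtlas X J) (x : X) : Fin A.n → ℝ × V4 := fun a => extZ (A.P a) hz x

theorem Φ_smooth (A : FinAtlas X J) (q : Par X) : ContDiff ℝ ∞ fun y => A.Φ (q.psi y) :=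
  contDiff_pi.2 fun a => extZ_smooth (A.P a) q hz_smooth hz_support

theorem Φ_continuous (A : FinAtlas X J) : Continuous A.Φ :=
  continuous_pi fun a => extZ_continuous (A.P a) hz_smooth.continuous hz_support

theorem Φ_apply_ball (A : FinAtlas X J) (a : Fin A.n) {y : V4} (hy : ‖y‖ < 1) :
    A.Φ ((A.P a).psi y) a = (1, y) := by
  rw [Φ, extZ_psi, hz_ball hy]

theorem Φ_injective (A : FinAtlas X J) : Function.Injective A.Φ := by
  intro x x' h
  obtain ⟨a, y, hy, rfl⟩ := A.cov x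
  have h1 := congrFun h a
  rw [A.Φ_apply_ball a hy] at h1
  by_cases hr : x' ∈ range (A.P a).psi
  · obtain ⟨y', rfl⟩ := hr
    rw [Φ, extZ_psi] at h1
    have e1 : (1 : ℝ) = bmp y' := congrArg Prod.fst h1
    have e2 : y = bmp y' • y' := congrArg Prod.snd h1
    rw [← e1, one_smul] at e2
    rw [e2]
  · exfalso
    have h2 : A.Φ x' a = 0 := by
      unfold Φ extZ
      rw [if_neg hr]
    rw [h2] at h1
    have e1 : (1 : ℝ) = 0 := congrArg Prod.fst h1
    norm_num at e1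

theorem Φ_embedding (A : FinAtlas X J) : Topology.IsEmbedding A.Φ :=
  (A.Φ_continuous.isClosedEmbedding A.Φ_injective).isEmbedding

/-- The metric induced by the embedding. -/
noncomputable abbrev metric (A : FinAtlas X J) : MetricSpace X :=
  A.Φ_embedding.comapMetricSpace A.Φ

theorem dist_eq (A : FinAtlas X J) (x y : X) :
    (A.metric).dist x y = ‖A.Φ x - A.Φ y‖ := by
  rw [← dist_eq_norm]; rfl

theorem upper (A : FinAtlas X J) (a : Fin A.n) (r : ℝ) :
    ∃ C : ℝ, 0 < C ∧ ∀ y z : V4, ‖y‖ ≤ r → ‖z‖ ≤ r →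
      ‖A.Φ ((A.P a).psi y) - A.Φ ((A.P a).psi z)‖ ≤ C * ‖y - z‖ := by
  have hs := A.Φ_smooth (A.P a)
  have hcont : Continuous fun y => ‖fderiv ℝ (fun y => A.Φ ((A.P a).psi y)) y‖ :=
    (hs.continuous_fderiv (by simp only [ne_eq, WithTop.coe_eq_zero, ENat.top_ne_zero, not_false_eq_true])).norm
  obtain ⟨C, hC⟩ := (isCompact_closedBall (0 : V4) r).bddAbove_image hcont.continuousOn
  refine ⟨max C 1, by positivity, fun y z hy hz => ?_⟩
  have h1 : ∀ w ∈ Metric.closedBall (0 : V4) r,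
      ‖fderiv ℝ (fun y => A.Φ ((A.P a).psi y)) w‖ ≤ max C 1 := fun w hw =>
    (hC (mem_image_of_mem _ hw)).trans (le_max_left _ _)
  exact (convex_closedBall (0 : V4) r).norm_image_sub_le_of_norm_fderiv_le
    (fun w _ => (hs.differentiable (by simp)) w) h1 (by simpa only [Metric.mem_closedBall, dist_zero_right] using hz) (by simpa only [Metric.mem_closedBall, dist_zero_right] using hy)

theorem lower_local (A : FinAtlas X J) (a : Fin A.n) (y0 z0 : V4) :
    ∃ C : ℝ, 0 < C ∧ ∃ U ∈ 𝓝 (y0, z0), ∀ p ∈ U,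
      ‖p.1 - p.2‖ ≤ C * ‖A.Φ ((A.P a).psi p.1) - A.Φ ((A.P a).psi p.2)‖ := by
  have hΦ : Continuous fun y => A.Φ ((A.P a).psi y) :=
    A.Φ_continuous.comp (A.P a).isOpenEmbedding.continuous
  by_cases hyz : y0 = z0
  · subst hyz
    obtain ⟨b, y', hy', hby⟩ := A.cov ((A.P a).psi y0)
    have hmem : (A.P a).psi y0 ∈ range (A.P b).psi := ⟨y', hby⟩
    have hdom : y0 ∈ Par.dom (A.P a) (A.P b) := hmem
    have htau : Par.tau (A.P a) (A.P b) y0 = y' := by
      unfold Par.tau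
      rw [← hby, Par.inv_psi]
    have hdom' : y' ∈ Par.dom (A.P b) (A.P a) := ⟨y0, hby.symm⟩
    have hsm : ContDiffAt ℝ 1 (Par.tau (A.P b) (A.P a)) y' :=
      ((Par.tau_smooth (A.P b) (A.P a) _ hdom').contDiffAt
        ((Par.isOpen_dom _ _).mem_nhds hdom')).of_le (by simp only [WithTop.one_le_coe, le_top])
    obtain ⟨K, t, ht, hK⟩ := hsm.exists_lipschitzOnWith
    have hct : ContinuousAt (Par.tau (A.P a) (A.P b)) y0 :=
      ((Par.tau_smooth (A.P a) (A.P b) _ hdom).contDiffAt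
        ((Par.isOpen_dom _ _).mem_nhds hdom)).continuousAt
    have hV : ∀ᶠ w in 𝓝 y0, w ∈ Par.dom (A.P a) (A.P b) ∧
        Par.tau (A.P a) (A.P b) w ∈ t ∧ ‖Par.tau (A.P a) (A.P b) w‖ < 1 := by
      have hd : ∀ᶠ w in 𝓝 y0, w ∈ Par.dom (A.P a) (A.P b) :=
        (Par.isOpen_dom _ _).mem_nhds hdom
      refine hd.and (Filter.Eventually.and ?_ ?_)
      · exact hct.eventually (by rw [htau]; exact ht)
      · have : ContinuousAt (fun w => ‖Par.tau (A.P a) (A.P b) w‖) y0 := hct.norm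
        exact this.eventually_lt continuousAt_const (by rw [htau]; exact hy')
    refine ⟨K + 1, by positivity, _, (hV.prod_nhds hV), ?_⟩
    rintro ⟨w1, w2⟩ ⟨⟨h1, h2, h3⟩, ⟨h1', h2', h3'⟩⟩
    have key : ∀ w, w ∈ Par.dom (A.P a) (A.P b) → ‖Par.tau (A.P a) (A.P b) w‖ < 1 →
        A.Φ ((A.P a).psi w) b = (1, Par.tau (A.P a) (A.P b) w) := by
      intro w hw hw1
      rw [← Par.psi_tau hw]
      exact A.Φ_apply_ball b hw1
    have inv : ∀ w, w ∈ Par.dom (A.P a) (A.P b) →
        Par.tau (A.P b) (A.P a) (Par.tau (A.P a) (A.P b) w) = w := by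
      intro w hw
      unfold Par.tau
      have := Par.psi_tau hw
      unfold Par.tau at this
      rw [this, Par.inv_psi]
    have h4 : ‖w1 - w2‖ ≤ K * ‖Par.tau (A.P a) (A.P b) w1 - Par.tau (A.P a) (A.P b) w2‖ := by
      have := hK.norm_sub_le h2 h2'
      rwa [inv w1 h1, inv w2 h1'] at this
    have h5 : ‖Par.tau (A.P a) (A.P b) w1 - Par.tau (A.P a) (A.P b) w2‖ ≤
        ‖A.Φ ((A.P a).psi w1) - A.Φ ((A.P a).psi w2)‖ := by
      have h6 := norm_le_pi_norm (A.Φ ((A.P a).psi w1) - A.Φ ((A.P a).psi w2)) b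
      rw [Pi.sub_apply, key w1 h1 h3, key w2 h1' h3'] at h6
      exact (norm_snd_le _).trans h6
    calc ‖w1 - w2‖ ≤ K * ‖A.Φ ((A.P a).psi w1) - A.Φ ((A.P a).psi w2)‖ :=
          h4.trans (mul_le_mul_of_nonneg_left h5 K.coe_nonneg)
      _ ≤ (K + 1) * ‖A.Φ ((A.P a).psi w1) - A.Φ ((A.P a).psi w2)‖ := by
          linarith only [norm_nonneg (A.Φ ((A.P a).psi w1) - A.Φ ((A.P a).psi w2))]
  · have hne : 0 < ‖A.Φ ((A.P a).psi y0) - A.Φ ((A.P a).psi z0)‖ := by
      rw [norm_pos_iff, sub_ne_zero]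
      intro h
      exact hyz ((A.P a).isOpenEmbedding.injective (A.Φ_injective h))
    set ε := ‖A.Φ ((A.P a).psi y0) - A.Φ ((A.P a).psi z0)‖
    have hc1 : Continuous fun p : V4 × V4 =>
        ‖A.Φ ((A.P a).psi p.1) - A.Φ ((A.P a).psi p.2)‖ :=
      ((hΦ.comp continuous_fst).sub (hΦ.comp continuous_snd)).norm
    have hc2 : Continuous fun p : V4 × V4 => ‖p.1 - p.2‖ :=
      (continuous_fst.sub continuous_snd).norm
    have e1 : ∀ᶠ p in 𝓝 (y0, z0), ε / 2 < ‖A.Φ ((A.P a).psi p.1) - A.Φ ((A.P a).psi p.2)‖ :=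
      hc1.continuousAt.eventually (lt_mem_nhds (by simpa only [half_lt_self_iff, norm_pos_iff, ne_eq, ε] using half_lt_self hne))
    have e2 : ∀ᶠ p in 𝓝 (y0, z0), ‖p.1 - p.2‖ < ‖y0 - z0‖ + 1 :=
      hc2.continuousAt.eventually (gt_mem_nhds (by simp only [lt_add_iff_pos_right, zero_lt_one]))
    refine ⟨(‖y0 - z0‖ + 1) / (ε / 2), by positivity, _, e1.and e2, ?_⟩
    rintro p ⟨h1, h2⟩
    have h3 : (‖y0 - z0‖ + 1) = (‖y0 - z0‖ + 1) / (ε / 2) * (ε / 2) := by
      field_simp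
    calc ‖p.1 - p.2‖ ≤ ‖y0 - z0‖ + 1 := h2.le
      _ = (‖y0 - z0‖ + 1) / (ε / 2) * (ε / 2) := h3
      _ ≤ _ := mul_le_mul_of_nonneg_left h1.le (by (clear * - hne; positivity))

theorem lower (A : FinAtlas X J) (a : Fin A.n) (r : ℝ) :
    ∃ C : ℝ, 0 < C ∧ ∀ y z : V4, ‖y‖ ≤ r → ‖z‖ ≤ r →
      ‖y - z‖ ≤ C * ‖A.Φ ((A.P a).psi y) - A.Φ ((A.P a).psi z)‖ := by
  have hK : IsCompact (Metric.closedBall (0 : V4) r ×ˢ Metric.closedBall (0 : V4) r) :=
    (isCompact_closedBall _ _).prod (isCompact_closedBall _ _)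
  have := hK.induction_on (p := fun s => ∃ C : ℝ, 0 < C ∧ ∀ p ∈ s,
      ‖p.1 - p.2‖ ≤ C * ‖A.Φ ((A.P a).psi p.1) - A.Φ ((A.P a).psi p.2)‖)
    ⟨1, one_pos, by simp only [mem_empty_iff_false, one_mul, IsEmpty.forall_iff, implies_true]⟩
    (fun s t hst ⟨C, hC, h⟩ => ⟨C, hC, fun p hp => h p (hst hp)⟩)
    (fun s t ⟨C, hC, h⟩ ⟨C', hC', h'⟩ => ⟨C + C', by positivity, fun p hp => by
      rcases hp with hp | hp
      · refine (h p hp).trans (mul_le_mul_of_nonneg_right (by linarith) (norm_nonneg _))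
      · refine (h' p hp).trans (mul_le_mul_of_nonneg_right (by linarith only [hC]) (norm_nonneg _))⟩)
    (fun p _ => by
      obtain ⟨C, hC, U, hU, h⟩ := A.lower_local a p.1 p.2
      exact ⟨U, mem_nhdsWithin_of_mem_nhds hU, C, hC, h⟩)
  obtain ⟨C, hC, h⟩ := this
  exact ⟨C, hC, fun y z hy hz => h (y, z) ⟨by simpa only [Metric.mem_closedBall, dist_zero_right] using hy, by simpa only [Metric.mem_closedBall, dist_zero_right] using hz⟩⟩

theorem lip (A : FinAtlas X J) (a : Fin A.n) (r : ℝ) :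
    ∃ C : ℝ, 0 < C ∧ ∀ y z : V4, ‖y‖ ≤ r → ‖z‖ ≤ r →
      (A.metric).dist ((A.P a).psi y) ((A.P a).psi z) ≤ C * ‖y - z‖ ∧
      ‖y - z‖ ≤ C * (A.metric).dist ((A.P a).psi y) ((A.P a).psi z) := by
  obtain ⟨C, hC, h⟩ := A.upper a r
  obtain ⟨C', hC', h'⟩ := A.lower a r
  refine ⟨C + C', by positivity, fun y z hy hz => ⟨?_, ?_⟩⟩
  · rw [dist_eq]
    exact (h y z hy hz).trans (mul_le_mul_of_nonneg_right (by linarith) (norm_nonneg _))
  · rw [dist_eq]
    exact (h' y z hy hz).trans (mul_le_mul_of_nonneg_right (by linarith only [hC]) (norm_nonneg _))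

end FinAtlas

end Vale.Agent.P204K.Mfd
end

section

/-!
# P204: measurable unitary frames by Gram-Schmidt
-/

open scoped ContDiff Topology
open Set MeasureTheory

namespace Vale.Agent.P204K.Mfd

open Vale.Agent.P204K.T4 Vale.Agent.P204K.GX

/-- The metric of a pair `(J, F)`. -/
noncomputable def gg (J : M4) (F : L2) (v w : V4) : ℝ := ev F v (app J w)

section algebra

variable {J : M4} {F : L2}

theorem gg_add_left (v v' w : V4) : gg J F (v + v') w = gg J F v w + gg J F v' w :=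
  ev_add_left _ _ _ _

theorem gg_add_right (v w w' : V4) : gg J F v (w + w') = gg J F v w + gg J F v w' := by
  unfold gg; rw [app_add, ev_add_right]

theorem gg_smul_left (c : ℝ) (v w : V4) : gg J F (c • v) w = c * gg J F v w :=
  ev_smul_left _ _ _ _

theorem gg_smul_right (c : ℝ) (v w : V4) : gg J F v (c • w) = c * gg J F v w := by
  unfold gg; rw [app_smul, ev_smul_right]

theorem gg_neg_left (v w : V4) : gg J F (-v) w = - gg J F v w := ev_neg_left _ _ _

theorem gg_sub_left (v v' w : V4) : gg J F (v - v') w = gg J F v w - gg J F v' w := by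
  rw [sub_eq_add_neg, gg_add_left, gg_neg_left]; ring

theorem ev_J_J (hF : pull J F = F) (v w : V4) : ev F (app J v) (app J w) = ev F v w := by
  conv_rhs => rw [← hF]
  rw [ev_pull]

theorem gg_J_J (hF : pull J F = F) (v w : V4) : gg J F (app J v) (app J w) = gg J F v w := by
  unfold gg; rw [ev_J_J hF]

theorem gg_symm (hJ : IsCx J) (hF : pull J F = F) (v w : V4) : gg J F v w = gg J F w v := by
  rw [← gg_J_J hF]
  unfold gg
  rw [hJ w, ev_neg_right, ev_antisymm, neg_neg]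

theorem gg_J_left (hJ : IsCx J) (hF : pull J F = F) (v w : V4) :
    gg J F (app J v) w = - gg J F v (app J w) := by
  unfold gg
  rw [ev_J_J hF, hJ w, ev_neg_right, neg_neg]

theorem gg_J_self (v : V4) (hJ : IsCx J) : gg J F v (app J v) = 0 := by
  unfold gg
  rw [hJ v, ev_neg_right, ev_self, neg_zero]

theorem gg_self_J (v : V4) (hJ : IsCx J) (hF : pull J F = F) : gg J F (app J v) v = 0 := by
  rw [gg_symm hJ hF, gg_J_self v hJ]

theorem gg_pos (hF : PosDef J F) {v : V4} (hv : v ≠ 0) : 0 < gg J F v v := hF.2 v hv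

end algebra

/-- first frame vector -/
noncomputable def f0 (J : M4) (F : L2) : V4 := (Real.sqrt (gg J F (eb 0) (eb 0)))⁻¹ • eb 0

/-- the projection of the k-th coordinate vector -/
noncomputable def pj (J : M4) (F : L2) (k : Fin 4) : V4 :=
  eb k - gg J F (eb k) (f0 J F) • f0 J F
    - gg J F (eb k) (app J (f0 J F)) • app J (f0 J F)

/-- the selected vector -/
noncomputable def sel (J : M4) (F : L2) : V4 :=
  open Classical in if pj J F 2 = 0 then pj J F 3 else pj J F 2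

/-- third frame vector -/
noncomputable def f2 (J : M4) (F : L2) : V4 :=
  (Real.sqrt (gg J F (sel J F) (sel J F)))⁻¹ • sel J F

/-- The frame: its columns are `f0, J f0, f2, J f2`. -/
noncomputable def gsP (J : M4) (F : L2) : M4 :=
  cols (f0 J F) (app J (f0 J F)) (f2 J F) (app J (f2 J F))

/-- The coframe. -/
noncomputable def gsM (J : M4) (F : L2) : M4 := fun i j =>
  gg J F (![f0 J F, app J (f0 J F), f2 J F, app J (f2 J F)] i) (eb j)

section facts

set_option linter.unusedSectionVars false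

variable {J : M4} {F : L2} (hJ : IsCx J) (hF : PosDef J F)

include hJ hF

theorem gg_f0_f0 : gg J F (f0 J F) (f0 J F) = 1 := by
  have h : 0 < gg J F (eb 0) (eb 0) := gg_pos hF (by
    intro h; have := congrFun h 0; simp [eb] at this)
  unfold f0
  rw [gg_smul_left, gg_smul_right, ← mul_assoc, ← mul_inv, Real.mul_self_sqrt h.le,
    inv_mul_cancel₀ h.ne']

theorem pj_orth (k : Fin 4) : gg J F (pj J F k) (f0 J F) = 0 := by
  unfold pj
  rw [gg_sub_left, gg_sub_left, gg_smul_left, gg_smul_left, gg_f0_f0 hJ hF,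
    gg_self_J _ hJ hF.1]
  ring

theorem pj_orth' (k : Fin 4) : gg J F (pj J F k) (app J (f0 J F)) = 0 := by
  unfold pj
  rw [gg_sub_left, gg_sub_left, gg_smul_left, gg_smul_left, gg_J_self _ hJ, gg_J_J hF.1,
    gg_f0_f0 hJ hF]
  ring

theorem pj_ne : pj J F 2 ≠ 0 ∨ pj J F 3 ≠ 0 := by
  by_contra hcon
  push Not at hcon
  obtain ⟨h2, h3⟩ := hcon
  -- `eb 2` and `eb 3` would both lie in the span of `f0`, `J f0`
  set a := gg J F (eb 2) (f0 J F)
  set b := gg J F (eb 2) (app J (f0 J F))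
  set c := gg J F (eb 3) (f0 J F)
  set d := gg J F (eb 3) (app J (f0 J F))
  set s := (Real.sqrt (gg J F (eb 0) (eb 0)))⁻¹
  have e2 : eb 2 = a • f0 J F + b • app J (f0 J F) := by
    have : pj J F 2 = eb 2 - a • f0 J F - b • app J (f0 J F) := rfl
    rw [this] at h2
    have := sub_eq_zero.1 h2
    rw [← this]; abel
  have e3 : eb 3 = c • f0 J F + d • app J (f0 J F) := by
    have : pj J F 3 = eb 3 - c • f0 J F - d • app J (f0 J F) := rfl
    rw [this] at h3
    have := sub_eq_zero.1 h3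
    rw [← this]; abel
  have hf0 : f0 J F = s • eb 0 := rfl
  -- d • eb 2 - b • eb 3 is a multiple of eb 0
  have key : d • eb 2 - b • eb 3 = ((d * a - b * c) * s) • eb 0 := by
    rw [e2, e3, hf0]
    module
  have k2 := congrFun key 2
  have k3 := congrFun key 3
  simp [eb] at k2 k3
  -- d = 0 and b = 0
  rw [k3, zero_smul, add_zero, hf0] at e2
  have := congrFun e2 2
  simp only [eb, Fin.isValue, Pi.single_eq_same, Pi.smul_apply, ne_eq, Fin.reduceEq, not_false_eq_true, Pi.single_eq_of_ne, smul_eq_mul, mul_zero, one_ne_zero] at this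

theorem sel_ne : sel J F ≠ 0 := by
  unfold sel
  split_ifs with h
  · rcases pj_ne hJ hF with h' | h'
    · exact absurd h h'
    · exact h'
  · exact h

theorem sel_orth : gg J F (sel J F) (f0 J F) = 0 ∧ gg J F (sel J F) (app J (f0 J F)) = 0 := by
  unfold sel
  split_ifs with h
  · exact ⟨pj_orth hJ hF 3, pj_orth' hJ hF 3⟩
  · exact ⟨pj_orth hJ hF 2, pj_orth' hJ hF 2⟩

theorem gg_f2_f2 : gg J F (f2 J F) (f2 J F) = 1 := by
  have h : 0 < gg J F (sel J F) (sel J F) := gg_pos hF (sel_ne hJ hF)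
  unfold f2
  rw [gg_smul_left, gg_smul_right, ← mul_assoc, ← mul_inv, Real.mul_self_sqrt h.le,
    inv_mul_cancel₀ h.ne']

theorem gg_f2_f0 : gg J F (f2 J F) (f0 J F) = 0 := by
  unfold f2
  rw [gg_smul_left, (sel_orth hJ hF).1, mul_zero]

theorem gg_f2_Jf0 : gg J F (f2 J F) (app J (f0 J F)) = 0 := by
  unfold f2
  rw [gg_smul_left, (sel_orth hJ hF).2, mul_zero]

theorem gsP_app (v : V4) : app (gsP J F) v =
    v 0 • f0 J F + v 1 • app J (f0 J F) + v 2 • f2 J F + v 3 • app J (f2 J F) := by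
  unfold gsP
  rw [app_cols]

theorem gsP_J (v : V4) : app J (app (gsP J F) v) = app (gsP J F) (app J0 v) := by
  rw [gsP_app hJ hF, gsP_app hJ hF, app_J0]
  simp only [app_add, app_smul]
  rw [hJ, hJ]
  simp only [Fin.isValue, smul_neg, Nat.succ_eq_add_one, Nat.reduceAdd, Matrix.cons_val_zero, neg_smul, Matrix.cons_val_one, Matrix.cons_val]
  module

/-- `gg` in the frame is the standard inner product. -/
theorem gg_gsP (v w : V4) : gg J F (app (gsP J F) v) (app (gsP J F) w) = dp v w := by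
  rw [gsP_app hJ hF, gsP_app hJ hF, dp_eq]
  simp only [gg_add_left, gg_add_right, gg_smul_left, gg_smul_right, gg_J_J hF.1]
  rw [gg_J_left hJ hF.1, gg_J_left hJ hF.1, gg_J_left hJ hF.1, gg_J_left hJ hF.1]
  rw [gg_J_self _ hJ, gg_J_self _ hJ, gg_f0_f0 hJ hF, gg_f2_f2 hJ hF, gg_f2_f0 hJ hF,
    gg_f2_Jf0 hJ hF, gg_symm hJ hF.1 (f0 J F) (f2 J F), gg_f2_f0 hJ hF]
  have h1 : gg J F (f0 J F) (app J (f2 J F)) = 0 := by
    rw [gg_symm hJ hF.1, gg_J_left hJ hF.1, gg_f2_Jf0 hJ hF, neg_zero]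
  rw [h1]
  ring

theorem gsM_app (v : V4) : app (gsM J F) v =
    ![gg J F (f0 J F) v, gg J F (app J (f0 J F)) v, gg J F (f2 J F) v,
      gg J F (app J (f2 J F)) v] := by
  have hv : ∀ u : V4, gg J F u v = gg J F u (eb 0) * v 0 + gg J F u (eb 1) * v 1
      + gg J F u (eb 2) * v 2 + gg J F u (eb 3) * v 3 := by
    intro u
    have e : v = v 0 • eb 0 + v 1 • eb 1 + v 2 • eb 2 + v 3 • eb 3 := by
      funext i
      fin_cases i <;> simp only [Fin.zero_eta, Fin.isValue, eb, Pi.add_apply, Pi.smul_apply, Pi.single_eq_same, smul_eq_mul, mul_one, ne_eq, zero_ne_one, not_false_eq_true, Pi.single_eq_of_ne, mul_zero, add_zero, Fin.reduceEq, Fin.mk_one, one_ne_zero, zero_add, Fin.reduceFinMk]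
    conv_lhs => rw [e]
    simp only [gg_add_right, gg_smul_right]
    ring
  funext i
  rw [app_eq]
  fin_cases i
  · exact (hv _).symm
  · exact (hv _).symm
  · exact (hv _).symm
  · exact (hv _).symm

theorem gsM_gsP (v : V4) : app (gsM J F) (app (gsP J F) v) = v := by
  have h : ∀ i, gg J F (app (gsP J F) (eb i)) (app (gsP J F) v) = v i := by
    intro i
    rw [gg_gsP hJ hF, dp_eq]
    fin_cases i <;> simp only [eb, Fin.zero_eta, Fin.isValue, Pi.single_eq_same, one_mul, ne_eq, one_ne_zero, not_false_eq_true, Pi.single_eq_of_ne, zero_mul, add_zero, Fin.reduceEq, Fin.mk_one, zero_ne_one, zero_add, Fin.reduceFinMk]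
  have e0 : app (gsP J F) (eb 0) = f0 J F := by rw [gsP_app hJ hF]; simp [eb]
  have e1 : app (gsP J F) (eb 1) = app J (f0 J F) := by rw [gsP_app hJ hF]; simp [eb]
  have e2 : app (gsP J F) (eb 2) = f2 J F := by rw [gsP_app hJ hF]; simp [eb]
  have e3 : app (gsP J F) (eb 3) = app J (f2 J F) := by rw [gsP_app hJ hF]; simp only [eb, Fin.isValue, ne_eq, Fin.reduceEq, not_false_eq_true, Pi.single_eq_of_ne, zero_smul, add_zero, Pi.single_eq_same, one_smul, zero_add]
  have h0 := h 0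
  have h1 := h 1
  have h2 := h 2
  have h3 := h 3
  rw [e0] at h0; rw [e1] at h1; rw [e2] at h2; rw [e3] at h3
  rw [gsM_app hJ hF, h0, h1, h2, h3]
  funext i
  fin_cases i <;> rfl

theorem gsP_gsM (v : V4) : app (gsP J F) (app (gsM J F) v) = v := by
  -- injectivity of `gsM` from surjectivity (finite dimension)
  have hsurj : Function.Surjective (appL (gsM J F)) := fun v =>
    ⟨app (gsP J F) v, gsM_gsP hJ hF v⟩
  have hinj : Function.Injective (appL (gsM J F)) :=
    (LinearMap.injective_iff_surjective).2 hsurj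
  apply hinj
  show app (gsM J F) _ = app (gsM J F) _
  rw [gsM_gsP hJ hF]

theorem gsM_J (v : V4) : app (gsM J F) (app J v) = app J0 (app (gsM J F) v) := by
  have h := gsP_J hJ hF (app (gsM J F) v)
  rw [gsP_gsM hJ hF] at h
  rw [h, gsM_gsP hJ hF]

theorem pull_gsP : pull (gsP J F) F = GX.F0 := by
  apply ext_ev
  intro v w
  rw [ev_pull]
  have h : ev F (app (gsP J F) v) (app (gsP J F) w) =
      - gg J F (app (gsP J F) v) (app (gsP J F) (app J0 w)) := by
    unfold gg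
    rw [← gsP_J hJ hF, hJ, ev_neg_right, neg_neg]
  rw [h, gg_gsP hJ hF, app_J0, dp_eq, ev_eq]
  simp only [Fin.isValue, Nat.succ_eq_add_one, Nat.reduceAdd, Matrix.cons_val_zero, mul_neg, Matrix.cons_val_one, Matrix.cons_val, neg_add_rev, neg_neg, F0, one_mul, zero_mul, add_zero]
  ring

end facts

section meas

variable {α : Type*} [MeasurableSpace α] {J : α → M4} {F : α → L2}

theorem measurable_app {v : α → V4} (hJ : Measurable J) (hv : Measurable v) :
    Measurable fun a => app (J a) (v a) := by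
  have hJ' : ∀ i j, Measurable fun a => J a i j := fun i j =>
    (measurable_pi_apply j).comp ((measurable_pi_apply i).comp hJ)
  have hv' : ∀ i, Measurable fun a => v a i := fun i => (measurable_pi_apply i).comp hv
  refine measurable_pi_lambda _ fun i => ?_
  simp only [app_eq]
  exact ((((hJ' i 0).mul (hv' 0)).add ((hJ' i 1).mul (hv' 1))).add
    ((hJ' i 2).mul (hv' 2))).add ((hJ' i 3).mul (hv' 3))

theorem measurable_ev {v w : α → V4} (hF : Measurable F)
    (hv : Measurable v) (hw : Measurable w) : Measurable fun a => ev (F a) (v a) (w a) := by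
  have hF' : ∀ i, Measurable fun a => F a i := fun i => (measurable_pi_apply i).comp hF
  have hv' : ∀ i, Measurable fun a => v a i := fun i => (measurable_pi_apply i).comp hv
  have hw' : ∀ i, Measurable fun a => w a i := fun i => (measurable_pi_apply i).comp hw
  simp only [ev_eq]
  fun_prop

theorem measurable_gg {v w : α → V4} (hJ : Measurable J) (hF : Measurable F)
    (hv : Measurable v) (hw : Measurable w) : Measurable fun a => gg (J a) (F a) (v a) (w a) :=
  measurable_ev hF hv (measurable_app hJ hw)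

theorem measurable_f0 (hJ : Measurable J) (hF : Measurable F) :
    Measurable fun a => f0 (J a) (F a) :=
  (((measurable_gg hJ hF measurable_const measurable_const).sqrt).inv).smul_const _

theorem measurable_pj (hJ : Measurable J) (hF : Measurable F) (k : Fin 4) :
    Measurable fun a => pj (J a) (F a) k := by
  have h0 := measurable_f0 hJ hF
  have h1 := measurable_app hJ h0
  exact (measurable_const.sub ((measurable_gg hJ hF measurable_const h0).smul h0)).sub
    ((measurable_gg hJ hF measurable_const h1).smul h1)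

theorem measurable_sel (hJ : Measurable J) (hF : Measurable F) :
    Measurable fun a => sel (J a) (F a) :=
  Measurable.ite ((measurable_pj hJ hF 2) (measurableSet_singleton 0))
    (measurable_pj hJ hF 3) (measurable_pj hJ hF 2)

theorem measurable_f2 (hJ : Measurable J) (hF : Measurable F) :
    Measurable fun a => f2 (J a) (F a) :=
  (((measurable_gg hJ hF (measurable_sel hJ hF) (measurable_sel hJ hF)).sqrt).inv).smul
    (measurable_sel hJ hF)

theorem measurable_cols {a b c d : α → V4} (ha : Measurable a) (hb : Measurable b)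
    (hc : Measurable c) (hd : Measurable d) :
    Measurable fun x => cols (a x) (b x) (c x) (d x) := by
  refine measurable_pi_lambda _ fun i => measurable_pi_lambda _ fun j => ?_
  fin_cases j
  · exact (measurable_pi_apply i).comp ha
  · exact (measurable_pi_apply i).comp hb
  · exact (measurable_pi_apply i).comp hc
  · exact (measurable_pi_apply i).comp hd

theorem measurable_gsP (hJ : Measurable J) (hF : Measurable F) :
    Measurable fun a => gsP (J a) (F a) :=
  measurable_cols (measurable_f0 hJ hF) (measurable_app hJ (measurable_f0 hJ hF))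
    (measurable_f2 hJ hF) (measurable_app hJ (measurable_f2 hJ hF))

theorem measurable_gsM (hJ : Measurable J) (hF : Measurable F) :
    Measurable fun a => gsM (J a) (F a) := by
  refine measurable_pi_lambda _ fun i => measurable_pi_lambda _ fun j => ?_
  fin_cases i
  · exact measurable_gg hJ hF (measurable_f0 hJ hF) measurable_const
  · exact measurable_gg hJ hF (measurable_app hJ (measurable_f0 hJ hF)) measurable_const
  · exact measurable_gg hJ hF (measurable_f2 hJ hF) measurable_const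
  · exact measurable_gg hJ hF (measurable_app hJ (measurable_f2 hJ hF)) measurable_const

end meas

end Vale.Agent.P204K.Mfd
end

section

/-!
# P204: the unitary frames of a tamed almost complex structure
-/

open scoped Manifold ContDiff Topology
open Set MeasureTheory

namespace Vale.Agent.P204K.Mfd

open Vale.Agent.P204K.T4

set_option linter.unusedSectionVars false

/-- linear map of a matrix -/
noncomputable def clm (M : M4) : V4 →L[ℝ] V4 := LinearMap.toContinuousLinearMap (appL M)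

theorem mat_ext {P R : M4} (h : ∀ v, app P v = app R v) : P = R := by
  funext i j
  have := congrFun (h (eb j)) i
  rw [app_eq, app_eq] at this
  fin_cases j <;> simpa only [Fin.zero_eta, Fin.isValue, eb, Pi.single_eq_same, mul_one, ne_eq, one_ne_zero, not_false_eq_true, Pi.single_eq_of_ne, mul_zero, add_zero, Fin.reduceEq, Fin.mk_one, zero_ne_one, zero_add, Fin.reduceFinMk] using this

theorem app_mm (P R : M4) (v : V4) : app (GX.mm P R) v = app P (app R v) := by
  funext i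
  simp only [app_eq, GX.mm, Fin.sum_univ_four]
  ring

theorem Dm_eq {f : V4 → V4} {y : V4} (hf : DifferentiableAt ℝ f y) :
    GX.Dm f y = matL (fderiv ℝ f y) := by
  funext i j
  unfold GX.Dm pd
  rw [matL_apply]
  have h := (hasFDerivAt_pi'.1 hf.hasFDerivAt i).fderiv
  rw [h]
  rfl

variable {X : Type*} [TopologicalSpace X] [ChartedSpace E4 X] [IsManifold (𝓡 4) ∞ X]
  {J : EndField X} [CompactSpace X] [T2Space X]

/-- the value of a two-form on two vectors of the model space -/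
noncomputable def omv (om : TwoForm X) (x : X) (u v : E4) : ℝ := om x ![u, v]

/-- the `J`-invariant part of a two-form -/
noncomputable def Fx (J : EndField X) (om : TwoForm X) (x : X) (u v : E4) : ℝ :=
  (omv om x u v + omv om x (Jat J x u) (Jat J x v)) / 2

namespace FinAtlas

variable (A : FinAtlas X J) (om : TwoForm X)

/-- the almost complex structure in coordinates -/
noncomputable def Jm (a : Fin A.n) (y : V4) : M4 := matL ((A.P a).endo J y)

/-- the two-form in coordinates -/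
noncomputable def omc (a : Fin A.n) (y : V4) : L2 := compL ((A.P a).form om y)

/-- its invariant part in coordinates -/
noncomputable def Fc (a : Fin A.n) (y : V4) : L2 := pP (A.Jm a y) (A.omc om a y)

theorem ev_omc (a : Fin A.n) (y v w : V4) :
    ev (A.omc om a y) v w = omv om ((A.P a).psi y) ((A.P a).dpsi y v) ((A.P a).dpsi y w) := by
  unfold omc omv
  rw [ev_compL, Par.form_apply]

theorem dpsi_Jm (a : Fin A.n) (y v : V4) :
    (A.P a).dpsi y (app (A.Jm a y) v) = Jat J ((A.P a).psi y) ((A.P a).dpsi y v) := by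
  unfold Jm
  rw [app_matL, Par.endo_apply, Par.dpsi_dinv]

theorem dinv_Jat (a : Fin A.n) (y : V4) (u : E4) :
    (A.P a).dinv ((A.P a).psi y) (Jat J ((A.P a).psi y) u) =
      app (A.Jm a y) ((A.P a).dinv ((A.P a).psi y) u) := by
  unfold Jm
  rw [app_matL, Par.endo_apply, Par.dpsi_dinv]

theorem ev_Fc (a : Fin A.n) (y v w : V4) :
    ev (A.Fc om a y) v w = Fx J om ((A.P a).psi y) ((A.P a).dpsi y v) ((A.P a).dpsi y w) := by
  unfold Fc pP Fx
  rw [ev_smul, ev_add, ev_pull, ev_omc, ev_omc, dpsi_Jm, dpsi_Jm]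
  ring

/-- membership in the unit ball of a chart -/
def U (a : Fin A.n) : Set X := (A.P a).psi '' Metric.ball 0 1

theorem isOpen_U (a : Fin A.n) : IsOpen (A.U a) :=
  (A.P a).isOpenEmbedding.isOpenMap _ Metric.isOpen_ball

open Classical in
/-- the charts whose unit ball contains a point -/
noncomputable def good (x : X) : Finset (Fin A.n) := Finset.univ.filter fun a => x ∈ A.U a

theorem mem_good {x : X} {a : Fin A.n} : a ∈ A.good x ↔ x ∈ A.U a := by
  classical
  simp only [good, Finset.mem_filter, Finset.mem_univ, true_and]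

theorem good_nonempty (x : X) : (A.good x).Nonempty := by
  obtain ⟨a, y, hy, hx⟩ := A.cov x
  exact ⟨a, A.mem_good.2 ⟨y, by simpa only [Metric.mem_ball, dist_zero_right] using hy, hx⟩⟩

/-- the selected chart at a point -/
noncomputable def ci (x : X) : Fin A.n := (A.good x).min' (A.good_nonempty x)

theorem mem_U_ci (x : X) : x ∈ A.U (A.ci x) := A.mem_good.1 (Finset.min'_mem _ _)

theorem ci_eq_iff (x : X) (c : Fin A.n) : A.ci x = c ↔ x ∈ A.U c ∧ ∀ c' < c, x ∉ A.U c' := by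
  constructor
  · rintro rfl
    refine ⟨A.mem_U_ci x, fun c' hc' hx => ?_⟩
    exact absurd (Finset.min'_le _ _ (A.mem_good.2 hx)) (not_le.2 hc')
  · rintro ⟨h1, h2⟩
    apply le_antisymm
    · exact Finset.min'_le _ _ (A.mem_good.2 h1)
    · by_contra h
      exact h2 _ (not_le.1 h) (A.mem_U_ci x)

theorem mem_range_ci (x : X) : x ∈ range (A.P (A.ci x)).psi := by
  obtain ⟨y, _, hy⟩ := A.mem_U_ci x
  exact ⟨y, hy⟩

/-- selected coordinates of a point -/
noncomputable def zz (x : X) : V4 := (A.P (A.ci x)).inv x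

theorem psi_zz (x : X) : (A.P (A.ci x)).psi (A.zz x) = x := (A.P _).psi_inv (A.mem_range_ci x)

/-- the unitary coframe at a point -/
noncomputable def Fr (x : X) : E4 →L[ℝ] V4 :=
  (clm (gsM (A.Jm (A.ci x) (A.zz x)) (A.Fc om (A.ci x) (A.zz x)))).comp ((A.P (A.ci x)).dinv x)

/-- the unitary frame at a point -/
noncomputable def FrI (x : X) : V4 →L[ℝ] E4 :=
  ((A.P (A.ci x)).dpsi (A.zz x)).comp
    (clm (gsP (A.Jm (A.ci x) (A.zz x)) (A.Fc om (A.ci x) (A.zz x))))

theorem Fr_apply (x : X) (u : E4) : A.Fr om x u =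
    app (gsM (A.Jm (A.ci x) (A.zz x)) (A.Fc om (A.ci x) (A.zz x)))
      ((A.P (A.ci x)).dinv x u) := rfl

theorem FrI_apply (x : X) (v : V4) : A.FrI om x v =
    (A.P (A.ci x)).dpsi (A.zz x)
      (app (gsP (A.Jm (A.ci x) (A.zz x)) (A.Fc om (A.ci x) (A.zz x))) v) := rfl

variable (hJ : AlmostComplex J) (hT : Tames om J)

include hJ in
theorem isCx_Jm (a : Fin A.n) (y : V4) : IsCx (A.Jm a y) := (A.P a).isCx_endo hJ.sq y

include hJ in
theorem Jat_Jat (x : X) (u : E4) : Jat J x (Jat J x u) = -u := hJ.sq x u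

include hJ hT in
theorem posDef_Fc (a : Fin A.n) (y : V4) : PosDef (A.Jm a y) (A.Fc om a y) := by
  refine ⟨pull_pP (A.isCx_Jm hJ a y) _, fun v hv => ?_⟩
  rw [ev_Fc, dpsi_Jm]
  unfold Fx
  rw [Jat_Jat hJ]
  have hne : (A.P a).dpsi y v ≠ 0 := by
    intro h
    apply hv
    rw [← (A.P a).dinv_dpsi y v, h, map_zero]
  have h1 : 0 < omv om ((A.P a).psi y) ((A.P a).dpsi y v)
      (Jat J ((A.P a).psi y) ((A.P a).dpsi y v)) := hT _ _ hne
  have h2 : omv om ((A.P a).psi y) (Jat J ((A.P a).psi y) ((A.P a).dpsi y v))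
      (-(A.P a).dpsi y v) = omv om ((A.P a).psi y) ((A.P a).dpsi y v)
      (Jat J ((A.P a).psi y) ((A.P a).dpsi y v)) := by
    have h3 : -(A.P a).dpsi y v = (-1 : ℝ) • (A.P a).dpsi y v := by simp
    rw [h3]
    have e1 := alt_smul_right (E := E4) (om ((A.P a).psi y)) (-1)
      (Jat J ((A.P a).psi y) ((A.P a).dpsi y v)) ((A.P a).dpsi y v)
    have e2 := alt_swap (E := E4) (om ((A.P a).psi y))
      (Jat J ((A.P a).psi y) ((A.P a).dpsi y v)) ((A.P a).dpsi y v)
    unfold omv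
    refine e1.trans ?_
    rw [e2, neg_mul, one_mul, neg_neg]
    rfl
  rw [h2]
  linarith

include hJ hT

theorem Fr_FrI (x : X) (v : V4) : A.Fr om x (A.FrI om x v) = v := by
  rw [Fr_apply, FrI_apply]
  have h := (A.P (A.ci x)).dinv_dpsi (A.zz x)
    (app (gsP (A.Jm (A.ci x) (A.zz x)) (A.Fc om (A.ci x) (A.zz x))) v)
  rw [psi_zz] at h
  rw [h]
  exact gsM_gsP (A.isCx_Jm hJ _ _) (A.posDef_Fc om hJ hT _ _) v

theorem FrI_Fr (x : X) (u : E4) : A.FrI om x (A.Fr om x u) = u := by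
  rw [Fr_apply, FrI_apply, gsP_gsM (A.isCx_Jm hJ _ _) (A.posDef_Fc om hJ hT _ _)]
  have h := (A.P (A.ci x)).dpsi_dinv (A.zz x) u
  rw [psi_zz] at h
  exact h

theorem Fr_J (x : X) (u : E4) : A.Fr om x (Jat J x u) = app J0 (A.Fr om x u) := by
  rw [Fr_apply, Fr_apply]
  have h := A.dinv_Jat (A.ci x) (A.zz x) u
  rw [psi_zz] at h
  rw [h]
  exact gsM_J (A.isCx_Jm hJ _ _) (A.posDef_Fc om hJ hT _ _) _

theorem FrI_J (x : X) (v : V4) : A.FrI om x (app J0 v) = Jat J x (A.FrI om x v) := by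
  have h := A.Fr_J om hJ hT x (A.FrI om x v)
  rw [Fr_FrI A om hJ hT] at h
  rw [← h, FrI_Fr A om hJ hT]

theorem Fx_FrI (x : X) (v w : V4) :
    Fx J om x (A.FrI om x v) (A.FrI om x w) = ev GX.F0 v w := by
  have h := A.ev_Fc om (A.ci x) (A.zz x)
    (app (gsP (A.Jm (A.ci x) (A.zz x)) (A.Fc om (A.ci x) (A.zz x))) v)
    (app (gsP (A.Jm (A.ci x) (A.zz x)) (A.Fc om (A.ci x) (A.zz x))) w)
  rw [← ev_pull, pull_gsP (A.isCx_Jm hJ _ _) (A.posDef_Fc om hJ hT _ _), psi_zz] at h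
  exact h.symm

theorem ev_F0_Fr (x : X) (u u' : E4) :
    ev GX.F0 (A.Fr om x u) (A.Fr om x u') = Fx J om x u u' := by
  rw [← Fx_FrI A om hJ hT x, FrI_Fr A om hJ hT, FrI_Fr A om hJ hT]

end FinAtlas

end Vale.Agent.P204K.Mfd
end

section

/-!
# P204: the coframe matrices in coordinates, and their measurability
-/

open scoped Manifold ContDiff Topology
open Set MeasureTheory

namespace Vale.Agent.P204K.Mfd

open Vale.Agent.P204K.T4

set_option linter.unusedSectionVars false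

variable {X : Type*} [TopologicalSpace X] [ChartedSpace E4 X] [IsManifold (𝓡 4) ∞ X]
  {J : EndField X} [CompactSpace X] [T2Space X]

theorem continuous_matL : Continuous (matL : (V4 →L[ℝ] V4) → M4) := matL.continuous

theorem measurable_mm {α : Type*} [MeasurableSpace α] {P R : α → M4} (hP : Measurable P)
    (hR : Measurable R) : Measurable fun a => GX.mm (P a) (R a) := by
  have hP' : ∀ i j, Measurable fun a => P a i j := fun i j =>
    (measurable_pi_apply j).comp ((measurable_pi_apply i).comp hP)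
  have hR' : ∀ i j, Measurable fun a => R a i j := fun i j =>
    (measurable_pi_apply j).comp ((measurable_pi_apply i).comp hR)
  refine measurable_pi_lambda _ fun i => measurable_pi_lambda _ fun j => ?_
  unfold GX.mm
  exact Finset.measurable_sum _ fun k _ => (hP' i k).mul (hR' k j)

theorem measurable_cover {α β : Type*} [MeasurableSpace α] [MeasurableSpace β] {n : ℕ}
    {f : α → β} (S : Fin n → Set α) (hS : ∀ c, MeasurableSet (S c)) (hcov : ∀ x, ∃ c, x ∈ S c)
    (g : Fin n → α → β) (hg : ∀ c, Measurable (g c)) (hfg : ∀ c, ∀ x ∈ S c, f x = g c x) :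
    Measurable f := by
  intro t ht
  have : f ⁻¹' t = ⋃ c, (S c ∩ (g c) ⁻¹' t) := by
    ext x
    simp only [mem_preimage, mem_iUnion, mem_inter_iff]
    constructor
    · intro hx
      obtain ⟨c, hc⟩ := hcov x
      exact ⟨c, hc, by rw [← hfg c x hc]; exact hx⟩
    · rintro ⟨c, hc, hx⟩
      rw [hfg c x hc]; exact hx
  rw [this]
  exact MeasurableSet.iUnion fun c => (hS c).inter (hg c ht)

theorem measurable_piece {β : Type*} [TopologicalSpace β] [MeasurableSpace β] [BorelSpace β]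
    [Zero β] {s : Set V4} (hs : IsOpen s) {f : V4 → β} (hf : ContinuousOn f s) :
    ∃ g : V4 → β, Measurable g ∧ ∀ y ∈ s, g y = f y := by
  classical
  refine ⟨s.piecewise f (fun _ => 0), ?_, fun y hy => by simp [hy]⟩
  exact ContinuousOn.measurable_piecewise hf continuousOn_const hs.measurableSet

namespace FinAtlas

variable (A : FinAtlas X J) (om : TwoForm X)

/-- transition maps -/
noncomputable def ta (a b : Fin A.n) : V4 → V4 := Par.tau (A.P a) (A.P b)

theorem ta_smoothAt (a b : Fin A.n) {y : V4} (hy : (A.P a).psi y ∈ range (A.P b).psi) :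
    ContDiffAt ℝ ∞ (A.ta a b) y :=
  (Par.tau_smooth (A.P a) (A.P b) y hy).contDiffAt ((Par.isOpen_dom _ _).mem_nhds hy)

theorem ta_diff (a b : Fin A.n) {y : V4} (hy : (A.P a).psi y ∈ range (A.P b).psi) :
    DifferentiableAt ℝ (A.ta a b) y := (A.ta_smoothAt a b hy).differentiableAt (by simp)

theorem psi_ta {a b : Fin A.n} {y : V4} (hy : (A.P a).psi y ∈ range (A.P b).psi) :
    (A.P b).psi (A.ta a b y) = (A.P a).psi y := Par.psi_tau hy

theorem ta_ta {a b : Fin A.n} {y : V4} (hy : (A.P a).psi y ∈ range (A.P b).psi) :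
    A.ta b a (A.ta a b y) = y := by
  have := A.psi_ta hy
  show (A.P a).inv ((A.P b).psi (A.ta a b y)) = y
  rw [this, Par.inv_psi]

/-- the coframe in coordinates -/
noncomputable def mc (a : Fin A.n) (y : V4) : M4 :=
  matL ((A.Fr om ((A.P a).psi y)).comp ((A.P a).dpsi y))

/-- the frame in coordinates -/
noncomputable def mci (a : Fin A.n) (y : V4) : M4 :=
  matL (((A.P a).dinv ((A.P a).psi y)).comp (A.FrI om ((A.P a).psi y)))

theorem app_mc (a : Fin A.n) (y v : V4) :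
    app (A.mc om a y) v = A.Fr om ((A.P a).psi y) ((A.P a).dpsi y v) := by
  unfold mc; rw [app_matL]; rfl

theorem app_mci (a : Fin A.n) (y v : V4) :
    app (A.mci om a y) v = (A.P a).dinv ((A.P a).psi y) (A.FrI om ((A.P a).psi y) v) := by
  unfold mci; rw [app_matL]; rfl

theorem mc_cocycle (a b : Fin A.n) (y : V4) (hy : (A.P a).psi y ∈ range (A.P b).psi) :
    A.mc om a y = GX.mm (A.mc om b (A.ta a b y)) (GX.Dm (A.ta a b) y) := by
  apply mat_ext
  intro v
  rw [app_mm, Dm_eq (A.ta_diff a b hy), app_matL, app_mc, app_mc]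
  have h1 : (A.P a).dpsi y v = (A.P b).dpsi (A.ta a b y) (fderiv ℝ (A.ta a b) y v) := by
    have : (A.P a).dpsi y = ((A.P b).dpsi (A.ta a b y)).comp (fderiv ℝ (A.ta a b) y) :=
      Par.dpsi_tau hy
    rw [this]; rfl
  rw [h1, A.psi_ta hy]

/-- the sets where a given chart is selected -/
def Sset (a c : Fin A.n) : Set V4 := {y | A.ci ((A.P a).psi y) = c}

theorem Sset_meas (a c : Fin A.n) : MeasurableSet (A.Sset a c) := by
  have hU : ∀ c, MeasurableSet ((A.P a).psi ⁻¹' A.U c) := fun c =>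
    ((A.isOpen_U c).preimage (A.P a).isOpenEmbedding.continuous).measurableSet
  have : A.Sset a c = ((A.P a).psi ⁻¹' A.U c) ∩
      ⋂ c' : Fin A.n, ⋂ (_ : c' < c), ((A.P a).psi ⁻¹' A.U c')ᶜ := by
    ext y
    simp only [Sset, Set.mem_ofPred_eq, ci_eq_iff, mem_inter_iff, mem_preimage, mem_iInter,
      mem_compl_iff]
  rw [this]
  exact (hU c).inter (MeasurableSet.iInter fun c' => MeasurableSet.iInter fun _ => (hU c').compl)

theorem Sset_dom {a c : Fin A.n} {y : V4} (hy : y ∈ A.Sset a c) :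
    (A.P a).psi y ∈ range (A.P c).psi := by
  have h := A.mem_range_ci ((A.P a).psi y)
  rw [show A.ci ((A.P a).psi y) = c from hy] at h
  exact h

variable (hJ : AlmostComplex J) (hS : SmoothForm om)

include hJ in
theorem Jm_smooth (a : Fin A.n) : ContDiff ℝ ∞ (A.Jm a) :=
  matL.contDiff.comp ((A.P a).endo_smooth hJ.smooth)

include hS in
theorem omc_smooth (a : Fin A.n) : ContDiff ℝ ∞ (A.omc om a) :=
  compL.contDiff.comp ((A.P a).form_smooth hS)

include hJ hS in
theorem Fc_smooth (a : Fin A.n) : ContDiff ℝ ∞ (A.Fc om a) := by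
  unfold Fc pP
  rw [contDiff_iff_contDiffAt]
  intro y
  exact ((A.omc_smooth om hS a).contDiffAt.add
    (contDiffAt_pull (A.Jm_smooth hJ a).contDiffAt
      (A.omc_smooth om hS a).contDiffAt)).const_smul (1 / 2 : ℝ)

theorem mc_eq {a c : Fin A.n} {y : V4} (hy : y ∈ A.Sset a c) :
    A.mc om a y = GX.mm (gsM (A.Jm c (A.ta a c y)) (A.Fc om c (A.ta a c y)))
      (matL (fderiv ℝ (A.ta a c) y)) := by
  have hdom := A.Sset_dom hy
  subst hy
  apply mat_ext
  intro v
  rw [app_mm, app_matL, app_mc, Fr_apply]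
  have h1 : A.zz ((A.P a).psi y) = A.ta a (A.ci ((A.P a).psi y)) y := rfl
  rw [h1]
  set c := A.ci ((A.P a).psi y) with hc
  have h2 : (A.P a).dpsi y v = (A.P c).dpsi (A.ta a c y) (fderiv ℝ (A.ta a c) y v) := by
    have : (A.P a).dpsi y = ((A.P c).dpsi (A.ta a c y)).comp (fderiv ℝ (A.ta a c) y) :=
      Par.dpsi_tau hdom
    rw [this]; rfl
  rw [h2]
  have h3 := (A.P c).dinv_dpsi (A.ta a c y) (fderiv ℝ (A.ta a c) y v)
  rw [A.psi_ta hdom] at h3
  rw [h3]

theorem mci_eq {a c : Fin A.n} {y : V4} (hy : y ∈ A.Sset a c) :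
    A.mci om a y = GX.mm (matL (fderiv ℝ (A.ta c a) (A.ta a c y)))
      (gsP (A.Jm c (A.ta a c y)) (A.Fc om c (A.ta a c y))) := by
  have hdom := A.Sset_dom hy
  subst hy
  apply mat_ext
  intro v
  rw [app_mm, app_matL, app_mci, FrI_apply]
  have h1 : A.zz ((A.P a).psi y) = A.ta a (A.ci ((A.P a).psi y)) y := rfl
  rw [h1]
  set c := A.ci ((A.P a).psi y) with hc
  set w := app (gsP (A.Jm c (A.ta a c y)) (A.Fc om c (A.ta a c y))) v
  have hdom' : (A.P c).psi (A.ta a c y) ∈ range (A.P a).psi := by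
    rw [A.psi_ta hdom]; exact mem_range_self y
  have h2 : (A.P c).dpsi (A.ta a c y) w =
      (A.P a).dpsi (A.ta c a (A.ta a c y)) (fderiv ℝ (A.ta c a) (A.ta a c y) w) := by
    have : (A.P c).dpsi (A.ta a c y) = ((A.P a).dpsi
      (A.ta c a (A.ta a c y))).comp (fderiv ℝ (A.ta c a) (A.ta a c y)) := Par.dpsi_tau hdom'
    rw [this]; rfl
  rw [h2, A.ta_ta hdom]
  exact (A.P a).dinv_dpsi y _

theorem ta_contOn (a c : Fin A.n) : ContinuousOn (A.ta a c) (Par.dom (A.P a) (A.P c)) :=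
  (Par.tau_smooth (A.P a) (A.P c)).continuousOn

theorem dta_contOn (a c : Fin A.n) :
    ContinuousOn (fun y => matL (fderiv ℝ (A.ta a c) y)) (Par.dom (A.P a) (A.P c)) :=
  continuous_matL.comp_continuousOn
    ((Par.tau_smooth (A.P a) (A.P c)).continuousOn_fderiv_of_isOpen (Par.isOpen_dom _ _)
      (by simp only [WithTop.one_le_coe, le_top]))

theorem dta_contOn' (a c : Fin A.n) :
    ContinuousOn (fun y => matL (fderiv ℝ (A.ta c a) (A.ta a c y)))
      (Par.dom (A.P a) (A.P c)) := by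
  refine (A.dta_contOn c a).comp (A.ta_contOn a c) ?_
  intro y hy
  show (A.P c).psi (A.ta a c y) ∈ range (A.P a).psi
  rw [A.psi_ta hy]
  exact mem_range_self y

include hJ hS in
theorem mc_meas (a : Fin A.n) : Measurable (A.mc om a) := by
  choose T hT1 hT2 using fun c => measurable_piece (Par.isOpen_dom (A.P a) (A.P c))
    (A.ta_contOn a c)
  choose D hD1 hD2 using fun c => measurable_piece (Par.isOpen_dom (A.P a) (A.P c))
    (A.dta_contOn a c)
  refine measurable_cover (A.Sset a) (A.Sset_meas a) (fun y => ⟨_, rfl⟩)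
    (fun c y => GX.mm (gsM (A.Jm c (T c y)) (A.Fc om c (T c y))) (D c y)) ?_ ?_
  · intro c
    exact measurable_mm (measurable_gsM ((A.Jm_smooth hJ c).continuous.measurable.comp (hT1 c))
      ((A.Fc_smooth om hJ hS c).continuous.measurable.comp (hT1 c))) (hD1 c)
  · intro c y hy
    rw [A.mc_eq om hy, hT2 c y (A.Sset_dom hy), hD2 c y (A.Sset_dom hy)]

include hJ hS in
theorem mci_meas (a : Fin A.n) : Measurable (A.mci om a) := by
  choose T hT1 hT2 using fun c => measurable_piece (Par.isOpen_dom (A.P a) (A.P c))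
    (A.ta_contOn a c)
  choose D hD1 hD2 using fun c => measurable_piece (Par.isOpen_dom (A.P a) (A.P c))
    (A.dta_contOn' a c)
  refine measurable_cover (A.Sset a) (A.Sset_meas a) (fun y => ⟨_, rfl⟩)
    (fun c y => GX.mm (D c y) (gsP (A.Jm c (T c y)) (A.Fc om c (T c y)))) ?_ ?_
  · intro c
    exact measurable_mm (hD1 c)
      (measurable_gsP ((A.Jm_smooth hJ c).continuous.measurable.comp (hT1 c))
      ((A.Fc_smooth om hJ hS c).continuous.measurable.comp (hT1 c)))
  · intro c y hy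
    rw [A.mci_eq om hy, hT2 c y (A.Sset_dom hy), hD2 c y (A.Sset_dom hy)]

end FinAtlas

end Vale.Agent.P204K.Mfd
end

section

/-!
# P204: from a closed Mathlib four-manifold with a tamed almost complex structure to the concrete
structure `CM`, and back from closed positive forms to compatible symplectic forms
-/

open scoped Manifold ContDiff Topology
open Set MeasureTheory

namespace Vale.Agent.P204K.Mfd

open Vale.Agent.P204K.T4

set_option linter.unusedSectionVars false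

variable {X : Type} [TopologicalSpace X] [ChartedSpace E4 X] [IsManifold (𝓡 4) ∞ X]
  {J : EndField X} [CompactSpace X] [T2Space X]

namespace FinAtlas

variable (A : FinAtlas X J) (om : TwoForm X)

/-- the two-form in the unitary frame -/
noncomputable def omX (x : X) : L2 :=
  compL ((om x).compContinuousLinearMap (A.FrI om x))

theorem ev_omX (x : X) (v w : V4) :
    ev (A.omX om x) v w = omv om x (A.FrI om x v) (A.FrI om x w) := by
  unfold omX omv
  rw [ev_compL]
  exact comp_apply2 (E := V4) (F := E4) (om x) (A.FrI om x) v w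

variable (hJ : AlmostComplex J) (hS : SmoothForm om) (hT : Tames om J)

include hJ hT

theorem pull_mc_omX (a : Fin A.n) (y : V4) :
    pull (A.mc om a y) (A.omX om ((A.P a).psi y)) = A.omc om a y := by
  apply ext_ev
  intro v w
  rw [ev_pull, app_mc, app_mc, ev_omX, FrI_Fr A om hJ hT, FrI_Fr A om hJ hT, ev_omc]

theorem pull_mc_F0 (a : Fin A.n) (y : V4) : pull (A.mc om a y) GX.F0 = A.Fc om a y := by
  apply ext_ev
  intro v w
  rw [ev_pull, app_mc, app_mc, ev_F0_Fr A om hJ hT, ev_Fc]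

theorem pP_omX (x : X) : pP J0 (A.omX om x) = GX.F0 := by
  apply ext_ev
  intro v w
  unfold pP
  rw [ev_smul, ev_add, ev_pull, ev_omX, ev_omX, FrI_J A om hJ hT, FrI_J A om hJ hT,
    ← Fx_FrI A om hJ hT x v w]
  unfold Fx
  ring

theorem mc_mci (a : Fin A.n) (y v : V4) : app (A.mc om a y) (app (A.mci om a y) v) = v := by
  rw [app_mc, app_mci, Par.dpsi_dinv, Fr_FrI A om hJ hT]

theorem mci_mc (a : Fin A.n) (y v : V4) : app (A.mci om a y) (app (A.mc om a y) v) = v := by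
  rw [app_mc, app_mci, FrI_Fr A om hJ hT, Par.dinv_dpsi]

theorem mc_det (a : Fin A.n) (y : V4) : 0 < det4 (A.mc om a y) := by
  have hF := A.posDef_Fc om hJ hT a y
  have h1 : Q (A.Fc om a y) (A.Fc om a y) = det4 (A.mc om a y) * Q GX.F0 GX.F0 := by
    rw [← Q_pull, A.pull_mc_F0 om hJ hT]
  have h2 : Q GX.F0 GX.F0 = 2 := by simp only [Q, GX.F0, Fin.isValue, Matrix.cons_val_zero, Matrix.cons_val, mul_one, Matrix.cons_val_one, mul_zero, sub_zero, add_zero]; norm_num
  have h3 : 0 < Q (A.Fc om a y) (A.Fc om a y) := by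
    have hne : A.Fc om a y ≠ 0 := by
      intro h
      have := hF.2 (eb 0) (by intro h; have := congrFun h 0; simp [eb] at this)
      rw [h, ev_eq] at this
      simp only [Pi.zero_apply, Fin.isValue, zero_mul, add_zero, lt_self_iff_false] at this
    exact Q_posDef_pos (A.isCx_Jm hJ a y) (A.pos a y) hF.cone hne hF
  rw [h1, h2] at h3
  linarith

theorem mc_J (a : Fin A.n) (y v : V4) :
    app (A.mc om a y) (app (A.Jm a y) v) = app J0 (app (A.mc om a y) v) := by
  rw [app_mc, app_mc, dpsi_Jm, Fr_J A om hJ hT]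

include hS

/-- The concrete structure of a closed four-manifold with an almost complex structure and a
smooth (not necessarily closed) two-form which tames it. -/
noncomputable def toCM : @GX.CM X A.metric :=
  letI := A.metric
  { A := Fin A.n
    fA := inferInstance
    dA := inferInstance
    ψ := fun a => (A.P a).psi
    ψo := fun a => (A.P a).isOpenEmbedding
    cov := A.cov
    τ := A.ta
    τ_spec := fun a b y hy => A.psi_ta hy
    τ_smooth := fun a b => Par.tau_smooth (A.P a) (A.P b)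
    lip := A.lip
    m := A.mc om
    m' := A.mci om
    m_meas := A.mc_meas om hJ hS
    m'_meas := A.mci_meas om hJ hS
    m_m' := A.mc_mci om hJ hT
    m'_m := A.mci_mc om hJ hT
    m_det := A.mc_det om hJ hT
    m_cocycle := A.mc_cocycle om
    J := A.Jm
    J_smooth := A.Jm_smooth hJ
    J_cx := A.isCx_Jm hJ
    J_pos := A.pos
    m_J := A.mc_J om hJ hT
    F_smooth := fun a => by
      simp only [A.pull_mc_F0 om hJ hT]
      exact A.Fc_smooth om hJ hS a
  }

end FinAtlas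

end Vale.Agent.P204K.Mfd
end

section

/-!
# P204: from a closed positive form in the unitary frame to a compatible symplectic form on the
manifold, and the reduction of Donaldson's conjecture to the concrete structure `CM`
-/

open scoped Manifold ContDiff Topology
open Set MeasureTheory

namespace Vale.Agent.P204K.Mfd

open Vale.Agent.P204K.T4

set_option linter.unusedSectionVars false

variable {X : Type} [TopologicalSpace X] [ChartedSpace E4 X] [IsManifold (𝓡 4) ∞ X]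
  {J : EndField X} [CompactSpace X] [T2Space X]

namespace FinAtlas

variable (A : FinAtlas X J) (om : TwoForm X)

/-- The two-form on the manifold with given components in the unitary frame. -/
noncomputable def back (w : X → L2) : TwoForm X := fun x =>
  ((toAlt (w x)).compContinuousLinearMap (A.Fr om x) : E4 [⋀^Fin 2]→L[ℝ] ℝ)

theorem omv_back (w : X → L2) (x : X) (u v : E4) :
    omv (A.back om w) x u v = ev (w x) (A.Fr om x u) (A.Fr om x v) := by
  unfold omv
  refine (comp_apply2 (E := E4) (F := V4) (toAlt (w x)) (A.Fr om x) u v).trans ?_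
  rw [toAlt_apply]

theorem compL_back (w : X → L2) (a : Fin A.n) (y : V4) :
    compL ((A.P a).form (A.back om w) y) = pull (A.mc om a y) (w ((A.P a).psi y)) := by
  apply ext_ev
  intro v v'
  rw [ev_compL, Par.form_apply, ev_pull, app_mc, app_mc]
  exact A.omv_back om w _ _ _

theorem symplectic_of_tames {om' : TwoForm X} (h1 : SmoothForm om') (h2 : ClosedForm om')
    (h3 : Tames om' J) : Symplectic om' where
  smooth := h1
  closed := h2
  nondegenerate := by
    intro x v hv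
    by_contra hne
    have := h3 x v hne
    rw [hv] at this
    exact lt_irrefl _ this

theorem back_pos (hJ : AlmostComplex J) (hT : Tames om J) {w : X → L2}
    (hp : ∀ x, PosDef J0 (w x)) (x : X) (v : E4) (hv : v ≠ 0) :
    0 < omv (A.back om w) x v (Jat J x v) := by
  rw [omv_back, Fr_J A om hJ hT]
  apply (hp x).2
  intro h
  apply hv
  have := A.FrI_Fr om hJ hT x v
  rw [h, map_zero] at this
  exact this.symm

theorem back_inv (hJ : AlmostComplex J) (hT : Tames om J) {w : X → L2}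
    (hp : ∀ x, PosDef J0 (w x)) (x : X) (u v : E4) :
    omv (A.back om w) x (Jat J x u) (Jat J x v) = omv (A.back om w) x u v := by
  rw [omv_back, omv_back, Fr_J A om hJ hT, Fr_J A om hJ hT, ← ev_pull, (hp x).1]

theorem back_compatible (hJ : AlmostComplex J) (hT : Tames om J) {w : X → L2}
    (hs : ∀ a, ContDiff ℝ ∞ fun y => pull (A.mc om a y) (w ((A.P a).psi y)))
    (hc : ∀ a, Closed fun y => pull (A.mc om a y) (w ((A.P a).psi y)))
    (hp : ∀ x, PosDef J0 (w x)) :
    Symplectic (A.back om w) ∧ Compatible (A.back om w) J := by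
  have hcov : ∀ x, ∃ i, x ∈ range (A.P i).psi := fun x => by
    obtain ⟨a, y, _, h⟩ := A.cov x
    exact ⟨a, y, h⟩
  have hsm : ∀ a, ContDiff ℝ ∞ ((A.P a).form (A.back om w)) := by
    intro a
    have h1 : ContDiff ℝ ∞ fun y => cV ((A.P a).form (A.back om w) y) := by
      have : (fun y => cV ((A.P a).form (A.back om w) y)) =
          fun y => pull (A.mc om a y) (w ((A.P a).psi y)) := by
        funext y
        rw [cV_apply, A.compL_back]
      rw [this]
      exact hs a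
    exact (cV.comp_contDiff_iff (f := (A.P a).form (A.back om w))).1 h1
  have hcl : ∀ a y, extDeriv ((A.P a).form (A.back om w)) y = 0 := by
    intro a
    rw [← closed_iff ((hsm a).differentiable (by simp))]
    simp only [A.compL_back]
    exact hc a
  have htame : Tames (A.back om w) J := fun x v hv => A.back_pos om hJ hT hp x v hv
  exact ⟨symplectic_of_tames (smoothForm_of_pars A.P hcov hsm)
    (closedForm_of_pars A.P hcov hsm hcl) htame, htame,
    fun x u v => A.back_inv om hJ hT hp x u v⟩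

end FinAtlas

end Vale.Agent.P204K.Mfd
end

section

/-! Pointwise linear algebra for the growth test form. -/

open scoped BigOperators ContDiff
open MeasureTheory

namespace Vale.Agent.P204K.T4

theorem abs_ev_le (B : L2) (v w : V4) : |ev B v w| ≤ 12 * ‖B‖ * ‖v‖ * ‖w‖ := by
  have hB : ∀ i, |B i| ≤ ‖B‖ := fun i => norm_le_pi_norm B i
  have hv : ∀ i, |v i| ≤ ‖v‖ := fun i => norm_le_pi_norm v i
  have hw : ∀ i, |w i| ≤ ‖w‖ := fun i => norm_le_pi_norm w i
  have key : ∀ k i j, |B k * (v i * w j - v j * w i)| ≤ 2 * ‖B‖ * ‖v‖ * ‖w‖ := by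
    intro k i j
    have h1 : |v i * w j - v j * w i| ≤ ‖v‖ * ‖w‖ + ‖v‖ * ‖w‖ := by
      refine (abs_sub _ _).trans ?_
      rw [abs_mul, abs_mul]
      exact add_le_add (mul_le_mul (hv i) (hw j) (abs_nonneg _) (norm_nonneg _))
        (mul_le_mul (hv j) (hw i) (abs_nonneg _) (norm_nonneg _))
    rw [abs_mul]
    calc |B k| * |v i * w j - v j * w i| ≤ ‖B‖ * (‖v‖ * ‖w‖ + ‖v‖ * ‖w‖) :=
          mul_le_mul (hB k) h1 (abs_nonneg _) (norm_nonneg _)
      _ = _ := by ring
  rw [ev_eq]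
  have h0 := key 0 0 1
  have h1 := key 1 0 2
  have h2 := key 2 0 3
  have h3 := key 3 1 2
  have h4 := key 4 1 3
  have h5 := key 5 2 3
  rw [abs_le] at *
  constructor <;> linarith only [h0.1, h1.1, h2.1, h3.1, h4.1, h5.1, h0.2, h1.2, h2.2, h3.2, h4.2, h5.2]

theorem norm_app_le (J : M4) (v : V4) : ‖app J v‖ ≤ 4 * ‖J‖ * ‖v‖ := by
  have hJ : ∀ i j, |J i j| ≤ ‖J‖ := fun i j =>
    (norm_le_pi_norm (J i) j).trans (norm_le_pi_norm J i)
  have hv : ∀ i, |v i| ≤ ‖v‖ := fun i => norm_le_pi_norm v i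
  rw [pi_norm_le_iff_of_nonneg (by positivity)]
  intro i
  have key : ∀ j, |J i j * v j| ≤ ‖J‖ * ‖v‖ := by
    intro j
    rw [abs_mul]
    exact mul_le_mul (hJ i j) (hv j) (abs_nonneg _) (norm_nonneg _)
  rw [app_eq, Real.norm_eq_abs]
  have h0 := key 0
  have h1 := key 1
  have h2 := key 2
  have h3 := key 3
  rw [abs_le] at *
  constructor <;> linarith only [h0.1, h1.1, h2.1, h3.1, h0.2, h1.2, h2.2, h3.2]

theorem norm_Fm_le (J : M4) : ‖Fm J‖ ≤ ‖J‖ := by
  have hJ : ∀ i j, |J i j| ≤ ‖J‖ := fun i j =>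
    (norm_le_pi_norm (J i) j).trans (norm_le_pi_norm J i)
  have key : ∀ i j, |(J j i - J i j) / 2| ≤ ‖J‖ := by
    intro i j
    have h1 := abs_le.1 (hJ i j)
    have h2 := abs_le.1 (hJ j i)
    rw [abs_le]
    constructor <;> linarith only [h1.2, h2.1, h1.1, h2.2]
  rw [pi_norm_le_iff_of_nonneg (norm_nonneg _)]
  intro k
  fin_cases k
  · exact key 0 1
  · exact key 0 2
  · exact key 0 3
  · exact key 1 2
  · exact key 1 3
  · exact key 2 3

theorem norm_wd_le (a b : V4) : ‖wd a b‖ ≤ 2 * ‖a‖ * ‖b‖ := by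
  have ha : ∀ i, |a i| ≤ ‖a‖ := fun i => norm_le_pi_norm a i
  have hb : ∀ i, |b i| ≤ ‖b‖ := fun i => norm_le_pi_norm b i
  have key : ∀ i j, |a i * b j - a j * b i| ≤ 2 * ‖a‖ * ‖b‖ := by
    intro i j
    refine (abs_sub _ _).trans ?_
    rw [abs_mul, abs_mul]
    calc |a i| * |b j| + |a j| * |b i| ≤ ‖a‖ * ‖b‖ + ‖a‖ * ‖b‖ :=
          add_le_add (mul_le_mul (ha i) (hb j) (abs_nonneg _) (norm_nonneg _))
            (mul_le_mul (ha j) (hb i) (abs_nonneg _) (norm_nonneg _))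
      _ = _ := by ring
  rw [pi_norm_le_iff_of_nonneg (by positivity)]
  intro k
  fin_cases k
  · exact key 0 1
  · exact key 0 2
  · exact key 0 3
  · exact key 1 2
  · exact key 1 3
  · exact key 2 3

theorem norm_copp_le (a : V4) (J : M4) : ‖copp a J‖ ≤ 4 * ‖J‖ * ‖a‖ := by
  have hJ : ∀ i j, |J i j| ≤ ‖J‖ := fun i j =>
    (norm_le_pi_norm (J i) j).trans (norm_le_pi_norm J i)
  have ha : ∀ i, |a i| ≤ ‖a‖ := fun i => norm_le_pi_norm a i
  rw [pi_norm_le_iff_of_nonneg (by positivity)]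
  intro i
  have key : ∀ j, |a j * J j i| ≤ ‖J‖ * ‖a‖ := by
    intro j
    rw [abs_mul, mul_comm]
    exact mul_le_mul (hJ j i) (ha j) (abs_nonneg _) (norm_nonneg _)
  rw [copp_eq, Real.norm_eq_abs]
  have h0 := key 0
  have h1 := key 1
  have h2 := key 2
  have h3 := key 3
  rw [abs_le] at *
  constructor <;> linarith only [h0.1, h1.1, h2.1, h3.1, h0.2, h1.2, h2.2, h3.2]

theorem sq_norm_le_dp (v : V4) : ‖v‖ ^ 2 ≤ dp v v := by
  obtain ⟨i, hi⟩ : ∃ i, ‖v‖ ≤ ‖v i‖ := by
    by_contra h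
    push Not at h
    have h0 : 0 < ‖v‖ := (norm_nonneg _).trans_lt (h 0)
    exact lt_irrefl _ ((pi_norm_lt_iff h0).2 h)
  have h1 : ‖v‖ ^ 2 ≤ ‖v i‖ ^ 2 := pow_le_pow_left₀ (norm_nonneg _) hi 2
  refine h1.trans ?_
  rw [Real.norm_eq_abs, sq_abs]
  have : v i ^ 2 = v i * v i := sq (v i)
  rw [this]
  exact Finset.single_le_sum (f := fun i => v i * v i) (fun j _ => mul_self_nonneg (v j))
    (Finset.mem_univ i)

/-- the metric of a complex structure -/
noncomputable def gm (J : M4) (v w : V4) : ℝ := ev (Fm J) v (app J w)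

theorem gm_eq {J : M4} (hJ : IsCx J) (v w : V4) :
    gm J v w = (dp (app J v) (app J w) + dp v w) / 2 := by
  unfold gm
  rw [ev_Fm, hJ, dp_neg_right]
  ring

theorem gm_comm {J : M4} (hJ : IsCx J) (v w : V4) : gm J v w = gm J w v := by
  rw [gm_eq hJ, gm_eq hJ, dp_comm (app J v), dp_comm v]

theorem gm_self_ge {J : M4} (hJ : IsCx J) (v : V4) : ‖v‖ ^ 2 / 2 ≤ gm J v v := by
  rw [gm_eq hJ]
  have h1 := sq_norm_le_dp v
  have h2 := dp_self_nonneg (app J v)
  linarith

theorem abs_gm_le (J : M4) (v w : V4) : |gm J v w| ≤ 48 * ‖J‖ ^ 2 * ‖v‖ * ‖w‖ := by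
  unfold gm
  refine (abs_ev_le _ _ _).trans ?_
  have h1 := norm_Fm_le J
  have h2 := norm_app_le J w
  calc 12 * ‖Fm J‖ * ‖v‖ * ‖app J w‖ ≤ 12 * ‖J‖ * ‖v‖ * (4 * ‖J‖ * ‖w‖) := by gcongr
    _ = _ := by ring

/-- positivity is stable: quadratic gain, direct form -/
theorem cone_shift {J : M4} {B : L2} (hJ : IsCx J) (hB : Cone J B) (v x : V4) (c : ℝ) (hc : 0 < c) :
    -(1 / (4 * c)) * ev B x (app J x) ≤ c * ev B v (app J v) + ev B v (app J x) := by
  have h1 := hB.2 ((2 * c) • v + x)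
  have hs : ev B x (app J v) = ev B v (app J x) := by
    have h2 : ev B (app J x) (app J (app J v)) = ev B x (app J v) := by
      rw [← ev_pull, hB.1]
    rw [← h2, hJ, ev_neg_right, ev_antisymm, neg_neg]
  simp only [app_add, app_smul, ev_add_left, ev_add_right, ev_smul_left, ev_smul_right] at h1
  rw [hs] at h1
  have h3 : 0 ≤ (1 / (4 * c)) * (2 * c * (2 * c * ev B v (app J v)) + 2 * c * ev B v (app J x) +
      (2 * c * ev B v (app J x) + ev B x (app J x))) := by
    apply mul_nonneg (by positivity)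
    linarith
  have h4 : (1 / (4 * c)) * (2 * c * (2 * c * ev B v (app J v)) + 2 * c * ev B v (app J x) +
      (2 * c * ev B v (app J x) + ev B x (app J x))) =
      c * ev B v (app J v) + ev B v (app J x) + (1 / (4 * c)) * ev B x (app J x) := by
    field_simp
    ring
  linarith

theorem ev_app_ge {J0 J : M4} {B : L2} (hJ : IsCx J0) (hB : Cone J0 B) (v : V4) (c : ℝ)
    (hc : 0 < c) :
    (1 - c) * ev B v (app J0 v) - (12288 / (4 * c)) * (‖B‖ * ‖J0‖ ^ 3 * ‖J - J0‖ ^ 2 * ‖v‖ ^ 2)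
      ≤ ev B v (app J v) := by
  set e : V4 := app J v - app J0 v with he
  set x : V4 := -(app J0 e) with hx
  have hxe : app J0 x = e := by
    rw [hx, app_neg, hJ, neg_neg]
  have h1 := cone_shift hJ hB v x c hc
  rw [hxe] at h1
  have h2 : ev B v (app J v) = ev B v (app J0 v) + ev B v e := by
    rw [← ev_add_right]
    congr 1
    rw [he]
    abel
  have he2 : e = app (J - J0) v := by
    rw [he]
    funext i
    simp only [Pi.sub_apply, app_eq]
    ring
  have hen : ‖e‖ ≤ 4 * ‖J - J0‖ * ‖v‖ := by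
    rw [he2]
    exact norm_app_le _ _
  have hxn : ‖x‖ ≤ 16 * ‖J0‖ * ‖J - J0‖ * ‖v‖ := by
    rw [hx, norm_neg]
    refine (norm_app_le _ _).trans ?_
    calc 4 * ‖J0‖ * ‖e‖ ≤ 4 * ‖J0‖ * (4 * ‖J - J0‖ * ‖v‖) := by gcongr
      _ = _ := by ring
  have h3 : ev B x e ≤ 12288 * (‖B‖ * ‖J0‖ ^ 3 * ‖J - J0‖ ^ 2 * ‖v‖ ^ 2) := by
    have h4 : ev B x e ≤ 12 * ‖B‖ * ‖x‖ * ‖app J0 x‖ := by
      rw [← hxe]
      exact (le_abs_self _).trans (abs_ev_le _ _ _)
    have h5 := norm_app_le J0 x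
    calc ev B x e ≤ 12 * ‖B‖ * ‖x‖ * ‖app J0 x‖ := h4
      _ ≤ 12 * ‖B‖ * (16 * ‖J0‖ * ‖J - J0‖ * ‖v‖) *
          (4 * ‖J0‖ * (16 * ‖J0‖ * ‖J - J0‖ * ‖v‖)) := by
        have h6 : ‖app J0 x‖ ≤ 4 * ‖J0‖ * (16 * ‖J0‖ * ‖J - J0‖ * ‖v‖) :=
          h5.trans (by gcongr)
        gcongr
      _ = _ := by ring
  rw [h2]
  have h6 : (1 / (4 * c)) * ev B x e ≤
      (12288 / (4 * c)) * (‖B‖ * ‖J0‖ ^ 3 * ‖J - J0‖ ^ 2 * ‖v‖ ^ 2) := by
    have h7 : (0 : ℝ) ≤ 1 / (4 * c) := by positivity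
    calc (1 / (4 * c)) * ev B x e ≤ (1 / (4 * c)) *
          (12288 * (‖B‖ * ‖J0‖ ^ 3 * ‖J - J0‖ ^ 2 * ‖v‖ ^ 2)) := mul_le_mul_of_nonneg_left h3 h7
      _ = _ := by ring
  linarith only [h1, h6]

/-- the covector `g(w, .)` -/
noncomputable def ga (J : M4) (w : V4) : V4 := fun i => gm J w (eb i)

theorem dp_ga (J : M4) (w v : V4) : dp (ga J w) v = gm J w v := by
  simp only [dp_eq, ga, gm, ev_eq, app_eq, eb, Pi.single_apply]
  simp only [Fin.isValue, ↓reduceIte, mul_one, one_ne_zero, mul_zero, add_zero, Fin.reduceEq, zero_ne_one, zero_add]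
  ring

/-- `Ω = g(w,.) ∧ J g(w,.)` -/
noncomputable def Om (J : M4) (w : V4) : L2 := wd (ga J w) (cc J (ga J w))

theorem cone_Om {J : M4} (hJ : IsCx J) (w : V4) : Cone J (Om J w) := cone_wd hJ _

theorem ev_Om {J : M4} (hJ : IsCx J) (w v : V4) :
    ev (Om J w) v (app J v) = gm J w v ^ 2 + gm J w (app J v) ^ 2 := by
  unfold Om
  rw [ev_wd, dp_cc, dp_cc, hJ, dp_neg_right, dp_ga, dp_ga]
  ring

theorem norm_ga_le (J : M4) (w : V4) : ‖ga J w‖ ≤ 48 * ‖J‖ ^ 2 * ‖w‖ := by
  rw [pi_norm_le_iff_of_nonneg (by positivity)]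
  intro i
  rw [Real.norm_eq_abs]
  have h1 := abs_gm_le J w (eb i)
  have h2 : ‖eb i‖ = 1 := by
    unfold eb
    rw [Pi.norm_single]
    simp only [norm_one]
  rw [h2, mul_one] at h1
  exact h1

theorem norm_cc_le (J : M4) (a : V4) : ‖cc J a‖ ≤ 4 * ‖J‖ * ‖a‖ := by
  unfold cc
  rw [norm_neg]
  exact norm_copp_le a J

theorem norm_Om_le (J : M4) (w : V4) : ‖Om J w‖ ≤ 18432 * ‖J‖ ^ 5 * ‖w‖ ^ 2 := by
  unfold Om
  refine (norm_wd_le _ _).trans ?_
  have h1 := norm_ga_le J w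
  have h2 : ‖cc J (ga J w)‖ ≤ 4 * ‖J‖ * (48 * ‖J‖ ^ 2 * ‖w‖) :=
    (norm_cc_le _ _).trans (by gcongr)
  calc 2 * ‖ga J w‖ * ‖cc J (ga J w)‖ ≤ 2 * (48 * ‖J‖ ^ 2 * ‖w‖) *
        (4 * ‖J‖ * (48 * ‖J‖ ^ 2 * ‖w‖)) := by gcongr
    _ = _ := by ring

theorem gm_add_left (J : M4) (a b v : V4) : gm J (a + b) v = gm J a v + gm J b v := by
  unfold gm; rw [ev_add_left]

theorem gm_add_right (J : M4) (a b v : V4) : gm J v (a + b) = gm J v a + gm J v b := by
  unfold gm; rw [app_add, ev_add_right]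

theorem gm_smul_left (J : M4) (c : ℝ) (a v : V4) : gm J (c • a) v = c * gm J a v := by
  unfold gm; rw [ev_smul_left]

theorem gm_smul_right (J : M4) (c : ℝ) (a v : V4) : gm J v (c • a) = c * gm J v a := by
  unfold gm; rw [app_smul, ev_smul_right]

theorem gm_self_nonneg {J : M4} (hJ : IsCx J) (v : V4) : 0 ≤ gm J v v := by
  have := gm_self_ge hJ v
  have h2 : 0 ≤ ‖v‖ ^ 2 / 2 := by positivity
  linarith

theorem gm_app_app {J : M4} (hJ : IsCx J) (v w : V4) : gm J (app J v) (app J w) = gm J v w := by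
  rw [gm_eq hJ, gm_eq hJ, hJ, hJ, dp_neg_left, dp_neg_right]
  ring

theorem gm_self_app {J : M4} (hJ : IsCx J) (v : V4) : gm J v (app J v) = 0 := by
  have h1 := gm_app_app hJ v (app J v)
  rw [hJ] at h1
  have h2 : gm J (app J v) (-v) = - gm J (app J v) v := by
    have := gm_smul_right J (-1) v (app J v)
    rw [neg_one_smul] at this
    linarith
  rw [h2, gm_comm hJ (app J v) v] at h1
  linarith

/-- `q F - Ω` is positive -/
theorem cone_qF_sub_Om {J : M4} (hJ : IsCx J) (w : V4) :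
    Cone J (gm J w w • Fm J - Om J w) := by
  refine ⟨?_, fun v => ?_⟩
  · rw [pull_sub, pull_smul, pull_Fm hJ, (cone_Om hJ w).1]
  · rw [ev_sub, ev_smul, ev_Om hJ]
    change 0 ≤ gm J w w * gm J v v - (gm J w v ^ 2 + gm J w (app J v) ^ 2)
    have hN := gm_self_nonneg hJ v
    rcases hN.eq_or_lt with h0 | h0
    · have hv : v = 0 := by
        have h1 := gm_self_ge hJ v
        rw [← h0] at h1
        have h2 : ‖v‖ ^ 2 ≤ 0 := by linarith only [h1]
        have h3 : ‖v‖ = 0 := by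
          have := sq_nonneg ‖v‖
          exact pow_eq_zero_iff (two_ne_zero) |>.1 (le_antisymm h2 this)
        exact norm_eq_zero.1 h3
      subst hv
      have h4 : ∀ u, gm J u 0 = 0 := by
        intro u
        have := gm_smul_right J 0 0 u
        simpa using this
      rw [app_zero, h4 w, h4 0]
      simp
    · set z : V4 := gm J v v • w + ((-gm J w v) • v + (-gm J w (app J v)) • app J v) with hz
      have h1 := gm_self_nonneg hJ z
      have h2 : gm J z z = gm J v v * (gm J v v * gm J w w - (gm J w v ^ 2 +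
          gm J w (app J v) ^ 2)) := by
        rw [hz]
        simp only [gm_add_left, gm_add_right, gm_smul_left, gm_smul_right]
        rw [gm_comm hJ v w, gm_comm hJ (app J v) w, gm_comm hJ (app J v) v, gm_self_app hJ v,
          gm_app_app hJ]
        ring
      rw [h2] at h1
      have h3 := nonneg_of_mul_nonneg_right h1 h0
      linarith

end Vale.Agent.P204K.T4
end

section

/-!
Symbol calculus for families of smooth functions on `ℝ⁴`: derivative bounds with a weight `ρ`.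
-/

open scoped BigOperators ContDiff
open MeasureTheory

namespace Vale.Agent.P204K.T4

/-- `|∂^α u| ≤ C ρ^(n-|α|)` on `B` for all multi-indices of length at most `m`. -/
def DB (B : Set V4) (ρ : V4 → ℝ) : ℕ → ℤ → ℝ → (V4 → ℝ) → Prop
  | 0, n, C, u => ∀ y ∈ B, |u y| ≤ C * ρ y ^ n
  | m + 1, n, C, u => (∀ y ∈ B, |u y| ≤ C * ρ y ^ n) ∧ ∀ i, DB B ρ m (n - 1) C (pd i u)

section DBlemmas

variable {B : Set V4} {ρ : V4 → ℝ} {m : ℕ} {n n' : ℤ} {C C' : ℝ} {u v : V4 → ℝ}

theorem DB.mono (hρ : ∀ y ∈ B, 0 < ρ y) (hC : C ≤ C') (h : DB B ρ m n C u) :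
    DB B ρ m n C' u := by
  induction m generalizing n u with
  | zero =>
    intro y hy
    exact (h y hy).trans (mul_le_mul_of_nonneg_right hC (zpow_pos (hρ y hy) n).le)
  | succ m ih =>
    refine ⟨fun y hy => ?_, fun i => ih (h.2 i)⟩
    exact (h.1 y hy).trans (mul_le_mul_of_nonneg_right hC (zpow_pos (hρ y hy) n).le)

theorem DB.pred (h : DB B ρ (m + 1) n C u) : DB B ρ m n C u := by
  induction m generalizing n u with
  | zero => exact h.1
  | succ m ih => exact ⟨h.1, fun i => ih (h.2 i)⟩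

theorem pd_add {i : Fin 4} {x : V4} (hu : DifferentiableAt ℝ u x) (hv : DifferentiableAt ℝ v x) :
    pd i (fun y => u y + v y) x = pd i u x + pd i v x := by
  unfold pd
  rw [fderiv_fun_add hu hv]
  rfl

theorem pd_sub {i : Fin 4} {x : V4} (hu : DifferentiableAt ℝ u x) (hv : DifferentiableAt ℝ v x) :
    pd i (fun y => u y - v y) x = pd i u x - pd i v x := by
  unfold pd
  rw [fderiv_fun_sub hu hv]
  rfl

theorem pd_mul {i : Fin 4} {x : V4} (hu : DifferentiableAt ℝ u x) (hv : DifferentiableAt ℝ v x) :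
    pd i (fun y => u y * v y) x = pd i u x * v x + u x * pd i v x := by
  unfold pd
  rw [fderiv_fun_mul hu hv]
  simp only [add_apply, smul_apply, smul_eq_mul]
  ring

theorem pd_const {i : Fin 4} {x : V4} (c : ℝ) : pd i (fun _ => c) x = 0 := by
  unfold pd
  simp only [fderiv_fun_const, Pi.zero_apply, zero_apply]

theorem pd_const_mul {i : Fin 4} {x : V4} (c : ℝ) (hu : DifferentiableAt ℝ u x) :
    pd i (fun y => c * u y) x = c * pd i u x := by
  unfold pd
  rw [fderiv_const_mul hu]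
  rfl

theorem pd_coord (i j : Fin 4) (x : V4) :
    pd i (fun y => y j) x = if i = j then 1 else 0 := by
  unfold pd
  have h : (fun y : V4 => y j) = fun y => (ContinuousLinearMap.proj j : V4 →L[ℝ] ℝ) y := rfl
  rw [h, ContinuousLinearMap.fderiv]
  simp only [ContinuousLinearMap.proj_apply, Pi.single_apply, eq_comm]

theorem pd_comp {i : Fin 4} {x : V4} {φ : ℝ → ℝ} (hφ : DifferentiableAt ℝ φ (u x))
    (hu : DifferentiableAt ℝ u x) : pd i (fun y => φ (u y)) x = deriv φ (u x) * pd i u x := by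
  unfold pd
  have h : (fun y => φ (u y)) = φ ∘ u := rfl
  rw [h, fderiv_comp x hφ hu]
  simp [mul_comm]

theorem contDiff_pd (hu : ContDiff ℝ ∞ u) (i : Fin 4) : ContDiff ℝ ∞ (pd i u) := by
  have h := hu.fderiv_right (m := ∞) (by norm_num)
  exact h.clm_apply contDiff_const

theorem CD.diff {x : V4} (hu : ContDiff ℝ ∞ u) : DifferentiableAt ℝ u x :=
  (hu.differentiable (by norm_num)).differentiableAt

theorem DB.add (hu : ContDiff ℝ ∞ u) (hv : ContDiff ℝ ∞ v) (h : DB B ρ m n C u)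
    (h' : DB B ρ m n C' v) : DB B ρ m n (C + C') (fun y => u y + v y) := by
  induction m generalizing n u v with
  | zero =>
    intro y hy
    refine (abs_add_le _ _).trans ?_
    rw [add_mul]
    exact add_le_add (h y hy) (h' y hy)
  | succ m ih =>
    refine ⟨fun y hy => ?_, fun i => ?_⟩
    · refine (abs_add_le _ _).trans ?_
      rw [add_mul]
      exact add_le_add (h.1 y hy) (h'.1 y hy)
    · have e : pd i (fun y => u y + v y) = fun y => pd i u y + pd i v y := by
        funext y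
        exact pd_add (CD.diff hu) (CD.diff hv)
      rw [e]
      exact ih (contDiff_pd hu i) (contDiff_pd hv i) (h.2 i) (h'.2 i)

theorem DB.const_mul (c : ℝ) (hu : ContDiff ℝ ∞ u) (h : DB B ρ m n C u) :
    DB B ρ m n (|c| * C) (fun y => c * u y) := by
  induction m generalizing n u with
  | zero =>
    intro y hy
    rw [abs_mul, mul_assoc]
    exact mul_le_mul_of_nonneg_left (h y hy) (abs_nonneg c)
  | succ m ih =>
    refine ⟨fun y hy => ?_, fun i => ?_⟩
    · rw [abs_mul, mul_assoc]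
      exact mul_le_mul_of_nonneg_left (h.1 y hy) (abs_nonneg c)
    · have e : pd i (fun y => c * u y) = fun y => c * pd i u y := by
        funext y
        exact pd_const_mul c (CD.diff hu)
      rw [e]
      exact ih (contDiff_pd hu i) (h.2 i)

theorem DB.mul (hρ : ∀ y ∈ B, 0 < ρ y) (hC : 0 ≤ C) (hC' : 0 ≤ C') (hu : ContDiff ℝ ∞ u)
    (hv : ContDiff ℝ ∞ v) (h : DB B ρ m n C u) (h' : DB B ρ m n' C' v) :
    DB B ρ m (n + n') (2 ^ m * (C * C')) (fun y => u y * v y) := by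
  have key : ∀ {n n' : ℤ} {u v : V4 → ℝ}, (∀ y ∈ B, |u y| ≤ C * ρ y ^ n) →
      (∀ y ∈ B, |v y| ≤ C' * ρ y ^ n') → ∀ k : ℕ, ∀ y ∈ B,
      |u y * v y| ≤ (2 ^ k * (C * C')) * ρ y ^ (n + n') := by
    intro n n' u v h1 h2 k y hy
    have hp := hρ y hy
    rw [abs_mul, zpow_add₀ hp.ne']
    have h3 : |u y| * |v y| ≤ (C * ρ y ^ n) * (C' * ρ y ^ n') :=
      mul_le_mul (h1 y hy) (h2 y hy) (abs_nonneg _) (mul_nonneg hC (zpow_pos hp n).le)
    have h4 : (1 : ℝ) ≤ 2 ^ k := one_le_pow₀ (by norm_num)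
    have h5 : 0 ≤ (C * ρ y ^ n) * (C' * ρ y ^ n') :=
      mul_nonneg (mul_nonneg hC (zpow_pos hp n).le) (mul_nonneg hC' (zpow_pos hp n').le)
    calc |u y| * |v y| ≤ (C * ρ y ^ n) * (C' * ρ y ^ n') := h3
      _ = 1 * ((C * ρ y ^ n) * (C' * ρ y ^ n')) := (one_mul _).symm
      _ ≤ 2 ^ k * ((C * ρ y ^ n) * (C' * ρ y ^ n')) := mul_le_mul_of_nonneg_right h4 h5
      _ = _ := by ring
  induction m generalizing n n' u v with
  | zero => exact key h h' 0
  | succ m ih =>
    refine ⟨key h.1 h'.1 (m + 1), fun i => ?_⟩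
    have e : pd i (fun y => u y * v y) = fun y => pd i u y * v y + u y * pd i v y := by
      funext y
      exact pd_mul (CD.diff hu) (CD.diff hv)
    rw [e]
    have h1 := ih (contDiff_pd hu i) hv (h.2 i) h'.pred
    have h2 := ih hu (contDiff_pd hv i) h.pred (h'.2 i)
    have e1 : n - 1 + n' = n + n' - 1 := by ring
    have e2 : n + (n' - 1) = n + n' - 1 := by ring
    rw [e1] at h1
    rw [e2] at h2
    have h3 := DB.add ((contDiff_pd hu i).mul hv) (hu.mul (contDiff_pd hv i)) h1 h2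
    have e3 : 2 ^ m * (C * C') + 2 ^ m * (C * C') = 2 ^ (m + 1) * (C * C') := by ring
    rw [e3] at h3
    exact h3

theorem DB.zero (hρ : ∀ y ∈ B, 0 < ρ y) (hC : 0 ≤ C) : DB B ρ m n C (fun _ => 0) := by
  induction m generalizing n with
  | zero =>
    intro y hy
    rw [abs_zero]
    exact mul_nonneg hC (zpow_pos (hρ y hy) n).le
  | succ m ih =>
    refine ⟨fun y hy => ?_, fun i => ?_⟩
    · rw [abs_zero]
      exact mul_nonneg hC (zpow_pos (hρ y hy) n).le
    · have e : pd i (fun _ : V4 => (0 : ℝ)) = fun _ => 0 := by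
        funext y
        exact pd_const 0
      rw [e]
      exact ih

/-- weakening the order, `ρ ≤ M` -/
theorem DB.weaken (hρ : ∀ y ∈ B, 0 < ρ y) {M : ℝ} (hM : ∀ y ∈ B, ρ y ≤ M) (hM1 : 1 ≤ M)
    (hC : 0 ≤ C) (k : ℕ) (h : DB B ρ m n C u) : DB B ρ m (n - k) (C * M ^ k) u := by
  have key : ∀ {n : ℤ} {u : V4 → ℝ}, (∀ y ∈ B, |u y| ≤ C * ρ y ^ n) → ∀ y ∈ B,
      |u y| ≤ (C * M ^ k) * ρ y ^ (n - k) := by
    intro n u h1 y hy
    have hp := hρ y hy
    have h2 : ρ y ^ n = ρ y ^ k * ρ y ^ (n - k) := by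
      rw [← zpow_natCast, ← zpow_add₀ hp.ne']
      congr 1
      ring
    calc |u y| ≤ C * ρ y ^ n := h1 y hy
      _ = C * ρ y ^ k * ρ y ^ (n - k) := by rw [h2]; ring
      _ ≤ C * M ^ k * ρ y ^ (n - k) := by
        refine mul_le_mul_of_nonneg_right ?_ (zpow_pos hp _).le
        exact mul_le_mul_of_nonneg_left (pow_le_pow_left₀ hp.le (hM y hy) k) hC
  induction m generalizing n u with
  | zero => exact key h
  | succ m ih =>
    refine ⟨key h.1, fun i => ?_⟩
    have h1 := ih (h.2 i)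
    have e : n - 1 - (k : ℤ) = n - k - 1 := by ring
    rw [e] at h1
    exact h1

end DBlemmas

/-- Uniform symbol estimates for families. -/
structure Sy {ι : Type*} (B : ι → Set V4) (ρ : ι → V4 → ℝ) (n : ℤ) (u : ι → V4 → ℝ) : Prop where
  smooth : ∀ i, ContDiff ℝ ∞ (u i)
  bound : ∀ m : ℕ, ∃ C : ℝ, 0 ≤ C ∧ ∀ i, DB (B i) (ρ i) m n C (u i)

/-- The weights are admissible. -/
structure Wt {ι : Type*} (B : ι → Set V4) (ρ : ι → V4 → ℝ) (M : ℝ) : Prop where
  pos : ∀ i, ∀ y ∈ B i, 0 < ρ i y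
  le : ∀ i, ∀ y ∈ B i, ρ i y ≤ M
  one_le : 1 ≤ M

section SyLemmas

variable {ι : Type*} {B : ι → Set V4} {ρ : ι → V4 → ℝ} {M : ℝ} {n n' : ℤ} {u v : ι → V4 → ℝ}

theorem Sy.add (hw : Wt B ρ M) (hu : Sy B ρ n u) (hv : Sy B ρ n v) :
    Sy B ρ n (fun i y => u i y + v i y) := by
  refine ⟨fun i => (hu.smooth i).add (hv.smooth i), fun m => ?_⟩
  obtain ⟨C, hC, h1⟩ := hu.bound m
  obtain ⟨C', hC', h2⟩ := hv.bound m
  exact ⟨C + C', add_nonneg hC hC', fun i =>
    DB.add (hu.smooth i) (hv.smooth i) (h1 i) (h2 i)⟩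

theorem Sy.mul (hw : Wt B ρ M) (hu : Sy B ρ n u) (hv : Sy B ρ n' v) :
    Sy B ρ (n + n') (fun i y => u i y * v i y) := by
  refine ⟨fun i => (hu.smooth i).mul (hv.smooth i), fun m => ?_⟩
  obtain ⟨C, hC, h1⟩ := hu.bound m
  obtain ⟨C', hC', h2⟩ := hv.bound m
  exact ⟨2 ^ m * (C * C'), by positivity, fun i =>
    DB.mul (hw.pos i) hC hC' (hu.smooth i) (hv.smooth i) (h1 i) (h2 i)⟩

theorem Sy.pd (hu : Sy B ρ n u) (j : Fin 4) : Sy B ρ (n - 1) (fun i => pd j (u i)) := by
  refine ⟨fun i => contDiff_pd (hu.smooth i) j, fun m => ?_⟩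
  obtain ⟨C, hC, h1⟩ := hu.bound (m + 1)
  exact ⟨C, hC, fun i => (h1 i).2 j⟩

theorem Sy.weaken (hw : Wt B ρ M) (hu : Sy B ρ n u) (hn : n' ≤ n) : Sy B ρ n' u := by
  refine ⟨hu.smooth, fun m => ?_⟩
  obtain ⟨C, hC, h1⟩ := hu.bound m
  obtain ⟨k, hk⟩ := Int.eq_ofNat_of_zero_le (sub_nonneg.2 hn)
  have e : n' = n - (k : ℤ) := by
    have : n - n' = (k : ℤ) := hk
    linarith only [hk]
  refine ⟨C * M ^ k, mul_nonneg hC (pow_nonneg (zero_le_one.trans hw.one_le) k), fun i => ?_⟩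
  rw [e]
  exact DB.weaken (hw.pos i) (hw.le i) hw.one_le hC k (h1 i)

theorem Sy.congr (hu : Sy B ρ n u) (h : ∀ i y, v i y = u i y) : Sy B ρ n v := by
  have e : v = u := by
    funext i y
    exact h i y
  rw [e]
  exact hu

/-- from a bound of the function and symbol estimates for the derivatives -/
theorem Sy.of_pd (hw : Wt B ρ M) (hs : ∀ i, ContDiff ℝ ∞ (u i))
    (h0 : ∃ C : ℝ, 0 ≤ C ∧ ∀ i, ∀ y ∈ B i, |u i y| ≤ C * ρ i y ^ n)
    (h1 : ∀ j : Fin 4, Sy B ρ (n - 1) (fun i => Vale.Agent.P204K.T4.pd j (u i))) :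
    Sy B ρ n u := by
  refine ⟨hs, fun m => ?_⟩
  obtain ⟨C, hC, h2⟩ := h0
  have h3 : ∀ j : Fin 4, ∃ C : ℝ, 0 ≤ C ∧ ∀ i, DB (B i) (ρ i) m (n - 1) C
      (Vale.Agent.P204K.T4.pd j (u i)) := fun j => (h1 j).bound m
  choose D hD h4 using h3
  have hle : ∀ j, D j ≤ C + ∑ j, D j := fun j =>
    (Finset.single_le_sum (fun j _ => hD j) (Finset.mem_univ j)).trans (le_add_of_nonneg_left hC)
  have hC' : C ≤ C + ∑ j, D j := le_add_of_nonneg_right (Finset.sum_nonneg fun j _ => hD j)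
  refine ⟨C + ∑ j, D j, hC.trans hC', fun i => ?_⟩
  have h5 : DB (B i) (ρ i) (m + 1) n (C + ∑ j, D j) (u i) := by
    refine ⟨fun y hy => (h2 i y hy).trans (mul_le_mul_of_nonneg_right hC'
      (zpow_pos (hw.pos i y hy) n).le), fun j => ?_⟩
    exact DB.mono (hw.pos i) (hle j) (h4 j i)
  exact h5.pred

theorem Sy.zero (hw : Wt B ρ M) : Sy B ρ n (fun _ _ => (0 : ℝ)) :=
  ⟨fun _ => contDiff_const, fun m => ⟨0, le_refl 0, fun i => DB.zero (hw.pos i) (le_refl 0)⟩⟩

/-- bounded constants -/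
theorem Sy.const (hw : Wt B ρ M) {c : ι → ℝ} {K : ℝ} (hc : ∀ i, |c i| ≤ K) :
    Sy B ρ 0 (fun i _ => c i) := by
  refine Sy.of_pd hw (fun i => contDiff_const) ⟨max K 0, le_max_right _ _, fun i y hy => ?_⟩
    (fun j => ?_)
  · rw [zpow_zero, mul_one]
    exact (hc i).trans (le_max_left _ _)
  · refine (Sy.zero (n := 0 - 1) hw).congr (fun i y => ?_)
    exact pd_const (c i)

theorem Sy.sub (hw : Wt B ρ M) (hu : Sy B ρ n u) (hv : Sy B ρ n v) :
    Sy B ρ n (fun i y => u i y - v i y) := by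
  have h1 : Sy B ρ n (fun i y => (-1 : ℝ) * v i y) := by
    have h2 := (Sy.const (ι := ι) (c := fun _ => (-1 : ℝ)) (K := 1) hw
      (fun _ => by simp)).mul hw hv
    rw [zero_add] at h2
    exact h2
  refine (hu.add hw h1).congr (fun i y => ?_)
  ring

theorem Sy.const_mul (hw : Wt B ρ M) {c : ι → ℝ} {K : ℝ} (hc : ∀ i, |c i| ≤ K)
    (hu : Sy B ρ n u) : Sy B ρ n (fun i y => c i * u i y) := by
  have h2 := (Sy.const hw hc).mul hw hu
  rw [zero_add] at h2
  exact h2

theorem Sy.sum (hw : Wt B ρ M) {κ : Type*} (s : Finset κ) {w : κ → ι → V4 → ℝ}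
    (h : ∀ k ∈ s, Sy B ρ n (w k)) : Sy B ρ n (fun i y => ∑ k ∈ s, w k i y) := by
  classical
  induction s using Finset.induction_on with
  | empty =>
    exact (Sy.zero hw).congr (fun i y => Finset.sum_empty)
  | insert a s ha ih =>
    have h1 := (h a (Finset.mem_insert_self a s)).add hw
      (ih (fun k hk => h k (Finset.mem_insert_of_mem hk)))
    exact h1.congr (fun i y => Finset.sum_insert ha)

/-- composition with a smooth function of a bounded symbol of order one -/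
theorem Sy.comp (hw : Wt B ρ M) {φ : ℝ → ℝ} (hφ : ContDiff ℝ ∞ φ) (hu : Sy B ρ 1 u) {K : ℝ}
    (hK : ∀ i, ∀ y ∈ B i, |u i y| ≤ K) : Sy B ρ 0 (fun i y => φ (u i y)) := by
  refine ⟨fun i => hφ.comp (hu.smooth i), fun m => ?_⟩
  induction m generalizing φ with
  | zero =>
    obtain ⟨C, hC⟩ := (isCompact_Icc (a := -K) (b := K)).exists_bound_of_continuousOn
      hφ.continuous.continuousOn
    refine ⟨max C 0, le_max_right _ _, fun i y hy => ?_⟩
    rw [zpow_zero, mul_one]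
    have := hC (u i y) (abs_le.1 (hK i y hy))
    rw [Real.norm_eq_abs] at this
    exact this.trans (le_max_left _ _)
  | succ m ih =>
    obtain ⟨C, hC⟩ := (isCompact_Icc (a := -K) (b := K)).exists_bound_of_continuousOn
      hφ.continuous.continuousOn
    have hφ' : ContDiff ℝ ∞ (deriv φ) := by
      exact (contDiff_infty_iff_deriv.1 hφ).2
    obtain ⟨C1, hC1, h1⟩ := ih hφ'
    obtain ⟨C2, hC2, h2⟩ := hu.bound (m + 1)
    set C3 := 2 ^ m * (C1 * C2) * M ^ 1 with hC3
    have hC3' : 0 ≤ C3 := by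
      have := hw.one_le
      positivity
    refine ⟨max C 0 + C3, add_nonneg (le_max_right _ _) hC3', fun i => ⟨fun y hy => ?_,
      fun j => ?_⟩⟩
    · rw [zpow_zero, mul_one]
      have := hC (u i y) (abs_le.1 (hK i y hy))
      rw [Real.norm_eq_abs] at this
      exact (this.trans (le_max_left _ _)).trans (le_add_of_nonneg_right hC3')
    · have e : Vale.Agent.P204K.T4.pd j (fun y => φ (u i y)) =
          fun y => deriv φ (u i y) * Vale.Agent.P204K.T4.pd j (u i) y := by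
        funext y
        exact pd_comp ((hφ.differentiable (by norm_num)).differentiableAt) (CD.diff (hu.smooth i))
      rw [e]
      have h3 := DB.mul (hw.pos i) hC1 hC2 (hφ'.comp (hu.smooth i)) (contDiff_pd (hu.smooth i) j)
        (h1 i) ((h2 i).2 j)
      have h4 := DB.weaken (hw.pos i) (hw.le i) hw.one_le (by positivity) 1 h3
      have e2 : (0 : ℤ) + (1 - 1) - ((1 : ℕ) : ℤ) = 0 - 1 := by norm_num
      rw [e2] at h4
      exact DB.mono (hw.pos i) (le_add_of_nonneg_left (le_max_right _ _)) h4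

/-- inverse of an elliptic symbol of order two -/
theorem Sy.inv (hw : Wt B ρ M) (hu : Sy B ρ 2 u) (hpos : ∀ i y, 0 < u i y) {c : ℝ} (hc : 0 < c)
    (hell : ∀ i, ∀ y ∈ B i, c * ρ i y ^ (2 : ℤ) ≤ u i y) :
    Sy B ρ (-2) (fun i y => (u i y)⁻¹) := by
  have hs : ∀ i, ContDiff ℝ ∞ (fun y => (u i y)⁻¹) :=
    fun i => (hu.smooth i).inv (fun y => (hpos i y).ne')
  have h0 : ∀ i, ∀ y ∈ B i, |(u i y)⁻¹| ≤ c⁻¹ * ρ i y ^ (-2 : ℤ) := by
    intro i y hy
    have hp := hw.pos i y hy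
    have h1 : 0 < c * ρ i y ^ (2 : ℤ) := mul_pos hc (zpow_pos hp 2)
    rw [abs_of_pos (inv_pos.2 (hpos i y)), zpow_neg, ← mul_inv]
    exact inv_anti₀ h1 (hell i y hy)
  refine ⟨hs, fun m => ?_⟩
  induction m with
  | zero => exact ⟨c⁻¹, (inv_pos.2 hc).le, h0⟩
  | succ m ih =>
    obtain ⟨C1, hC1, h1⟩ := ih
    obtain ⟨C2, hC2, h2⟩ := hu.bound (m + 1)
    have hci : 0 < c⁻¹ := inv_pos.2 hc
    set C3 := |(-1 : ℝ)| * (2 ^ m * ((2 ^ m * (C1 * C1)) * C2)) with hC3
    have hC3' : 0 ≤ C3 := by (clear * - hC1 hC2; positivity)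
    refine ⟨c⁻¹ + C3, by (clear * - hc hC1 hC2; positivity), fun i => ⟨fun y hy => ?_, fun j => ?_⟩⟩
    · exact (h0 i y hy).trans (mul_le_mul_of_nonneg_right (le_add_of_nonneg_right hC3')
        (zpow_pos (hw.pos i y hy) _).le)
    · have e : Vale.Agent.P204K.T4.pd j (fun y => (u i y)⁻¹) =
          fun y => (-1) * (((u i y)⁻¹ * (u i y)⁻¹) * Vale.Agent.P204K.T4.pd j (u i) y) := by
        funext y
        have h5 := pd_comp (i := j) (x := y) (φ := fun t => t⁻¹) (u := u i)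
          (differentiableAt_inv (hpos i y).ne') (CD.diff (hu.smooth i))
        rw [h5, deriv_inv]
        field_simp
      rw [e]
      have h3 := DB.mul (hw.pos i) hC1 hC1 (hs i) (hs i) (h1 i) (h1 i)
      have h4 := DB.mul (hw.pos i) (by positivity) hC2 ((hs i).mul (hs i))
        (contDiff_pd (hu.smooth i) j) h3 ((h2 i).2 j)
      have h5 := DB.const_mul (-1) (((hs i).mul (hs i)).mul (contDiff_pd (hu.smooth i) j)) h4
      have e2 : (-2 : ℤ) + -2 + (2 - 1) = -2 - 1 := by norm_num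
      rw [e2] at h5
      exact DB.mono (hw.pos i) (le_add_of_nonneg_left hci.le) h5

end SyLemmas

end Vale.Agent.P204K.T4
end

section

/-! The growth test form. -/

open scoped BigOperators ContDiff
open MeasureTheory

namespace Vale.Agent.P204K.T4

/-- cutoff in the variable `q` -/
noncomputable def thG (R τ : ℝ) : ℝ := Real.smoothTransition (2 - 5 * τ / R ^ 2)

noncomputable def phG (R s τ : ℝ) : ℝ := thG R τ * (τ + s)⁻¹

noncomputable def lamG (J : M4) (w : V4) : V4 := fun j => (1 / 2) * ev (Fm J) w (eb j)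

/-- the primitive of the growth test form -/
noncomputable def etaG (J : M4) (y0 : V4) (R s : ℝ) (y : V4) : V4 :=
  fun j => phG R s (gm J (y - y0) (y - y0)) * lamG J (y - y0) j

theorem thG_smooth (R : ℝ) : ContDiff ℝ ∞ (thG R) := by
  unfold thG
  exact Real.smoothTransition.contDiff.comp (by fun_prop)

theorem thG_nonneg (R τ : ℝ) : 0 ≤ thG R τ := Real.smoothTransition.nonneg _

theorem thG_le_one (R τ : ℝ) : thG R τ ≤ 1 := Real.smoothTransition.le_one _

theorem thG_one {R τ : ℝ} (hR : 0 < R) (h : τ ≤ R ^ 2 / 5) : thG R τ = 1 := by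
  unfold thG
  apply Real.smoothTransition.one_of_one_le
  have h1 : 5 * τ / R ^ 2 ≤ 1 := by
    rw [div_le_one (by positivity)]
    linarith
  linarith only [h1]

theorem thG_zero {R τ : ℝ} (hR : 0 < R) (h : 2 * R ^ 2 / 5 ≤ τ) : thG R τ = 0 := by
  unfold thG
  apply Real.smoothTransition.zero_of_nonpos
  have h1 : 2 ≤ 5 * τ / R ^ 2 := by
    rw [le_div_iff₀ (by positivity)]
    linarith
  linarith only [h1]

theorem deriv_thG_zero {R τ : ℝ} (hR : 0 < R) (h : 2 * R ^ 2 / 5 < τ) : deriv (thG R) τ = 0 := by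
  have h1 : thG R =ᶠ[nhds τ] fun _ => 0 := by
    filter_upwards [lt_mem_nhds h] with t ht
    exact thG_zero hR ht.le
  rw [h1.deriv_eq, deriv_const]

theorem qG_smooth (J : M4) (y0 : V4) : ContDiff ℝ ∞ (fun y => gm J (y - y0) (y - y0)) := by
  unfold gm
  simp only [ev_eq, app_eq, Pi.sub_apply]
  fun_prop

theorem lamG_smooth (J : M4) (y0 : V4) (j : Fin 4) :
    ContDiff ℝ ∞ (fun y => lamG J (y - y0) j) := by
  unfold lamG
  simp only [ev_eq, Pi.sub_apply]
  fun_prop

theorem pd_eq_deriv {f : V4 → ℝ} {y : V4} (hf : DifferentiableAt ℝ f y) (i : Fin 4) :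
    pd i f y = deriv (fun t : ℝ => f (y + t • eb i)) 0 := by
  unfold pd
  have h := hf.lineDeriv_eq_fderiv (v := (Pi.single i 1 : V4))
  rw [← h]
  rfl

theorem pd_qG {J : M4} (hJ : IsCx J) (y0 y : V4) (i : Fin 4) :
    pd i (fun y => gm J (y - y0) (y - y0)) y = 2 * ga J (y - y0) i := by
  rw [pd_eq_deriv (CD.diff (qG_smooth J y0)) i]
  have h1 : (fun t : ℝ => gm J (y + t • eb i - y0) (y + t • eb i - y0)) =
      fun t => gm J (y - y0) (y - y0) + t * (2 * ga J (y - y0) i) +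
        t ^ 2 * gm J (eb i) (eb i) := by
    funext t
    have h2 : y + t • eb i - y0 = (y - y0) + t • eb i := by abel
    rw [h2]
    simp only [gm_add_left, gm_add_right, gm_smul_left, gm_smul_right]
    rw [gm_comm hJ (eb i) (y - y0)]
    unfold ga
    ring
  rw [h1]
  have h3 : HasDerivAt (fun t : ℝ => gm J (y - y0) (y - y0) + t * (2 * ga J (y - y0) i) +
        t ^ 2 * gm J (eb i) (eb i)) (0 + 1 * (2 * ga J (y - y0) i) +
        (2 * (0 : ℝ) ^ 1) * gm J (eb i) (eb i)) 0 := by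
    refine HasDerivAt.add (HasDerivAt.add (hasDerivAt_const _ _) ?_) ?_
    · exact (hasDerivAt_id (0 : ℝ)).mul_const _
    · have := (hasDerivAt_pow 2 (0 : ℝ)).mul_const (gm J (eb i) (eb i))
      simpa only [pow_one, mul_zero, zero_mul, Nat.cast_ofNat, Nat.add_one_sub_one] using this
  rw [h3.deriv]
  ring

theorem pd_lamG (J : M4) (y0 y : V4) (i j : Fin 4) :
    pd i (fun y => lamG J (y - y0) j) y = (1 / 2) * ev (Fm J) (eb i) (eb j) := by
  rw [pd_eq_deriv (CD.diff (lamG_smooth J y0 j)) i]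
  have h1 : (fun t : ℝ => lamG J (y + t • eb i - y0) j) =
      fun t => lamG J (y - y0) j + t * ((1 / 2) * ev (Fm J) (eb i) (eb j)) := by
    funext t
    have h2 : y + t • eb i - y0 = (y - y0) + t • eb i := by abel
    rw [h2]
    unfold lamG
    rw [ev_add_left, ev_smul_left]
    ring
  rw [h1]
  have h3 : HasDerivAt (fun t : ℝ => lamG J (y - y0) j +
      t * ((1 / 2) * ev (Fm J) (eb i) (eb j))) (0 + 1 * ((1 / 2) * ev (Fm J) (eb i) (eb j))) 0 :=
    HasDerivAt.add (hasDerivAt_const _ _) ((hasDerivAt_id (0 : ℝ)).mul_const _)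
  rw [h3.deriv]
  ring

theorem ev_eb_eb (A : L2) (i j : Fin 4) : ev A (eb i) (eb j) = ent A i j := by
  unfold ev eb
  simp only [Pi.single_apply, mul_ite, mul_one, mul_zero, Finset.sum_ite_eq', Finset.mem_univ, ↓reduceIte]

theorem two_lamG {J : M4} (hJ : IsCx J) (w : V4) (j : Fin 4) :
    2 * lamG J w j = cc J (ga J w) j := by
  have h1 : cc J (ga J w) j = dp (cc J (ga J w)) (eb j) := by
    unfold dp eb
    simp only [Pi.single_apply, mul_ite, mul_one, mul_zero, Finset.sum_ite_eq', Finset.mem_univ, ↓reduceIte]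
  rw [h1, dp_cc, dp_ga]
  unfold gm lamG
  rw [hJ, ev_neg_right]
  ring

theorem phG_smooth {R s : ℝ} (_hs : 0 < s) {τ : ℝ} (hτ : 0 < τ + s) :
    HasDerivAt (phG R s) (deriv (thG R) τ * (τ + s)⁻¹ - thG R τ * ((τ + s) ^ 2)⁻¹) τ := by
  have h1 : HasDerivAt (thG R) (deriv (thG R) τ) τ :=
    (((thG_smooth R).differentiable (by norm_num)).differentiableAt).hasDerivAt
  have h2 : HasDerivAt (fun t : ℝ => (t + s)⁻¹) (-(1 : ℝ) / (τ + s) ^ 2) τ :=
    HasDerivAt.inv ((hasDerivAt_id τ).add_const s) hτ.ne'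
  have h3 := h1.mul h2
  have e : deriv (thG R) τ * (τ + s)⁻¹ + thG R τ * (-1 / (τ + s) ^ 2) =
      deriv (thG R) τ * (τ + s)⁻¹ - thG R τ * ((τ + s) ^ 2)⁻¹ := by
    rw [neg_div, one_div]
    ring
  rw [e] at h3
  exact h3

theorem etaG_smooth' {J : M4} (hJ : IsCx J) (y0 : V4) {R s : ℝ} (hs : 0 < s) (j : Fin 4) :
    ContDiff ℝ ∞ (fun y => etaG J y0 R s y j) := by
  unfold etaG phG
  refine ContDiff.mul (ContDiff.mul ?_ ?_) (lamG_smooth J y0 j)
  · exact (thG_smooth R).comp (qG_smooth J y0)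
  · refine ContDiff.inv ((qG_smooth J y0).add contDiff_const) (fun y => ?_)
    have := gm_self_nonneg hJ (y - y0)
    positivity

theorem etaG_smooth {J : M4} (hJ : IsCx J) (y0 : V4) {R s : ℝ} (hs : 0 < s) :
    ContDiff ℝ ∞ (etaG J y0 R s) :=
  contDiff_pi.2 (fun j => etaG_smooth' hJ y0 hs j)

/-- The formula for the test form. -/
theorem d1_etaG {J : M4} (hJ : IsCx J) (y0 : V4) {R s : ℝ} (hs : 0 < s) (y : V4) :
    d1 (etaG J y0 R s) y =
      phG R s (gm J (y - y0) (y - y0)) • Fm J +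
      (deriv (thG R) (gm J (y - y0) (y - y0)) * (gm J (y - y0) (y - y0) + s)⁻¹ -
        thG R (gm J (y - y0) (y - y0)) * ((gm J (y - y0) (y - y0) + s) ^ 2)⁻¹) •
        Om J (y - y0) := by
  set q := gm J (y - y0) (y - y0) with hq
  have hq0 : 0 ≤ q := gm_self_nonneg hJ _
  set D := deriv (thG R) q * (q + s)⁻¹ - thG R q * ((q + s) ^ 2)⁻¹ with hD
  have h1 : ∀ i j, pd i (fun y => etaG J y0 R s y j) y =
      D * (2 * ga J (y - y0) i) * lamG J (y - y0) j +
        phG R s q * ((1 / 2) * ev (Fm J) (eb i) (eb j)) := by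
    intro i j
    have hphd : HasDerivAt (phG R s) D q := phG_smooth hs (by positivity)
    have hd1 : DifferentiableAt ℝ (fun y => phG R s (gm J (y - y0) (y - y0))) y := by
      have h2 : (fun y => phG R s (gm J (y - y0) (y - y0))) =
          phG R s ∘ fun y => gm J (y - y0) (y - y0) := rfl
      rw [h2]
      exact DifferentiableAt.comp y hphd.differentiableAt (CD.diff (qG_smooth J y0))
    unfold etaG
    rw [pd_mul hd1 (CD.diff (lamG_smooth J y0 j)), pd_lamG,
      pd_comp (u := fun y => gm J (y - y0) (y - y0)) hphd.differentiableAt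
        (CD.diff (qG_smooth J y0)), pd_qG hJ, hphd.deriv]
  have key : ∀ i j, pd i (fun y => etaG J y0 R s y j) y - pd j (fun y => etaG J y0 R s y i) y =
      phG R s q * ent (Fm J) i j + D * (ga J (y - y0) i * cc J (ga J (y - y0)) j -
        ga J (y - y0) j * cc J (ga J (y - y0)) i) := by
    intro i j
    rw [h1 i j, h1 j i, ← two_lamG hJ, ← two_lamG hJ, ev_antisymm (Fm J) (eb j) (eb i), ev_eb_eb]
    ring
  funext k
  unfold d1
  fin_cases k
  · exact key 0 1
  · exact key 0 2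
  · exact key 0 3
  · exact key 1 2
  · exact key 1 3
  · exact key 2 3

/-- regrouping into positive pieces -/
theorem d1_etaG' {J : M4} (hJ : IsCx J) (y0 : V4) {R s : ℝ} (hs : 0 < s) (y : V4) :
    d1 (etaG J y0 R s) y =
      (thG R (gm J (y - y0) (y - y0)) * (s / (gm J (y - y0) (y - y0) + s) ^ 2)) • Fm J +
      ((thG R (gm J (y - y0) (y - y0)) * ((gm J (y - y0) (y - y0) + s) ^ 2)⁻¹) •
        (gm J (y - y0) (y - y0) • Fm J - Om J (y - y0)) +
      (deriv (thG R) (gm J (y - y0) (y - y0)) * (gm J (y - y0) (y - y0) + s)⁻¹) •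
        Om J (y - y0)) := by
  rw [d1_etaG hJ y0 hs y]
  set q := gm J (y - y0) (y - y0) with hq
  have hq0 : 0 ≤ q := gm_self_nonneg hJ _
  have hne : q + s ≠ 0 := by positivity
  funext k
  simp only [Pi.add_apply, Pi.smul_apply, Pi.sub_apply, smul_eq_mul, phG]
  field_simp
  ring

theorem pull_d1_etaG {J : M4} (hJ : IsCx J) (y0 : V4) {R s : ℝ} (hs : 0 < s) (y : V4) :
    pull J (d1 (etaG J y0 R s) y) = d1 (etaG J y0 R s) y := by
  rw [d1_etaG hJ y0 hs y, pull_add, pull_smul, pull_smul, pull_Fm hJ, (cone_Om hJ _).1]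

theorem etaG_zero {J : M4} (hJ : IsCx J) (y0 : V4) {R s : ℝ} (hR : 0 < R) {y : V4}
    (hy : R ≤ ‖y - y0‖) : etaG J y0 R s y = 0 := by
  have h1 := gm_self_ge hJ (y - y0)
  have h2 : R ^ 2 ≤ ‖y - y0‖ ^ 2 := pow_le_pow_left₀ hR.le hy 2
  funext j
  unfold etaG phG
  rw [thG_zero hR (by nlinarith only [h1, h2])]
  simp

theorem d1_etaG_zero {J : M4} (hJ : IsCx J) (y0 : V4) {R s : ℝ} (hR : 0 < R) (hs : 0 < s) {y : V4}
    (hy : R ≤ ‖y - y0‖) : d1 (etaG J y0 R s) y = 0 := by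
  have h1 := gm_self_ge hJ (y - y0)
  have h2 : R ^ 2 ≤ ‖y - y0‖ ^ 2 := pow_le_pow_left₀ hR.le hy 2
  have h3 : 0 < R ^ 2 := by positivity
  rw [d1_etaG hJ y0 hs y]
  unfold phG
  rw [thG_zero hR (by linarith only [h1, h2, h3]), deriv_thG_zero hR (by linarith only [h1, h2, h3])]
  simp

/-! ### the lower bound -/

theorem gro_t1 {J0 J : M4} (hJ0 : IsCx J0) {N L θ s : ℝ} (hJ0N : ‖J0‖ ≤ N)
    (hN : 0 ≤ N) (hL : 0 ≤ L) (hs : 0 < s) (w : V4)
    (hJL : ‖J - J0‖ ≤ L * ‖w‖) (hθ0 : 0 ≤ θ) (hθ1 : θ ≤ 1) (v : V4) :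
    (θ * (s / (gm J0 w w + s) ^ 2) / 4 - 6144 * N ^ 4 * L ^ 2) * ‖v‖ ^ 2 ≤
      θ * (s / (gm J0 w w + s) ^ 2) * ev (Fm J0) v (app J v) := by
  set q := gm J0 w w with hq
  have hq0 : 0 ≤ q := gm_self_nonneg hJ0 _
  have hqw : ‖w‖ ^ 2 ≤ 2 * q := by
    have := gm_self_ge hJ0 w
    linarith
  have hqs : 0 < q + s := by positivity
  have hF : ‖Fm J0‖ ≤ N := (norm_Fm_le J0).trans hJ0N
  have t1 : gm J0 v v / 2 - 6144 * (N * N ^ 3 * (L * ‖w‖) ^ 2 * ‖v‖ ^ 2) ≤
      ev (Fm J0) v (app J v) := by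
    have h1 := ev_app_ge (J := J) hJ0 (cone_Fm hJ0) v (1 / 2) (by norm_num)
    have h2 : ‖Fm J0‖ * ‖J0‖ ^ 3 * ‖J - J0‖ ^ 2 * ‖v‖ ^ 2 ≤
        N * N ^ 3 * (L * ‖w‖) ^ 2 * ‖v‖ ^ 2 := by gcongr
    have h3 : (1 - 1 / 2) * ev (Fm J0) v (app J0 v) = gm J0 v v / 2 := by
      unfold gm; ring
    rw [h3] at h1
    have h4 : (12288 : ℝ) / (4 * (1 / 2)) = 6144 := by norm_num
    rw [h4] at h1
    linarith
  have hsq : 0 ≤ s / (q + s) ^ 2 := by positivity
  have h1 := gm_self_ge hJ0 v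
  have h2 : s / (q + s) ^ 2 * ‖w‖ ^ 2 ≤ 1 := by
    rw [div_mul_eq_mul_div, div_le_one (by positivity)]
    nlinarith only [hs, hqw]
  have h3 : ‖v‖ ^ 2 / 4 - 6144 * (N ^ 4 * L ^ 2 * ‖w‖ ^ 2 * ‖v‖ ^ 2) ≤
      ev (Fm J0) v (app J v) := by
    refine le_trans ?_ t1
    have : N * N ^ 3 * (L * ‖w‖) ^ 2 * ‖v‖ ^ 2 = N ^ 4 * L ^ 2 * ‖w‖ ^ 2 * ‖v‖ ^ 2 := by ring
    rw [this]
    linarith only [h1]
  have h4 := mul_le_mul_of_nonneg_left h3 (mul_nonneg hθ0 hsq)
  refine le_trans ?_ h4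
  have h5 : θ * (s / (q + s) ^ 2) * (6144 * (N ^ 4 * L ^ 2 * ‖w‖ ^ 2 * ‖v‖ ^ 2)) ≤
      1 * 1 * (6144 * (N ^ 4 * L ^ 2 * ‖v‖ ^ 2)) := by
    calc θ * (s / (q + s) ^ 2) * (6144 * (N ^ 4 * L ^ 2 * ‖w‖ ^ 2 * ‖v‖ ^ 2))
        = θ * (s / (q + s) ^ 2 * ‖w‖ ^ 2) * (6144 * (N ^ 4 * L ^ 2 * ‖v‖ ^ 2)) := by ring
      _ ≤ 1 * 1 * (6144 * (N ^ 4 * L ^ 2 * ‖v‖ ^ 2)) := by gcongr
  have h6 : (θ * (s / (q + s) ^ 2) / 4 - 6144 * N ^ 4 * L ^ 2) * ‖v‖ ^ 2 =
      θ * (s / (q + s) ^ 2) * (‖v‖ ^ 2 / 4) - 1 * 1 * (6144 * (N ^ 4 * L ^ 2 * ‖v‖ ^ 2)) := by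
    ring
  rw [h6, mul_sub]
  linarith only [h5]

theorem gro_t2 {J0 J : M4} (hJ0 : IsCx J0) {N L θ s : ℝ} (hJ0N : ‖J0‖ ≤ N)
    (hN : 0 ≤ N) (hL : 0 ≤ L) (hs : 0 < s) (w : V4)
    (hJL : ‖J - J0‖ ≤ L * ‖w‖) (hθ0 : 0 ≤ θ) (hθ1 : θ ≤ 1) (v : V4) :
    -(12288 * (48 * N ^ 3 + 18432 * N ^ 5) * N ^ 3 * L ^ 2) * ‖v‖ ^ 2 ≤
      θ * ((gm J0 w w + s) ^ 2)⁻¹ * ev (gm J0 w w • Fm J0 - Om J0 w) v (app J v) := by
  set q := gm J0 w w with hq
  have hq0 : 0 ≤ q := gm_self_nonneg hJ0 _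
  have hqw : ‖w‖ ^ 2 ≤ 2 * q := by
    have := gm_self_ge hJ0 w
    linarith
  have hqs : 0 < q + s := by positivity
  have hF : ‖Fm J0‖ ≤ N := (norm_Fm_le J0).trans hJ0N
  have hB : ‖q • Fm J0 - Om J0 w‖ ≤ (48 * N ^ 3 + 18432 * N ^ 5) * ‖w‖ ^ 2 := by
    refine (norm_sub_le _ _).trans ?_
    rw [norm_smul, Real.norm_eq_abs]
    have h1 := abs_gm_le J0 w w
    have h2 := norm_Om_le J0 w
    have h3 : |q| * ‖Fm J0‖ ≤ (48 * N ^ 2 * ‖w‖ * ‖w‖) * N := by
      have : 48 * ‖J0‖ ^ 2 * ‖w‖ * ‖w‖ ≤ 48 * N ^ 2 * ‖w‖ * ‖w‖ := by gcongr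
      exact mul_le_mul (h1.trans this) hF (norm_nonneg _) (by positivity)
    have h4 : 18432 * ‖J0‖ ^ 5 * ‖w‖ ^ 2 ≤ 18432 * N ^ 5 * ‖w‖ ^ 2 := by gcongr
    linarith only [h2, h3, h4]
  set K := 48 * N ^ 3 + 18432 * N ^ 5 with hK
  have hK0 : 0 ≤ K := by positivity
  have t2 : -(3072 * (K * ‖w‖ ^ 2 * N ^ 3 * (L * ‖w‖) ^ 2 * ‖v‖ ^ 2)) ≤
      ev (q • Fm J0 - Om J0 w) v (app J v) := by
    have h1 := ev_app_ge (J := J) hJ0 (cone_qF_sub_Om hJ0 w) v 1 one_pos
    have h2 : ‖gm J0 w w • Fm J0 - Om J0 w‖ * ‖J0‖ ^ 3 * ‖J - J0‖ ^ 2 * ‖v‖ ^ 2 ≤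
        K * ‖w‖ ^ 2 * N ^ 3 * (L * ‖w‖) ^ 2 * ‖v‖ ^ 2 := by gcongr
    have h4 : (12288 : ℝ) / (4 * 1) = 3072 := by norm_num
    rw [h4] at h1
    linarith only [h1, h2]
  have hi : 0 ≤ ((q + s) ^ 2)⁻¹ := by (clear * - hq0 hs; positivity)
  have h1 := mul_le_mul_of_nonneg_left t2 (mul_nonneg hθ0 hi)
  refine le_trans ?_ h1
  have h2 : ((q + s) ^ 2)⁻¹ * (‖w‖ ^ 2 * ‖w‖ ^ 2) ≤ 4 := by
    rw [inv_mul_le_iff₀ (by positivity)]
    have h3 : ‖w‖ ^ 2 * ‖w‖ ^ 2 ≤ (2 * q) * (2 * q) :=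
      mul_le_mul hqw hqw (by positivity) (by positivity)
    linarith only [mul_nonneg (le_of_lt (sub_pos.2 hs)) (sub_nonneg.2 hq0), mul_pos (sub_pos.2 hs) (sub_pos.2 hs), h3]
  have h5 : θ * ((q + s) ^ 2)⁻¹ * (3072 * (K * ‖w‖ ^ 2 *
      N ^ 3 * (L * ‖w‖) ^ 2 * ‖v‖ ^ 2)) ≤
      1 * 4 * (3072 * K * N ^ 3 * L ^ 2 * ‖v‖ ^ 2) := by
    calc θ * ((q + s) ^ 2)⁻¹ * (3072 * (K * ‖w‖ ^ 2 *
      N ^ 3 * (L * ‖w‖) ^ 2 * ‖v‖ ^ 2))
        = θ * (((q + s) ^ 2)⁻¹ * (‖w‖ ^ 2 * ‖w‖ ^ 2)) *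
          (3072 * K * N ^ 3 * L ^ 2 * ‖v‖ ^ 2) := by ring
      _ ≤ _ := by gcongr
  rw [mul_neg]
  have h6 : -(12288 * K * N ^ 3 * L ^ 2) * ‖v‖ ^ 2 =
      -(1 * 4 * (3072 * K * N ^ 3 * L ^ 2 * ‖v‖ ^ 2)) := by ring
  rw [h6]
  linarith only [h5]

theorem gro_t3 {J0 J : M4} (hJ0 : IsCx J0) {N D T s : ℝ} (hJ0N : ‖J0‖ ≤ N)
    (hJN : ‖J‖ ≤ N) (hN : 0 ≤ N) (hs : 0 < s) (w : V4) (hT : 0 ≤ T) (hD : |D| ≤ T) (v : V4) :
    -(T * (1769472 * N ^ 6)) * ‖v‖ ^ 2 ≤ D * (gm J0 w w + s)⁻¹ * ev (Om J0 w) v (app J v) := by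
  set q := gm J0 w w with hq
  have hq0 : 0 ≤ q := gm_self_nonneg hJ0 _
  have hqw : ‖w‖ ^ 2 ≤ 2 * q := by
    have := gm_self_ge hJ0 w
    linarith
  have hqs : 0 < q + s := by positivity
  have h1 : |ev (Om J0 w) v (app J v)| ≤ 884736 * N ^ 6 * ‖w‖ ^ 2 * ‖v‖ ^ 2 := by
    refine (abs_ev_le _ _ _).trans ?_
    have h2 : ‖app J v‖ ≤ 4 * N * ‖v‖ := (norm_app_le J v).trans (by gcongr)
    have h3 : ‖Om J0 w‖ ≤ 18432 * N ^ 5 * ‖w‖ ^ 2 := (norm_Om_le J0 w).trans (by gcongr)
    calc 12 * ‖Om J0 w‖ * ‖v‖ * ‖app J v‖ ≤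
          12 * (18432 * N ^ 5 * ‖w‖ ^ 2) * ‖v‖ * (4 * N * ‖v‖) := by gcongr
      _ = _ := by ring
  have h2 : (q + s)⁻¹ * ‖w‖ ^ 2 ≤ 2 := by
    rw [inv_mul_le_iff₀ hqs]
    linarith only [hs, hqw]
  have h3 : |D * (q + s)⁻¹ * ev (Om J0 w) v (app J v)| ≤ T * (1769472 * N ^ 6) * ‖v‖ ^ 2 := by
    rw [abs_mul, abs_mul, abs_of_pos (inv_pos.2 hqs)]
    calc |D| * (q + s)⁻¹ * |ev (Om J0 w) v (app J v)| ≤
          T * (q + s)⁻¹ * (884736 * N ^ 6 * ‖w‖ ^ 2 * ‖v‖ ^ 2) := by gcongr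
      _ = T * (884736 * N ^ 6 * ((q + s)⁻¹ * ‖w‖ ^ 2)) * ‖v‖ ^ 2 := by ring
      _ ≤ T * (884736 * N ^ 6 * 2) * ‖v‖ ^ 2 := by gcongr
      _ = _ := by ring
  have h4 := (abs_le.1 h3).1
  linarith

/-- the constant in the lower bound -/
noncomputable def groC (N L T : ℝ) : ℝ :=
  6144 * N ^ 4 * L ^ 2 + 12288 * (48 * N ^ 3 + 18432 * N ^ 5) * N ^ 3 * L ^ 2 +
    T * (1769472 * N ^ 6)

theorem growth_lower {J0 J : M4} (hJ0 : IsCx J0) {N L R T s : ℝ} (hN : 0 ≤ N)
    (hL : 0 ≤ L) (hJ0N : ‖J0‖ ≤ N) (hT : 0 ≤ T) (y0 y : V4)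
    (hTb : |deriv (thG R) (gm J0 (y - y0) (y - y0))| ≤ T)
    (hs : 0 < s) (hJN : ‖J‖ ≤ N) (hJL : ‖J - J0‖ ≤ L * ‖y - y0‖) (v : V4) :
    (thG R (gm J0 (y - y0) (y - y0)) * (s / (gm J0 (y - y0) (y - y0) + s) ^ 2) / 4 -
      groC N L T) * ‖v‖ ^ 2 ≤ ev (d1 (etaG J0 y0 R s) y) v (app J v) := by
  rw [d1_etaG' hJ0 y0 hs y, ev_add, ev_add, ev_smul, ev_smul, ev_smul]
  have t1 := gro_t1 hJ0 hJ0N hN hL hs (y - y0) hJL (thG_nonneg R (gm J0 (y - y0) (y - y0)))
    (thG_le_one R _) v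
  have t2 := gro_t2 hJ0 hJ0N hN hL hs (y - y0) hJL (thG_nonneg R (gm J0 (y - y0) (y - y0)))
    (thG_le_one R _) v
  have t3 := gro_t3 hJ0 hJ0N hJN hN hs (y - y0) hT hTb v
  have e : ∀ a b c d : ℝ, (a - (b + c + d)) * ‖v‖ ^ 2 =
      (a - b) * ‖v‖ ^ 2 + ((-c) * ‖v‖ ^ 2 + (-d) * ‖v‖ ^ 2) := fun a b c d => by ring
  unfold groC
  rw [e]
  exact add_le_add t1 (add_le_add t2 t3)

/-- comparison with the standard profile -/
theorem profile_lower {J0 : M4} (hJ0 : IsCx J0) {N R s : ℝ} (hR : 0 < R) (hN : 1 ≤ N)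
    (hJ0N : ‖J0‖ ≤ N) (hs : 0 < s) (w : V4) :
    (48 * N ^ 2)⁻¹ ^ 2 * (s / (‖w‖ ^ 2 + s) ^ 2) - (48 * N ^ 2)⁻¹ * (2 / R ^ 2) ≤
      thG R (gm J0 w w) * (s / (gm J0 w w + s) ^ 2) := by
  set q := gm J0 w w with hq
  have hq0 : 0 ≤ q := gm_self_nonneg hJ0 _
  set A := 48 * N ^ 2 with hA
  have hA1 : 1 ≤ A := by linarith only [mul_nonneg (sub_nonneg.2 hN) (sub_nonneg.2 hN), hN]
  have hA0 : 0 < A := by linarith
  have hqA : q ≤ A * ‖w‖ ^ 2 := by
    have h1 := (le_abs_self _).trans (abs_gm_le J0 w w)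
    refine h1.trans ?_
    calc 48 * ‖J0‖ ^ 2 * ‖w‖ * ‖w‖ ≤ 48 * N ^ 2 * ‖w‖ * ‖w‖ := by gcongr
      _ = _ := by rw [hA]; ring
  have hw0 : 0 ≤ ‖w‖ ^ 2 := by positivity
  rcases le_or_gt q (R ^ 2 / 5) with h | h
  · rw [thG_one hR h, one_mul]
    have h1 : q + s ≤ A * (‖w‖ ^ 2 + s) := by linarith only [mul_nonneg (le_of_lt (sub_pos.2 hs)) (sub_nonneg.2 hA1), hqA]
    have h2 : A⁻¹ ^ 2 * (s / (‖w‖ ^ 2 + s) ^ 2) = s / (A * (‖w‖ ^ 2 + s)) ^ 2 := by
      field_simp
    have h3 : s / (A * (‖w‖ ^ 2 + s)) ^ 2 ≤ s / (q + s) ^ 2 := by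
      apply div_le_div_of_nonneg_left hs.le (by positivity)
      exact pow_le_pow_left₀ (by positivity) h1 2
    have h4 : 0 ≤ A⁻¹ * (2 / R ^ 2) := by positivity
    rw [h2]
    linarith only [h3, h4]
  · have h1 : R ^ 2 / (5 * A) ≤ ‖w‖ ^ 2 := by
      rw [div_le_iff₀ (by positivity)]
      linarith only [hqA, h]
    have hw1 : 0 < ‖w‖ ^ 2 := lt_of_lt_of_le (by positivity) h1
    have h2 : s / (‖w‖ ^ 2 + s) ^ 2 ≤ 1 / (4 * ‖w‖ ^ 2) := by
      rw [div_le_div_iff₀ (by positivity) (by positivity)]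
      linarith only [sq_nonneg (‖w‖ ^ 2 - s)]
    have h3 : 1 / (4 * ‖w‖ ^ 2) ≤ 5 * A / (4 * R ^ 2) := by
      rw [div_le_div_iff₀ (by positivity) (by positivity)]
      rw [div_le_iff₀ (by positivity)] at h1
      linarith only [hqA, h]
    have h4 : A⁻¹ ^ 2 * (s / (‖w‖ ^ 2 + s) ^ 2) ≤ A⁻¹ ^ 2 * (5 * A / (4 * R ^ 2)) :=
      mul_le_mul_of_nonneg_left (h2.trans h3) (by positivity)
    have h5 : A⁻¹ ^ 2 * (5 * A / (4 * R ^ 2)) ≤ A⁻¹ * (2 / R ^ 2) := by
      have : A⁻¹ ^ 2 * (5 * A / (4 * R ^ 2)) = A⁻¹ * ((5 / 4) / R ^ 2) := by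
        field_simp
      rw [this]
      gcongr
      norm_num
    have h6 : 0 ≤ thG R q * (s / (q + s) ^ 2) :=
      mul_nonneg (thG_nonneg _ _) (by positivity)
    linarith only [h4, h5, h6]

end Vale.Agent.P204K.T4
end

section

/-! The growth test form: derivative bounds and the final statement. -/

open scoped BigOperators ContDiff
open MeasureTheory

namespace Vale.Agent.P204K.T4

/-- base points and scales -/
abbrev GI (K : Set V4) := {p : V4 × ℝ // p.1 ∈ K ∧ 0 < p.2 ∧ p.2 ≤ 1}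

def GB (K : Set V4) (R : ℝ) (p : GI K) : Set V4 := Metric.closedBall p.1.1 R

noncomputable def Gr (K : Set V4) (p : GI K) (y : V4) : ℝ := ‖y - p.1.1‖ + p.1.2

theorem G_wt (K : Set V4) {R : ℝ} (hR : 0 < R) : Wt (GB K R) (Gr K) (R + 1) := by
  refine ⟨fun p y _ => ?_, fun p y hy => ?_, by linarith⟩
  · have := p.2.2.1
    have h2 := norm_nonneg (y - p.1.1)
    unfold Gr
    linarith only [this, h2]
  · have h1 := p.2.2.2
    have h2 : ‖y - p.1.1‖ ≤ R := by
      rw [← dist_eq_norm]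
      exact Metric.mem_closedBall.1 hy
    unfold Gr
    linarith

section

variable {ι : Type*} {B : ι → Set V4} {ρ : ι → V4 → ℝ} {M : ℝ}

/-- a fixed smooth function is a symbol of order zero -/
theorem Sy.fixed (hw : Wt B ρ M) {K1 : Set V4} (hK1 : IsCompact K1) (hB : ∀ i, B i ⊆ K1)
    {U : V4 → ℝ} (hU : ContDiff ℝ ∞ U) : Sy B ρ 0 (fun _ => U) := by
  refine ⟨fun _ => hU, fun m => ?_⟩
  induction m generalizing U with
  | zero =>
    obtain ⟨C, hC⟩ := hK1.exists_bound_of_continuousOn hU.continuous.continuousOn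
    refine ⟨max C 0, le_max_right _ _, fun i y hy => ?_⟩
    rw [zpow_zero, mul_one]
    exact (hC y (hB i hy)).trans (le_max_left _ _)
  | succ m ih =>
    obtain ⟨C, hC⟩ := hK1.exists_bound_of_continuousOn hU.continuous.continuousOn
    have h1 : ∀ j : Fin 4, ∃ D : ℝ, 0 ≤ D ∧ ∀ i, DB (B i) (ρ i) m 0 D
        (Vale.Agent.P204K.T4.pd j U) :=
      fun j => ih (contDiff_pd hU j)
    choose D hD h2 using h1
    have hM := zero_le_one.trans hw.one_le
    have hsum : 0 ≤ ∑ j, D j * M ^ 1 := Finset.sum_nonneg fun j _ => by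
      have := hD j
      positivity
    refine ⟨max C 0 + ∑ j, D j * M ^ 1, add_nonneg (le_max_right _ _) hsum, fun i =>
      ⟨fun y hy => ?_, fun j => ?_⟩⟩
    · rw [zpow_zero, mul_one]
      exact ((hC y (hB i hy)).trans (le_max_left _ _)).trans (le_add_of_nonneg_right hsum)
    · have h3 := DB.weaken (hw.pos i) (hw.le i) hw.one_le (hD j) 1 (h2 j i)
      refine DB.mono (hw.pos i) ?_ h3
      have h4 : D j * M ^ 1 ≤ ∑ j, D j * M ^ 1 :=
        Finset.single_le_sum (f := fun j => D j * M ^ 1)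
          (fun j _ => by have := hD j; positivity) (Finset.mem_univ j)
      exact h4.trans (le_add_of_nonneg_left (le_max_right _ _))

end

theorem ent_d1 (a : V4 → V4) (x : V4) (i j : Fin 4) :
    ent (d1 a x) i j = pd i (fun y => a y j) x - pd j (fun y => a y i) x := by
  fin_cases i <;> fin_cases j <;>
    simp only [ent, d1, ofEnt, Fin.isValue, Matrix.cons_val_zero, Matrix.cons_val_one, Matrix.cons_val, neg_sub, Fin.zero_eta, Matrix.cons_val', Matrix.cons_val_fin_one, sub_self, Fin.mk_one, Fin.reduceFinMk]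

theorem abs_ent_le (A : L2) (i j : Fin 4) : |ent A i j| ≤ ‖A‖ := by
  have hA : ∀ k, |A k| ≤ ‖A‖ := fun k => norm_le_pi_norm A k
  have h0 := norm_nonneg A
  fin_cases i <;> fin_cases j <;> simp only [ent, Fin.isValue, Fin.zero_eta, Matrix.cons_val', Matrix.cons_val_zero, Matrix.cons_val_fin_one, abs_zero, h0, Fin.mk_one, Matrix.cons_val_one, hA, Fin.reduceFinMk, Matrix.cons_val, abs_neg]

section Main

variable {J : V4 → M4} {K : Set V4} {R N : ℝ}

theorem Sy_w (hR : 0 < R) (i : Fin 4) : Sy (GB K R) (Gr K) 1 (fun p y => y i - p.1.1 i) := by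
  have hw := G_wt K hR
  refine Sy.of_pd hw (fun p => by fun_prop) ⟨1, zero_le_one, fun p y _ => ?_⟩ (fun j => ?_)
  · rw [zpow_one, one_mul]
    have h1 : |y i - p.1.1 i| ≤ ‖y - p.1.1‖ := norm_le_pi_norm (y - p.1.1) i
    have h2 := p.2.2.1
    unfold Gr
    linarith
  · have h1 := Sy.const (ι := GI K) (c := fun _ => if j = i then (1 : ℝ) else 0) (K := 1) hw
      (fun _ => by split_ifs <;> simp)
    refine h1.congr (fun p y => ?_)
    have h2 : pd j (fun y : V4 => y i - p.1.1 i) y = pd j (fun y => y i) y - 0 := by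
      rw [pd_sub (u := fun y : V4 => y i) (v := fun _ => p.1.1 i) (by fun_prop) (by fun_prop),
        pd_const]
    rw [h2, pd_coord, sub_zero]

theorem Sy_Jw (hR : 0 < R) (hN : ∀ y ∈ K, ‖J y‖ ≤ N) (i : Fin 4) :
    Sy (GB K R) (Gr K) 1 (fun p y => app (J p.1.1) (y - p.1.1) i) := by
  have hw := G_wt K hR
  have h1 : Sy (GB K R) (Gr K) 1 (fun p y => ∑ j, J p.1.1 i j * (y j - p.1.1 j)) := by
    refine Sy.sum hw Finset.univ (fun j _ => Sy.const_mul (K := N) hw (fun p => ?_) (Sy_w hR j))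
    exact ((norm_le_pi_norm (J p.1.1 i) j).trans (norm_le_pi_norm (J p.1.1) i)).trans
      (hN _ p.2.1)
  exact h1

theorem Sy_q (hR : 0 < R) (hcx : ∀ y, IsCx (J y)) (hN : ∀ y ∈ K, ‖J y‖ ≤ N) :
    Sy (GB K R) (Gr K) 2 (fun p y => gm (J p.1.1) (y - p.1.1) (y - p.1.1)) := by
  have hw := G_wt K hR
  have h1 : ∀ i, Sy (GB K R) (Gr K) 2 (fun p y => app (J p.1.1) (y - p.1.1) i *
      app (J p.1.1) (y - p.1.1) i) := fun i => (Sy_Jw hR hN i).mul hw (Sy_Jw hR hN i)
  have h2 : ∀ i, Sy (GB K R) (Gr K) 2 (fun p y => (y i - p.1.1 i) * (y i - p.1.1 i)) :=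
    fun i => (Sy_w hR i).mul hw (Sy_w hR i)
  have h3 := Sy.const_mul (K := 1) (c := fun _ : GI K => (1 / 2 : ℝ)) hw
    (fun _ => by norm_num) ((Sy.sum hw Finset.univ fun i _ => h1 i).add hw
      (Sy.sum hw Finset.univ fun i _ => h2 i))
  refine h3.congr (fun p y => ?_)
  rw [gm_eq (hcx _)]
  unfold dp
  simp only [Pi.sub_apply]
  ring

theorem Sy_qs (hR : 0 < R) (hcx : ∀ y, IsCx (J y)) (hN : ∀ y ∈ K, ‖J y‖ ≤ N) :
    Sy (GB K R) (Gr K) 2
      (fun p y => gm (J p.1.1) (y - p.1.1) (y - p.1.1) + p.1.2 ^ 2) := by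
  have hw := G_wt K hR
  refine (Sy_q hR hcx hN).add hw ?_
  refine Sy.of_pd hw (fun p => contDiff_const) ⟨1, zero_le_one, fun p y _ => ?_⟩ (fun j => ?_)
  · have h1 : (0 : ℝ) ≤ ‖y - p.1.1‖ := norm_nonneg _
    have h2 := p.2.2.1
    rw [one_mul, abs_of_nonneg (by positivity)]
    unfold Gr
    have e : (‖y - p.1.1‖ + p.1.2) ^ (2 : ℤ) = (‖y - p.1.1‖ + p.1.2) ^ 2 := by norm_cast
    rw [e]
    exact pow_le_pow_left₀ h2.le (by linarith) 2
  · refine (Sy.zero hw).congr (fun p y => ?_)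
    exact pd_const _

theorem qs_pos (hcx : ∀ y, IsCx (J y)) (p : GI K) (y : V4) :
    0 < gm (J p.1.1) (y - p.1.1) (y - p.1.1) + p.1.2 ^ 2 := by
  have h1 := gm_self_nonneg (hcx p.1.1) (y - p.1.1)
  have h2 := p.2.2.1
  positivity

theorem Sy_qs_inv (hR : 0 < R) (hcx : ∀ y, IsCx (J y)) (hN : ∀ y ∈ K, ‖J y‖ ≤ N) :
    Sy (GB K R) (Gr K) (-2)
      (fun p y => (gm (J p.1.1) (y - p.1.1) (y - p.1.1) + p.1.2 ^ 2)⁻¹) := by
  have hw := G_wt K hR
  refine Sy.inv hw (Sy_qs hR hcx hN) (qs_pos hcx) (c := 1 / 4) (by norm_num) (fun p y _ => ?_)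
  have h1 := gm_self_ge (hcx p.1.1) (y - p.1.1)
  have h2 := p.2.2.1
  have e : Gr K p y ^ (2 : ℤ) = (‖y - p.1.1‖ + p.1.2) ^ 2 := by
    unfold Gr
    norm_cast
  rw [e]
  linarith only [h1, sq_nonneg (‖y - p.1.1‖ - p.1.2), sq_nonneg p.1.2]

theorem q_le (hR : 0 < R) (hN : ∀ y ∈ K, ‖J y‖ ≤ N) (p : GI K) (y : V4)
    (hy : y ∈ GB K R p) : |gm (J p.1.1) (y - p.1.1) (y - p.1.1)| ≤ 48 * N ^ 2 * R * R := by
  refine (abs_gm_le _ _ _).trans ?_
  have h1 : ‖y - p.1.1‖ ≤ R := by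
    rw [← dist_eq_norm]
    exact Metric.mem_closedBall.1 hy
  have h2 := hN _ p.2.1
  gcongr

theorem Sy_th (hR : 0 < R) (hcx : ∀ y, IsCx (J y)) (hN : ∀ y ∈ K, ‖J y‖ ≤ N) :
    Sy (GB K R) (Gr K) 0
      (fun p y => thG R (gm (J p.1.1) (y - p.1.1) (y - p.1.1))) := by
  have hw := G_wt K hR
  exact Sy.comp hw (thG_smooth R) ((Sy_q hR hcx hN).weaken hw (by norm_num))
    (fun p y hy => q_le hR hN p y hy)

theorem Sy_lam (hR : 0 < R) (hN : ∀ y ∈ K, ‖J y‖ ≤ N) (j : Fin 4) :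
    Sy (GB K R) (Gr K) 1 (fun p y => lamG (J p.1.1) (y - p.1.1) j) := by
  have hw := G_wt K hR
  have h1 := Sy.sum hw Finset.univ (fun i _ => Sy.const_mul (K := N)
    (c := fun p : GI K => (1 / 2) * ent (Fm (J p.1.1)) i j) hw (fun p => by
      rw [abs_mul]
      have h1 := (abs_ent_le (Fm (J p.1.1)) i j).trans ((norm_Fm_le _).trans (hN _ p.2.1))
      have h2 := abs_nonneg (ent (Fm (J p.1.1)) i j)
      rw [abs_of_pos (by norm_num : (0 : ℝ) < 1 / 2)]
      linarith) (Sy_w (K := K) hR i))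
  refine h1.congr (fun p y => ?_)
  unfold lamG ev eb
  simp only [Pi.single_apply, mul_ite, mul_one, mul_zero, Finset.sum_ite_eq', Finset.mem_univ,
    if_true, Pi.sub_apply, Finset.mul_sum]
  exact Finset.sum_congr rfl (fun i _ => by ring)

theorem Sy_eta (hR : 0 < R) (hcx : ∀ y, IsCx (J y)) (hN : ∀ y ∈ K, ‖J y‖ ≤ N) (j : Fin 4) :
    Sy (GB K R) (Gr K) (-1) (fun p y => etaG (J p.1.1) p.1.1 R (p.1.2 ^ 2) y j) := by
  have hw := G_wt K hR
  have h1 := ((Sy_th hR hcx hN).mul hw (Sy_qs_inv hR hcx hN)).mul hw (Sy_lam hR hN j)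
  exact h1

theorem Sy_entd1 (hR : 0 < R) (hcx : ∀ y, IsCx (J y)) (hN : ∀ y ∈ K, ‖J y‖ ≤ N) (i j : Fin 4) :
    Sy (GB K R) (Gr K) (-2)
      (fun p y => ent (d1 (etaG (J p.1.1) p.1.1 R (p.1.2 ^ 2)) y) i j) := by
  have hw := G_wt K hR
  have h1 := ((Sy_eta hR hcx hN j).pd i).sub hw ((Sy_eta hR hcx hN i).pd j)
  exact h1.congr (fun p y => ent_d1 _ _ _ _)

theorem Sy_J (hR : 0 < R) (hJ : ContDiff ℝ ∞ J) (hK : IsCompact K) (i j : Fin 4) :
    Sy (GB K R) (Gr K) 0 (fun _ y => J y i j) := by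
  have hw := G_wt K hR
  refine Sy.fixed hw (hK.cthickening (r := R))
    (fun p => Metric.closedBall_subset_cthickening p.2.1 R) ?_
  exact contDiff_pi.1 (contDiff_pi.1 hJ i) j

theorem lip_J (hJ : ContDiff ℝ ∞ J) (hK : IsCompact K) (R : ℝ) :
    ∃ L : ℝ, 0 ≤ L ∧ ∀ y0 ∈ K, ∀ y, ‖y - y0‖ ≤ R → ‖J y - J y0‖ ≤ L * ‖y - y0‖ := by
  obtain ⟨L, hL⟩ := (hK.cthickening (r := R)).exists_bound_of_continuousOn
    (hJ.continuous_fderiv (by norm_num)).continuousOn
  refine ⟨max L 0, le_max_right _ _, fun y0 hy0 y hy => ?_⟩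
  have hR : 0 ≤ R := (norm_nonneg _).trans hy
  have h1 : ‖J y - J y0‖ ≤ L * ‖y - y0‖ := by
    refine Convex.norm_image_sub_le_of_norm_fderiv_le (𝕜 := ℝ)
      (fun x _ => (hJ.differentiable (by norm_num)).differentiableAt)
      (fun x hx => hL x (Metric.closedBall_subset_cthickening hy0 R hx))
      (convex_closedBall y0 R) (Metric.mem_closedBall_self hR) ?_
    rw [Metric.mem_closedBall, dist_eq_norm]
    exact hy
  exact h1.trans (mul_le_mul_of_nonneg_right (le_max_left _ _) (norm_nonneg _))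

theorem Sy_dJ (hR : 0 < R) (hJ : ContDiff ℝ ∞ J) (hK : IsCompact K) (i j : Fin 4) :
    Sy (GB K R) (Gr K) 1 (fun p y => J y i j - J p.1.1 i j) := by
  have hw := G_wt K hR
  have hJij : ContDiff ℝ ∞ (fun y => J y i j) := contDiff_pi.1 (contDiff_pi.1 hJ i) j
  obtain ⟨L, hL0, hL⟩ := lip_J hJ hK R
  refine Sy.of_pd hw (fun p => hJij.sub contDiff_const) ⟨L, hL0, fun p y hy => ?_⟩ (fun k => ?_)
  · rw [zpow_one]
    have h1 : ‖y - p.1.1‖ ≤ R := by
      rw [← dist_eq_norm]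
      exact Metric.mem_closedBall.1 hy
    have h2 := hL p.1.1 p.2.1 y h1
    have h3 : |J y i j - J p.1.1 i j| ≤ ‖J y - J p.1.1‖ :=
      (norm_le_pi_norm ((J y - J p.1.1) i) j).trans (norm_le_pi_norm (J y - J p.1.1) i)
    refine h3.trans (h2.trans (mul_le_mul_of_nonneg_left ?_ hL0))
    have := p.2.2.1
    unfold Gr
    linarith
  · have h5 : Sy (GB K R) (Gr K) 0 (fun _ => pd k (fun y => J y i j)) :=
      Sy.fixed hw (hK.cthickening (r := R))
        (fun p => Metric.closedBall_subset_cthickening p.2.1 R) (contDiff_pd hJij k)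
    refine h5.congr (fun p y => ?_)
    rw [pd_sub (u := fun y => J y i j) (v := fun _ => J p.1.1 i j) (CD.diff hJij)
      (CD.diff contDiff_const), pd_const, sub_zero]

theorem Sy_J0 (hR : 0 < R) (hN : ∀ y ∈ K, ‖J y‖ ≤ N) (i j : Fin 4) :
    Sy (GB K R) (Gr K) 0 (fun p _ => J p.1.1 i j) :=
  Sy.const (K := N) (G_wt K hR) (fun p =>
    ((norm_le_pi_norm (J p.1.1 i) j).trans (norm_le_pi_norm (J p.1.1) i)).trans (hN _ p.2.1))

/-- The anti-invariant part of the growth test form is a symbol of order `-1`. -/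
theorem Sy_pM (hR : 0 < R) (hJ : ContDiff ℝ ∞ J) (hK : IsCompact K) (hcx : ∀ y, IsCx (J y))
    (k : Fin 6) : Sy (GB K R) (Gr K) (-1)
      (fun p y => pM (J y) (d1 (etaG (J p.1.1) p.1.1 R (p.1.2 ^ 2)) y) k) := by
  have hw := G_wt K hR
  obtain ⟨N, hN⟩ := hK.exists_bound_of_continuousOn hJ.continuous.continuousOn
  have key : ∀ i j : Fin 4, Sy (GB K R) (Gr K) (-1) (fun p y => (-(1 / 2) : ℝ) *
      ∑ k, ∑ l, ent (d1 (etaG (J p.1.1) p.1.1 R (p.1.2 ^ 2)) y) k l *
        ((J y k i - J p.1.1 k i) * J y l j + J p.1.1 k i * (J y l j - J p.1.1 l j))) := by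
    intro i j
    refine Sy.const_mul (K := 1) (c := fun _ : GI K => (-(1 / 2) : ℝ)) hw
      (fun _ => by rw [abs_neg, abs_of_pos] <;> norm_num)
      (Sy.sum hw Finset.univ fun k _ => Sy.sum hw Finset.univ fun l _ => ?_)
    have h1 : Sy (GB K R) (Gr K) 1 (fun p y =>
        (J y k i - J p.1.1 k i) * J y l j + J p.1.1 k i * (J y l j - J p.1.1 l j)) := by
      have a1 := (Sy_dJ (K := K) hR hJ hK k i).mul hw (Sy_J (K := K) hR hJ hK l j)
      have a2 := (Sy_J0 (K := K) hR hN k i).mul hw (Sy_dJ (K := K) hR hJ hK l j)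
      rw [add_zero] at a1
      rw [zero_add] at a2
      exact a1.add hw a2
    exact (Sy_entd1 hR hcx hN k l).mul hw h1
  have hfin : ∀ (p : GI K) (y : V4) (i j : Fin 4), (-(1 / 2) : ℝ) *
      ∑ k, ∑ l, ent (d1 (etaG (J p.1.1) p.1.1 R (p.1.2 ^ 2)) y) k l *
        ((J y k i - J p.1.1 k i) * J y l j + J p.1.1 k i * (J y l j - J p.1.1 l j)) =
      (1 / 2) * ((∑ k, ∑ l, ent (d1 (etaG (J p.1.1) p.1.1 R (p.1.2 ^ 2)) y) k l *
        J p.1.1 k i * J p.1.1 l j) -
        ∑ k, ∑ l, ent (d1 (etaG (J p.1.1) p.1.1 R (p.1.2 ^ 2)) y) k l * J y k i * J y l j) := by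
    intro p y i j
    rw [← Finset.sum_sub_distrib, Finset.mul_sum, Finset.mul_sum]
    refine Finset.sum_congr rfl (fun k _ => ?_)
    rw [← Finset.sum_sub_distrib, Finset.mul_sum, Finset.mul_sum]
    refine Finset.sum_congr rfl (fun l _ => ?_)
    ring
  have hp : ∀ (p : GI K) (y : V4), pM (J y) (d1 (etaG (J p.1.1) p.1.1 R (p.1.2 ^ 2)) y) =
      (1 / 2 : ℝ) • (pull (J p.1.1) (d1 (etaG (J p.1.1) p.1.1 R (p.1.2 ^ 2)) y) -
        pull (J y) (d1 (etaG (J p.1.1) p.1.1 R (p.1.2 ^ 2)) y)) := by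
    intro p y
    have hs : 0 < p.1.2 ^ 2 := pow_pos p.2.2.1 2
    rw [pull_d1_etaG (hcx p.1.1) p.1.1 hs y]
    rfl
  fin_cases k
  · exact (key 0 1).congr (fun p y => by rw [hp, hfin]; rfl)
  · exact (key 0 2).congr (fun p y => by rw [hp, hfin]; rfl)
  · exact (key 0 3).congr (fun p y => by rw [hp, hfin]; rfl)
  · exact (key 1 2).congr (fun p y => by rw [hp, hfin]; rfl)
  · exact (key 1 3).congr (fun p y => by rw [hp, hfin]; rfl)
  · exact (key 2 3).congr (fun p y => by rw [hp, hfin]; rfl)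

end Main

theorem deriv_thG_bdd {R : ℝ} (hR : 0 < R) : ∃ T : ℝ, 0 ≤ T ∧ ∀ τ, 0 ≤ τ →
    |deriv (thG R) τ| ≤ T := by
  have hc : Continuous (deriv (thG R)) :=
    ((contDiff_infty_iff_deriv.1 (thG_smooth R)).2).continuous
  obtain ⟨T, hT⟩ := (isCompact_Icc (a := (0 : ℝ)) (b := R ^ 2)).exists_bound_of_continuousOn
    hc.continuousOn
  refine ⟨max T 0, le_max_right _ _, fun τ hτ => ?_⟩
  rcases le_or_gt τ (R ^ 2) with h | h
  · exact (hT τ ⟨hτ, h⟩).trans (le_max_left _ _)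
  · rw [deriv_thG_zero hR (by linarith only [pow_pos hR 2, h]), abs_zero]
    exact le_max_right _ _

theorem ev_Fm_le {J : M4} {N : ℝ} (hJN : ‖J‖ ≤ N) (v : V4) :
    ev (Fm J) v (app J v) ≤ 48 * N ^ 2 * ‖v‖ ^ 2 := by
  have h1 := (le_abs_self _).trans (abs_gm_le J v v)
  refine h1.trans ?_
  calc 48 * ‖J‖ ^ 2 * ‖v‖ * ‖v‖ ≤ 48 * N ^ 2 * ‖v‖ * ‖v‖ := by gcongr
    _ = _ := by ring

/-- **Growth test form** (blueprint section 4, module G8). -/
theorem growth_form {J : V4 → M4} (hJ : ContDiff ℝ ∞ J) (hcx : ∀ y, IsCx (J y)) {K : Set V4}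
    (hK : IsCompact K) {R : ℝ} (hR : 0 < R) :
    ∃ c : ℝ, 0 < c ∧ ∃ C : ℝ, 0 ≤ C ∧ ∃ Cm : ℕ → ℝ, ∀ y0 ∈ K, ∀ δ : ℝ, 0 < δ → δ ≤ 1 →
      ∃ η : V4 → V4, ContDiff ℝ ∞ η ∧ (∀ y, R ≤ ‖y - y0‖ → η y = 0) ∧
        (∀ y v, (c * (δ ^ 2 / (‖y - y0‖ ^ 2 + δ ^ 2) ^ 2) - C) * ev (Fm (J y)) v (app (J y) v) ≤
          ev (d1 η y) v (app (J y) v)) ∧
        ∀ (m : ℕ) (k : Fin 6), DB (Metric.closedBall y0 R) (fun y => ‖y - y0‖ + δ) m (-1) (Cm m)
          (fun y => pM (J y) (d1 η y) k) := by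
  obtain ⟨N', hN'⟩ := (hK.cthickening (r := R)).exists_bound_of_continuousOn
    hJ.continuous.continuousOn
  set N := max N' 1 with hNdef
  have hN1 : 1 ≤ N := le_max_right _ _
  have hN0 : 0 ≤ N := zero_le_one.trans hN1
  have hN : ∀ y ∈ Metric.cthickening R K, ‖J y‖ ≤ N := fun y hy => (hN' y hy).trans (le_max_left _ _)
  have hNK : ∀ y ∈ K, ‖J y‖ ≤ N := fun y hy =>
    hN y (Metric.self_subset_cthickening K hy)
  obtain ⟨L, hL0, hL⟩ := lip_J hJ hK R
  obtain ⟨T, hT0, hT⟩ := deriv_thG_bdd hR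
  have hbd : ∀ m : ℕ, ∃ C : ℝ, 0 ≤ C ∧ ∀ (k : Fin 6) (p : GI K), DB (GB K R p) (Gr K p) m (-1) C
      (fun y => pM (J y) (d1 (etaG (J p.1.1) p.1.1 R (p.1.2 ^ 2)) y) k) := by
    intro m
    have h1 : ∀ k : Fin 6, ∃ C : ℝ, 0 ≤ C ∧ ∀ p : GI K, DB (GB K R p) (Gr K p) m (-1) C
      (fun y => pM (J y) (d1 (etaG (J p.1.1) p.1.1 R (p.1.2 ^ 2)) y) k) :=
      fun k => (Sy_pM hR hJ hK hcx k).bound m
    choose C hC h2 using h1
    refine ⟨∑ k, C k, Finset.sum_nonneg fun k _ => hC k, fun k p => ?_⟩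
    exact DB.mono ((G_wt K hR).pos p)
      (Finset.single_le_sum (fun k _ => hC k) (Finset.mem_univ k)) (h2 k p)
  choose Cm hCm0 hCm using hbd
  set A := 48 * N ^ 2 with hA
  have hA0 : 0 < A := by positivity
  set C1 := A⁻¹ * (2 / R ^ 2) / 4 + groC N L T with hC1
  have hgro : 0 ≤ groC N L T := by unfold groC; (clear * - hT0; positivity)
  have hC1' : 0 ≤ C1 := by positivity
  have hc : 0 < A⁻¹ ^ 3 / 4 := by positivity
  refine ⟨A⁻¹ ^ 3 / 4, hc, 2 * C1 + A⁻¹ ^ 3 / 4 / R ^ 4, by positivity, Cm,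
    fun y0 hy0 δ hδ hδ1 => ?_⟩
  have hs : 0 < δ ^ 2 := by positivity
  refine ⟨etaG (J y0) y0 R (δ ^ 2), etaG_smooth (hcx y0) y0 hs,
    fun y hy => etaG_zero (hcx y0) y0 hR hy, fun y v => ?_, fun m k => ?_⟩
  · have hF0 : 0 ≤ ev (Fm (J y)) v (app (J y) v) := gm_self_nonneg (hcx y) v
    have hF1 : ‖v‖ ^ 2 / 2 ≤ ev (Fm (J y)) v (app (J y) v) := gm_self_ge (hcx y) v
    rcases le_or_gt R ‖y - y0‖ with h | h
    · rw [d1_etaG_zero (hcx y0) y0 hR hs h]
      have e : ev (0 : L2) v (app (J y) v) = 0 := by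
        have := ev_smul 0 (0 : L2) v (app (J y) v)
        simpa using this
      rw [e]
      apply mul_nonpos_of_nonpos_of_nonneg _ hF0
      have h1 : δ ^ 2 / (‖y - y0‖ ^ 2 + δ ^ 2) ^ 2 ≤ 1 / R ^ 4 := by
        rw [div_le_div_iff₀ (by positivity) (by positivity)]
        have h2 : R ^ 2 ≤ ‖y - y0‖ ^ 2 := pow_le_pow_left₀ hR.le h 2
        have h3 : R ^ 4 ≤ (‖y - y0‖ ^ 2 + δ ^ 2) ^ 2 := by
          have h4 : R ^ 4 = (R ^ 2) ^ 2 := by ring
          rw [h4]
          exact pow_le_pow_left₀ (by positivity) (by linarith only [hs, h2]) 2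
        have h5 : δ ^ 2 ≤ 1 := pow_le_one₀ hδ.le hδ1
        have h6 : 0 ≤ R ^ 4 := by positivity
        linarith only [mul_nonneg (sq_nonneg (‖y - y0‖ ^ 2 + δ ^ 2 : ℝ)) (sub_nonneg.2 h5), mul_nonneg (sq_nonneg (δ : ℝ)) (sub_nonneg.2 h3)]
      have h2 : A⁻¹ ^ 3 / 4 * (δ ^ 2 / (‖y - y0‖ ^ 2 + δ ^ 2) ^ 2) ≤
          A⁻¹ ^ 3 / 4 * (1 / R ^ 4) := mul_le_mul_of_nonneg_left h1 hc.le
      have h3 : A⁻¹ ^ 3 / 4 * (1 / R ^ 4) = A⁻¹ ^ 3 / 4 / R ^ 4 := by ring
      rw [h3] at h2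
      linarith only [h2, hC1']
    · have hyb : y ∈ Metric.cthickening R K :=
        Metric.closedBall_subset_cthickening hy0 R (by
          rw [Metric.mem_closedBall, dist_eq_norm]; exact h.le)
      have hlow := growth_lower (J := J y) (hcx y0) hN0 hL0 (hNK y0 hy0) hT0 y0 y (R := R)
        (hT _ (gm_self_nonneg (hcx y0) _)) hs (hN y hyb) (hL y0 hy0 y h.le) v
      have hprof := profile_lower (hcx y0) hR hN1 (hNK y0 hy0) hs (y - y0)
      refine le_trans ?_ hlow
      set P := δ ^ 2 / (‖y - y0‖ ^ 2 + δ ^ 2) ^ 2 with hP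
      have hP0 : 0 ≤ P := by positivity
      have hFu : ev (Fm (J y)) v (app (J y) v) ≤ A * ‖v‖ ^ 2 := ev_Fm_le (hN y hyb) v
      have h1 : (A⁻¹ ^ 2 * P / 4 - C1) * ‖v‖ ^ 2 ≤
          (thG R (gm (J y0) (y - y0) (y - y0)) *
            (δ ^ 2 / (gm (J y0) (y - y0) (y - y0) + δ ^ 2) ^ 2) / 4 - groC N L T) * ‖v‖ ^ 2 := by
        apply mul_le_mul_of_nonneg_right _ (by positivity)
        rw [hC1]
        linarith only [hprof]
      refine le_trans ?_ h1
      have h2 : A⁻¹ ^ 3 / 4 * P * ev (Fm (J y)) v (app (J y) v) ≤ A⁻¹ ^ 2 * P / 4 * ‖v‖ ^ 2 := by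
        have h3 : A⁻¹ ^ 3 / 4 * P * ev (Fm (J y)) v (app (J y) v) ≤
            A⁻¹ ^ 3 / 4 * P * (A * ‖v‖ ^ 2) := mul_le_mul_of_nonneg_left hFu (by positivity)
        have h4 : A⁻¹ ^ 3 / 4 * P * (A * ‖v‖ ^ 2) = A⁻¹ ^ 2 * P / 4 * ‖v‖ ^ 2 := by
          field_simp
        linarith only [h3, h4]
      have h5 : C1 * ‖v‖ ^ 2 ≤ 2 * C1 * ev (Fm (J y)) v (app (J y) v) := by nlinarith only [hC1', hF1]
      have h6 : 0 ≤ A⁻¹ ^ 3 / 4 / R ^ 4 * ev (Fm (J y)) v (app (J y) v) := by (clear * - hR hF0; positivity)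
      linarith only [h2, h5, h6]
  · exact hCm m k ⟨(y0, δ), hy0, hδ, hδ1⟩

/-- Version against positive densities. -/
theorem growth_Q {J : M4} (hcx : IsCx J) (hpos : Pos J) {B D : L2} {κ : ℝ}
    (h : ∀ v, κ * ev (Fm J) v (app J v) ≤ ev B v (app J v)) (hD : Cone J D) :
    κ * Q D (Fm J) ≤ Q D B := by
  have h1 : Cone J (pP J B - κ • Fm J) := by
    refine ⟨by rw [pull_sub, pull_smul, pull_pP hcx, pull_Fm hcx], fun v => ?_⟩
    have h2 : ev (pP J B) v (app J v) = ev B v (app J v) := by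
      unfold pP
      rw [ev_smul, ev_add, ev_pull, hcx, ev_neg_right, ev_antisymm B (app J v) v]
      ring
    rw [ev_sub, ev_smul, h2]
    linarith [h v]
  have h3 := Q_cone_nonneg hcx hpos hD h1
  rw [Q_sub_right, Q_smul_right, Q_inv_pP hcx hpos hD.1] at h3
  linarith

end Vale.Agent.P204K.T4
end
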