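import Vale.Agent.P204.KC.K8

/-!
# P204: the main theorem on the concrete structure, for Kähler currents

`R = F + P` with `P` a positive current; if `R` is closed then there is a closed positive form.
-/

set_option linter.all false

open MeasureTheory Set Filter Topology
open scoped ContDiff InnerProductSpace

namespace Vale.Agent.P204K.GX
open Vale.Agent.P204K.T4 _root_.P204K.GX

theorem kc_core {X : Type} [MetricSpace X] [CompactSpace X] [MeasurableSpace X] [BorelSpace X]
    [Nonempty X] (M : CM X)
    (hKC : ∃ (p : Measure X) (E : X → L2), FnSys.Cur p E ∧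
      ∀ e ∈ M.Ex, ∫ x, Q F0 ((e : X → L2) x) ∂M.mu + FnSys.fn p E (e : X → L2) = 0) :
    ∃ w ∈ M.Om, (∀ a, Closed (M.cf a w)) ∧ ∀ x, PosDef J0 (w x) := by
  obtain ⟨Z, h1, h2, h3, h4, h5⟩ := sysStatementB X M
  exact M.main_of_sys' Z h1 h2 h3 h4 h5 hKC

end Vale.Agent.P204K.GX
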